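import Mathlib

set_option autoImplicit false

/-!
# Row 180 (S0270, Kurosh problem for division rings): noncommutative formal power series

`NC σ K` = functions on words `List σ → K` with the Cauchy (concatenation) product.
The letters commute with the coefficients, the letters do not commute with each other.
`f w` (coercion to function) is the coefficient of the word `w`.
-/

namespace Crest.Agent.R180

/-- Noncommutative formal power series over `K` in the letters `σ`. -/
@[ext] structure NC (σ K : Type) : Type where
  coeff : List σ → K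

namespace NC

variable {σ K : Type}

instance : CoeFun (NC σ K) (fun _ => List σ → K) := ⟨NC.coeff⟩

theorem ext' {f g : NC σ K} (h : ∀ w : List σ, f w = g w) : f = g := by
  cases f; cases g; congr; exact funext h

section Add
variable [AddCommGroup K]

instance : Zero (NC σ K) := ⟨⟨fun _ => 0⟩⟩
instance : Add (NC σ K) := ⟨fun f g => ⟨fun w => f w + g w⟩⟩
instance : Neg (NC σ K) := ⟨fun f => ⟨fun w => - f w⟩⟩
instance : Sub (NC σ K) := ⟨fun f g => ⟨fun w => f w - g w⟩⟩

@[simp] theorem zero_apply (w : List σ) : (0 : NC σ K) w = 0 := rfl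
@[simp] theorem add_apply (f g : NC σ K) (w : List σ) : (f + g) w = f w + g w := rfl
@[simp] theorem neg_apply (f : NC σ K) (w : List σ) : (-f) w = - f w := rfl
@[simp] theorem sub_apply (f g : NC σ K) (w : List σ) : (f - g) w = f w - g w := rfl

instance : AddCommGroup (NC σ K) where
  add_assoc a b c := ext' fun w => add_assoc _ _ _
  zero_add a := ext' fun w => zero_add _
  add_zero a := ext' fun w => add_zero _
  add_comm a b := ext' fun w => add_comm _ _
  neg_add_cancel a := ext' fun w => neg_add_cancel _
  sub_eq_add_neg a b := ext' fun w => sub_eq_add_neg _ _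
  nsmul := nsmulRec
  zsmul := zsmulRec

/-- coefficient of `w` as an additive map -/
def coeffHom (w : List σ) : NC σ K →+ K where
  toFun f := f w
  map_zero' := rfl
  map_add' _ _ := rfl

@[simp] theorem coeffHom_apply (w : List σ) (f : NC σ K) : coeffHom w f = f w := rfl

theorem sum_apply {ι : Type*} (s : Finset ι) (f : ι → NC σ K) (w : List σ) :
    (∑ i ∈ s, f i) w = ∑ i ∈ s, f i w := map_sum (coeffHom w) f s

/-- left derivative: `f = f [] + ∑ s, s · ld s f` -/
def ld (s : σ) (f : NC σ K) : NC σ K := ⟨fun w => f (s :: w)⟩

@[simp] theorem ld_apply (s : σ) (f : NC σ K) (w : List σ) : ld s f w = f (s :: w) := rfl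
@[simp] theorem ld_add (s : σ) (f g : NC σ K) : ld s (f + g) = ld s f + ld s g := rfl
@[simp] theorem ld_zero (s : σ) : ld s (0 : NC σ K) = 0 := rfl

end Add

section Ring
variable [Ring K]

/-- product, by recursion on the word -/
def mulAux : List σ → NC σ K → NC σ K → K
  | [], f, g => f [] * g []
  | (s :: w), f, g => mulAux w (ld s f) g + f [] * g (s :: w)

instance : Mul (NC σ K) := ⟨fun f g => ⟨fun w => mulAux w f g⟩⟩

/-- underlying function of the constant series -/
def constFun (k : K) : List σ → K
  | [] => k
  | (_ :: _) => 0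

/-- the constant series `k` -/
def const (k : K) : NC σ K := ⟨constFun k⟩

instance : One (NC σ K) := ⟨const 1⟩

/-- underlying function of a letter -/
def XFun [DecidableEq σ] (s : σ) : List σ → K
  | [] => 0
  | [r] => if r = s then 1 else 0
  | (_ :: _ :: _) => 0

/-- the letter `s` -/
def X [DecidableEq σ] (s : σ) : NC σ K := ⟨XFun s⟩

@[simp] theorem mul_nil (f g : NC σ K) : (f * g) [] = f [] * g [] := rfl
theorem mul_cons (f g : NC σ K) (s : σ) (w : List σ) :
    (f * g) (s :: w) = (ld s f * g) w + f [] * g (s :: w) := rfl
@[simp] theorem const_nil (k : K) : (const k : NC σ K) [] = k := rfl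
@[simp] theorem const_cons (k : K) (s : σ) (w : List σ) : (const k : NC σ K) (s :: w) = 0 := rfl
@[simp] theorem one_nil : (1 : NC σ K) [] = 1 := rfl
@[simp] theorem one_cons (s : σ) (w : List σ) : (1 : NC σ K) (s :: w) = 0 := rfl
@[simp] theorem ld_const (k : K) (s : σ) : ld s (const k : NC σ K) = 0 := rfl
@[simp] theorem ld_one (s : σ) : ld s (1 : NC σ K) = 0 := rfl
@[simp] theorem X_nil [DecidableEq σ] (s : σ) : (X s : NC σ K) [] = 0 := rfl
@[simp] theorem X_single [DecidableEq σ] (s r : σ) : (X s : NC σ K) [r] = if r = s then 1 else 0 := rfl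
@[simp] theorem X_cons_cons [DecidableEq σ] (s r r' : σ) (w : List σ) :
    (X s : NC σ K) (r :: r' :: w) = 0 := rfl

theorem zero_mul_apply (g : NC σ K) (w : List σ) : ((0 : NC σ K) * g) w = 0 := by
  induction w with
  | nil => simp
  | cons s w ih => rw [mul_cons, ld_zero, ih]; simp

theorem const_mul_apply (k : K) (g : NC σ K) (w : List σ) :
    ((const k : NC σ K) * g) w = k * g w := by
  cases w with
  | nil => simp
  | cons s w => rw [mul_cons, ld_const, zero_mul_apply, const_nil, zero_add]

theorem mul_zero_apply (f : NC σ K) (w : List σ) : (f * (0 : NC σ K)) w = 0 := by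
  induction w generalizing f with
  | nil => simp
  | cons s w ih => rw [mul_cons, ih]; simp

theorem add_mul_apply (f f' g : NC σ K) (w : List σ) : ((f + f') * g) w = (f * g) w + (f' * g) w := by
  induction w generalizing f f' with
  | nil => simp [add_mul]
  | cons s w ih =>
    rw [mul_cons, mul_cons, mul_cons, ld_add, ih, add_apply, add_mul]; abel

theorem mul_add_apply (f g g' : NC σ K) (w : List σ) : (f * (g + g')) w = (f * g) w + (f * g') w := by
  induction w generalizing f with
  | nil => simp [mul_add]
  | cons s w ih =>
    rw [mul_cons, mul_cons, mul_cons, ih, add_apply, mul_add]; abel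

theorem const_mul_mul_apply (k : K) (f g : NC σ K) (w : List σ) :
    (((const k : NC σ K) * f) * g) w = k * (f * g) w := by
  induction w generalizing f with
  | nil => simp [mul_assoc]
  | cons s w ih =>
    have : ld s ((const k : NC σ K) * f) = (const k : NC σ K) * ld s f := by
      apply ext'; intro v; rw [ld_apply, const_mul_apply, const_mul_apply, ld_apply]
    rw [mul_cons, this, ih, mul_cons, const_mul_apply, mul_add, mul_assoc]

theorem ld_mul (s : σ) (f g : NC σ K) :
    ld s (f * g) = ld s f * g + (const (f []) : NC σ K) * ld s g := by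
  apply ext'; intro w; rw [ld_apply, mul_cons, add_apply, const_mul_apply, ld_apply]

theorem mul_assoc_apply (f g h : NC σ K) (w : List σ) : ((f * g) * h) w = (f * (g * h)) w := by
  induction w generalizing f g with
  | nil => simp [mul_assoc]
  | cons s w ih =>
    rw [mul_cons, ld_mul, add_mul_apply, ih, const_mul_mul_apply, mul_cons, mul_cons, mul_nil,
      mul_add, mul_assoc]
    abel

theorem mul_one_apply (f : NC σ K) (w : List σ) : (f * 1) w = f w := by
  induction w generalizing f with
  | nil => simp
  | cons s w ih => rw [mul_cons, ih]; simp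

theorem one_mul_apply (f : NC σ K) (w : List σ) : ((1 : NC σ K) * f) w = f w := by
  cases w with
  | nil => simp
  | cons s w => rw [mul_cons, ld_one, zero_mul_apply]; simp

instance : Ring (NC σ K) :=
  { (inferInstance : AddCommGroup (NC σ K)) with
    mul := (· * ·)
    one := 1
    zero_mul := fun a => ext' fun w => zero_mul_apply a w
    mul_zero := fun a => ext' fun w => mul_zero_apply a w
    left_distrib := fun a b c => ext' fun w => mul_add_apply a b c w
    right_distrib := fun a b c => ext' fun w => add_mul_apply a b c w
    mul_assoc := fun a b c => ext' fun w => mul_assoc_apply a b c w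
    one_mul := fun a => ext' fun w => one_mul_apply a w
    mul_one := fun a => ext' fun w => mul_one_apply a w }

/-- constants as a ring hom -/
def C : K →+* NC σ K where
  toFun := const
  map_one' := rfl
  map_zero' := by apply ext'; intro w; cases w <;> rfl
  map_add' := fun a b => by apply ext'; intro w; cases w <;> simp
  map_mul' := fun a b => by
    apply ext'; intro w
    cases w with
    | nil => rfl
    | cons s w => rw [mul_cons, ld_const, zero_mul_apply]; simp

@[simp] theorem C_nil (k : K) : (C k : NC σ K) [] = k := rfl
@[simp] theorem C_cons (k : K) (s : σ) (w : List σ) : (C k : NC σ K) (s :: w) = 0 := rfl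
@[simp] theorem ld_C (k : K) (s : σ) : ld s (C k : NC σ K) = 0 := rfl
@[simp] theorem C_mul_apply (k : K) (g : NC σ K) (w : List σ) : ((C k : NC σ K) * g) w = k * g w :=
  const_mul_apply k g w
theorem ld_mul' (s : σ) (f g : NC σ K) :
    ld s (f * g) = ld s f * g + (C (f []) : NC σ K) * ld s g :=
  ld_mul s f g

@[simp] theorem mul_C_apply (f : NC σ K) (k : K) (w : List σ) :
    (f * (C k : NC σ K)) w = f w * k := by
  induction w generalizing f with
  | nil => simp
  | cons s w ih => rw [mul_cons, ih]; simp

/-- residue (constant term) as a ring hom -/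
def res : NC σ K →+* K where
  toFun f := f []
  map_one' := rfl
  map_zero' := rfl
  map_add' := fun _ _ => rfl
  map_mul' := fun _ _ => rfl

@[simp] theorem res_apply (f : NC σ K) : res f = f [] := rfl

theorem map_mul_aux {K' : Type} [Ring K'] (φ : K →+* K') (f g : NC σ K) (w : List σ) :
    φ ((f * g) w) = ((⟨fun w => φ (f w)⟩ : NC σ K') * (⟨fun w => φ (g w)⟩ : NC σ K')) w := by
  induction w generalizing f with
  | nil => simp
  | cons s w ih =>
    rw [mul_cons, mul_cons, map_add, map_mul, ih (ld s f)]
    rfl

/-- coefficientwise ring hom -/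
def map {K' : Type} [Ring K'] (φ : K →+* K') : NC σ K →+* NC σ K' where
  toFun f := ⟨fun w => φ (f w)⟩
  map_one' := by apply ext'; intro w; cases w <;> simp
  map_zero' := by apply ext'; intro w; simp
  map_add' := fun f g => by apply ext'; intro w; simp
  map_mul' := fun f g => ext' fun w => map_mul_aux φ f g w

@[simp] theorem map_apply {K' : Type} [Ring K'] (φ : K →+* K') (f : NC σ K) (w : List σ) :
    map φ f w = φ (f w) := rfl

@[simp] theorem map_C {K' : Type} [Ring K'] (φ : K →+* K') (k : K) :
    map φ (C k : NC σ K) = C (φ k) := by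
  apply ext'; intro w; cases w <;> simp

@[simp] theorem map_X {K' : Type} [Ring K'] [DecidableEq σ] (φ : K →+* K') (s : σ) :
    map φ (X s : NC σ K) = X s := by
  apply ext'; intro w
  match w with
  | [] => simp
  | [r] => by_cases h : r = s <;> simp [h]
  | _ :: _ :: _ => simp

instance {F : Type} [CommRing F] [Algebra F K] : Algebra F (NC σ K) :=
  RingHom.toAlgebra' (C.comp (algebraMap F K)) (fun c x => by
    apply ext'; intro w
    change ((C (algebraMap F K c) : NC σ K) * x) w = (x * (C (algebraMap F K c) : NC σ K)) w
    rw [C_mul_apply, mul_C_apply]; exact Algebra.commutes c (x w))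

theorem algebraMap_eq {F : Type} [CommRing F] [Algebra F K] (c : F) :
    algebraMap F (NC σ K) c = C (algebraMap F K c) := rfl

@[simp] theorem smul_apply {F : Type} [CommRing F] [Algebra F K] (c : F) (f : NC σ K) (w : List σ) :
    (c • f) w = c • f w := by
  rw [Algebra.smul_def, algebraMap_eq, C_mul_apply, Algebra.smul_def]

/-- `Dense 𝒜`: the subalgebra `𝒜` surjects onto `NC σ K / 𝔪²`, `𝔪` = series without constant term. -/
def Dense {F : Type} [CommRing F] [Algebra F K] (𝒜 : Subalgebra F (NC σ K)) : Prop :=
  ∀ f : NC σ K, ∃ a ∈ 𝒜, ∀ w : List σ, w.length < 2 → a w = f w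

end Ring

end NC

end Crest.Agent.R180
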