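import Mathlib

set_option autoImplicit false

/-! # Row 180: base change of finite-dimensional central algebras

`E ⊗[F] D` is finite over `F1` and central over `F1` if `E/F1` and `D/F` are. -/

namespace Crest.Agent.R180

open scoped TensorProduct
open TensorProduct

theorem finD0_aux (F D F1 E : Type) [Field F] [Ring D] [Algebra F D] [FiniteDimensional F D]
    [Field F1] [Algebra F F1] [Ring E] [Algebra F1 E] [Algebra F E] [IsScalarTower F F1 E]
    [FiniteDimensional F1 E] : FiniteDimensional F1 (E ⊗[F] D) := by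
  have e : E ⊗[F1] (F1 ⊗[F] D) ≃ₗ[F1] E ⊗[F] D :=
    AlgebraTensorModule.cancelBaseChange F F1 F1 E D
  exact Module.Finite.equiv e

theorem cenD0_aux (F D F1 E : Type) [Field F] [Ring D] [Algebra F D] [Algebra.IsCentral F D]
    [Nontrivial D] [Field F1] [Algebra F F1] [Ring E] [Algebra F1 E] [Algebra F E]
    [IsScalarTower F F1 E] [Algebra.IsCentral F1 E] : Algebra.IsCentral F1 (E ⊗[F] D) := by
  constructor
  intro x hx
  rw [Subalgebra.mem_center_iff] at hx
  have h1 : x ∈ Subalgebra.centralizer F
      ((Algebra.TensorProduct.includeRight : D →ₐ[F] E ⊗[F] D).range : Set (E ⊗[F] D)) := by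
    rw [Subalgebra.mem_centralizer_iff]
    intro y _
    exact hx y
  rw [Subalgebra.centralizer_range_includeRight_eq_center_tensorProduct] at h1
  obtain ⟨z, rfl⟩ := h1
  have h2 : ∃ e : E, (Algebra.TensorProduct.map (AlgHom.id F E)
      (Subalgebra.center F D).val) z = e ⊗ₜ[F] (1 : D) := by
    clear hx
    induction z using TensorProduct.induction_on with
    | zero => exact ⟨0, by simp⟩
    | tmul e d =>
      obtain ⟨c, hc⟩ := Algebra.IsCentral.mem_center_iff F |>.1 d.2
      refine ⟨c • e, ?_⟩
      rw [Algebra.TensorProduct.map_tmul, TensorProduct.smul_tmul]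
      change e ⊗ₜ[F] (d : D) = _
      rw [hc, Algebra.algebraMap_eq_smul_one]
    | add a b ha hb =>
      obtain ⟨e, he⟩ := ha
      obtain ⟨e', he'⟩ := hb
      exact ⟨e + e', by rw [map_add, he, he', TensorProduct.add_tmul]⟩
  obtain ⟨e, he⟩ := h2
  have he' : (Algebra.TensorProduct.map (AlgHom.id F E)
      (Subalgebra.center F D).val).toRingHom z = e ⊗ₜ[F] (1 : D) := he
  rw [he'] at hx ⊢
  have h3 : e ∈ Subalgebra.center F1 E := by
    rw [Subalgebra.mem_center_iff]
    intro b
    have h4 := hx (b ⊗ₜ[F] (1 : D))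
    rw [Algebra.TensorProduct.tmul_mul_tmul, Algebra.TensorProduct.tmul_mul_tmul] at h4
    have h5 : Function.Injective (Algebra.TensorProduct.includeLeft : E →ₐ[F] E ⊗[F] D) :=
      Algebra.TensorProduct.includeLeft_injective (S := F) (FaithfulSMul.algebraMap_injective F D)
    apply h5
    simpa using h4
  obtain ⟨c, hc⟩ := Algebra.IsCentral.mem_center_iff F1 |>.1 h3
  rw [Algebra.mem_bot]
  exact ⟨c, by rw [hc]; rfl⟩

end Crest.Agent.R180
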