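import Mathlib

set_option autoImplicit false

/-!
# Row 180: `E ⊗[F] D` is central over `F1` when `E` is central over `F1 ⊇ F` and `D` central over `F`
-/

namespace Crest.Agent.R180

open TensorProduct

theorem central_tensor {F F1 E D : Type} [Field F] [Field F1] [Algebra F F1] [Ring E]
    [Algebra F1 E] [Algebra F E] [IsScalarTower F F1 E] [Algebra.IsCentral F1 E]
    [Ring D] [Nontrivial D] [Algebra F D] [Algebra.IsCentral F D] :
    Algebra.IsCentral F1 (E ⊗[F] D) := by
  refine ⟨fun x hx => ?_⟩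
  rw [Subalgebra.mem_center_iff] at hx
  -- commuting with `1 ⊗ D` : `x = e ⊗ 1`
  have h1 : x ∈ Subalgebra.centralizer F
      ((Algebra.TensorProduct.includeRight : D →ₐ[F] E ⊗[F] D).range : Set (E ⊗[F] D)) := by
    rw [Subalgebra.mem_centralizer_iff]
    intro y _
    exact hx y
  rw [Subalgebra.centralizer_range_includeRight_eq_center_tensorProduct] at h1
  obtain ⟨y, hy⟩ := h1
  have h2 : ∀ y : E ⊗[F] (Subalgebra.center F D), ∃ e : E,
      Algebra.TensorProduct.map (AlgHom.id F E) (Subalgebra.center F D).val y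
        = e ⊗ₜ[F] (1 : D) := by
    intro y
    induction y using TensorProduct.induction_on with
    | zero => exact ⟨0, by simp⟩
    | tmul e z =>
      obtain ⟨t, ht⟩ := (Algebra.IsCentral.mem_center_iff F).mp z.2
      refine ⟨t • e, ?_⟩
      simp only [Algebra.TensorProduct.map_tmul, AlgHom.coe_id, id_eq, Subalgebra.coe_val]
      rw [ht, Algebra.algebraMap_eq_smul_one, TensorProduct.tmul_smul, TensorProduct.smul_tmul']
    | add a b ha hb =>
      obtain ⟨ea, ha⟩ := ha
      obtain ⟨eb, hb⟩ := hb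
      exact ⟨ea + eb, by rw [map_add, ha, hb, TensorProduct.add_tmul]⟩
  obtain ⟨e, he⟩ := h2 y
  have hxe : x = e ⊗ₜ[F] (1 : D) := by rw [← he, ← hy]; rfl
  -- commuting with `E ⊗ 1`
  have hinj : Function.Injective (fun e : E => e ⊗ₜ[F] (1 : D)) :=
    Algebra.TensorProduct.includeLeft_injective (S := F) (algebraMap F D).injective
  have hce : e ∈ Subalgebra.center F1 E := by
    rw [Subalgebra.mem_center_iff]
    intro b
    apply hinj
    have := hx (b ⊗ₜ[F] (1 : D))
    rw [hxe, Algebra.TensorProduct.tmul_mul_tmul, Algebra.TensorProduct.tmul_mul_tmul] at this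
    simpa using this
  obtain ⟨c, hc⟩ := (Algebra.IsCentral.mem_center_iff F1).mp hce
  rw [Algebra.mem_bot]
  refine ⟨c, ?_⟩
  rw [hxe, hc]
  rfl

end Crest.Agent.R180
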