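import Crest.Agent.R180.Defs

set_option autoImplicit false

/-!
# R180: closure properties of `Solvable`: conjugation, central constants, change of coefficients,
constants.
-/

open scoped TensorProduct

namespace Crest.Agent.R180

/-- constants with central value are central in the series ring -/
theorem NC.C_commute {ι A : Type} [Ring A] (c : A) (hc : ∀ a : A, a * c = c * a) (x : NC ι A) :
    x * NC.C c = NC.C c * x := by
  apply NC.ext'; intro w
  rw [NC.mul_C_apply, NC.C_mul_apply, hc]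

/-- `1 ⊗ c` is central if `c` is -/
theorem one_tmul_commute {K E Γ : Type} [Field K] [Ring E] [Algebra K E] [Ring Γ] [Algebra K Γ]
    (c : Γ) (hc : ∀ a : Γ, a * c = c * a) (x : E ⊗[K] Γ) :
    x * (1 ⊗ₜ[K] c) = (1 ⊗ₜ[K] c) * x := by
  induction x using TensorProduct.induction_on with
  | zero => simp
  | tmul e g => simp [hc]
  | add x y hx hy => rw [add_mul, hx, hy, mul_add]

section
variable {K ι ι' E : Type} [Field K] [Ring E] [Algebra K E]

/-- naturality of `extc` in the coefficient algebra -/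
theorem extc_mapAlg (φ : NC ι K →ₐ[K] NC ι' E) {Γ Γ' : Type} [Ring Γ] [Algebra K Γ]
    [FiniteDimensional K Γ] [Ring Γ'] [Algebra K Γ'] [FiniteDimensional K Γ']
    (f : Γ' →ₐ[K] Γ) (x : NC ι Γ') :
    extc φ Γ (NC.mapAlg f x) =
      NC.mapAlg (Algebra.TensorProduct.map (AlgHom.id K E) f) (extc φ Γ' x) := by
  have hx := NC.eq_sum_pure Γ' (Module.finBasis K Γ') x
  rw [hx]
  simp only [map_sum, map_mul]
  refine Finset.sum_congr rfl fun k _ => ?_
  have h1 : NC.mapAlg f (NC.map (algebraMap K Γ')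
        (⟨fun w => (Module.finBasis K Γ').repr (x w) k⟩ : NC ι K)) =
      NC.map (algebraMap K Γ) (⟨fun w => (Module.finBasis K Γ').repr (x w) k⟩ : NC ι K) := by
    apply NC.ext'; intro w
    simp
  have h2 : NC.mapAlg f (NC.C ((Module.finBasis K Γ') k) : NC ι Γ') =
      NC.C (f ((Module.finBasis K Γ') k)) := by
    apply NC.ext'; intro w
    cases w <;> simp
  rw [h1, h2, extc_map, extc_map, extc_C, extc_C]
  have h3 : NC.mapAlg (Algebra.TensorProduct.map (AlgHom.id K E) f)
      (NC.C ((1 : E) ⊗ₜ[K] (Module.finBasis K Γ') k) : NC ι' (E ⊗[K] Γ')) =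
      NC.C (1 ⊗ₜ[K] f ((Module.finBasis K Γ') k)) := by
    apply NC.ext'; intro w
    cases w <;> simp
  rw [h3]
  congr 1
  apply NC.ext'; intro w
  simp

end

section Closure

variable {K ι Γ : Type} [Field K] [Ring Γ] [Algebra K Γ] [FiniteDimensional K Γ]

/-- conjugation -/
theorem Solvable.conj (v w : NC ι Γ) (h : v * w = 1) (h' : w * v = 1) (γ : NC ι Γ)
    (hs : Solvable K ι Γ (v * γ * w)) : Solvable K ι Γ γ := by
  obtain ⟨K₁, E, i1, i2, i3, i4, i5, i6, i7, φ, hφ, u, c, hu⟩ := hs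
  refine ⟨K₁, E, i1, i2, i3, i4, i5, i6, i7, φ, hφ, ?_⟩
  have hV : extc φ Γ v * extc φ Γ w = 1 := by rw [← map_mul, h, map_one]
  have hW : extc φ Γ w * extc φ Γ v = 1 := by rw [← map_mul, h', map_one]
  refine ⟨⟨extc φ Γ w, extc φ Γ v, hW, hV⟩ * u, c, ?_⟩
  have h1 : γ = w * (v * γ * w) * v := by
    rw [mul_assoc v, ← mul_assoc w, h', one_mul, mul_assoc γ, h', mul_one]
  conv_lhs => rw [h1]
  rw [map_mul, map_mul, hu, mul_inv_rev]
  simp only [Units.val_mul, Units.inv_mk, mul_assoc]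

/-- adding a central constant -/
theorem Solvable.add_const (c : Γ) (hc : ∀ a : Γ, a * c = c * a) (γ : NC ι Γ)
    (hs : Solvable K ι Γ (γ + NC.C c)) : Solvable K ι Γ γ := by
  obtain ⟨K₁, E, i1, i2, i3, i4, i5, i6, i7, φ, hφ, u, e, hu⟩ := hs
  refine ⟨K₁, E, i1, i2, i3, i4, i5, i6, i7, φ, hφ, u, e - 1 ⊗ₜ[K] c, ?_⟩
  rw [map_add, extc_C] at hu
  rw [map_sub, mul_sub, sub_mul, ← hu,
    NC.C_commute _ (one_tmul_commute c hc) (u : NC (Fin 2) (E ⊗[K] Γ)), mul_assoc, Units.mul_inv,
    mul_one, add_sub_cancel_right]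

/-- multiplying by a central invertible constant -/
theorem Solvable.const_mul (c d : Γ) (hc : ∀ a : Γ, a * c = c * a) (hd : d * c = 1) (γ : NC ι Γ)
    (hs : Solvable K ι Γ (NC.C c * γ)) : Solvable K ι Γ γ := by
  have hdc : ∀ a : Γ, a * d = d * a := by
    intro a
    have h1 : c * d = 1 := by rw [← hc, hd]
    calc a * d = (d * c) * (a * d) := by rw [hd, one_mul]
      _ = d * (c * a) * d := by simp only [mul_assoc]
      _ = d * (a * c) * d := by rw [hc]
      _ = d * a * (c * d) := by simp only [mul_assoc]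
      _ = d * a := by rw [h1, mul_one]
  obtain ⟨K₁, E, i1, i2, i3, i4, i5, i6, i7, φ, hφ, u, e, hu⟩ := hs
  refine ⟨K₁, E, i1, i2, i3, i4, i5, i6, i7, φ, hφ, u, (1 ⊗ₜ[K] d) * e, ?_⟩
  rw [map_mul, extc_C] at hu
  have h1 : (NC.C (1 ⊗ₜ[K] d) : NC (Fin 2) (E ⊗[K] Γ)) * NC.C (1 ⊗ₜ[K] c) = 1 := by
    rw [← map_mul, Algebra.TensorProduct.tmul_mul_tmul, one_mul, hd, ← Algebra.TensorProduct.one_def,
      map_one]
  calc extc φ Γ γ = NC.C (1 ⊗ₜ[K] d) * (NC.C (1 ⊗ₜ[K] c) * extc φ Γ γ) := by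
        rw [← mul_assoc, h1, one_mul]
    _ = _ := by
        rw [hu, map_mul, ← mul_assoc, ← mul_assoc, ← mul_assoc,
          NC.C_commute _ (one_tmul_commute d hdc) (u : NC (Fin 2) (E ⊗[K] Γ))]

/-- change of coefficients along an algebra hom (in particular: shrinking to a subalgebra,
and replacing `Γ` by an isomorphic algebra) -/
theorem Solvable.map {Γ' : Type} [Ring Γ'] [Algebra K Γ'] [FiniteDimensional K Γ']
    (f : Γ' →ₐ[K] Γ) (γ' : NC ι Γ') (hs : Solvable K ι Γ' γ') :
    Solvable K ι Γ (NC.mapAlg f γ') := by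
  obtain ⟨K₁, E, i1, i2, i3, i4, i5, i6, i7, φ, hφ, u, e, hu⟩ := hs
  refine ⟨K₁, E, i1, i2, i3, i4, i5, i6, i7, φ, hφ,
    Units.map (NC.mapAlg (ι := Fin 2) (Algebra.TensorProduct.map (AlgHom.id K E) f) :
      NC (Fin 2) (E ⊗[K] Γ') →* NC (Fin 2) (E ⊗[K] Γ)) u,
    Algebra.TensorProduct.map (AlgHom.id K E) f e, ?_⟩
  rw [extc_mapAlg, hu, map_mul, map_mul]
  have h1 : NC.mapAlg (Algebra.TensorProduct.map (AlgHom.id K E) f)
      (NC.C e : NC (Fin 2) (E ⊗[K] Γ')) =
      NC.C (Algebra.TensorProduct.map (AlgHom.id K E) f e) := by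
    apply NC.ext'; intro w
    cases w <;> simp
  rw [h1]
  rfl

/-- restriction of a series to the words in the letters `e 0`, `e 1` -/
def restr {ι' : Type} (e : ι' → ι) : NC ι K →ₐ[K] NC ι' K where
  toFun f := ⟨fun w => f (w.map e)⟩
  map_one' := by apply NC.ext'; intro w; cases w <;> simp
  map_zero' := by apply NC.ext'; intro w; simp
  map_add' f g := by apply NC.ext'; intro w; simp
  map_mul' f g := by
    apply NC.ext'; intro w
    change (f * g) (w.map e) = ((⟨fun w => f (w.map e)⟩ : NC ι' K) *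
      (⟨fun w => g (w.map e)⟩ : NC ι' K)) w
    induction w generalizing f with
    | nil => simp
    | cons s w ih =>
      rw [List.map_cons, NC.mul_cons, ih, NC.mul_cons]
      rfl
  commutes' c := by apply NC.ext'; intro w; cases w <;> simp [NC.algebraMap_eq]

@[simp] theorem restr_apply {ι' : Type} (e : ι' → ι) (f : NC ι K) (w : List ι') :
    restr e f w = f (w.map e) := rfl

theorem extc_restr_apply {ι' : Type} (e : ι' → ι) (x : NC ι Γ) (w : List ι') :
    extc (restr (K := K) e) Γ x w = (1 : K) ⊗ₜ[K] x (w.map e) := by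
  have hx := NC.eq_sum_pure Γ (Module.finBasis K Γ) x
  conv_lhs => rw [hx]
  conv_rhs => rw [hx]
  rw [map_sum, NC.sum_apply, NC.sum_apply, TensorProduct.tmul_sum]
  refine Finset.sum_congr rfl fun k _ => ?_
  rw [map_mul, extc_map, extc_C, NC.mul_C_apply, NC.mul_C_apply]
  simp only [NC.mapAlg_apply, restr_apply, Algebra.TensorProduct.includeLeft_apply,
    Algebra.TensorProduct.tmul_mul_tmul, mul_one, one_mul, NC.map_apply]
  rw [← Algebra.smul_def, TensorProduct.tmul_smul, TensorProduct.smul_tmul', smul_eq_mul, mul_one]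

instance good_self (K : Type) [Field K] : Good K K K where
  fin := inferInstance
  cen := inferInstance
  dom := fun Γ _ _ _ _ =>
    (Algebra.TensorProduct.lid K Γ).toRingEquiv.toMulEquiv.isDomain Γ

theorem PD_restr (e : Fin 2 → ι) (he : Function.Injective e) :
    PD (K₁ := K) (restr (K := K) e) := by
  classical
  intro Γ _ _ _ _ 𝒜 h𝒜 f
  let l : K ⊗[K] Γ ≃ₐ[K] Γ := Algebra.TensorProduct.lid K Γ
  obtain ⟨a, ha, ha'⟩ := h𝒜 ⟨fun w => if h : ∃ v : List (Fin 2), v.map e = w then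
    l (f h.choose) else 0⟩
  refine ⟨extc (restr (K := K) e) Γ a, Algebra.subset_adjoin ⟨a, ha, rfl⟩, ?_⟩
  intro w hw
  rw [extc_restr_apply, ha' _ (by simpa using hw)]
  have h : ∃ v : List (Fin 2), v.map e = w.map e := ⟨w, rfl⟩
  have hc : h.choose = w := (List.map_injective_iff.2 he) h.choose_spec
  simp only [dif_pos h]
  rw [hc]
  apply l.injective
  simp [l]

/-- a constant is solvable (two letters at least) -/
theorem Solvable.const [Fintype ι] (hι : 2 ≤ Fintype.card ι) (c : Γ) :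
    Solvable K ι Γ (NC.C c) := by
  obtain ⟨e⟩ : Nonempty (Fin 2 ↪ ι) := by
    rw [Function.Embedding.nonempty_iff_card_le]
    simpa using hι
  refine ⟨K, K, inferInstance, inferInstance, inferInstance, inferInstance, inferInstance,
    inferInstance, good_self K, restr (K := K) e, PD_restr e e.injective, 1, 1 ⊗ₜ c, ?_⟩
  rw [extc_C]
  simp

end Closure

end Crest.Agent.R180
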