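import Crest.Agent.R180.Basic

set_option autoImplicit false
set_option linter.unusedSimpArgs false
set_option linter.unusedSectionVars false

/-!
# Row 180: conjugation of a noncommutative power series into the centraliser of its constant term

* `AdSplit F α` : the data of the decomposition `A = C(α) ⊕ [α, A]` with the inverse of `ad α`.
* `adSplit` : it exists when `A` is a finite-dimensional domain over a field of characteristic zero.
* `exists_conj` : for `γ : NC σ A` with `γ [] = α` there is `g`, `g [] = 1`, with
  `g * γ = δ * g` and all coefficients of `δ` commuting with `α`.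
-/

namespace Crest.Agent.R180

namespace Conj

/-- The splitting `A = C(α) ⊕ [α, A]`. -/
structure AdSplit (F : Type) [Field F] {A : Type} [Ring A] [Algebra F A] (α : A) where
  /-- projection onto the centraliser -/
  pi : A →ₗ[F] A
  /-- inverse of `ad α` on `[α, A]` -/
  inv : A →ₗ[F] A
  pi_comm : ∀ x, α * pi x = pi x * α
  pi_of_comm : ∀ x, α * x = x * α → pi x = x
  pi_ad : ∀ x, pi (α * x - x * α) = 0
  split : ∀ x, x = pi x + (α * inv x - inv x * α)
  inv_of_comm : ∀ x, α * x = x * α → inv x = 0
  pi_inv : ∀ x, pi (inv x) = 0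

section Exist

variable {F : Type} [Field F] {A : Type} [Ring A] [Algebra F A] (α : A)

/-- `x ↦ α x - x α` -/
def ad (F : Type) [Field F] {A : Type} [Ring A] [Algebra F A] (α : A) : A →ₗ[F] A :=
  LinearMap.mulLeft F α - LinearMap.mulRight F α

@[simp] theorem ad_apply (x : A) : ad F α x = α * x - x * α := rfl

/-- The splitting from complementarity of kernel and range of `ad α`. -/
theorem exists_adSplit_of_isCompl
    (h : IsCompl (LinearMap.ker (ad F α)) (LinearMap.range (ad F α))) :
    Nonempty (AdSplit F α) := by
  classical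
  set f := ad F α with hf
  -- restriction to the range
  let R := LinearMap.range f
  let fR : R →ₗ[F] R := f.restrict (p := R) (q := R) (fun x _ => ⟨x, rfl⟩)
  have hinj : Function.Injective fR := by
    rw [← LinearMap.ker_eq_bot, LinearMap.ker_eq_bot']
    rintro ⟨x, hx⟩ hx0
    have h1 : f x = 0 := congrArg Subtype.val hx0
    have h2 : x ∈ LinearMap.ker f ⊓ R := ⟨h1, hx⟩
    rw [h.inf_eq_bot] at h2
    exact Subtype.ext h2
  have hsurj : Function.Surjective fR := by
    rintro ⟨y, x, rfl⟩
    have hx : x ∈ LinearMap.ker f ⊔ R := by rw [h.sup_eq_top]; trivial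
    obtain ⟨a, ha, b, hb, rfl⟩ := Submodule.mem_sup.mp hx
    refine ⟨⟨b, hb⟩, Subtype.ext ?_⟩
    change f b = f (a + b)
    rw [map_add, LinearMap.mem_ker.mp ha, zero_add]
  let e : R ≃ₗ[F] R := LinearEquiv.ofBijective fR ⟨hinj, hsurj⟩
  let pi : A →ₗ[F] A := (LinearMap.ker f).projection R h
  let inv : A →ₗ[F] A := R.subtype ∘ₗ e.symm.toLinearMap ∘ₗ (R.projectionOnto (LinearMap.ker f) h.symm)
  have hfinv : ∀ x, f (inv x) = x - pi x := by
    intro x
    have h1 : f (inv x) = ((fR (e.symm (R.projectionOnto (LinearMap.ker f) h.symm x)) : R) : A) :=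
      rfl
    have h2 : fR (e.symm (R.projectionOnto (LinearMap.ker f) h.symm x)) =
        R.projectionOnto (LinearMap.ker f) h.symm x := e.apply_symm_apply _
    rw [h1, h2]
    have h3 := Submodule.projection_add_projection_eq_self h x
    have h4 : ((R.projectionOnto (LinearMap.ker f) h.symm x : R) : A) =
      R.projection (LinearMap.ker f) h.symm x := rfl
    rw [h4]
    have h5 : pi x = (LinearMap.ker f).projection R h x := rfl
    rw [h5]
    exact eq_sub_of_add_eq' h3
  refine ⟨⟨pi, inv, ?_, ?_, ?_, ?_, ?_, ?_⟩⟩
  · intro x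
    have h1 : pi x ∈ LinearMap.ker f := Submodule.projection_apply_mem h x
    have h2 : α * pi x - pi x * α = 0 := h1
    exact sub_eq_zero.mp h2
  · intro x hx
    have h1 : x ∈ LinearMap.ker f := by
      rw [LinearMap.mem_ker, hf, ad_apply, hx, sub_self]
    exact Submodule.projection_apply_left h ⟨x, h1⟩
  · intro x
    have h1 : f x ∈ R := ⟨x, rfl⟩
    exact Submodule.projection_apply_right h ⟨f x, h1⟩
  · intro x
    have := hfinv x
    rw [hf, ad_apply] at this
    rw [this]
    abel
  · intro x hx
    have h1 : x ∈ LinearMap.ker f := by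
      rw [LinearMap.mem_ker, hf, ad_apply, hx, sub_self]
    have h2 : R.projectionOnto (LinearMap.ker f) h.symm x = 0 :=
      Submodule.projectionOnto_apply_right h.symm ⟨x, h1⟩
    change ((e.symm (R.projectionOnto (LinearMap.ker f) h.symm x) : R) : A) = 0
    rw [h2, map_zero]; rfl
  · intro x
    exact Submodule.projection_apply_right h (e.symm (R.projectionOnto (LinearMap.ker f) h.symm x))

/-- If `y = α x - x α` commutes with `α` then `p(α) x - x p(α) = p'(α) y`. -/
theorem aeval_comm_sub (x y : A) (hy : y = α * x - x * α) (hc : α * y = y * α)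
    (p : Polynomial F) :
    Polynomial.aeval α p * x - x * Polynomial.aeval α p =
      Polynomial.aeval α (Polynomial.derivative p) * y := by
  have hpow : ∀ n : ℕ, α ^ (n + 1) * x - x * α ^ (n + 1) = ((n : A) + 1) * α ^ n * y := by
    intro n
    induction n with
    | zero => simp [hy]
    | succ n ih =>
      have h1 : α ^ (n + 2) * x - x * α ^ (n + 2) =
          α * (α ^ (n + 1) * x - x * α ^ (n + 1)) + (α * x - x * α) * α ^ (n + 1) := by
        rw [pow_succ' α (n + 1)]; noncomm_ring
      have hcomm : Commute y (α ^ (n + 1)) := (Commute.pow_right (show Commute y α from hc.symm) _)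
      rw [h1, ih, ← hy, hcomm.eq]
      have h2 : α * (((n : A) + 1) * α ^ n * y) = ((n : A) + 1) * α ^ (n + 1) * y := by
        have : α * ((n : A) + 1) = ((n : A) + 1) * α := by
          rw [mul_add, add_mul, mul_one, one_mul, (Nat.cast_commute n α).eq]
        rw [← mul_assoc, ← mul_assoc, this, mul_assoc (((n : A) + 1)) α (α ^ n), ← pow_succ']
      rw [h2]
      push_cast
      noncomm_ring
  induction p using Polynomial.induction_on' with
  | add p q hp hq =>
    rw [map_add, Polynomial.derivative_add, map_add, add_mul, mul_add, add_mul, ← hp, ← hq]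
    abel
  | monomial n c =>
    cases n with
    | zero =>
      simp only [Polynomial.monomial_zero_left, Polynomial.aeval_C, Polynomial.derivative_C,
        map_zero, zero_mul]
      rw [Algebra.commutes c x, sub_self]
    | succ n =>
      rw [Polynomial.derivative_monomial, Polynomial.aeval_monomial, Polynomial.aeval_monomial,
        Nat.add_sub_cancel]
      have hcx : x * (algebraMap F A c * α ^ (n + 1)) = algebraMap F A c * (x * α ^ (n + 1)) := by
        rw [← mul_assoc, ← Algebra.commutes c x, mul_assoc]
      rw [hcx, mul_assoc, ← mul_sub, hpow n]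
      rw [map_mul, map_natCast]
      push_cast
      noncomm_ring

variable [CharZero F]

/-- In a finite-dimensional domain over a field of characteristic zero,
`A = C(α) ⊕ [α, A]`. -/
theorem isCompl_ad [IsDomain A] [FiniteDimensional F A] :
    IsCompl (LinearMap.ker (ad F α)) (LinearMap.range (ad F α)) := by
  rw [Submodule.isCompl_iff_disjoint]
  · rw [Submodule.disjoint_def]
    rintro y hy ⟨x, hx⟩
    have hyc : α * y = y * α := sub_eq_zero.mp hy
    have hx' : y = α * x - x * α := hx.symm
    have hint : IsIntegral F α := Algebra.IsIntegral.isIntegral α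
    have h1 := aeval_comm_sub (F := F) α x y hx' hyc (minpoly F α)
    rw [minpoly.aeval, zero_mul, mul_zero, sub_self] at h1
    have hirr : Irreducible (minpoly F α) := minpoly.irreducible hint
    have hsep : (minpoly F α).Separable := hirr.separable
    have h2 : Polynomial.aeval α (Polynomial.derivative (minpoly F α)) ≠ 0 := by
      intro h0
      obtain ⟨a, b, hab⟩ := hsep
      have := congrArg (Polynomial.aeval α) hab
      rw [map_add, map_mul, map_mul, minpoly.aeval, h0, mul_zero, mul_zero, add_zero, map_one] at this
      exact zero_ne_one this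
    rcases mul_eq_zero.mp h1.symm with h3 | h3
    · exact absurd h3 h2
    · exact h3
  · have := (ad F α).finrank_range_add_finrank_ker
    omega

/-- The splitting exists in finite-dimensional domains of characteristic zero. -/
noncomputable def adSplit (F : Type) [Field F] [CharZero F] {A : Type} [Ring A] [Algebra F A]
    [IsDomain A] [FiniteDimensional F A] (α : A) : AdSplit F α :=
  (exists_adSplit_of_isCompl α (isCompl_ad α)).some

end Exist

namespace AdSplit

variable {F : Type} [Field F] {A : Type} [Ring A] [Algebra F A] {α : A} (S : AdSplit F α)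

theorem comm_mul {c x : A} (hc : α * c = c * α) : S.pi (c * x) = c * S.pi x := by
  have h1 : c * x = c * S.pi x + (α * (c * S.inv x) - (c * S.inv x) * α) := by
    conv_lhs => rw [S.split x]
    rw [mul_add, mul_sub, ← mul_assoc c α, ← hc]
    noncomm_ring
  rw [h1, map_add, S.pi_ad, add_zero]
  apply S.pi_of_comm
  rw [← mul_assoc, hc, mul_assoc, S.pi_comm, mul_assoc]

theorem mul_comm' {c x : A} (hc : α * c = c * α) : S.pi (x * c) = S.pi x * c := by
  have h1 : x * c = S.pi x * c + (α * (S.inv x * c) - (S.inv x * c) * α) := by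
    conv_lhs => rw [S.split x]
    rw [add_mul, sub_mul, mul_assoc (S.inv x) α c, hc]
    noncomm_ring
  rw [h1, map_add, S.pi_ad, add_zero]
  apply S.pi_of_comm
  rw [← mul_assoc, S.pi_comm, mul_assoc, hc, mul_assoc]

theorem pi_pi (x : A) : S.pi (S.pi x) = S.pi x := S.pi_of_comm _ (S.pi_comm x)

theorem pi_one : S.pi 1 = 1 := S.pi_of_comm _ (by simp)

/-- uniqueness of the decomposition -/
theorem unique {x c y : A} (hc : α * c = c * α) (hy : S.pi y = 0)
    (h : x = c + (α * y - y * α)) : c = S.pi x ∧ y = S.inv x := by
  have h1 : c = S.pi x := by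
    rw [h, map_add, S.pi_ad, add_zero, S.pi_of_comm c hc]
  refine ⟨h1, ?_⟩
  have h2 : α * (y - S.inv x) = (y - S.inv x) * α := by
    have h3 := S.split x
    rw [← h1] at h3
    have h4 : α * y - y * α = α * S.inv x - S.inv x * α := by
      have := h.symm.trans h3
      exact add_left_cancel this
    rw [mul_sub, sub_mul]
    rw [sub_eq_sub_iff_add_eq_add] at h4 ⊢
    rw [h4, add_comm]
  have h5 := S.pi_of_comm _ h2
  rw [map_sub, hy, S.pi_inv, sub_zero] at h5
  exact sub_eq_zero.mp h5.symm

end AdSplit

/-! ### Products of series modulo long words -/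

section Order

variable {σ K : Type} [Ring K]

/-- the product of a series vanishing on words of length `< n` -/
theorem mul_apply_of_left {n : ℕ} (a g : NC σ K) (ha : ∀ w : List σ, w.length < n → a w = 0)
    (w : List σ) (hw : w.length ≤ n) : (a * g) w = a w * g [] := by
  induction w generalizing n a with
  | nil => simp
  | cons s w ih =>
    rw [NC.mul_cons]
    have ha0 : a [] = 0 := ha [] (by simp only [List.length_cons, List.length_nil] at hw ⊢; omega)
    rw [ha0, zero_mul, add_zero]
    cases n with
    | zero => simp at hw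
    | succ n =>
      rw [ih (n := n) (NC.ld s a) (fun v hv => ha (s :: v) (by simpa using hv))
        (by simpa using hw)]
      rfl

theorem mul_apply_of_right {n : ℕ} (f b : NC σ K) (hb : ∀ w : List σ, w.length < n → b w = 0)
    (w : List σ) (hw : w.length ≤ n) : (f * b) w = f [] * b w := by
  induction w generalizing f with
  | nil => simp
  | cons s w ih =>
    rw [NC.mul_cons, ih (NC.ld s f) (by simp only [List.length_cons] at hw; omega)]
    rw [hb w (by simp only [List.length_cons] at hw; omega), mul_zero, zero_add]

/-- products only depend on the coefficients of words which are not longer -/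
theorem mul_congr {n : ℕ} {f f' g g' : NC σ K} (hf : ∀ w : List σ, w.length ≤ n → f w = f' w)
    (hg : ∀ w : List σ, w.length ≤ n → g w = g' w) (w : List σ) (hw : w.length ≤ n) :
    (f * g) w = (f' * g') w := by
  induction w generalizing f f' n with
  | nil => rw [NC.mul_nil, NC.mul_nil, hf [] (by simp), hg [] (by simp)]
  | cons s w ih =>
    cases n with
    | zero => simp at hw
    | succ n =>
      rw [NC.mul_cons, NC.mul_cons, hf [] (by simp), hg (s :: w) hw]
      rw [ih (n := n) (f := NC.ld s f) (f' := NC.ld s f')
        (fun v hv => hf (s :: v) (by simpa using hv))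
        (fun v hv => hg v (by omega)) (by simpa using hw)]

/-- the homogeneous perturbation in the top degree -/
theorem add_mul_add_apply {n : ℕ} (hn : 0 < n) (f a g b : NC σ K)
    (ha : ∀ w : List σ, w.length < n → a w = 0) (hb : ∀ w : List σ, w.length < n → b w = 0)
    (w : List σ) (hw : w.length ≤ n) :
    ((f + a) * (g + b)) w = (f * g) w + a w * g [] + f [] * b w := by
  rw [add_mul, mul_add, mul_add]
  simp only [NC.add_apply]
  rw [mul_apply_of_left a g ha w hw, mul_apply_of_right f b hb w hw,
    mul_apply_of_left a b ha w hw, hb [] (by simpa using hn), mul_zero, add_zero]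
  abel

end Order

/-! ### The conjugation -/

section Main

variable {F : Type} [Field F] {A : Type} [Ring A] [Algebra F A] {α : A} (S : AdSplit F α)
  {σ : Type} (γ : NC σ A)

open Classical in
/-- the homogeneous part (as a series) of degree `n` of a function on words -/
noncomputable def homPart (n : ℕ) (f : List σ → A) : NC σ A :=
  ⟨fun w => if w.length = n then f w else 0⟩

theorem homPart_lt {n : ℕ} (f : List σ → A) (w : List σ) (h : w.length < n) :
    homPart n f w = 0 := by
  simp [homPart, h.ne]

theorem homPart_eq {n : ℕ} (f : List σ → A) (w : List σ) (h : w.length = n) :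
    homPart n f w = f w := by
  simp [homPart, h]

/-- the approximations: `(g_n, δ_n)` -/
noncomputable def approx : ℕ → NC σ A × NC σ A
  | 0 => (1, NC.C α)
  | (n + 1) =>
    ((approx n).1 + homPart (n + 1)
        (fun w => S.inv (((approx n).1 * γ) w - ((approx n).2 * (approx n).1) w)),
      (approx n).2 + homPart (n + 1)
        (fun w => S.pi (((approx n).1 * γ) w - ((approx n).2 * (approx n).1) w)))

theorem approx_nil (n : ℕ) : (approx S γ n).1 [] = 1 ∧ (approx S γ n).2 [] = α := by
  induction n with
  | zero => exact ⟨rfl, rfl⟩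
  | succ n ih =>
    have h1 : ∀ f : List σ → A, homPart (n + 1) f ([] : List σ) = 0 := fun f =>
      homPart_lt f [] (by simp)
    constructor
    · change (approx S γ n).1 [] + homPart (n + 1) _ ([] : List σ) = 1
      rw [h1, ih.1, add_zero]
    · change (approx S γ n).2 [] + homPart (n + 1) _ ([] : List σ) = α
      rw [h1, ih.2, add_zero]

theorem approx_succ (n : ℕ) (w : List σ) (hw : w.length ≤ n) :
    (approx S γ (n + 1)).1 w = (approx S γ n).1 w ∧
      (approx S γ (n + 1)).2 w = (approx S γ n).2 w := by
  have h1 : ∀ f : List σ → A, homPart (n + 1) f w = 0 := fun f =>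
      homPart_lt f w (by omega)
  constructor
  · change (approx S γ n).1 w + homPart (n + 1) _ w = _
    rw [h1, add_zero]
  · change (approx S γ n).2 w + homPart (n + 1) _ w = _
    rw [h1, add_zero]

theorem approx_add (n k : ℕ) (w : List σ) (hw : w.length ≤ n) :
    (approx S γ (n + k)).1 w = (approx S γ n).1 w ∧
      (approx S γ (n + k)).2 w = (approx S γ n).2 w := by
  induction k with
  | zero => exact ⟨rfl, rfl⟩
  | succ k ih =>
    have := approx_succ S γ (n + k) w (by omega)
    exact ⟨this.1.trans ih.1, this.2.trans ih.2⟩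

theorem approx_spec (hγ : γ [] = α) (n : ℕ) (w : List σ) (hw : w.length ≤ n) :
    ((approx S γ n).1 * γ) w = ((approx S γ n).2 * (approx S γ n).1) w := by
  induction n generalizing w with
  | zero =>
    have : w = [] := List.length_eq_zero_iff.mp (by omega)
    subst this
    change ((1 : NC σ A) * γ) [] = ((NC.C α : NC σ A) * 1) []
    rw [one_mul, mul_one, hγ]; rfl
  | succ n ih =>
    set R : List σ → A := fun w => ((approx S γ n).1 * γ) w -
      ((approx S γ n).2 * (approx S γ n).1) w with hR
    have e1 : (approx S γ (n + 1)).1 = (approx S γ n).1 + homPart (n + 1) (fun w => S.inv (R w)) :=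
      rfl
    have e2 : (approx S γ (n + 1)).2 = (approx S γ n).2 + homPart (n + 1) (fun w => S.pi (R w)) :=
      rfl
    have l1 := add_mul_add_apply (n := n + 1) (by omega) (approx S γ n).1
      (homPart (n + 1) (fun w => S.inv (R w))) γ 0 (fun v hv => homPart_lt _ v hv)
      (fun v _ => rfl) w hw
    have l2 := add_mul_add_apply (n := n + 1) (by omega) (approx S γ n).2
      (homPart (n + 1) (fun w => S.pi (R w))) (approx S γ n).1
      (homPart (n + 1) (fun w => S.inv (R w))) (fun v hv => homPart_lt _ v hv)
      (fun v hv => homPart_lt _ v hv) w hw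
    rw [add_zero] at l1
    rw [e1, e2, l1, l2, (approx_nil S γ n).1, (approx_nil S γ n).2, hγ]
    simp only [NC.zero_apply, mul_zero, add_zero, mul_one]
    rcases Nat.lt_or_ge w.length (n + 1) with h | h
    · rw [homPart_lt _ w h, homPart_lt _ w h, zero_mul, mul_zero, add_zero, add_zero, add_zero]
      exact ih w (by omega)
    · have hl : w.length = n + 1 := by omega
      rw [homPart_eq _ w hl, homPart_eq _ w hl]
      have h3 := S.split (R w)
      have h4 : ((approx S γ n).1 * γ) w = R w + ((approx S γ n).2 * (approx S γ n).1) w :=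
        (sub_add_cancel _ _).symm
      have h5 : R w + S.inv (R w) * α = S.pi (R w) + α * S.inv (R w) := by
        nth_rewrite 1 [h3]; abel
      rw [h4, add_right_comm, h5]
      abel

/-- the conjugating series -/
noncomputable def conjG : NC σ A := ⟨fun w => (approx S γ w.length).1 w⟩
/-- the conjugated series (in the centraliser) -/
noncomputable def conjD : NC σ A := ⟨fun w => (approx S γ w.length).2 w⟩

theorem conjG_eq (n : ℕ) (w : List σ) (hw : w.length ≤ n) :
    conjG S γ w = (approx S γ n).1 w := by
  obtain ⟨k, rfl⟩ := Nat.exists_eq_add_of_le hw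
  exact ((approx_add S γ w.length k w le_rfl).1).symm

theorem conjD_eq (n : ℕ) (w : List σ) (hw : w.length ≤ n) :
    conjD S γ w = (approx S γ n).2 w := by
  obtain ⟨k, rfl⟩ := Nat.exists_eq_add_of_le hw
  exact ((approx_add S γ w.length k w le_rfl).2).symm

@[simp] theorem conjG_nil : conjG S γ [] = 1 := (approx_nil S γ 0).1
@[simp] theorem conjD_nil : conjD S γ [] = α := (approx_nil S γ 0).2

theorem conj_spec (hγ : γ [] = α) : conjG S γ * γ = conjD S γ * conjG S γ := by
  apply NC.ext'
  intro w
  rw [mul_congr (n := w.length) (f' := (approx S γ w.length).1) (g' := γ)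
      (fun v hv => conjG_eq S γ _ v hv) (fun v _ => rfl) w le_rfl,
    mul_congr (n := w.length) (f := conjD S γ) (f' := (approx S γ w.length).2)
      (g' := (approx S γ w.length).1)
      (fun v hv => conjD_eq S γ _ v hv) (fun v hv => conjG_eq S γ _ v hv) w le_rfl]
  exact approx_spec S γ hγ _ w le_rfl

theorem conjD_comm (w : List σ) : α * conjD S γ w = conjD S γ w * α := by
  cases w with
  | nil => simp
  | cons s w =>
    change α * (approx S γ (w.length + 1)).2 (s :: w) = (approx S γ (w.length + 1)).2 (s :: w) * α
    -- all coefficients of the approximations commute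
    have key : ∀ (n : ℕ) (v : List σ), α * (approx S γ n).2 v = (approx S γ n).2 v * α := by
      intro n
      induction n with
      | zero =>
        intro v
        change α * (NC.C α : NC σ A) v = (NC.C α : NC σ A) v * α
        cases v with
        | nil => rfl
        | cons r v => simp
      | succ n ih =>
        intro v
        change α * ((approx S γ n).2 v + homPart (n + 1) _ v) =
          ((approx S γ n).2 v + homPart (n + 1) _ v) * α
        rw [mul_add, add_mul, ih v]
        congr 1
        by_cases h : v.length = n + 1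
        · rw [homPart_eq _ v h]; exact S.pi_comm _
        · simp [homPart, h]
    exact key _ _

theorem conjG_pi (w : List σ) (hw : w ≠ []) : S.pi (conjG S γ w) = 0 := by
  cases w with
  | nil => exact absurd rfl hw
  | cons s w =>
    change S.pi ((approx S γ (w.length + 1)).1 (s :: w)) = 0
    have key : ∀ (n : ℕ) (v : List σ), v ≠ [] → S.pi ((approx S γ n).1 v) = 0 := by
      intro n
      induction n with
      | zero =>
        intro v hv
        change S.pi ((1 : NC σ A) v) = 0
        cases v with
        | nil => exact absurd rfl hv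
        | cons r v => simp
      | succ n ih =>
        intro v hv
        change S.pi ((approx S γ n).1 v + homPart (n + 1) _ v) = 0
        rw [map_add, ih v hv, zero_add]
        by_cases h : v.length = n + 1
        · rw [homPart_eq _ v h]; exact S.pi_inv _
        · simp [homPart, h]
    exact key _ _ (by simp)

/-- **Conjugation into the centraliser.** -/
theorem exists_conj (hγ : γ [] = α) :
    ∃ g δ : NC σ A, g [] = 1 ∧ δ [] = α ∧ (∀ w, α * δ w = δ w * α) ∧
      (∀ w, w ≠ [] → S.pi (g w) = 0) ∧ g * γ = δ * g :=
  ⟨conjG S γ, conjD S γ, conjG_nil S γ, conjD_nil S γ, conjD_comm S γ, conjG_pi S γ,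
    conj_spec S γ hγ⟩

end Main

/-! ### Properties of any conjugation -/

section Props

variable {F : Type} [Field F] {A : Type} [Ring A] [Algebra F A] {α : A} (S : AdSplit F α)
  {σ : Type} {γ g δ : NC σ A}

/-- If the coefficients of `γ` on words shorter than `k` commute with `α` then the conjugation
does nothing on words shorter than `k` and projects the coefficients of words of length `k`. -/
theorem conj_lowest {k : ℕ} (hk : 0 < k) (hγ : γ [] = α)
    (hlow : ∀ w : List σ, w.length < k → α * γ w = γ w * α)
    (hg1 : g [] = 1) (hδ1 : δ [] = α) (hδc : ∀ w, α * δ w = δ w * α)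
    (hgp : ∀ w, w ≠ [] → S.pi (g w) = 0) (h : g * γ = δ * g) :
    (∀ w : List σ, w.length < k → w ≠ [] → g w = 0) ∧
    (∀ w : List σ, w.length < k → δ w = γ w) ∧
    (∀ w : List σ, w.length = k → δ w = S.pi (γ w) ∧ g w = S.inv (γ w)) := by
  -- induction on the length `m` of the words
  have key : ∀ m : ℕ, m ≤ k → ∀ w : List σ, w.length = m → w ≠ [] →
      (δ w = S.pi (γ w) ∧ g w = S.inv (γ w)) := by
    intro m
    induction m using Nat.strong_induction_on with
    | _ m ih =>
      intro hm w hw hne
      have hmpos : 0 < m := by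
        rw [← hw]; exact List.length_pos_iff.mpr hne
      -- write g = 1 + a, δ = γ + b below length m
      have hlowg : ∀ v : List σ, v.length < m → (g - 1) v = 0 := by
        intro v hv
        by_cases hv0 : v = []
        · subst hv0; rw [NC.sub_apply, hg1, NC.one_nil, sub_self]
        · obtain ⟨r, v', rfl⟩ := List.exists_cons_of_ne_nil hv0
          rw [NC.sub_apply, NC.one_cons, sub_zero]
          rw [(ih _ hv (by omega) _ rfl (by simp)).2]
          exact S.inv_of_comm _ (hlow _ (by omega))
      have hlowd : ∀ v : List σ, v.length < m → (δ - γ) v = 0 := by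
        intro v hv
        by_cases hv0 : v = []
        · subst hv0; rw [NC.sub_apply, hδ1, hγ, sub_self]
        · rw [NC.sub_apply, (ih _ hv (by omega) _ rfl hv0).1,
            S.pi_of_comm _ (hlow _ (by omega)), sub_self]
      have e1 := add_mul_add_apply hmpos (1 : NC σ A) (g - 1) γ 0 hlowg (fun v _ => rfl) w hw.le
      have e2 := add_mul_add_apply hmpos γ (δ - γ) (1 : NC σ A) (g - 1) hlowd hlowg w hw.le
      have e3 : (1 : NC σ A) + (g - 1) = g := by abel
      have e4 : γ + (δ - γ) = δ := by abel
      rw [e3, add_zero, h, one_mul] at e1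
      rw [e3, e4, mul_one] at e2
      rw [e2] at e1
      obtain ⟨r, w', rfl⟩ := List.exists_cons_of_ne_nil hne
      simp only [NC.sub_apply, NC.one_cons, NC.one_nil, NC.zero_apply, hγ, mul_one, one_mul,
        sub_zero, mul_zero, add_zero] at e1
      -- e1 : γ w + (δ w - γ w) + α * g w = γ w + g w * α
      have e5 : γ (r :: w') = δ (r :: w') + (α * g (r :: w') - g (r :: w') * α) := by
        have h6 : δ (r :: w') + α * g (r :: w') = γ (r :: w') + g (r :: w') * α := by
          rw [← e1]; abel
        rw [← add_sub_assoc, h6]; abel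
      exact S.unique (hδc _) (hgp _ (by simp)) e5
  refine ⟨?_, ?_, ?_⟩
  · intro w hw hne
    rw [(key _ hw.le w rfl hne).2]
    exact S.inv_of_comm _ (hlow _ hw)
  · intro w hw
    by_cases hne : w = []
    · subst hne; rw [hδ1, hγ]
    · rw [(key _ hw.le w rfl hne).1]
      exact S.pi_of_comm _ (hlow _ hw)
  · intro w hw
    have hne : w ≠ [] := by
      intro h0; subst h0; simp at hw; omega
    exact key _ le_rfl w hw hne

/-- The second order coefficients of the conjugated series. -/
theorem conj_two (hγ : γ [] = α)
    (hg1 : g [] = 1) (hδ1 : δ [] = α) (hδc : ∀ w, α * δ w = δ w * α)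
    (hgp : ∀ w, w ≠ [] → S.pi (g w) = 0) (h : g * γ = δ * g) (s t : σ) :
    δ [s] = S.pi (γ [s]) ∧ g [s] = S.inv (γ [s]) ∧
      δ [s, t] = S.pi (γ [s, t] + S.inv (γ [s]) * γ [t]) ∧
      δ [s, t] = S.pi (γ [s, t] + S.inv (γ [s]) * (γ [t] - S.pi (γ [t]))) := by
  have h1 := (conj_lowest S (k := 1) (by norm_num) hγ (fun w hw => by
    have : w = [] := List.length_eq_zero_iff.mp (by omega)
    subst this; rw [hγ]) hg1 hδ1 hδc hgp h).2.2
  have hs := h1 [s] rfl
  have ht := h1 [t] rfl
  have hst : δ [s, t] = S.pi (γ [s, t] + S.inv (γ [s]) * γ [t]) := by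
    have e := congrArg (fun f : NC σ A => f [s, t]) h
    simp only [NC.mul_cons, NC.mul_nil, NC.ld_apply] at e
    rw [hg1, hγ, hδ1, mul_one, one_mul] at e
    -- e : g[s,t] * α + g [s] * γ [t] + γ [s,t] = δ [s,t] + δ [s] * g [t] + α * g [s,t]
    have e2 : δ [s, t] = γ [s, t] + g [s] * γ [t] - δ [s] * g [t] -
        (α * g [s, t] - g [s, t] * α) := by
      have : δ [s, t] + δ [s] * g [t] + α * g [s, t] =
          g [s, t] * α + g [s] * γ [t] + γ [s, t] := e.symm
      have h3 : δ [s, t] = (δ [s, t] + δ [s] * g [t] + α * g [s, t]) - α * g [s, t] -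
          δ [s] * g [t] := by abel
      rw [h3, this]; abel
    have e3 := congrArg S.pi e2
    rw [S.pi_of_comm _ (hδc _), map_sub, S.pi_ad, sub_zero, map_sub,
      S.comm_mul (hδc [s]), hgp [t] (by simp), mul_zero, sub_zero, hs.2] at e3
    exact e3
  refine ⟨hs.1, hs.2, hst, ?_⟩
  rw [hst, map_add, map_add, mul_sub, map_sub, S.mul_comm' (S.pi_comm (γ [t])), S.pi_inv,
    zero_mul, sub_zero]

end Props

/-! ### Stability of subrings -/

section Sub

variable {F : Type} [Field F] {A : Type} [Ring A] [Algebra F A] {α : A} (S : AdSplit F α)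

/-- A finite-dimensional subalgebra containing `α` is stable under `pi` and `inv`. -/
theorem AdSplit.mem_of_mem [CharZero F] [IsDomain A] [FiniteDimensional F A]
    (B : Subalgebra F A) (hα : α ∈ B) {x : A} (hx : x ∈ B) : S.pi x ∈ B ∧ S.inv x ∈ B := by
  let αB : B := ⟨α, hα⟩
  have T := adSplit F αB
  let xB : B := ⟨x, hx⟩
  have h1 := T.split xB
  have h2 : x = (T.pi xB : A) + (α * (T.inv xB : A) - (T.inv xB : A) * α) := by
    have := congrArg (Subtype.val) h1
    simpa using this
  have h3 : α * (T.pi xB : A) = (T.pi xB : A) * α := congrArg Subtype.val (T.pi_comm xB)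
  -- `inv` lies in the range of `ad α` on `B`, hence has zero projection
  have h4 : S.pi (T.inv xB : A) = 0 := by
    have h5 := T.split (T.inv xB)
    rw [T.pi_inv, zero_add] at h5
    have h6 : (T.inv xB : A) = α * (T.inv (T.inv xB) : A) - (T.inv (T.inv xB) : A) * α := by
      have := congrArg (Subtype.val) h5
      simpa using this
    rw [h6, S.pi_ad]
  have h7 := S.unique h3 h4 h2
  rw [← h7.1, ← h7.2]
  exact ⟨(T.pi xB).2, (T.inv xB).2⟩

variable {σ : Type} {γ g δ : NC σ A}

theorem mul_mem_left (B : Subring A) {f h : NC σ A} (w : List σ)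
    (hf : ∀ u : List σ, u.length < w.length → f u ∈ B)
    (hh : ∀ u : List σ, u.length ≤ w.length → h u ∈ B) :
    (f * h) w - f w * h [] ∈ B := by
  induction w generalizing f with
  | nil => rw [NC.mul_nil, sub_self]; exact B.zero_mem
  | cons s w ih =>
    rw [NC.mul_cons]
    have h1 := ih (f := NC.ld s f) (fun u hu => hf (s :: u) (by simpa using hu))
      (fun u hu => hh u (by simp only [List.length_cons]; omega))
    have h2 : (NC.ld s f * h) w + f [] * h (s :: w) - f (s :: w) * h [] =
        ((NC.ld s f * h) w - NC.ld s f w * h []) + f [] * h (s :: w) := by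
      rw [NC.ld_apply]; abel
    rw [h2]
    exact B.add_mem h1 (B.mul_mem (hf [] (by simp)) (hh _ le_rfl))

theorem mul_mem_mod (B : Subring A) {f h : NC σ A} (w : List σ) (hw : w ≠ [])
    (hf : ∀ u : List σ, u.length < w.length → f u ∈ B)
    (hh : ∀ u : List σ, u.length < w.length → h u ∈ B) :
    (f * h) w - f w * h [] - f [] * h w ∈ B := by
  obtain ⟨s, w, rfl⟩ := List.exists_cons_of_ne_nil hw
  rw [NC.mul_cons]
  have h1 := mul_mem_left B (f := NC.ld s f) (h := h) w
    (fun u hu => hf (s :: u) (by simpa using hu))
    (fun u hu => hh u (by simp only [List.length_cons]; omega))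
  have h2 : (NC.ld s f * h) w + f [] * h (s :: w) - f (s :: w) * h [] - f [] * h (s :: w) =
      (NC.ld s f * h) w - NC.ld s f w * h [] := by
    rw [NC.ld_apply]; abel
  rw [h2]; exact h1

/-- If all coefficients of `γ` on words shorter than `k` lie in a subring `B` stable under
`pi, inv` then so do those of `g, δ`, and on words of length `k` the coefficients are congruent
to `pi (γ w)`, `inv (γ w)` modulo `B`. -/
theorem conj_mem {k : ℕ} (B : Subring A) (hpi : ∀ x ∈ B, S.pi x ∈ B) (hinv : ∀ x ∈ B, S.inv x ∈ B)
    (hα : α ∈ B) (hγ : γ [] = α)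
    (hlow : ∀ w : List σ, w.length < k → γ w ∈ B)
    (hg1 : g [] = 1) (hδ1 : δ [] = α) (hδc : ∀ w, α * δ w = δ w * α)
    (hgp : ∀ w, w ≠ [] → S.pi (g w) = 0) (h : g * γ = δ * g) :
    (∀ w : List σ, w.length < k → g w ∈ B ∧ δ w ∈ B) ∧
    (∀ w : List σ, w.length = k → w ≠ [] → δ w - S.pi (γ w) ∈ B ∧ g w - S.inv (γ w) ∈ B) := by
  have key : ∀ m : ℕ, m ≤ k → ∀ w : List σ, w.length = m → w ≠ [] →
      (δ w - S.pi (γ w) ∈ B ∧ g w - S.inv (γ w) ∈ B) := by
    intro m
    induction m using Nat.strong_induction_on with
    | _ m ih =>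
      intro hm w hw hne
      have hlowg : ∀ v : List σ, v.length < w.length → g v ∈ B := by
        intro v hv
        by_cases hv0 : v = []
        · subst hv0; rw [hg1]; exact B.one_mem
        · have := (ih _ (by omega) (by omega) v rfl hv0).2
          have h2 := hinv _ (hlow v (by omega))
          have h3 := B.add_mem this h2
          rwa [sub_add_cancel] at h3
      have hlowd : ∀ v : List σ, v.length < w.length → δ v ∈ B := by
        intro v hv
        by_cases hv0 : v = []
        · subst hv0; rw [hδ1]; exact hα
        · have := (ih _ (by omega) (by omega) v rfl hv0).1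
          have h2 := hpi _ (hlow v (by omega))
          have h3 := B.add_mem this h2
          rwa [sub_add_cancel] at h3
      have e1 := mul_mem_mod B (f := g) (h := γ) w hne hlowg (fun u hu => hlow u (by omega))
      have e2 := mul_mem_mod B (f := δ) (h := g) w hne hlowd hlowg
      rw [hγ, hg1, one_mul] at e1
      rw [hg1, hδ1, mul_one] at e2
      have e3 := B.sub_mem e2 e1
      -- R := γ w - δ w - [α, g w] ∈ B
      set b := ((δ * g) w - δ w - α * g w) - ((g * γ) w - g w * α - γ w) with hb
      have e4 : γ w - b = δ w + (α * g w - g w * α) := by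
        rw [hb, h]; abel
      have h5 := S.unique (hδc w) (hgp w hne) e4
      constructor
      · rw [h5.1, map_sub, sub_sub_cancel_left]
        exact B.neg_mem (hpi _ e3)
      · rw [h5.2, map_sub, sub_sub_cancel_left]
        exact B.neg_mem (hinv _ e3)
  refine ⟨?_, ?_⟩
  · intro w hw
    by_cases hv0 : w = []
    · subst hv0; rw [hg1, hδ1]; exact ⟨B.one_mem, hα⟩
    · have h1 := key _ hw.le w rfl hv0
      have h2 := B.add_mem h1.1 (hpi _ (hlow w hw))
      have h3 := B.add_mem h1.2 (hinv _ (hlow w hw))
      rw [sub_add_cancel] at h2 h3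
      exact ⟨h3, h2⟩
  · intro w hw hne
    exact key _ le_rfl w hw hne

end Sub

end Conj

end Crest.Agent.R180
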