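import Crest.Agent.R180.Basic

/-!
# Row 180: conjugation normal form of a noncommutative power series (helper216)

* `mul_apply` : explicit Cauchy product formula;
* `exists_inv` : `f [] = 1` (or a unit) implies that `f` is a unit;
* `conj_centralizer` : a series with constant term `α` is conjugate to a series with all coefficients
  in the centralizer of `α`, provided `A = C(α) + [α, A]`;
* `exists_split` : `A = C(α) ⊕ [α, A]` for a finite-dimensional domain over a field of char. 0.
-/

set_option autoImplicit false

namespace Crest.Agent.R180.ConjNF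

open NC

section Mul

variable {σ A : Type} [Ring A]

/-- Cauchy product -/
theorem mul_apply (f g : NC σ A) (w : List σ) :
    (f * g) w = ∑ i ∈ Finset.range (w.length + 1), f (w.take i) * g (w.drop i) := by
  induction w generalizing f with
  | nil => simp
  | cons s w ih =>
    rw [mul_cons, ih, List.length_cons, Finset.sum_range_succ' _ (w.length + 1)]
    simp

theorem mul_apply_cons (f g : NC σ A) (s : σ) (w : List σ) :
    (f * g) (s :: w) = f [] * g (s :: w) +
      (∑ i ∈ Finset.range w.length, f ((s :: w).take (i + 1)) * g ((s :: w).drop (i + 1))) +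
      f (s :: w) * g [] := by
  rw [mul_apply, List.length_cons, Finset.sum_range_succ, Finset.sum_range_succ']
  simp only [List.take_zero, List.drop_zero]
  have h1 : (s :: w).take (w.length + 1) = s :: w := by
    rw [List.take_of_length_le]; simp
  have h2 : (s :: w).drop (w.length + 1) = [] := by
    rw [List.drop_eq_nil_iff]; simp
  rw [h1, h2]
  abel

/-- coefficients of the right inverse of a series with constant term `1` -/
noncomputable def invFun (U : List σ → A) : List σ → A
  | [] => 1
  | (s :: w) => - ∑ i : Fin (w.length + 1), U (s :: w.take i) * invFun U (w.drop i)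
termination_by w => w.length
decreasing_by
  simp only [List.length_drop, List.length_cons]
  omega

theorem invFun_nil (U : List σ → A) : invFun U [] = 1 := by rw [invFun]

theorem invFun_cons (U : List σ → A) (s : σ) (w : List σ) :
    invFun U (s :: w) = - ∑ i ∈ Finset.range (w.length + 1),
      U (s :: w.take i) * invFun U (w.drop i) := by
  rw [invFun, Finset.sum_range (fun i => U (s :: w.take i) * invFun U (w.drop i))]

theorem mul_invFun (U : NC σ A) (h : U [] = 1) : U * (⟨invFun U⟩ : NC σ A) = 1 := by
  apply ext'
  intro w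
  cases w with
  | nil => rw [mul_nil, h, one_nil]; show (1:A) * invFun U [] = 1; rw [invFun_nil, one_mul]
  | cons s w =>
    rw [mul_cons, mul_apply, h, one_mul, one_cons]
    show _ + invFun U (s :: w) = 0
    rw [invFun_cons]
    simp

/-- a series with constant term `1` is a unit -/
theorem exists_inv (U : NC σ A) (h : U [] = 1) : ∃ V : NC σ A, U * V = 1 ∧ V * U = 1 ∧ V [] = 1 := by
  have h1 := mul_invFun U h
  have hV : (⟨invFun U⟩ : NC σ A) [] = 1 := invFun_nil _
  have h2 := mul_invFun (⟨invFun U⟩ : NC σ A) hV
  set V : NC σ A := ⟨invFun U⟩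
  set W : NC σ A := ⟨invFun V⟩
  have hW : U = W := by
    calc U = U * (V * W) := by rw [h2, mul_one]
      _ = (U * V) * W := by rw [mul_assoc]
      _ = W := by rw [h1, one_mul]
  exact ⟨V, h1, by rw [hW]; exact h2, hV⟩

/-- a series whose constant term is invertible is a unit -/
theorem exists_inv' (U : NC σ A) (a : A) (h1 : U [] * a = 1) (h2 : a * U [] = 1) :
    ∃ V : NC σ A, U * V = 1 ∧ V * U = 1 ∧ V [] = a := by
  obtain ⟨V, hV1, hV2, hV3⟩ := exists_inv ((C a : NC σ A) * U) (by simp [h2])
  refine ⟨V * C a, ?_, ?_, by simp [hV3]⟩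
  · have : (C (U []) : NC σ A) * ((C a : NC σ A) * U * V) * C a = C (U []) * 1 * C a := by
      rw [hV1]
    have e1 : (C (U []) : NC σ A) * C a = 1 := by rw [← map_mul, h1, map_one]
    calc U * (V * C a) = ((C (U []) : NC σ A) * C a) * U * (V * C a) := by rw [e1, one_mul]
      _ = (C (U []) : NC σ A) * ((C a : NC σ A) * U * V) * C a := by noncomm_ring
      _ = 1 := by rw [this, mul_one, e1]
  · rw [mul_assoc, hV2]

end Mul

section Conj

variable {σ A : Type} [Ring A]

/-- simultaneous recursion for the conjugating series (first component) and the conjugated series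
(second component) -/
noncomputable def ug (α : A) (π κ : A → A) (f : List σ → A) : List σ → A × A
  | [] => (1, α)
  | (s :: w) =>
    let r := f (s :: w) + ∑ i : Fin w.length,
      ((ug α π κ f ((s :: w).take (i + 1))).1 * f ((s :: w).drop (i + 1))
        - (ug α π κ f ((s :: w).take (i + 1))).2 * (ug α π κ f ((s :: w).drop (i + 1))).1)
    (κ r, π r)
termination_by w => w.length
decreasing_by
  all_goals simp only [List.length_take, List.length_drop, List.length_cons]
  all_goals omega

/-- the rest term of the recursion -/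
noncomputable def rest (α : A) (π κ : A → A) (f : List σ → A) (s : σ) (w : List σ) : A :=
  f (s :: w) + ∑ i ∈ Finset.range w.length,
      ((ug α π κ f ((s :: w).take (i + 1))).1 * f ((s :: w).drop (i + 1))
        - (ug α π κ f ((s :: w).take (i + 1))).2 * (ug α π κ f ((s :: w).drop (i + 1))).1)

theorem ug_nil (α : A) (π κ : A → A) (f : List σ → A) : ug α π κ f [] = (1, α) := by rw [ug]

theorem ug_cons (α : A) (π κ : A → A) (f : List σ → A) (s : σ) (w : List σ) :
    ug α π κ f (s :: w) = (κ (rest α π κ f s w), π (rest α π κ f s w)) := by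
  rw [ug, rest, Finset.sum_range (fun i => ((ug α π κ f ((s :: w).take (i + 1))).1 *
    f ((s :: w).drop (i + 1)) - (ug α π κ f ((s :: w).take (i + 1))).2 *
      (ug α π κ f ((s :: w).drop (i + 1))).1))]

/-- the conjugating series -/
noncomputable def cU (α : A) (π κ : A → A) (f : NC σ A) : NC σ A := ⟨fun w => (ug α π κ f w).1⟩
/-- the conjugated series -/
noncomputable def cG (α : A) (π κ : A → A) (f : NC σ A) : NC σ A := ⟨fun w => (ug α π κ f w).2⟩

theorem cU_nil (α : A) (π κ : A → A) (f : NC σ A) : cU α π κ f [] = 1 := by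
  show (ug α π κ f []).1 = 1
  rw [ug_nil]

theorem cG_nil (α : A) (π κ : A → A) (f : NC σ A) : cG α π κ f [] = α := by
  show (ug α π κ f []).2 = α
  rw [ug_nil]

theorem rest_eq (α : A) (π κ : A → A) (f : NC σ A) (s : σ) (w : List σ) :
    rest α π κ f s w = f (s :: w) + ∑ i ∈ Finset.range w.length,
      (cU α π κ f ((s :: w).take (i + 1)) * f ((s :: w).drop (i + 1))
        - cG α π κ f ((s :: w).take (i + 1)) * cU α π κ f ((s :: w).drop (i + 1))) := rfl

theorem cU_cons (α : A) (π κ : A → A) (f : NC σ A) (s : σ) (w : List σ) :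
    cU α π κ f (s :: w) = κ (rest α π κ f s w) := by
  show (ug α π κ f (s :: w)).1 = _
  rw [ug_cons]

theorem cG_cons (α : A) (π κ : A → A) (f : NC σ A) (s : σ) (w : List σ) :
    cG α π κ f (s :: w) = π (rest α π κ f s w) := by
  show (ug α π κ f (s :: w)).2 = _
  rw [ug_cons]

/-- the fundamental identity `U f = G U` -/
theorem cU_mul (α : A) (π κ : A → A) (hs : ∀ r, r = π r + (α * κ r - κ r * α)) (f : NC σ A)
    (hf : f [] = α) : cU α π κ f * f = cG α π κ f * cU α π κ f := by
  apply ext'
  intro w
  cases w with
  | nil => simp [cU_nil, cG_nil, hf]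
  | cons s w =>
    rw [mul_apply_cons, mul_apply_cons, cU_nil, cG_nil, one_mul, mul_one, cU_cons, cG_cons, hf]
    have h' : rest α π κ f s w = f (s :: w) +
      (∑ i ∈ Finset.range w.length, cU α π κ f ((s :: w).take (i + 1)) * f ((s :: w).drop (i + 1))
       - ∑ i ∈ Finset.range w.length, cG α π κ f ((s :: w).take (i + 1)) *
          cU α π κ f ((s :: w).drop (i + 1))) := by
      rw [rest_eq, Finset.sum_sub_distrib]
    have h2 := hs (rest α π κ f s w)
    set R := rest α π κ f s w with hR
    set S1 := ∑ i ∈ Finset.range w.length,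
      cU α π κ f ((s :: w).take (i + 1)) * f ((s :: w).drop (i + 1))
    set S2 := ∑ i ∈ Finset.range w.length, cG α π κ f ((s :: w).take (i + 1)) *
          cU α π κ f ((s :: w).drop (i + 1))
    have h3 : f (s :: w) + S1 - S2 = π R + (α * κ R - κ R * α) := by
      rw [← h2, h']
      abel
    have h4 : f (s :: w) + S1 = π R + (α * κ R - κ R * α) + S2 := by rw [← h3]; abel
    rw [h4]; abel

/-- **conjugation into the centralizer** -/
theorem conj_centralizer (α : A) (hsplit : ∀ r : A, ∃ g u : A, α * g = g * α ∧
    r = g + (α * u - u * α)) (f : NC σ A) (hf : f [] = α) :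
    ∃ U V : NC σ A, U * V = 1 ∧ V * U = 1 ∧ U [] = 1 ∧ V [] = 1 ∧ (U * f * V) [] = α ∧
      ∀ w, α * (U * f * V) w = (U * f * V) w * α := by
  choose π κ h1 h2 using hsplit
  obtain ⟨V, hV1, hV2, hV3⟩ := exists_inv (cU α π κ f) (cU_nil α π κ f)
  have e : cU α π κ f * f * V = cG α π κ f := by
    rw [cU_mul α π κ h2 f hf, mul_assoc, hV1, mul_one]
  refine ⟨cU α π κ f, V, hV1, hV2, cU_nil α π κ f, hV3, ?_, ?_⟩
  · rw [e, cG_nil]
  · intro w
    rw [e]
    cases w with
    | nil => rw [cG_nil]
    | cons s w => rw [cG_cons]; exact h1 _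

/-- first order coefficients of the conjugated series -/
theorem cG_single (α : A) (π κ : A → A) (f : NC σ A) (s : σ) : cG α π κ f [s] = π (f [s]) := by
  rw [cG_cons, rest_eq]; simp

theorem cU_single (α : A) (π κ : A → A) (f : NC σ A) (s : σ) : cU α π κ f [s] = κ (f [s]) := by
  rw [cU_cons, rest_eq]; simp

/-- second order coefficients of the conjugated series -/
theorem cG_pair (α : A) (π κ : A → A) (f : NC σ A) (s t : σ) :
    cG α π κ f [s, t] = π (f [s, t] + (κ (f [s]) * f [t] - π (f [s]) * κ (f [t]))) := by
  rw [cG_cons, rest_eq]; simp [cG_single, cU_single]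

end Conj

/-! ### The splitting `A = C(α) ⊕ [α, A]` -/

section Split

open Polynomial

variable {F A : Type} [Field F] [Ring A] [Algebra F A]

/-- if `y = [α, x]` commutes with `α`, then `[f(α), x] = f'(α) y` -/
theorem aeval_commutator (α x : A) (hy : α * (α * x - x * α) = (α * x - x * α) * α) (f : F[X]) :
    aeval α f * x - x * aeval α f = aeval α (derivative f) * (α * x - x * α) := by
  induction f using Polynomial.induction_on' with
  | add p q hp hq =>
    rw [map_add, derivative_add, map_add, add_mul, mul_add, add_mul, ← hp, ← hq]; abel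
  | monomial n a =>
    have key : ∀ n : ℕ, α ^ n * x - x * α ^ n = (n : A) * (α ^ (n - 1) * (α * x - x * α)) := by
      intro n
      induction n with
      | zero => simp
      | succ n ih =>
        rcases Nat.eq_zero_or_pos n with h0 | h0
        · subst h0; simp
        · have e : α ^ (n + 1) * x - x * α ^ (n + 1)
              = α * (α ^ n * x - x * α ^ n) + (α * x - x * α) * α ^ n := by
            rw [pow_succ']; noncomm_ring
          have hc : (α * x - x * α) * α ^ n = α ^ n * (α * x - x * α) :=
            (Commute.pow_left (show Commute α (α * x - x * α) from hy) n).symm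
          rw [e, ih, hc]
          have e2 : α * ((n : A) * (α ^ (n - 1) * (α * x - x * α)))
              = (n : A) * (α ^ n * (α * x - x * α)) := by
            have hn : α ^ n = α * α ^ (n - 1) := by
              rw [← pow_succ', Nat.sub_add_cancel h0]
            rw [hn, ← mul_assoc, (Nat.cast_commute n α).eq.symm, mul_assoc, mul_assoc]
          rw [e2, Nat.add_sub_cancel, Nat.cast_succ, add_mul, one_mul]
    rw [aeval_monomial, derivative_monomial, aeval_monomial]
    have e1 : algebraMap F A a * α ^ n * x - x * (algebraMap F A a * α ^ n)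
        = algebraMap F A a * (α ^ n * x - x * α ^ n) := by
      rw [mul_sub, ← mul_assoc x, ← Algebra.commutes a x]; simp only [mul_assoc]
    rw [e1, key n, map_mul, map_natCast]
    simp only [mul_assoc]

/-- the linear map `x ↦ α x - x α` -/
def ad (F : Type) {A : Type} [Field F] [Ring A] [Algebra F A] (α : A) : A →ₗ[F] A where
  toFun x := α * x - x * α
  map_add' x y := by noncomm_ring
  map_smul' c x := by simp [smul_sub]

@[simp] theorem ad_apply (α x : A) : ad F α x = α * x - x * α := rfl

theorem disjoint_ker_range [CharZero F] [FiniteDimensional F A] [IsDomain A] (α : A) :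
    Disjoint (LinearMap.ker (ad F α)) (LinearMap.range (ad F α)) := by
  rw [Submodule.disjoint_def]
  rintro y hy ⟨x, rfl⟩
  have hint : IsIntegral F α := Algebra.IsIntegral.isIntegral α
  have hirr : Irreducible (minpoly F α) := minpoly.irreducible hint
  have hsep : (minpoly F α).Separable := hirr.separable
  have hy' : α * (α * x - x * α) = (α * x - x * α) * α := by
    have := LinearMap.mem_ker.1 hy
    simp only [ad_apply] at this
    exact sub_eq_zero.1 this
  have h := aeval_commutator (F := F) α x hy' (minpoly F α)
  rw [minpoly.aeval] at h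
  simp only [zero_mul, mul_zero, sub_zero] at h
  rcases mul_eq_zero.1 h.symm with h1 | h1
  · exfalso
    obtain ⟨a, b, hab⟩ := hsep
    have h2 := congrArg (aeval α) hab
    rw [map_add, map_mul, map_mul, minpoly.aeval, h1, mul_zero, mul_zero, add_zero, map_one] at h2
    exact zero_ne_one h2
  · simpa using h1

theorem isCompl_ker_range [CharZero F] [FiniteDimensional F A] [IsDomain A] (α : A) :
    IsCompl (LinearMap.ker (ad F α)) (LinearMap.range (ad F α)) := by
  refine ⟨disjoint_ker_range α, codisjoint_iff.2 ?_⟩
  apply Submodule.eq_top_of_disjoint _ _ _ (disjoint_ker_range α)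
  rw [add_comm]
  exact le_of_eq (LinearMap.finrank_range_add_finrank_ker (ad F α)).symm

/-- the splitting data: `π` = projection to the centralizer along `[α, A]`,
`κ` = inverse of `ad α` on `[α, A]` (and `0` on the centralizer) -/
structure SplitData (F : Type) {A : Type} [Field F] [Ring A] [Algebra F A] (α : A) where
  π : A →ₗ[F] A
  κ : A →ₗ[F] A
  split : ∀ r, r = π r + (α * κ r - κ r * α)
  comm : ∀ r, α * π r = π r * α
  π_of_comm : ∀ c, α * c = c * α → π c = c
  π_ad : ∀ x, π (α * x - x * α) = 0
  κ_of_comm : ∀ c, α * c = c * α → κ c = 0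
  κ_ad : ∀ x, κ (α * x - x * α) = x - π x
  π_κ : ∀ r, π (κ r) = 0

namespace SplitData

variable {α : A} (S : SplitData F α)
include S

theorem π_π (r : A) : S.π (S.π r) = S.π r := S.π_of_comm _ (S.comm r)

theorem κ_π (r : A) : S.κ (S.π r) = 0 := S.κ_of_comm _ (S.comm r)

/-- uniqueness of the decomposition -/
theorem eq_of_split {r g u : A} (hg : α * g = g * α) (h : r = g + (α * u - u * α)) :
    S.π r = g ∧ S.κ r = u - S.π u := by
  subst h
  rw [map_add, map_add, S.π_ad, S.κ_ad, S.π_of_comm g hg, S.κ_of_comm g hg]
  simp

theorem π_mul_left {c : A} (hc : α * c = c * α) (x : A) : S.π (c * x) = c * S.π x ∧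
    S.κ (c * x) = c * S.κ x := by
  have h1 : c * x = c * S.π x + (α * (c * S.κ x) - (c * S.κ x) * α) := by
    conv_lhs => rw [S.split x]
    rw [mul_add, mul_sub, ← mul_assoc α c, hc]
    simp only [mul_assoc]
  have h2 : α * (c * S.π x) = (c * S.π x) * α := by
    rw [← mul_assoc, hc, mul_assoc, S.comm x, mul_assoc]
  obtain ⟨h3, h4⟩ := S.eq_of_split h2 h1
  refine ⟨h3, ?_⟩
  rw [h4]
  have h5 : S.π (c * S.κ x) = 0 := by
    have h6 : c * S.κ x = 0 + (α * (c * S.κ (S.κ x)) - (c * S.κ (S.κ x)) * α) := by
      have := S.split (S.κ x)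
      rw [S.π_κ, zero_add] at this
      conv_lhs => rw [this]
      rw [zero_add, mul_sub, ← mul_assoc α c, hc]
      simp only [mul_assoc]
    exact (S.eq_of_split (by simp) h6).1
  rw [h5, sub_zero]

theorem π_mul_right {c : A} (hc : α * c = c * α) (x : A) : S.π (x * c) = S.π x * c ∧
    S.κ (x * c) = S.κ x * c := by
  have h1 : x * c = S.π x * c + (α * (S.κ x * c) - (S.κ x * c) * α) := by
    conv_lhs => rw [S.split x]
    rw [add_mul, sub_mul, mul_assoc (S.κ x) c, ← hc]
    simp only [mul_assoc]
  have h2 : α * (S.π x * c) = (S.π x * c) * α := by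
    rw [← mul_assoc, S.comm x, mul_assoc, hc, mul_assoc]
  obtain ⟨h3, h4⟩ := S.eq_of_split h2 h1
  refine ⟨h3, ?_⟩
  rw [h4]
  have h5 : S.π (S.κ x * c) = 0 := by
    have h6 : S.κ x * c = 0 + (α * (S.κ (S.κ x) * c) - (S.κ (S.κ x) * c) * α) := by
      have := S.split (S.κ x)
      rw [S.π_κ, zero_add] at this
      conv_lhs => rw [this]
      rw [zero_add, sub_mul, mul_assoc (S.κ (S.κ x)) c, ← hc]
      simp only [mul_assoc]
    exact (S.eq_of_split (by simp) h6).1
  rw [h5, sub_zero]

/-- compatibility with trace forms -/
theorem trace_π {B : Type} [AddCommGroup B] (τ : A →+ B) (hτ : ∀ x y, τ (x * y) = τ (y * x))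
    {c : A} (hc : α * c = c * α) (x : A) : τ (c * S.π x) = τ (c * x) := by
  have h : c * x = c * S.π x + (c * (α * S.κ x) - c * (S.κ x * α)) := by
    conv_lhs => rw [S.split x]
    rw [mul_add, mul_sub]
  rw [h, map_add, map_sub]
  have : τ (c * (S.κ x * α)) = τ (c * (α * S.κ x)) := by
    rw [← mul_assoc c (S.κ x) α, hτ, ← mul_assoc, hc, mul_assoc]
  rw [this, sub_self, add_zero]

end SplitData

/-- existence of the splitting, from `A = ker ⊕ range` for `ad α` -/
theorem exists_splitData_of_isCompl [FiniteDimensional F A] (α : A)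
    (hc : IsCompl (LinearMap.ker (ad F α)) (LinearMap.range (ad F α))) :
    Nonempty (SplitData F α) := by
  classical
  set T := ad F α with hT
  have hres : ∀ x ∈ LinearMap.range T, T x ∈ LinearMap.range T := fun x _ => ⟨x, rfl⟩
  have hinj : Function.Injective (T.restrict hres) := by
    rw [← LinearMap.ker_eq_bot, LinearMap.ker_eq_bot']
    rintro ⟨y, hy⟩ h0
    have h1 : T y = 0 := by
      have := congrArg Subtype.val h0
      simpa using this
    have h2 := Submodule.disjoint_def.1 hc.disjoint y (LinearMap.mem_ker.2 h1) hy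
    exact Subtype.ext h2
  set e := LinearEquiv.ofInjectiveEndo (T.restrict hres) hinj with he
  set π := (LinearMap.ker T).projection (LinearMap.range T) hc with hπ
  set p2 := (LinearMap.range T).projectionOnto (LinearMap.ker T) hc.symm with hp2
  set κ : A →ₗ[F] A := (LinearMap.range T).subtype ∘ₗ e.symm.toLinearMap ∘ₗ p2 with hκ
  have hTκ : ∀ r, T (κ r) = (p2 r : A) := by
    intro r
    have h1 : e (e.symm (p2 r)) = p2 r := e.apply_symm_apply _
    have h2 : ((e (e.symm (p2 r)) : LinearMap.range T) : A) = T ((e.symm (p2 r) : LinearMap.range T) : A) := by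
      rw [he, LinearEquiv.coe_ofInjectiveEndo]; rfl
    rw [h1] at h2
    exact h2.symm
  have hmem : ∀ c, α * c = c * α ↔ c ∈ LinearMap.ker T := by
    intro c
    rw [LinearMap.mem_ker, hT, ad_apply, sub_eq_zero]
  refine ⟨⟨π, κ, ?_, ?_, ?_, ?_, ?_, ?_, ?_⟩⟩
  · intro r
    have h1 := Submodule.projection_add_projection_eq_self hc r
    have h2 : α * κ r - κ r * α = (p2 r : A) := hTκ r
    rw [h2]
    exact h1.symm
  · intro r
    exact (hmem _).2 (Submodule.projection_apply_mem hc r)
  · intro c hcc
    exact Submodule.projection_apply_of_mem_left hc ((hmem c).1 hcc)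
  · intro x
    rw [hπ, Submodule.projection_apply_eq_zero_iff]
    exact ⟨x, rfl⟩
  · intro c hcc
    have : p2 c = 0 := by
      rw [hp2, Submodule.projectionOnto_apply_eq_zero_iff]
      exact (hmem c).1 hcc
    simp [hκ, this]
  · intro x
    -- κ (T x) = x - π x
    have h1 : x - π x ∈ LinearMap.range T := by
      rw [hπ, ← Submodule.projection_eq_self_sub_projection hc]
      exact Submodule.projection_apply_mem hc.symm x
    have h2 : T x = T (x - π x) := by
      rw [map_sub, LinearMap.mem_ker.1 (Submodule.projection_apply_mem hc x), sub_zero]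
    have h3 : p2 (T x) = e ⟨x - π x, h1⟩ := by
      have h4 : (e ⟨x - π x, h1⟩ : LinearMap.range T) = ⟨T x, ⟨x, rfl⟩⟩ := by
        apply Subtype.ext
        rw [he, LinearEquiv.coe_ofInjectiveEndo]
        show T (x - π x) = T x
        exact h2.symm
      rw [h4]
      exact Submodule.projectionOnto_apply_of_mem_left hc.symm _
    show κ (T x) = x - π x
    simp only [hκ, LinearMap.comp_apply, h3]
    show ((e.symm (e ⟨x - π x, h1⟩) : LinearMap.range T) : A) = x - π x
    rw [e.symm_apply_apply]
  · intro r
    rw [hπ, Submodule.projection_apply_eq_zero_iff]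
    exact Subtype.mem _

/-- existence of the splitting in a finite-dimensional domain over a field of characteristic `0` -/
theorem exists_splitData [CharZero F] [FiniteDimensional F A] [IsDomain A] (α : A) :
    Nonempty (SplitData F α) :=
  exists_splitData_of_isCompl α (isCompl_ker_range α)

end Split

/-! ### Normal form with coefficients in the centralizer -/

section NF

variable {σ F A : Type} [Field F] [Ring A] [Algebra F A]

/-- **normal form**: `f` with constant term `α` is conjugate to a series with coefficients in the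
centralizer of `α`; formulas for the first and second order coefficients. -/
theorem normal_form {α : A} (S : SplitData F α) (f : NC σ A) (hf : f [] = α) :
    ∃ U V : NC σ A, U * V = 1 ∧ V * U = 1 ∧ U [] = 1 ∧ V [] = 1 ∧ (U * f * V) [] = α ∧
      (∀ w, α * (U * f * V) w = (U * f * V) w * α) ∧
      (∀ s, (U * f * V) [s] = S.π (f [s])) ∧
      (∀ s t, (U * f * V) [s, t] =
        S.π (f [s, t]) + S.π (S.κ (f [s]) * (f [t] - S.π (f [t])))) := by
  obtain ⟨V, hV1, hV2, hV3⟩ := exists_inv (cU α S.π S.κ f) (cU_nil α S.π S.κ f)
  have e : cU α S.π S.κ f * f * V = cG α S.π S.κ f := by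
    rw [cU_mul α S.π S.κ S.split f hf, mul_assoc, hV1, mul_one]
  refine ⟨cU α S.π S.κ f, V, hV1, hV2, cU_nil α S.π S.κ f, hV3, ?_, ?_, ?_, ?_⟩
  · rw [e, cG_nil]
  · intro w
    rw [e]
    cases w with
    | nil => rw [cG_nil]
    | cons s w => rw [cG_cons]; exact S.comm _
  · intro s
    rw [e, cG_single]
  · intro s t
    rw [e, cG_pair, map_add, map_sub, (S.π_mul_left (S.comm (f [s])) _).1, S.π_κ, mul_zero, sub_zero,
      mul_sub, map_sub, (S.π_mul_right (S.comm (f [t])) _).1, S.π_κ, zero_mul, sub_zero]

/-- a series whose coefficients lie in the image of an injective ring hom descends -/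
theorem exists_map_eq {B : Type} [Ring B] (φ : B →+* A) (g : NC σ A)
    (hg : ∀ w, g w ∈ Set.range φ) : ∃ g' : NC σ B, NC.map φ g' = g := by
  choose c hc using hg
  exact ⟨⟨c⟩, ext' hc⟩

end NF

/-! ### Conjugation by `1 + b`, `b` of order `≥ k` -/

section Elem

variable {σ A : Type} [Ring A]

/-- **effect of a conjugation by `1 + b`** with `b` of order `≥ k ≥ 1` on a series `γ` without constant
term: nothing changes in degrees `≤ k`, and in degree `k + 1` the commutator `[b, γ₁]` is added -/
theorem conj_one_add {k : ℕ} (hk : 1 ≤ k) (γ b V : NC σ A) (hγ : γ [] = 0)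
    (hb : ∀ w : List σ, w.length < k → b w = 0) (hV' : V * (1 + b) = 1) :
    (∀ w : List σ, w.length ≤ k → ((1 + b) * γ * V) w = γ w) ∧
    (∀ w : List σ, w.length = k + 1 → ((1 + b) * γ * V) w =
      γ w + (b (w.take k) * γ (w.drop k) - γ (w.take 1) * b (w.drop 1))) := by
  set g := (1 + b) * γ * V with hg
  have h1 : (1 + b) * γ = g * (1 + b) := by
    rw [hg, mul_assoc _ V, hV', mul_one]
  have hg0 : g [] = 0 := by
    rw [hg, mul_nil, mul_nil, hγ]; simp
  have e1 : ∀ w : List σ, γ w + (b * γ) w = g w + (g * b) w := by
    intro w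
    have := congrArg (fun f : NC σ A => f w) h1
    simp only [add_mul, mul_add, one_mul, mul_one, NC.add_apply] at this
    exact this
  have small : ∀ w : List σ, w.length ≤ k → (b * γ) w = 0 ∧ (g * b) w = 0 := by
    intro w hw
    constructor
    · rw [mul_apply]
      apply Finset.sum_eq_zero
      intro i hi
      rw [Finset.mem_range] at hi
      rcases Nat.lt_or_ge i k with h | h
      · rw [hb _ (by rw [List.length_take]; omega), zero_mul]
      · have : w.drop i = [] := by rw [List.drop_eq_nil_iff]; omega
        rw [this, hγ, mul_zero]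
    · rw [mul_apply]
      apply Finset.sum_eq_zero
      intro i hi
      rcases Nat.eq_zero_or_pos i with h | h
      · subst h; simp [hg0]
      · rw [hb (w.drop i) (by rw [List.length_drop]; omega), mul_zero]
  refine ⟨fun w hw => ?_, fun w hw => ?_⟩
  · obtain ⟨h2, h3⟩ := small w hw
    have := e1 w
    rw [h2, h3, add_zero, add_zero] at this
    exact this.symm
  · have hbγ : (b * γ) w = b (w.take k) * γ (w.drop k) := by
      rw [mul_apply]
      apply Finset.sum_eq_single k
      · intro i hi hik
        rw [Finset.mem_range] at hi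
        rcases Nat.lt_or_ge i k with h | h
        · rw [hb _ (by rw [List.length_take]; omega), zero_mul]
        · have : w.drop i = [] := by rw [List.drop_eq_nil_iff]; omega
          rw [this, hγ, mul_zero]
      · intro h
        exact absurd (Finset.mem_range.2 (by omega)) h
    have hgb : (g * b) w = g (w.take 1) * b (w.drop 1) := by
      rw [mul_apply]
      apply Finset.sum_eq_single 1
      · intro i hi hik
        rcases Nat.eq_zero_or_pos i with h | h
        · subst h; simp [hg0]
        · rw [hb (w.drop i) (by rw [List.length_drop]; omega), mul_zero]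
      · intro h
        exact absurd (Finset.mem_range.2 (by omega)) h
    have hg1 : g (w.take 1) = γ (w.take 1) := by
      have hl : (w.take 1).length ≤ k := by rw [List.length_take]; omega
      obtain ⟨h2, h3⟩ := small _ hl
      have := e1 (w.take 1)
      rw [h2, h3, add_zero, add_zero] at this
      exact this.symm
    have := e1 w
    rw [hbγ, hgb, hg1] at this
    rw [← sub_eq_iff_eq_add] at this
    rw [← this]; abel

end Elem

end Crest.Agent.R180.ConjNF
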