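import Mathlib

set_option autoImplicit false

/-!
# Row 180: elementary facts on a cyclic algebra `E = ⊕_{i<N} M u^i`, `N` prime

Abstract version (no link to `Cyc`): `K ⊆ M` fields, `j : M →ₐ[K] E`, `u * j y = j (τ y) * u`.
-/

namespace Crest.Agent.R180

namespace CycAlg

/-- abstract cyclic algebra data -/
structure Dat (K M E : Type) [Field K] [Field M] [Algebra K M] [Ring E] [Algebra K E]
    (N : ℕ) where
  j : M →ₐ[K] E
  τ : M ≃ₐ[K] M
  u : E
  conj : ∀ y : M, u * j y = j (τ y) * u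
  τN : ∀ y : M, (τ ^ N) y = y
  decomp : ∀ e : E, ∃! c : Fin N → M, e = ∑ i, j (c i) * u ^ (i : ℕ)
  fix : ∀ y : M, τ y = y → ∃ c : K, algebraMap K M c = y

variable {K M E : Type} [Field K] [Field M] [Algebra K M] [Ring E] [Algebra K E] {N : ℕ}

namespace Dat

variable (C : Dat K M E N)

theorem pow_conj (m : ℕ) (y : M) : C.u ^ m * C.j y = C.j ((C.τ ^ m) y) * C.u ^ m := by
  induction m generalizing y with
  | zero => simp
  | succ m ih =>
    rw [pow_succ, mul_assoc, C.conj, ← mul_assoc, ih, mul_assoc, ← pow_succ]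
    congr 1

/-- coefficients -/
noncomputable def co (e : E) : Fin N → M := (C.decomp e).choose

theorem co_spec (e : E) : e = ∑ i, C.j (C.co e i) * C.u ^ (i : ℕ) := (C.decomp e).choose_spec.1

theorem co_unique {e : E} {c : Fin N → M} (h : e = ∑ i, C.j (c i) * C.u ^ (i : ℕ)) :
    c = C.co e := (C.decomp e).choose_spec.2 c h

theorem co_sum (c : Fin N → M) : C.co (∑ i, C.j (c i) * C.u ^ (i : ℕ)) = c :=
  (C.co_unique rfl).symm

theorem co_add (e f : E) : C.co (e + f) = C.co e + C.co f := by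
  symm
  apply C.co_unique
  conv_lhs => rw [C.co_spec e, C.co_spec f]
  rw [← Finset.sum_add_distrib]
  exact Finset.sum_congr rfl fun i _ => by rw [Pi.add_apply, map_add, add_mul]

theorem co_smulM (y : M) (e : E) : C.co (C.j y * e) = fun i => y * C.co e i := by
  symm
  apply C.co_unique
  conv_lhs => rw [C.co_spec e]
  rw [Finset.mul_sum]
  exact Finset.sum_congr rfl fun i _ => by rw [map_mul, mul_assoc]

theorem co_smul (k : K) (e : E) : C.co (k • e) = k • C.co e := by
  have h := C.co_smulM (algebraMap K M k) e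
  rw [AlgHom.commutes, ← Algebra.smul_def] at h
  rw [h]
  ext i
  rw [Pi.smul_apply, Algebra.smul_def]

/-- the coefficients as a `K`-linear equivalence -/
noncomputable def coEquiv : E ≃ₗ[K] (Fin N → M) where
  toFun := C.co
  map_add' := C.co_add
  map_smul' := C.co_smul
  invFun c := ∑ i, C.j (c i) * C.u ^ (i : ℕ)
  left_inv e := (C.co_spec e).symm
  right_inv c := C.co_sum c

@[simp] theorem coEquiv_apply (e : E) : C.coEquiv e = C.co e := rfl

theorem co_eq_zero_iff (e : E) : C.co e = 0 ↔ e = 0 :=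
  C.coEquiv.map_eq_zero_iff

theorem co_j [NeZero N] (y : M) : C.co (C.j y) = Pi.single 0 y := by
  symm
  apply C.co_unique
  rw [Finset.sum_eq_single 0]
  · simp
  · intro i _ hi; simp [hi]
  · simp

theorem co_mul_j (e : E) (y : M) : C.co (e * C.j y) = fun i => C.co e i * (C.τ ^ (i : ℕ)) y := by
  symm
  apply C.co_unique
  conv_lhs => rw [C.co_spec e]
  rw [Finset.sum_mul]
  refine Finset.sum_congr rfl fun i _ => ?_
  rw [mul_assoc, C.pow_conj, map_mul, ← mul_assoc]

/-- commutator with an element of `M` -/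
theorem co_comm_j (e : E) (y : M) :
    C.co (e * C.j y - C.j y * e) = fun i => C.co e i * ((C.τ ^ (i : ℕ)) y - y) := by
  have h := C.coEquiv.map_sub (e * C.j y) (C.j y * e)
  change C.co _ = C.co _ - C.co _ at h
  rw [h, C.co_mul_j, C.co_smulM]
  funext i
  change C.co e i * (C.τ ^ (i : ℕ)) y - y * C.co e i = _
  ring

/-- a power of `τ` prime to `N` has the same fixed field -/
theorem fix_pow (hN : N.Prime) {m : ℕ} (hm0 : 0 < m) (hmN : m < N) {y : M}
    (h : (C.τ ^ m) y = y) : ∃ c : K, algebraMap K M c = y := by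
  apply C.fix
  have hcop : Nat.Coprime m N := (Nat.coprime_of_lt_prime hm0.ne' hmN hN).symm
  obtain ⟨a, -, ha⟩ := Nat.exists_mul_mod_eq_one_of_coprime hcop hN.one_lt
  have h1 : ∀ a : ℕ, (C.τ ^ (m * a)) y = y := by
    intro a
    induction a with
    | zero => simp
    | succ a ih =>
      rw [Nat.mul_succ, pow_add]
      change (C.τ ^ (m * a)) ((C.τ ^ m) y) = y
      rw [h, ih]
  have h2 : ∀ b : ℕ, ∀ y, (C.τ ^ (N * b)) y = y := by
    intro b
    induction b with
    | zero => simp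
    | succ b ih =>
      intro y
      rw [Nat.mul_succ, pow_add]
      change (C.τ ^ (N * b)) ((C.τ ^ N) y) = y
      rw [C.τN, ih]
  have h3 := h1 a
  have h4 : m * a = 1 + N * (m * a / N) := by
    have := Nat.mod_add_div (m * a) N
    rw [ha] at this
    exact this.symm
  rw [h4, pow_add, pow_one] at h3
  change C.τ ((C.τ ^ (N * (m * a / N))) y) = y at h3
  rw [h2] at h3
  exact h3

/-- the centralizer of a generator of `M` is `M` -/
theorem mem_range_of_commute (hN : N.Prime) (l₀ : M) (hl : ¬ ∃ c : K, algebraMap K M c = l₀)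
    (e : E) (he : e * C.j l₀ = C.j l₀ * e) : ∃ y : M, e = C.j y := by
  have : NeZero N := ⟨hN.ne_zero⟩
  have h1 := C.co_comm_j e l₀
  rw [he, sub_self, (C.co_eq_zero_iff 0).mpr rfl] at h1
  refine ⟨C.co e 0, ?_⟩
  conv_lhs => rw [C.co_spec e]
  rw [Finset.sum_eq_single 0]
  · simp
  · intro i _ hi
    have h2 := congrFun h1 i
    simp only [Pi.zero_apply] at h2
    rcases mul_eq_zero.mp h2.symm with h3 | h3
    · rw [h3, map_zero, zero_mul]
    · exfalso
      apply hl
      refine C.fix_pow hN (m := (i : ℕ)) ?_ i.2 (sub_eq_zero.mp h3)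
      exact Nat.pos_of_ne_zero fun h => hi (Fin.ext h)
  · simp

/-- `∑ [a_m, u^m] = 0` with `a_m ∈ M` forces `a_m ∈ K` for `m ≠ 0`. -/
theorem mem_of_sum_comm (hN : N.Prime) (a : Fin N → M)
    (h : ∑ m, (C.j (a m) * C.u ^ (m : ℕ) - C.u ^ (m : ℕ) * C.j (a m)) = 0) (m : Fin N)
    (hm : (m : ℕ) ≠ 0) : ∃ c : K, algebraMap K M c = a m := by
  have h1 : ∑ m, C.j (a m - (C.τ ^ (m : ℕ)) (a m)) * C.u ^ (m : ℕ) = 0 := by
    rw [← h]
    refine Finset.sum_congr rfl fun i _ => ?_
    rw [C.pow_conj, map_sub, sub_mul]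
  have h2 := C.co_sum (fun m => a m - (C.τ ^ (m : ℕ)) (a m))
  rw [h1, (C.co_eq_zero_iff 0).mpr rfl] at h2
  have h3 := congrFun h2 m
  exact C.fix_pow hN (Nat.pos_of_ne_zero hm) m.2 (sub_eq_zero.mp h3.symm).symm

/-- the trace form `e ↦ Tr_{M/K} (c_0 e)` composed with any `τ`-invariant functional -/
noncomputable def tr [NeZero N] (ψ : M →ₗ[K] K) : E →ₗ[K] K :=
  ψ ∘ₗ (LinearMap.proj (0 : Fin N)) ∘ₗ C.coEquiv.toLinearMap

theorem tr_apply [NeZero N] (ψ : M →ₗ[K] K) (e : E) : C.tr ψ e = ψ (C.co e 0) := rfl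

end Dat

end CycAlg

end Crest.Agent.R180
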