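import Crest.Agent.R180.TwistTensor

set_option autoImplicit false
set_option linter.unusedSectionVars false

/-!
# Row 180: the generic cyclic algebra inside twisted Laurent series

`L₀` a field over `F`, `σ` an automorphism of exact order `N`; `E = TL σ = L₀((y; σ))`,
`L = L₀((T))`, `T = y ^ N`, `F₁` = fixed field of `σ` on `L`.
-/

namespace Crest.Agent.R180

noncomputable section

open TensorProduct HahnSeries

namespace CycC

/-- Laurent series (type synonym, to control the instances) -/
def LS (R : Type) [Zero R] : Type := HahnSeries ℤ R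

namespace LS
variable {R : Type} [Field R]

instance instField : Field (LS R) := inferInstanceAs (Field (HahnSeries ℤ R))

/-- coefficients -/
def co (x : LS R) (n : ℤ) : R := HahnSeries.coeff (x : HahnSeries ℤ R) n

/-- constants -/
def C : R →+* LS R := (HahnSeries.C : R →+* HahnSeries ℤ R)

/-- as a Hahn series -/
def toH : LS R ≃+* HahnSeries ℤ R := RingEquiv.refl _

@[simp] theorem coeff_toH (x : LS R) (n : ℤ) : (toH x).coeff n = x.co n := rfl

theorem ext {x y : LS R} (h : ∀ n, x.co n = y.co n) : x = y := HahnSeries.ext (funext h)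

@[simp] theorem co_zero (n : ℤ) : (0 : LS R).co n = 0 := rfl
@[simp] theorem co_add (x y : LS R) (n : ℤ) : (x + y).co n = x.co n + y.co n := rfl

theorem co_C (b : R) (n : ℤ) : (C b).co n = if n = 0 then b else 0 := by
  change (HahnSeries.C b : HahnSeries ℤ R).coeff n = _
  rw [HahnSeries.C_apply]
  by_cases h : n = 0
  · subst h; simp
  · rw [HahnSeries.coeff_single_of_ne h, if_neg h]

/-- monomials -/
def mon (k : ℤ) (b : R) : LS R := (HahnSeries.single k b : HahnSeries ℤ R)

theorem co_mon (k : ℤ) (b : R) (n : ℤ) : (mon k b).co n = if n = k then b else 0 := by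
  change (HahnSeries.single k b : HahnSeries ℤ R).coeff n = _
  by_cases h : n = k
  · subst h; simp
  · rw [HahnSeries.coeff_single_of_ne h, if_neg h]

theorem mon_mul (k l : ℤ) (b c : R) : mon k b * mon l c = mon (k + l) (b * c) :=
  HahnSeries.single_mul_single

theorem mon_pow (k : ℤ) (b : R) (n : ℕ) : mon k b ^ n = mon (n * k) (b ^ n) := by
  induction n with
  | zero => rw [pow_zero, pow_zero, Nat.cast_zero, zero_mul]; rfl
  | succ n ih =>
    rw [pow_succ, ih, mon_mul, pow_succ]
    congr 1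
    push_cast; ring

theorem C_eq_mon (b : R) : C b = mon 0 b := rfl

instance instAlgebra {F : Type} [Field F] [Algebra F R] : Algebra F (LS R) :=
  RingHom.toAlgebra ((C : R →+* LS R).comp (algebraMap F R))

theorem algebraMap_eq {F : Type} [Field F] [Algebra F R] (c : F) :
    algebraMap F (LS R) c = C (algebraMap F R c) := rfl

end LS

variable {F L0 : Type} [Field F] [Field L0] [Algebra F L0]

/-- coefficientwise action on Laurent series -/
def tau0 (σ : L0 ≃ₐ[F] L0) : LS L0 →ₐ[F] LS L0 where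
  toFun x := HahnSeries.map (x : HahnSeries ℤ L0) (σ : L0 →+ L0)
  map_one' := by
    apply LS.ext; intro n
    change σ ((1 : HahnSeries ℤ L0).coeff n) = (1 : HahnSeries ℤ L0).coeff n
    rw [HahnSeries.coeff_one]
    split_ifs <;> simp
  map_zero' := by
    apply LS.ext; intro n
    change σ 0 = _
    simp
  map_add' x y := by
    apply LS.ext; intro n
    change σ (x.co n + y.co n) = σ (x.co n) + σ (y.co n)
    simp
  map_mul' x y := HahnSeries.map_mul (R := L0) (S := L0) ((σ : L0 →+* L0) : L0 →ₙ+* L0)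
  commutes' c := by
    apply LS.ext; intro n
    change σ ((LS.C (algebraMap F L0 c) : LS L0).co n) = (LS.C (algebraMap F L0 c) : LS L0).co n
    rw [LS.co_C]
    split_ifs <;> simp

@[simp] theorem coeff_tau0 (σ : L0 ≃ₐ[F] L0) (x : LS L0) (n : ℤ) :
    (tau0 σ x).co n = σ (x.co n) := rfl

/-- coefficientwise action on Laurent series, as a group hom -/
def tau : (L0 ≃ₐ[F] L0) →* (LS L0 ≃ₐ[F] LS L0) where
  toFun σ := AlgEquiv.ofAlgHom (tau0 σ) (tau0 σ⁻¹)
    (by
      apply AlgHom.ext; intro x; apply LS.ext; intro n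
      simp only [AlgHom.comp_apply, coeff_tau0, AlgHom.id_apply]
      rw [← AlgEquiv.mul_apply, mul_inv_cancel]; rfl)
    (by
      apply AlgHom.ext; intro x; apply LS.ext; intro n
      simp only [AlgHom.comp_apply, coeff_tau0, AlgHom.id_apply]
      rw [← AlgEquiv.mul_apply, inv_mul_cancel]; rfl)
  map_one' := by
    ext x
    apply LS.ext; intro n
    rfl
  map_mul' σ σ' := by
    ext x
    apply LS.ext; intro n
    rfl

@[simp] theorem coeff_tau (σ : L0 ≃ₐ[F] L0) (x : LS L0) (n : ℤ) :
    (tau σ x).co n = σ (x.co n) := rfl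

variable (σ : L0 ≃ₐ[F] L0)

open Twist

/-- multiplication is untwisted if the left factor lives in degrees acting trivially -/
theorem mk_mul_left (f g : HahnSeries ℤ L0) (hf : ∀ i, f.coeff i ≠ 0 → σ ^ i = 1) :
    mk σ f * mk σ g = mk σ (f * g) := by
  apply sc_ext; intro n
  have h1 : ∀ f : HahnSeries ℤ L0, (mk σ f).1.support ⊆ f.support := by
    intro f k hk
    rw [HahnSeries.mem_support] at hk ⊢
    intro h
    apply hk
    rw [← sc_eq_zero_iff, sc_mk, h]
  rw [sc_mul' σ _ _ f.isPWO_support g.isPWO_support (h1 f) (h1 g), sc_mk, HahnSeries.coeff_mul]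
  refine Finset.sum_congr rfl fun ij hij => ?_
  rw [sc_mk, sc_mk]
  simp only [Finset.mem_antidiagonal] at hij
  rw [hf ij.1 hij.1]; rfl

/-- multiplication is untwisted if the right factor has fixed coefficients -/
theorem mk_mul_right (f g : HahnSeries ℤ L0) (hg : ∀ i, σ (g.coeff i) = g.coeff i) :
    mk σ f * mk σ g = mk σ (f * g) := by
  have hz : ∀ (k : ℤ) (b : L0), σ b = b → (σ ^ k) b = b := by
    intro k b hb
    have hpow : ∀ n : ℕ, (σ ^ n) b = b := by
      intro n
      induction n with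
      | zero => rfl
      | succ n ih => rw [pow_succ, AlgEquiv.mul_apply, hb, ih]
    obtain ⟨n, rfl | rfl⟩ := k.eq_nat_or_neg
    · rw [zpow_natCast, hpow]
    · rw [zpow_neg, zpow_natCast]
      apply (σ ^ n).injective
      rw [← AlgEquiv.mul_apply, mul_inv_cancel, hpow]; rfl
  apply sc_ext; intro n
  have h1 : ∀ f : HahnSeries ℤ L0, (mk σ f).1.support ⊆ f.support := by
    intro f k hk
    rw [HahnSeries.mem_support] at hk ⊢
    intro h
    apply hk
    rw [← sc_eq_zero_iff, sc_mk, h]
  rw [sc_mul' σ _ _ f.isPWO_support g.isPWO_support (h1 f) (h1 g), sc_mk, HahnSeries.coeff_mul]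
  refine Finset.sum_congr rfl fun ij hij => ?_
  rw [sc_mk, sc_mk, hz _ _ (hg _)]

theorem mk_add (f g : HahnSeries ℤ L0) : mk σ f + mk σ g = mk σ (f + g) := by
  apply sc_ext; intro n
  rw [sc_add, sc_mk, sc_mk, sc_mk, HahnSeries.coeff_add]

variable (N : ℕ) [NeZero N]

/-- `x(T) ↦ x(y^N)` on untwisted series -/
def spread : HahnSeries ℤ L0 →+* HahnSeries ℤ L0 :=
  HahnSeries.embDomainRingHom (AddMonoidHom.mulLeft (N : ℤ))
    (by
      intro a b h
      have h' : (N : ℤ) * a = N * b := h
      exact mul_left_cancel₀ (by exact_mod_cast NeZero.ne N) h')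
    (by
      intro a b
      change (N : ℤ) * a ≤ N * b ↔ a ≤ b
      exact mul_le_mul_iff_right₀ (by exact_mod_cast NeZero.pos N))

theorem coeff_spread (x : HahnSeries ℤ L0) (n : ℤ) :
    (spread (L0 := L0) N x).coeff n = if (N : ℤ) ∣ n then x.coeff (n / N) else 0 := by
  by_cases h : (N : ℤ) ∣ n
  · obtain ⟨k, rfl⟩ := h
    rw [if_pos (dvd_mul_right _ _), Int.mul_ediv_cancel_left _ (by exact_mod_cast NeZero.ne N)]
    exact HahnSeries.embDomain_coeff
  · rw [if_neg h]
    apply HahnSeries.embDomain_of_notMem_range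
    rintro ⟨k, hk⟩
    apply h
    exact ⟨k, hk.symm⟩

variable (hσ : ∀ k : ℤ, (N : ℤ) ∣ k → σ ^ k = 1)

include hσ in
theorem spread_supp (x : HahnSeries ℤ L0) (i : ℤ) (hi : (spread (L0 := L0) N x).coeff i ≠ 0) :
    σ ^ i = 1 := by
  apply hσ
  by_contra h
  rw [coeff_spread, if_neg h] at hi
  exact hi rfl

/-- the inclusion `L → E` -/
def jR : LS L0 →+* TL σ where
  toFun x := mk σ (spread N (LS.toH x))
  map_one' := by
    rw [map_one, map_one]
    apply sc_ext; intro k
    rw [sc_mk, ← yp_zero, sc_yp, HahnSeries.coeff_one]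
    by_cases h : k = 0 <;> simp [h]
  map_zero' := by
    rw [map_zero, map_zero]
    apply sc_ext; intro k; simp
  map_add' x y := by rw [map_add, map_add, mk_add]
  map_mul' x y := by
    rw [map_mul, map_mul, mk_mul_left]
    exact fun i hi => spread_supp σ N hσ _ i hi

theorem jR_apply (x : LS L0) : jR σ N hσ x = mk σ (spread N (LS.toH x)) := rfl

theorem sc_jR (x : LS L0) (n : ℤ) :
    sc σ (jR σ N hσ x) n = if (N : ℤ) ∣ n then x.co (n / N) else 0 := by
  rw [jR_apply, sc_mk, coeff_spread]; rfl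

theorem sc_jR_mul (x : LS L0) (k : ℤ) : sc σ (jR σ N hσ x) (N * k) = x.co k := by
  rw [sc_jR, if_pos (dvd_mul_right _ _),
    Int.mul_ediv_cancel_left _ (by exact_mod_cast NeZero.ne N)]

theorem jR_injective : Function.Injective (jR σ N hσ) := RingHom.injective _

theorem jR_mon (k : ℤ) (b : L0) : jR σ N hσ (LS.mon k b) = ι σ b * yp σ (N * k) := by
  apply sc_ext; intro n
  rw [sc_jR, sc_ι_mul, sc_yp]
  by_cases h : (N : ℤ) ∣ n
  · obtain ⟨l, rfl⟩ := h
    rw [if_pos (dvd_mul_right _ _), Int.mul_ediv_cancel_left _ (by exact_mod_cast NeZero.ne N),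
      LS.co_mon]
    by_cases hl : l = k
    · subst hl; simp
    · rw [if_neg hl, if_neg, mul_zero]
      intro h'
      exact hl (mul_left_cancel₀ (by exact_mod_cast NeZero.ne N) h')
  · rw [if_neg h, if_neg, mul_zero]
    rintro rfl
    exact h (dvd_mul_right _ _)

theorem jR_C (b : L0) : jR σ N hσ (LS.C b) = ι σ b := by
  rw [LS.C_eq_mon, jR_mon]; simp

/-- fixed series are central -/
theorem jR_commutes (c : LS L0) (hc : tau σ c = c) (x : TL σ) :
    jR σ N hσ c * x = x * jR σ N hσ c := by
  have h1 : ∀ i, σ ((spread (L0 := L0) N (LS.toH c)).coeff i) =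
      (spread (L0 := L0) N (LS.toH c)).coeff i := by
    intro i
    rw [coeff_spread]
    split_ifs
    · rw [LS.coeff_toH, ← coeff_tau, hc]
    · simp
  rw [jR_apply]
  conv_lhs => rw [← mk_ser σ x]
  conv_rhs => rw [← mk_ser σ x]
  rw [mk_mul_left σ _ _ (fun i hi => spread_supp σ N hσ _ i hi), mk_mul_right σ _ _ h1, mul_comm]

/-- `y f(T) = (σ f)(T) y` -/
theorem yp_mul_jR (x : LS L0) :
    yp σ 1 * jR σ N hσ x = jR σ N hσ (tau σ x) * yp σ 1 := by
  apply sc_ext; intro n
  rw [sc_yp_mul, sc_mul_yp, sc_jR, sc_jR]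
  split_ifs
  · rw [coeff_tau, zpow_one]
  · simp

/-- the fixed field -/
def F1 : Subfield (LS L0) :=
  FixedPoints.subfield (Subgroup.zpowers (tau σ)) (LS L0)

theorem mem_F1 (x : LS L0) : x ∈ F1 σ ↔ tau σ x = x := by
  constructor
  · intro h
    exact h ⟨tau σ, Subgroup.mem_zpowers _⟩
  · intro h g
    obtain ⟨g, hg⟩ := g
    obtain ⟨k, rfl⟩ := Subgroup.mem_zpowers_iff.mp hg
    change ((tau σ) ^ k) x = x
    have hpow : ∀ n : ℕ, ((tau σ) ^ n) x = x := by
      intro n
      induction n with
      | zero => rfl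
      | succ n ih => rw [pow_succ, AlgEquiv.mul_apply, h, ih]
    obtain ⟨n, rfl | rfl⟩ := k.eq_nat_or_neg
    · rw [zpow_natCast, hpow]
    · rw [zpow_neg, zpow_natCast]
      apply ((tau σ) ^ n).injective
      rw [← AlgEquiv.mul_apply, mul_inv_cancel, hpow]; rfl

variable (hf : ∀ k : ℤ, σ ^ k = 1 → (N : ℤ) ∣ k)

theorem tau_injective : Function.Injective (tau (F := F) (L0 := L0)) := by
  intro σ σ' h
  ext b
  have := congrArg (fun τ => (τ (LS.C b)).co 0) h
  simpa [LS.co_C] using this

include hσ hf in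
theorem orderOf_tau : orderOf (tau σ) = N := by
  rw [orderOf_injective _ tau_injective]
  rw [orderOf_eq_iff (NeZero.pos N)]
  constructor
  · have := hσ N (dvd_refl _)
    rwa [zpow_natCast] at this
  · intro m hm hm0 h
    have := hf m (by rw [zpow_natCast]; exact h)
    have h2 : N ∣ m := by exact_mod_cast this
    exact absurd (Nat.le_of_dvd hm0 h2) (not_le.mpr hm)

include hσ hf in
theorem finite_G : Finite (Subgroup.zpowers (tau σ)) := by
  apply Nat.finite_of_card_ne_zero
  rw [Nat.card_zpowers, orderOf_tau σ N hσ hf]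
  exact NeZero.ne N

include hσ hf in
theorem finrank_L : Module.finrank (F1 σ) (LS L0) = N := by
  have := finite_G σ N hσ hf
  have : Fintype (Subgroup.zpowers (tau σ)) := Fintype.ofFinite _
  have h := FixedPoints.finrank_eq_card (Subgroup.zpowers (tau σ)) (LS L0)
  rw [Fintype.card_eq_nat_card, Nat.card_zpowers, orderOf_tau σ N hσ hf] at h
  exact h

include hσ hf in
theorem finite_L : Module.Finite (F1 σ) (LS L0) := by
  have := finite_G σ N hσ hf
  exact inferInstanceAs (Module.Finite
    (FixedPoints.subfield (Subgroup.zpowers (tau σ)) (LS L0)) (LS L0))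

/-- `F → F₁` -/
instance algF1 : Algebra F (F1 σ) :=
  RingHom.toAlgebra ((algebraMap F (LS L0)).codRestrict (F1 σ) (fun c => by
    rw [mem_F1]; exact (tau σ).commutes c))

instance towerF1 : IsScalarTower F (F1 σ) (LS L0) :=
  IsScalarTower.of_algebraMap_eq fun _ => rfl

/-- `E` as an `F₁`-algebra -/
@[implicit_reducible]
def algE : Algebra (F1 σ) (TL σ) :=
  RingHom.toAlgebra' ((jR σ N hσ).comp (F1 σ).subtype)
    (fun c x => jR_commutes σ N hσ c.1 ((mem_F1 σ _).mp c.2) x)

end CycC

end

end Crest.Agent.R180
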