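import Crest.Agent.R180.Move

set_option autoImplicit false
noncomputable section
namespace Crest.Agent.R180

/-- Generic cyclic algebra of degree `N` over `A` with generic elements indexed by `I`. -/
structure Cyc (A : DA) (N : ℕ) (I : Type) extends Adm A where
  L : Type
  [fL : Field L]
  [aL : Algebra F1 L]
  [aL' : Algebra A.F L]
  [twL : IsScalarTower A.F F1 L]
  [fdL : FiniteDimensional F1 L]
  finrankL : Module.finrank F1 L = N
  j : L →ₐ[F1] E
  τ : L ≃ₐ[F1] L
  u : E
  u' : E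
  uu' : u * u' = 1
  u'u : u' * u = 1
  T : F1
  T_ne : T ≠ 0
  uN : u ^ N = algebraMap F1 E T
  conj : ∀ y : L, u * j y = j (τ y) * u
  τN : ∀ y : L, (τ ^ N) y = y
  /-- `E = ⊕_{i<N} L u^i` -/
  decomp : ∀ e : E, ∃! c : Fin N → L, e = ∑ i, j (c i) * u ^ (i : ℕ)
  fix : ∀ y : L, τ y = y → ∃ c : F1, algebraMap F1 L c = y
  gen : I → L
  /-- monomials in the conjugates of the generic elements, times powers of `T`, are independent -/
  indep : LinearIndependent A.F (fun p : ℕ × ((I × Fin N) →₀ ℕ) =>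
    (algebraMap F1 L T) ^ p.1 * p.2.prod fun is n => ((τ ^ (is.2 : ℕ)) (gen is.1)) ^ n)

attribute [instance] Cyc.fL Cyc.aL Cyc.aL' Cyc.twL Cyc.fdL

end Crest.Agent.R180
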