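import Crest.Agent.R180.CycGen
import Crest.Agent.R180.CycDef

set_option autoImplicit false

/-!
# Row 180, module G: `exists_cyc`, `exists_trivial`
-/

namespace Crest.Agent.R180

noncomputable section

open TensorProduct

open CycC in
/-- the model of the generic cyclic algebra -/
def cycModel (A : DA) (N : ℕ) [NeZero N] (I : Type) : Cyc A N I :=
  let d := genDat A.F I N
  { F1 := d.K
    E := d.E
    L := LS (GenField.RF A.F (Option I × ZMod N))
    finrankL := finrank_L' d
    j := d.j
    τ := d.τ
    u := d.u
    u' := d.u'
    uu' := uu' d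
    u'u := u'u d
    T := d.T
    T_ne := T_ne d
    uN := uN d
    conj := conj d
    τN := τN d
    decomp := decomp d
    fix := fix d
    gen := gen A.F I N
    indep := indep A.F I N }

theorem exists_cyc (A : DA) (N : ℕ) (hN : 1 ≤ N) (I : Type) [Finite I] : Nonempty (Cyc A N I) := by
  have : NeZero N := ⟨by omega⟩
  exact ⟨cycModel A N I⟩

theorem isDomain_trivial (A : DA) : IsDomain (A.F ⊗[A.F] A.D) :=
  (Algebra.TensorProduct.lid A.F A.D).toMulEquiv.isDomain A.D

/-- the trivial extension `E = F1 = F` -/
def trivialAdm (A : DA) : Adm A :=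
  have : IsDomain (A.F ⊗[A.F] A.D) := isDomain_trivial A
  { F1 := A.F, E := A.F }

/-- the trivial extension `E = F1 = F` -/
theorem exists_trivial (A : DA) : ∃ M : Adm A,
    Function.Bijective (algebraMap A.F M.F1) ∧ Function.Bijective (algebraMap M.F1 M.E) :=
  ⟨trivialAdm A, Function.bijective_id, Function.bijective_id⟩

end

end Crest.Agent.R180
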