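import Crest.Agent.R180.CycGConstr

set_option autoImplicit false
set_option linter.unusedSectionVars false

/-!
# Row 180, module G: facts on generic cyclic algebras `CycG K N I`

* `finrank_E`, `coefE` (coordinates), `pow_conj`
* `gen_conj_ne` : the conjugates of a generic element are distinct
* `adjoin_gen`, `indep_pow`, `mem_span_of_commute`, `adjoin_gen_u`
* `fix_pow` : `N` prime, `0 < m < N`, `τ^m y = y ⇒ y ∈ K₁`
* `exists_regular_pair`, `exists_triv`
-/

namespace Crest.Agent.R180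

noncomputable section

open TensorProduct Finset

namespace CycG

variable {K : Type} [Field K] {N : ℕ} {I : Type} (M : CycG K N I)

/-- the coordinates of `E = ⊕ L u^i` -/
def coefE : (Fin N → M.L) ≃ₗ[M.K₁] M.E :=
  LinearEquiv.ofBijective
    { toFun := fun c => ∑ i : Fin N, M.j (c i) * M.u ^ (i : ℕ)
      map_add' := fun a b => by
        simp only [Pi.add_apply, map_add, add_mul, Finset.sum_add_distrib]
      map_smul' := fun r a => by
        simp only [Pi.smul_apply, map_smul, smul_mul_assoc, Finset.smul_sum, RingHom.id_apply] }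
    ⟨fun a b hab => by
        obtain ⟨c, _, hu⟩ := M.decomp (∑ i : Fin N, M.j (a i) * M.u ^ (i : ℕ))
        exact (hu a rfl).trans (hu b hab).symm,
      fun e => by
        obtain ⟨c, hc, _⟩ := M.decomp e
        exact ⟨c, hc.symm⟩⟩

theorem coefE_apply (c : Fin N → M.L) :
    M.coefE c = ∑ i : Fin N, M.j (c i) * M.u ^ (i : ℕ) := rfl

theorem finrank_E : Module.finrank M.K₁ M.E = N * N := by
  rw [← M.coefE.finrank_eq, Module.finrank_pi_fintype, Finset.sum_const, M.finrankL]
  simp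

theorem j_injective : Function.Injective M.j := RingHom.injective M.j.toRingHom

theorem pow_conj (n : ℕ) (y : M.L) : M.u ^ n * M.j y = M.j ((M.τ ^ n) y) * M.u ^ n := by
  induction n with
  | zero => simp
  | succ n ih =>
    rw [pow_succ', mul_assoc, ih, ← mul_assoc, M.conj, pow_succ', mul_assoc]
    rfl

/-- `[j a, j b u^n] = j ((a - τ^n a) b) u^n` -/
theorem comm_pow (a b : M.L) (n : ℕ) : M.j a * (M.j b * M.u ^ n) - (M.j b * M.u ^ n) * M.j a =
    M.j ((a - (M.τ ^ n) a) * b) * M.u ^ n := by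
  rw [mul_assoc (M.j b), M.pow_conj, ← mul_assoc, ← mul_assoc, ← map_mul, ← map_mul, ← sub_mul,
    ← map_sub]
  congr 2
  ring

theorem u_ne_zero : M.u ≠ 0 := by
  intro h
  have := M.uu'
  rw [h, zero_mul] at this
  exact zero_ne_one this

theorem indep_value₁ (a : I × Fin N) :
    (fun p : ℕ × ((I × Fin N) →₀ ℕ) => (algebraMap M.K₁ M.L M.T) ^ p.1 *
      p.2.prod fun is n => ((M.τ ^ (is.2 : ℕ)) (M.gen is.1)) ^ n)
      (0, Finsupp.single a 1) = (M.τ ^ (a.2 : ℕ)) (M.gen a.1) := by
  classical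
  simp only [pow_zero, one_mul]
  rw [Finsupp.prod_single_index (by simp), pow_one]

/-- the conjugates of a generic element are distinct -/
theorem gen_conj_ne (i : I) (k : ℕ) (hk0 : 0 < k) (hk : k < N) :
    (M.τ ^ k) (M.gen i) ≠ M.gen i := by
  classical
  have hN : 0 < N := by omega
  intro h
  have h1 := M.indep_value₁ (i, ⟨k, hk⟩)
  have h2 := M.indep_value₁ (i, ⟨0, hN⟩)
  have h3 := M.indep.injective (a₁ := (0, Finsupp.single (i, (⟨k, hk⟩ : Fin N)) 1))
    (a₂ := (0, Finsupp.single (i, (⟨0, hN⟩ : Fin N)) 1)) (by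
      refine h1.trans (Eq.trans ?_ h2.symm)
      simp only [pow_zero, AlgEquiv.one_apply]
      exact h)
  have h4 := DFunLike.congr_fun (congrArg Prod.snd h3) (i, (⟨k, hk⟩ : Fin N))
  simp only [Finsupp.single_eq_same] at h4
  rw [Finsupp.single_eq_of_ne (by
    intro h5
    have h6 := congrArg (fun x : I × Fin N => (x.2 : ℕ)) h5
    simp only at h6
    omega)] at h4
  omega

/-- an element with `N` distinct conjugates generates `L` -/
theorem adjoin_of_conj_ne (θ : M.L) (hθ : ∀ k : ℕ, 0 < k → k < N → (M.τ ^ k) θ ≠ θ) :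
    Algebra.adjoin M.K₁ {θ} = ⊤ ∧ N ≤ (minpoly M.K₁ θ).natDegree := by
  classical
  have hint : IsIntegral M.K₁ θ := Algebra.IsIntegral.isIntegral θ
  have hinj : Set.InjOn (fun k : ℕ => (M.τ ^ k) θ) (range N : Set ℕ) := by
    have key : ∀ a b : ℕ, a < b → b < N → (M.τ ^ a) θ ≠ (M.τ ^ b) θ := by
      intro a b hab hb h
      apply hθ (b - a) (by omega) (by omega)
      apply (M.τ ^ a).injective
      have h2 : (M.τ ^ a) ((M.τ ^ (b - a)) θ) = (M.τ ^ b) θ := by
        have : b = a + (b - a) := by omega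
        conv_rhs => rw [this, pow_add]
        rfl
      rw [h2, ← h]
    intro a ha b hb hab
    simp only [coe_range, Set.mem_Iio] at ha hb
    rcases lt_trichotomy a b with h | h | h
    · exact absurd hab (key a b h hb)
    · exact h
    · exact absurd hab.symm (key b a h ha)
  have hdeg : N ≤ (minpoly M.K₁ θ).natDegree := by
    have hmap := Polynomial.natDegree_map_eq_of_injective (algebraMap M.K₁ M.L).injective
      (minpoly M.K₁ θ)
    rw [← hmap]
    have hne : (minpoly M.K₁ θ).map (algebraMap M.K₁ M.L) ≠ 0 :=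
      Polynomial.map_ne_zero (minpoly.ne_zero hint)
    have hsub : ((range N).image (fun k : ℕ => (M.τ ^ k) θ)).val ⊆
        ((minpoly M.K₁ θ).map (algebraMap M.K₁ M.L)).roots := by
      intro y hy
      rw [Finset.mem_val, Finset.mem_image] at hy
      obtain ⟨k, _, rfl⟩ := hy
      rw [Polynomial.mem_roots hne, Polynomial.IsRoot, Polynomial.eval_map,
        ← Polynomial.aeval_def]
      have h1 : Polynomial.aeval ((M.τ ^ k) θ) (minpoly M.K₁ θ) =
          (M.τ ^ k) (Polynomial.aeval θ (minpoly M.K₁ θ)) := by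
        rw [← Polynomial.aeval_algHom_apply (M.τ ^ k : M.L ≃ₐ[M.K₁] M.L) θ]
      rw [h1, minpoly.aeval, map_zero]
    have h2 := Polynomial.card_le_degree_of_subset_roots hsub
    rwa [Finset.card_image_of_injOn hinj, Finset.card_range] at h2
  refine ⟨?_, hdeg⟩
  have hfr := IntermediateField.adjoin.finrank hint
  have htop : IntermediateField.adjoin M.K₁ {θ} = ⊤ := by
    apply IntermediateField.eq_of_le_of_finrank_le le_top
    rw [IntermediateField.finrank_top', hfr, M.finrankL]
    exact hdeg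
  have h3 := IntermediateField.adjoin_simple_toSubalgebra_of_isAlgebraic hint.isAlgebraic
  rw [← h3, htop]
  rfl

/-- powers of an element with `N` distinct conjugates are independent -/
theorem indep_pow_L (θ : M.L) (hθ : ∀ k : ℕ, 0 < k → k < N → (M.τ ^ k) θ ≠ θ) :
    LinearIndependent M.K₁ (fun k : Fin N => θ ^ (k : ℕ)) := by
  have h1 := (M.adjoin_of_conj_ne θ hθ).2
  have h2 := linearIndependent_pow (K := M.K₁) θ
  have h3 := h2.comp (Fin.castLE h1) (Fin.castLE_injective h1)
  exact h3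

theorem span_pow_L (θ : M.L) (hθ : ∀ k : ℕ, 0 < k → k < N → (M.τ ^ k) θ ≠ θ) :
    Submodule.span M.K₁ (Set.range fun k : Fin N => θ ^ (k : ℕ)) = ⊤ := by
  apply LinearIndependent.span_eq_top_of_card_eq_finrank' (M.indep_pow_L θ hθ)
  rw [Fintype.card_fin, M.finrankL]

/-- centralizer of `j θ` -/
theorem mem_range_j_of_commute (θ : M.L) (hθ : ∀ k : ℕ, 0 < k → k < N → (M.τ ^ k) θ ≠ θ)
    (x : M.E) (hx : x * M.j θ = M.j θ * x) : ∃ y : M.L, x = M.j y := by
  classical
  obtain ⟨c, hc, _⟩ := M.decomp x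
  have h1 : M.coefE (fun i => (θ - (M.τ ^ (i : ℕ)) θ) * c i) = 0 := by
    rw [coefE_apply]
    have h2 : M.j θ * x - x * M.j θ = 0 := by rw [hx, sub_self]
    rw [hc, Finset.mul_sum, Finset.sum_mul, ← Finset.sum_sub_distrib] at h2
    rw [← h2]
    exact Finset.sum_congr rfl fun i _ => (M.comm_pow θ (c i) i).symm
  rw [LinearEquiv.map_eq_zero_iff] at h1
  rcases Nat.eq_zero_or_pos N with h0 | hN
  · subst h0
    exact ⟨0, by rw [hc]; simp⟩
  refine ⟨c ⟨0, hN⟩, ?_⟩
  conv_lhs => rw [hc]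
  rw [Finset.sum_eq_single ⟨0, hN⟩]
  · simp
  · intro i _ hi
    have h2 := congrFun h1 i
    simp only [Pi.zero_apply, mul_eq_zero] at h2
    rcases h2 with h2 | h2
    · exfalso
      apply hθ i _ i.2 (sub_eq_zero.mp h2).symm
      rcases Nat.eq_zero_or_pos (i : ℕ) with h3 | h3
      · exact absurd (Fin.ext h3) hi
      · exact h3
    · rw [h2, map_zero, zero_mul]
  · intro h; exact absurd (Finset.mem_univ _) h

theorem indep_pow (θ : M.L) (hθ : ∀ k : ℕ, 0 < k → k < N → (M.τ ^ k) θ ≠ θ) :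
    LinearIndependent M.K₁ (fun k : Fin N => (M.j θ) ^ (k : ℕ)) := by
  have h1 := (M.indep_pow_L θ hθ).map' M.j.toLinearMap
    (LinearMap.ker_eq_bot.mpr M.j_injective)
  have h2 : (fun k : Fin N => (M.j θ) ^ (k : ℕ)) = M.j.toLinearMap ∘
      (fun k : Fin N => θ ^ (k : ℕ)) := by
    funext k; simp
  rw [h2]; exact h1

theorem mem_span_of_commute (θ : M.L) (hθ : ∀ k : ℕ, 0 < k → k < N → (M.τ ^ k) θ ≠ θ)
    (x : M.E) (hx : x * M.j θ = M.j θ * x) :
    x ∈ Submodule.span M.K₁ (Set.range fun k : Fin N => (M.j θ) ^ (k : ℕ)) := by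
  obtain ⟨y, rfl⟩ := M.mem_range_j_of_commute θ hθ x hx
  have h1 : y ∈ Submodule.span M.K₁ (Set.range fun k : Fin N => θ ^ (k : ℕ)) := by
    rw [M.span_pow_L θ hθ]; trivial
  have h2 : (Set.range fun k : Fin N => (M.j θ) ^ (k : ℕ)) = M.j.toLinearMap ''
      (Set.range fun k : Fin N => θ ^ (k : ℕ)) := by
    rw [← Set.range_comp]
    congr 1
    funext k; simp
  rw [h2, Submodule.span_image]
  exact Submodule.mem_map_of_mem h1

theorem adjoin_pair (θ : M.L) (hθ : ∀ k : ℕ, 0 < k → k < N → (M.τ ^ k) θ ≠ θ) :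
    Algebra.adjoin M.K₁ ({M.j θ, M.u} : Set M.E) = ⊤ := by
  set S := Algebra.adjoin M.K₁ ({M.j θ, M.u} : Set M.E) with hS
  have h1 : M.j θ ∈ S := Algebra.subset_adjoin (by simp)
  have h4 : M.u ∈ S := Algebra.subset_adjoin (by simp)
  have h3 : ∀ z : M.L, M.j z ∈ S := by
    intro z
    have hz : z ∈ Algebra.adjoin M.K₁ {θ} := by
      rw [(M.adjoin_of_conj_ne θ hθ).1]; trivial
    have hle : (Algebra.adjoin M.K₁ {θ}).map M.j ≤ S := by
      rw [AlgHom.map_adjoin, Set.image_singleton, Algebra.adjoin_le_iff]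
      rintro _ rfl
      exact h1
    exact hle ⟨z, hz, rfl⟩
  rw [eq_top_iff]
  intro e _
  obtain ⟨c, hc, _⟩ := M.decomp e
  rw [hc]
  exact S.sum_mem fun k _ => S.mul_mem (h3 _) (S.pow_mem h4 _)

/-- prime degree: the fixed field of every nontrivial power of `τ` is `K₁` -/
theorem fix_pow (hN : N.Prime) (k : ℕ) (hk0 : 0 < k) (hk : k < N) (y : M.L)
    (hy : (M.τ ^ k) y = y) : ∃ c : M.K₁, algebraMap M.K₁ M.L c = y := by
  apply M.fix
  have h1 : ∀ a : ℕ, (M.τ ^ (k * a)) y = y := by
    intro a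
    induction a with
    | zero => simp
    | succ a ih =>
      rw [Nat.mul_succ, pow_add]
      change (M.τ ^ (k * a)) ((M.τ ^ k) y) = y
      rw [hy, ih]
  have h2 : ∀ a : ℕ, (M.τ ^ (N * a)) y = y := by
    intro a
    induction a with
    | zero => simp
    | succ a ih =>
      rw [Nat.mul_succ, pow_add]
      change (M.τ ^ (N * a)) ((M.τ ^ N) y) = y
      rw [M.τN, ih]
  have hcop : Nat.Coprime k N := by
    rw [Nat.coprime_comm]
    exact (Nat.Prime.coprime_iff_not_dvd hN).mpr (fun h => absurd (Nat.le_of_dvd hk0 h) (by omega))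
  obtain ⟨a, ha⟩ := Nat.exists_mul_mod_eq_one_of_coprime hcop hN.one_lt
  have h3 := h1 a
  have h4 : k * a = 1 + N * (k * a / N) := by
    have := Nat.mod_add_div (k * a) N
    omega
  rw [h4, pow_add, pow_one] at h3
  change M.τ ((M.τ ^ (N * (k * a / N))) y) = y at h3
  rw [h2] at h3
  exact h3

/-- prime degree: every element of `L` outside `K₁` has `N` distinct conjugates -/
theorem conj_ne_of_prime (hN : N.Prime) (θ : M.L) (hθ : ∀ c : M.K₁, algebraMap M.K₁ M.L c ≠ θ)
    (k : ℕ) (hk0 : 0 < k) (hk : k < N) : (M.τ ^ k) θ ≠ θ := by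
  intro h
  obtain ⟨c, hc⟩ := M.fix_pow hN k hk0 hk θ h
  exact hθ c hc

end CycG

/-- a good extension with a regular generating pair -/
theorem exists_regular_pair (K : Type) [Field K] [CharZero K] (N : ℕ) (hN : 1 ≤ N) :
    ∃ (G : GE K) (P Q : G.E), G.RankGood ∧ Module.finrank G.K₁ G.E = N * N ∧
      Algebra.adjoin G.K₁ ({P, Q} : Set G.E) = ⊤ ∧
      LinearIndependent G.K₁ (fun k : Fin N => P ^ (k : ℕ)) ∧
      (∀ x : G.E, x * P = P * x →
        x ∈ Submodule.span G.K₁ (Set.range fun k : Fin N => P ^ (k : ℕ))) := by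
  obtain ⟨C, hC⟩ := exists_cycG K N hN Unit
  have h := C.gen_conj_ne ()
  exact ⟨C.toGE, C.j (C.gen ()), C.u, hC, C.finrank_E, C.adjoin_pair _ h, C.indep_pow _ h,
    C.mem_span_of_commute _ h⟩

instance good_trivial (K : Type) [Field K] : Good K K K where
  fin := inferInstance
  cen := inferInstance
  dom := fun Γ _ _ _ _ => (Algebra.TensorProduct.lid K Γ).toMulEquiv.isDomain Γ

/-- the trivial good extension `E = K₁ = K` -/
def trivGE (K : Type) [Field K] [CharZero K] : GE K where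
  K₁ := K
  E := K

theorem exists_triv (K : Type) [Field K] [CharZero K] : ∃ G : GE K,
    Function.Bijective (algebraMap K G.K₁) ∧ Function.Bijective (algebraMap G.K₁ G.E) :=
  ⟨trivGE K, Function.bijective_id, Function.bijective_id⟩

end

end Crest.Agent.R180
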