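import Crest.Agent.R180.GE

set_option autoImplicit false
noncomputable section
namespace Crest.Agent.R180

/-- Generic cyclic algebra of degree `N` over `K` with generic elements indexed by `I`
(a good extension of `K`). -/
structure CycG (K : Type) [Field K] (N : ℕ) (I : Type) extends GE K where
  L : Type
  [fL : Field L]
  [aL : Algebra K₁ L]
  [aL' : Algebra K L]
  [twL : IsScalarTower K K₁ L]
  [fdL : FiniteDimensional K₁ L]
  finrankL : Module.finrank K₁ L = N
  j : L →ₐ[K₁] E
  τ : L ≃ₐ[K₁] L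
  u : E
  u' : E
  uu' : u * u' = 1
  u'u : u' * u = 1
  T : K₁
  T_ne : T ≠ 0
  uN : u ^ N = algebraMap K₁ E T
  conj : ∀ y : L, u * j y = j (τ y) * u
  τN : ∀ y : L, (τ ^ N) y = y
  /-- `E = ⊕_{i<N} L u^i` -/
  decomp : ∀ e : E, ∃! c : Fin N → L, e = ∑ i, j (c i) * u ^ (i : ℕ)
  fix : ∀ y : L, τ y = y → ∃ c : K₁, algebraMap K₁ L c = y
  gen : I → L
  /-- monomials in the conjugates of the generic elements, times powers of `T`, are independent -/
  indep : LinearIndependent K (fun p : ℕ × ((I × Fin N) →₀ ℕ) =>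
    (algebraMap K₁ L T) ^ p.1 * p.2.prod fun is n => ((τ ^ (is.2 : ℕ)) (gen is.1)) ^ n)

attribute [instance] CycG.fL CycG.aL CycG.aL' CycG.twL CycG.fdL

end Crest.Agent.R180
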