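import Crest.Agent.R180.CycRank
import Crest.Agent.R180.CycGDef

set_option autoImplicit false

/-!
# Row 180, module G: `exists_cycG` (generic cyclic algebra as a good extension)
-/

namespace Crest.Agent.R180

noncomputable section

open TensorProduct CycC

instance genDat_good (K : Type) [Field K] (N : ℕ) [NeZero N] (I : Type) :
    Good K (genDat K I N).K (genDat K I N).E where
  fin := inferInstance
  cen := inferInstance
  dom := fun Γ _ _ _ _ => inferInstance

/-- the model of the generic cyclic algebra, as a good extension of `K` -/
def cycGModel (K : Type) [Field K] [CharZero K] (N : ℕ) [NeZero N] (I : Type) : CycG K N I :=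
  let d := genDat K I N
  have : CharZero d.K := charZero_of_injective_algebraMap (algebraMap K d.K).injective
  { K₁ := d.K
    E := d.E
    L := LS (GenField.RF K (Option I × ZMod N))
    finrankL := finrank_L' d
    j := d.j
    τ := d.τ
    u := d.u
    u' := d.u'
    uu' := uu' d
    u'u := u'u d
    T := d.T
    T_ne := T_ne d
    uN := uN d
    conj := conj d
    τN := τN d
    decomp := decomp d
    fix := fix d
    gen := gen K I N
    indep := indep K I N }

theorem cycGModel_rankGood (K : Type) [Field K] [CharZero K] (N : ℕ) [NeZero N] (I : Type) :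
    (cycGModel K N I).toGE.RankGood := by
  obtain ⟨Γ, h1, h2, h3, ⟨φ⟩⟩ := GenField.exists_emb K (Option I × ZMod N)
  intro i j _ _ s r B hB c hc T hT
  exact CycC.rankGood (CycC.genDat K I N) φ i j s r B hB c hc T hT

theorem exists_cycG (K : Type) [Field K] [CharZero K] (N : ℕ) (hN : 1 ≤ N) (I : Type) [Finite I] :
    ∃ C : CycG K N I, C.toGE.RankGood := by
  have : NeZero N := ⟨by omega⟩
  exact ⟨cycGModel K N I, cycGModel_rankGood K N I⟩

end

end Crest.Agent.R180
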