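import Mathlib

set_option autoImplicit false
set_option linter.unusedSectionVars false

/-!
# Row 180: purely transcendental extensions

`RF F V` : rational functions in the variables `V` over `F`; permutations of the variables act;
`RF F V ⊗[F] D` is a domain when `D` is; embedding into a Hahn series field over `F`.
-/

namespace Crest.Agent.R180

noncomputable section

open TensorProduct

namespace GenField

variable (F : Type) [Field F] (V : Type)

/-- rational functions in the variables `V` -/
abbrev RF : Type := FractionRing (MvPolynomial V F)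

variable {V}

/-- the variables -/
def X (v : V) : RF F V := algebraMap (MvPolynomial V F) (RF F V) (MvPolynomial.X v)

variable {F}

theorem hom_ext {K : Type} [Field K] [Algebra F K] {f g : RF F V →ₐ[F] K}
    (h : ∀ v, f (X F v) = g (X F v)) : f = g := by
  have h1 : f.comp (IsScalarTower.toAlgHom F (MvPolynomial V F) (RF F V)) =
      g.comp (IsScalarTower.toAlgHom F (MvPolynomial V F) (RF F V)) :=
    MvPolynomial.algHom_ext h
  apply AlgHom.ext; intro x
  obtain ⟨a, b, _, rfl⟩ := IsFractionRing.div_surjective (MvPolynomial V F) x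
  rw [map_div₀, map_div₀]
  have h2 := fun p => DFunLike.congr_fun h1 p
  simp only [AlgHom.comp_apply, IsScalarTower.coe_toAlgHom'] at h2
  rw [h2, h2]

/-- permutation of the variables -/
def perm0 (e : Equiv.Perm V) : RF F V ≃ₐ[F] RF F V :=
  IsFractionRing.algEquivOfAlgEquiv (MvPolynomial.renameEquiv F e)

theorem perm0_X (e : Equiv.Perm V) (v : V) : perm0 (F := F) e (X F v) = X F (e v) := by
  rw [perm0, X, IsFractionRing.algEquivOfAlgEquiv_algebraMap]
  simp [X]

/-- action of permutations of the variables -/
def perm : Equiv.Perm V →* (RF F V ≃ₐ[F] RF F V) where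
  toFun := perm0
  map_one' := by
    have : ((perm0 (F := F) (1 : Equiv.Perm V) : RF F V ≃ₐ[F] RF F V) : RF F V →ₐ[F] RF F V) =
        ((1 : RF F V ≃ₐ[F] RF F V) : RF F V →ₐ[F] RF F V) := by
      apply hom_ext; intro v
      change perm0 (F := F) 1 (X F v) = X F v
      rw [perm0_X]; rfl
    ext x
    exact DFunLike.congr_fun this x
  map_mul' e f := by
    have : ((perm0 (F := F) (e * f) : RF F V ≃ₐ[F] RF F V) : RF F V →ₐ[F] RF F V) =
        ((perm0 (F := F) e * perm0 f : RF F V ≃ₐ[F] RF F V) : RF F V →ₐ[F] RF F V) := by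
      apply hom_ext; intro v
      change perm0 (F := F) (e * f) (X F v) = perm0 e (perm0 f (X F v))
      rw [perm0_X, perm0_X, perm0_X]; rfl
    ext x
    exact DFunLike.congr_fun this x

theorem perm_X (e : Equiv.Perm V) (v : V) : perm (F := F) e (X F v) = X F (e v) := perm0_X e v

theorem X_injective : Function.Injective (X F (V := V)) := by
  intro v w h
  have := (IsFractionRing.injective (MvPolynomial V F) (RF F V)) h
  exact MvPolynomial.X_injective this

section emb

variable [LinearOrder V]

/-- exponent group -/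
abbrev Ga (V : Type) : Type := Lex (V →₀ ℤ)

/-- exponents as elements of the group -/
def ex : (V →₀ ℕ) →+ Ga V where
  toFun n := toLex (n.mapRange (Nat.cast) (by simp))
  map_zero' := by
    apply congrArg toLex
    ext v; simp
  map_add' m n := by
    rw [← toLex_add]
    apply congrArg toLex
    ext v; simp

theorem ex_injective : Function.Injective (ex (V := V)) := by
  intro m n h
  have h' : (m.mapRange (Nat.cast : ℕ → ℤ) (by simp)) = n.mapRange (Nat.cast : ℕ → ℤ) (by simp) :=
    toLex.injective h
  ext v
  have := DFunLike.congr_fun h' v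
  simpa using this

instance : IsOrderedCancelAddMonoid (Ga V) := inferInstance

/-- polynomials as Hahn series -/
def emb0 : MvPolynomial V F →ₐ[F] HahnSeries (Ga V) F :=
  MvPolynomial.aeval (fun v => HahnSeries.single (ex (Finsupp.single v 1)) 1)

theorem prod_single (n : V →₀ ℕ) :
    (n.prod fun i k => (HahnSeries.single (ex (Finsupp.single i 1)) (1 : F)) ^ k) =
      HahnSeries.single (ex n) (1 : F) := by
  induction n using Finsupp.induction_linear with
  | zero =>
    rw [Finsupp.prod_zero_index, map_zero]; rfl
  | add m n hm hn =>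
    rw [Finsupp.prod_add_index' (fun _ => pow_zero _) (fun _ _ _ => pow_add _ _ _), hm, hn,
      HahnSeries.single_mul_single, map_add, one_mul]
  | single i k =>
    rw [Finsupp.prod_single_index
      (h := fun i k => (HahnSeries.single (ex (Finsupp.single i 1)) (1 : F)) ^ k) (pow_zero _),
      HahnSeries.single_pow, one_pow, ← map_nsmul]
    congr 2
    simp

theorem emb0_monomial (n : V →₀ ℕ) (a : F) :
    emb0 (MvPolynomial.monomial n a) = HahnSeries.single (ex n) a := by
  rw [emb0, MvPolynomial.aeval_monomial, prod_single, HahnSeries.algebraMap_apply,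
    HahnSeries.C_apply, HahnSeries.single_mul_single]
  simp

theorem emb0_coeff (p : MvPolynomial V F) (n : V →₀ ℕ) : (emb0 p).coeff (ex n) = p.coeff n := by
  induction p using MvPolynomial.induction_on' with
  | monomial m a =>
    rw [emb0_monomial, MvPolynomial.coeff_monomial]
    by_cases h : m = n
    · subst h; simp
    · rw [if_neg h, HahnSeries.coeff_single_of_ne]
      intro h'; exact h (ex_injective h'.symm)
  | add p q hp hq =>
    rw [map_add, HahnSeries.coeff_add, hp, hq, MvPolynomial.coeff_add]

theorem emb0_injective : Function.Injective (emb0 (F := F) (V := V)) := by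
  rw [injective_iff_map_eq_zero]
  intro p hp
  ext n
  rw [← emb0_coeff, hp]; simp

/-- rational functions as Hahn series -/
def emb : RF F V →ₐ[F] HahnSeries (Ga V) F :=
  IsFractionRing.liftAlgHom (g := emb0 (F := F) (V := V)) emb0_injective

end emb

section tensor

variable {Γ : Type} [AddCommGroup Γ] [LinearOrder Γ] [IsOrderedAddMonoid Γ]
variable {R D : Type} [CommRing R] [Algebra F R] [Ring D] [Algebra F D]

/-- coefficientwise algebra map -/
def hmA (Γ : Type) [AddCommGroup Γ] [LinearOrder Γ] [IsOrderedAddMonoid Γ] (D : Type) [Ring D]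
    [Algebra F D] : HahnSeries Γ F →ₐ[F] HahnSeries Γ D where
  toFun x := x.map (algebraMap F D)
  map_one' := by
    ext n; simp [HahnSeries.coeff_one, apply_ite (algebraMap F D)]
  map_zero' := by ext n; simp
  map_add' x y := by ext n; simp
  map_mul' x y := HahnSeries.map_mul ((algebraMap F D : F →+* D) : F →ₙ+* D)
  commutes' c := by
    ext n
    change algebraMap F D ((HahnSeries.C c : HahnSeries Γ F).coeff n) =
      ((algebraMap F (HahnSeries Γ D) c)).coeff n
    rw [HahnSeries.algebraMap_apply, HahnSeries.C_apply, HahnSeries.C_apply]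
    by_cases h : n = 0
    · subst h; simp
    · rw [HahnSeries.coeff_single_of_ne h, HahnSeries.coeff_single_of_ne h, map_zero]

theorem coeff_hmA (x : HahnSeries Γ F) (n : Γ) :
    (hmA Γ D x).coeff n = algebraMap F D (x.coeff n) := rfl

/-- constants as an algebra hom -/
def hC (F : Type) [Field F] (Γ : Type) [AddCommGroup Γ] [LinearOrder Γ] [IsOrderedAddMonoid Γ]
    (D : Type) [Ring D] [Algebra F D] : D →ₐ[F] HahnSeries Γ D :=
  { (HahnSeries.C : D →+* HahnSeries Γ D) with
    commutes' := fun c => by
      rw [HahnSeries.algebraMap_apply]; rfl }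

theorem hC_apply (d : D) : hC F Γ D d = HahnSeries.single 0 d := rfl

/-- `R ⊗ D → HahnSeries Γ D` for `R → HahnSeries Γ F` -/
def tH (φ : R →ₐ[F] HahnSeries Γ F) (D : Type) [Ring D] [Algebra F D] :
    R ⊗[F] D →ₐ[F] HahnSeries Γ D :=
  Algebra.TensorProduct.lift ((hmA Γ D).comp φ) (hC F Γ D) (fun x d => by
    change _ = _
    apply HahnSeries.ext; funext n
    rw [hC_apply, AlgHom.comp_apply]
    have h1 := @HahnSeries.coeff_mul_single_add Γ D _ _ _ _ d (hmA Γ D (φ x)) n 0
    have h2 := @HahnSeries.coeff_single_mul_add Γ D _ _ _ _ d (hmA Γ D (φ x)) n 0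
    rw [add_zero] at h1 h2
    rw [h1, h2, coeff_hmA]
    exact Algebra.commutes _ _)

theorem coeff_tH_tmul (φ : R →ₐ[F] HahnSeries Γ F) (x : R) (d : D) (n : Γ) :
    (tH φ D (x ⊗ₜ d)).coeff n = (φ x).coeff n • d := by
  have h : tH φ D (x ⊗ₜ d) = hmA Γ D (φ x) * HahnSeries.single 0 d := rfl
  rw [h]
  have h1 := @HahnSeries.coeff_mul_single_add Γ D _ _ _ _ d (hmA Γ D (φ x)) n 0
  rw [add_zero] at h1
  rw [h1, coeff_hmA, Algebra.smul_def]

theorem tH_repr (φ : R →ₐ[F] HahnSeries Γ F) {κ : Type} [DecidableEq κ] (b : Module.Basis κ F D)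
    (x : R ⊗[F] D) (n : Γ) (j : κ) : b.repr ((tH φ D x).coeff n) j =
      (φ (TensorProduct.equivFinsuppOfBasisRight b x j)).coeff n := by
  induction x using TensorProduct.induction_on with
  | zero => simp
  | tmul f d =>
    rw [coeff_tH_tmul]
    simp [mul_comm]
  | add x y hx hy =>
    rw [map_add, HahnSeries.coeff_add, map_add, map_add, Finsupp.add_apply, Finsupp.add_apply,
      map_add, HahnSeries.coeff_add, hx, hy]

theorem tH_injective (φ : R →ₐ[F] HahnSeries Γ F) (hφ : Function.Injective φ) :
    Function.Injective (tH φ D) := by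
  classical
  intro x y h
  let b := Module.Basis.ofVectorSpace F D
  apply (TensorProduct.equivFinsuppOfBasisRight (M := R) b).injective
  ext j : 1
  apply hφ
  apply HahnSeries.ext; funext n
  rw [← tH_repr, ← tH_repr, h]

theorem isDomain_tensor_of_hahn [IsDomain D] (φ : R →ₐ[F] HahnSeries Γ F)
    (hφ : Function.Injective φ) : IsDomain (R ⊗[F] D) :=
  Function.Injective.isDomain (tH φ D).toRingHom (tH_injective φ hφ)

end tensor

/-- there is an embedding of `RF F V` into a Hahn series field -/
theorem exists_emb (F V : Type) [Field F] : ∃ (Γ : Type) (_ : AddCommGroup Γ) (_ : LinearOrder Γ)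
    (_ : IsOrderedAddMonoid Γ), Nonempty (RF F V →ₐ[F] HahnSeries Γ F) := by
  classical
  let _ : LinearOrder V := IsWellOrder.linearOrder (WellOrderingRel (α := V))
  exact ⟨Ga V, inferInstance, inferInstance,
    { add_le_add_left := fun a b h c => by gcongr }, ⟨emb⟩⟩

theorem isDomain_tensor (F V D : Type) [Field F] [Ring D] [Algebra F D] [IsDomain D] :
    IsDomain (RF F V ⊗[F] D) := by
  obtain ⟨Γ, h1, h2, h3, ⟨φ⟩⟩ := exists_emb F V
  exact isDomain_tensor_of_hahn φ (RingHom.injective φ.toRingHom)

end GenField

end

end Crest.Agent.R180
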