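import Crest.Agent.R180.CycMid
import Crest.Agent.R180.GenField

set_option autoImplicit false
set_option linter.unusedSectionVars false

/-!
# Row 180: the generic cyclic algebra: generic elements
-/

namespace Crest.Agent.R180

noncomputable section

open TensorProduct HahnSeries

namespace CycC

namespace LS
variable {R : Type} [Field R]

theorem co_C_mul (b : R) (x : LS R) (n : ℤ) : (C b * x).co n = b * x.co n := by
  have h2 := @HahnSeries.coeff_single_mul_add ℤ R _ _ _ _ b (x : HahnSeries ℤ R) n 0
  rw [add_zero] at h2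
  exact h2

theorem co_smul {F : Type} [Field F] [Algebra F R] (c : F) (x : LS R) (n : ℤ) :
    (c • x).co n = c • x.co n := by
  rw [Algebra.smul_def, algebraMap_eq, co_C_mul, Algebra.smul_def]

/-- additive version of `co` -/
def coHom (n : ℤ) : LS R →+ R where
  toFun x := x.co n
  map_zero' := rfl
  map_add' _ _ := rfl

theorem co_sum {ι : Type*} (s : Finset ι) (f : ι → LS R) (k : ℤ) :
    (∑ i ∈ s, f i).co k = ∑ i ∈ s, (f i).co k := map_sum (coHom k) f s

end LS

variable (F : Type) [Field F] (I : Type) (N : ℕ) [NeZero N]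

/-- the shift of the variables -/
def shift : Equiv.Perm (Option I × ZMod N) :=
  (Equiv.refl (Option I)).prodCongr (Equiv.addRight (1 : ZMod N))

theorem shift_apply (i : Option I) (a : ZMod N) : shift I N (i, a) = (i, a + 1) := rfl

theorem shift_pow_apply (n : ℕ) (i : Option I) (a : ZMod N) :
    (shift I N ^ n) (i, a) = (i, a + n) := by
  induction n generalizing a with
  | zero => simp
  | succ n ih => rw [pow_succ, Equiv.Perm.mul_apply, shift_apply, ih]; push_cast; ring_nf

theorem shift_zpow_apply (k : ℤ) (i : Option I) (a : ZMod N) :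
    (shift I N ^ k) (i, a) = (i, a + k) := by
  obtain ⟨n, rfl | rfl⟩ := k.eq_nat_or_neg
  · rw [zpow_natCast, shift_pow_apply]; simp
  · rw [zpow_neg, zpow_natCast, Equiv.Perm.inv_eq_iff_eq, shift_pow_apply]
    simp

/-- the data of the generic cyclic algebra -/
def genDat : Dat F (GenField.RF F (Option I × ZMod N)) where
  σ := GenField.perm (shift I N)
  N := N
  hσ k hk := by
    rw [← map_zpow]
    have : shift I N ^ k = 1 := by
      ext1 ⟨i, a⟩
      rw [shift_zpow_apply, (ZMod.intCast_zmod_eq_zero_iff_dvd k N).mpr hk, add_zero]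
      rfl
    rw [this, map_one]
  hf k hk := by
    rw [← map_zpow] at hk
    have h := DFunLike.congr_fun hk (GenField.X F (none, 0))
    rw [GenField.perm_X, shift_zpow_apply] at h
    have h2 := GenField.X_injective (F := F) (h : GenField.X F _ = GenField.X F _)
    rw [Prod.mk.injEq] at h2
    rw [← ZMod.intCast_zmod_eq_zero_iff_dvd]
    simpa using h2.2

/-- the generic elements -/
def gen (i : I) : LS (GenField.RF F (Option I × ZMod N)) :=
  LS.C (GenField.X F (some i, 0))

theorem τ_pow_gen (s : ℕ) (i : I) : ((genDat F I N).τ ^ s) (gen F I N i) =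
    LS.C (GenField.X F (some i, (s : ZMod N))) := by
  rw [τ_pow_apply]
  apply LS.ext; intro n
  rw [coeff_tau, gen, LS.co_C, LS.co_C]
  split_ifs
  · change ((GenField.perm (shift I N)) ^ s) _ = _
    rw [← map_pow, GenField.perm_X, shift_pow_apply, zero_add]
  · simp

/-- exponents -/
def exq (n : (I × Fin N) →₀ ℕ) : (Option I × ZMod N) →₀ ℕ :=
  n.mapDomain (fun p => (some p.1, ((p.2 : ℕ) : ZMod N)))

theorem exq_injective : Function.Injective (exq I N) := by
  apply Finsupp.mapDomain_injective
  rintro ⟨i, a⟩ ⟨j, b⟩ h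
  simp only [Prod.mk.injEq, Option.some.injEq] at h
  rw [Prod.mk.injEq]
  refine ⟨h.1, ?_⟩
  have h2 := h.2
  rw [ZMod.natCast_eq_natCast_iff'] at h2
  rw [Nat.mod_eq_of_lt a.2, Nat.mod_eq_of_lt b.2] at h2
  exact Fin.ext h2

theorem vec_eq (p : ℕ × ((I × Fin N) →₀ ℕ)) :
    (algebraMap (genDat F I N).K (LS (GenField.RF F (Option I × ZMod N))) (genDat F I N).T) ^ p.1 *
      (p.2.prod fun is n => (((genDat F I N).τ ^ (is.2 : ℕ)) (gen F I N is.1)) ^ n) =
      LS.mon p.1 (algebraMap (MvPolynomial (Option I × ZMod N) F) _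
        (MvPolynomial.monomial (exq I N p.2) 1)) := by
  have h1 : (p.2.prod fun is n => (((genDat F I N).τ ^ (is.2 : ℕ)) (gen F I N is.1)) ^ n) =
      LS.C (algebraMap (MvPolynomial (Option I × ZMod N) F) _
        (MvPolynomial.monomial (exq I N p.2) 1)) := by
    rw [MvPolynomial.monomial_eq, map_one, one_mul, exq,
      Finsupp.prod_mapDomain_index_inj (h := fun v k => MvPolynomial.X v ^ k)]
    · rw [Finsupp.prod, Finsupp.prod, map_prod, map_prod]
      refine Finset.prod_congr rfl fun is _ => ?_
      rw [τ_pow_gen, map_pow, map_pow]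
      rfl
    · rintro ⟨i, a⟩ ⟨j, b⟩ h
      simp only [Prod.mk.injEq, Option.some.injEq] at h
      rw [Prod.mk.injEq]
      refine ⟨h.1, ?_⟩
      have h2 := h.2
      rw [ZMod.natCast_eq_natCast_iff'] at h2
      rw [Nat.mod_eq_of_lt a.2, Nat.mod_eq_of_lt b.2] at h2
      exact Fin.ext h2
  rw [h1, algebraMap_T, LS.mon_pow, LS.C_eq_mon, LS.mon_mul]
  simp

theorem indep : LinearIndependent F (fun p : ℕ × ((I × Fin N) →₀ ℕ) =>
    (algebraMap (genDat F I N).K (LS (GenField.RF F (Option I × ZMod N))) (genDat F I N).T) ^ p.1 *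
      (p.2.prod fun is n => (((genDat F I N).τ ^ (is.2 : ℕ)) (gen F I N is.1)) ^ n)) := by
  classical
  simp only [vec_eq]
  rw [linearIndependent_iff']
  intro s g hg p0 hp0
  have h1 := congrArg (fun x => LS.co x (p0.1 : ℤ)) hg
  simp only [LS.co_sum, LS.co_smul, LS.co_mon, LS.co_zero] at h1
  have h2 : algebraMap (MvPolynomial (Option I × ZMod N) F) (GenField.RF F (Option I × ZMod N))
      (∑ p ∈ s, if p0.1 = p.1 then MvPolynomial.monomial (exq I N p.2) (g p) else 0) = 0 := by
    rw [map_sum, ← h1]
    refine Finset.sum_congr rfl fun p _ => ?_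
    by_cases h : p0.1 = p.1
    · rw [if_pos h, if_pos (by exact_mod_cast h), Algebra.smul_def,
        IsScalarTower.algebraMap_apply F (MvPolynomial (Option I × ZMod N) F), ← map_mul]
      congr 1
      rw [MvPolynomial.algebraMap_eq, MvPolynomial.C_mul_monomial, mul_one]
    · rw [if_neg h, if_neg (by exact_mod_cast h)]; simp
  have h3 := (map_eq_zero_iff _ (IsFractionRing.injective (MvPolynomial (Option I × ZMod N) F)
    (GenField.RF F (Option I × ZMod N)))).mp h2
  have h4 := congrArg (MvPolynomial.coeff (exq I N p0.2)) h3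
  rw [MvPolynomial.coeff_sum, MvPolynomial.coeff_zero, Finset.sum_eq_single p0] at h4
  · simpa using h4
  · intro p _ hp
    by_cases h : p0.1 = p.1
    · rw [if_pos h, MvPolynomial.coeff_monomial, if_neg]
      intro h'
      apply hp
      exact Prod.ext h.symm (exq_injective I N h')
    · rw [if_neg h]; simp
  · intro h; exact absurd hp0 h

instance (D : Type) [Ring D] [Algebra F D] [IsDomain D] : IsDomain ((genDat F I N).E ⊗[F] D) := by
  have := GenField.isDomain_tensor F (Option I × ZMod N) D
  exact isDomain_tensor (genDat F I N) D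

end CycC

end

end Crest.Agent.R180
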