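import Crest.Agent.R180.CycBase

set_option autoImplicit false
set_option linter.unusedSectionVars false

/-!
# Row 180: the generic cyclic algebra: decomposition, finiteness, centre
-/

namespace Crest.Agent.R180

noncomputable section

open TensorProduct HahnSeries

namespace CycC

/-- a field with an automorphism of exact order `N` -/
structure Dat (F L0 : Type) [Field F] [Field L0] [Algebra F L0] where
  σ : L0 ≃ₐ[F] L0
  N : ℕ
  [hN : NeZero N]
  hσ : ∀ k : ℤ, (N : ℤ) ∣ k → σ ^ k = 1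
  hf : ∀ k : ℤ, σ ^ k = 1 → (N : ℤ) ∣ k

attribute [instance] Dat.hN

open Twist

variable {F L0 : Type} [Field F] [Field L0] [Algebra F L0] (d : Dat F L0)

/-- the division algebra -/
def Dat.E : Type := TL d.σ

/-- its centre -/
def Dat.K : Type := F1 d.σ

instance : Ring d.E := inferInstanceAs (Ring (TL d.σ))
instance instAlgFE : Algebra F d.E := inferInstanceAs (Algebra F (TL d.σ))
instance : IsDomain d.E := inferInstanceAs (IsDomain (TL d.σ))
instance : Field d.K := inferInstanceAs (Field (F1 d.σ))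
instance instAlgFK : Algebra F d.K := inferInstanceAs (Algebra F (F1 d.σ))
instance instAlgKL : Algebra d.K (LS L0) := inferInstanceAs (Algebra (F1 d.σ) (LS L0))
instance : IsScalarTower F d.K (LS L0) := inferInstanceAs (IsScalarTower F (F1 d.σ) (LS L0))
instance instAlgKE : Algebra d.K d.E := algE d.σ d.N d.hσ
instance : Module.Finite d.K (LS L0) := finite_L d.σ d.N d.hσ d.hf

theorem finrank_L' : Module.finrank d.K (LS L0) = d.N := finrank_L d.σ d.N d.hσ d.hf

/-- coefficients of elements of `E` -/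
def Dat.co (x : d.E) (n : ℤ) : L0 := sc d.σ x n

theorem Dat.ext {x y : d.E} (h : ∀ n, d.co x n = d.co y n) : x = y := sc_ext d.σ h

@[simp] theorem co_zero (n : ℤ) : d.co 0 n = 0 := rfl
@[simp] theorem co_add (x y : d.E) (n : ℤ) : d.co (x + y) n = d.co x n + d.co y n := rfl
theorem co_sum {ι : Type*} (s : Finset ι) (f : ι → d.E) (k : ℤ) :
    d.co (∑ i ∈ s, f i) k = ∑ i ∈ s, d.co (f i) k := sc_sum d.σ s f k

/-- the inclusion `L → E` as a `K`-algebra hom -/
def Dat.j : LS L0 →ₐ[d.K] d.E :=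
  { (jR d.σ d.N d.hσ : LS L0 →+* TL d.σ) with
    commutes' := fun _ => rfl }

theorem j_apply (x : LS L0) : d.j x = jR d.σ d.N d.hσ x := rfl

theorem co_j (x : LS L0) (n : ℤ) :
    d.co (d.j x) n = if (d.N : ℤ) ∣ n then x.co (n / d.N) else 0 := sc_jR d.σ d.N d.hσ x n

theorem algebraMap_E (c : d.K) : algebraMap d.K d.E c = d.j (algebraMap d.K (LS L0) c) := rfl

instance : IsScalarTower F d.K d.E :=
  IsScalarTower.of_algebraMap_eq fun c => by
    rw [algebraMap_E, ← IsScalarTower.algebraMap_apply F d.K (LS L0), LS.algebraMap_eq, j_apply,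
      jR_C]
    exact ((ι d.σ).commutes c).symm

/-- `u = y` -/
def Dat.u : d.E := yp d.σ 1
/-- `u⁻¹` -/
def Dat.u' : d.E := yp d.σ (-1)

theorem uu' : d.u * d.u' = 1 := by
  change (yp d.σ 1 * yp d.σ (-1) : TL d.σ) = (1 : TL d.σ)
  rw [yp_mul]; simp

theorem u'u : d.u' * d.u = 1 := by
  change (yp d.σ (-1) * yp d.σ 1 : TL d.σ) = (1 : TL d.σ)
  rw [yp_mul]; simp

theorem co_mul_u_pow (x : d.E) (i : ℕ) (n : ℤ) : d.co (x * d.u ^ i) n = d.co x (n - i) := by
  have h : (d.u ^ i : d.E) = (yp d.σ ((i : ℤ) * 1) : TL d.σ) := yp_pow d.σ 1 i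
  rw [h, mul_one]
  exact sc_mul_yp d.σ i x n

/-- `τ` -/
def Dat.τ : LS L0 ≃ₐ[d.K] LS L0 :=
  { tau d.σ with
    commutes' := fun c => (mem_F1 d.σ _).mp c.2 }

theorem τ_apply (x : LS L0) : d.τ x = tau d.σ x := rfl

theorem τ_pow_apply (n : ℕ) (x : LS L0) : (d.τ ^ n) x = tau (d.σ ^ n) x := by
  induction n generalizing x with
  | zero => rw [pow_zero, pow_zero, map_one]; rfl
  | succ n ih =>
    rw [pow_succ, pow_succ, map_mul, AlgEquiv.mul_apply, AlgEquiv.mul_apply, ih, τ_apply]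

theorem τN (x : LS L0) : (d.τ ^ d.N) x = x := by
  rw [τ_pow_apply]
  have := d.hσ d.N (dvd_refl _)
  rw [zpow_natCast] at this
  rw [this, map_one]; rfl

theorem conj (x : LS L0) : d.u * d.j x = d.j (d.τ x) * d.u := yp_mul_jR d.σ d.N d.hσ x

theorem fix (y : LS L0) (hy : d.τ y = y) : ∃ c : d.K, algebraMap d.K (LS L0) c = y :=
  ⟨⟨y, (mem_F1 d.σ _).mpr hy⟩, rfl⟩

/-- `T = u ^ N` -/
def Dat.T : d.K := ⟨LS.mon 1 1, (mem_F1 d.σ _).mpr (by
  apply LS.ext; intro n
  rw [coeff_tau, LS.co_mon]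
  split_ifs <;> simp)⟩

theorem algebraMap_T : algebraMap d.K (LS L0) d.T = LS.mon 1 1 := rfl

theorem T_ne : d.T ≠ 0 := by
  intro h
  have h1 : algebraMap d.K (LS L0) d.T = 0 := by rw [h, map_zero]
  rw [algebraMap_T] at h1
  have := congrArg (fun x => LS.co x 1) h1
  simp [LS.co_mon] at this

theorem uN : d.u ^ d.N = algebraMap d.K d.E d.T := by
  rw [algebraMap_E, algebraMap_T, j_apply, jR_mon]
  change (yp d.σ 1) ^ d.N = _
  rw [yp_pow, map_one, one_mul]

theorem co_sum_j (c : Fin d.N → LS L0) (q : ℤ) (r : Fin d.N) :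
    d.co (∑ i, d.j (c i) * d.u ^ (i : ℕ)) (d.N * q + (r : ℕ)) = (c r).co q := by
  have hN : (0 : ℤ) < d.N := by exact_mod_cast NeZero.pos d.N
  rw [co_sum, Finset.sum_eq_single r]
  · rw [co_mul_u_pow, co_j, add_sub_cancel_right, if_pos (dvd_mul_right _ _),
      Int.mul_ediv_cancel_left _ hN.ne']
  · intro i _ hir
    rw [co_mul_u_pow, co_j, if_neg]
    intro h
    have h2 : (d.N : ℤ) ∣ ((r : ℕ) : ℤ) - ((i : ℕ) : ℤ) := by
      have h3 : (d.N : ℤ) * q + ((r : ℕ) : ℤ) - ((i : ℕ) : ℤ) =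
        d.N * q + (((r : ℕ) : ℤ) - ((i : ℕ) : ℤ)) := by ring
      rw [h3] at h
      exact (Int.dvd_add_right (dvd_mul_right _ _)).mp h
    have h4 := Int.eq_zero_of_abs_lt_dvd h2 (by
      have hr := r.2
      have hi := i.2
      rw [abs_lt]
      constructor <;> omega)
    apply hir
    apply Fin.ext
    omega
  · simp

theorem exists_qr (n : ℤ) : ∃ (q : ℤ) (r : Fin d.N), n = d.N * q + (r : ℕ) := by
  have hN : (0 : ℤ) < d.N := by exact_mod_cast NeZero.pos d.N
  refine ⟨n / d.N, ⟨(n % d.N).toNat, ?_⟩, ?_⟩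
  · have h1 := Int.emod_lt_of_pos n hN
    have h2 := Int.emod_nonneg n hN.ne'
    omega
  · have h2 := Int.emod_nonneg n hN.ne'
    change n = d.N * (n / d.N) + ((n % d.N).toNat : ℤ)
    rw [Int.toNat_of_nonneg h2]
    exact (Int.mul_ediv_add_emod n d.N).symm

theorem decomp (e : d.E) : ∃! c : Fin d.N → LS L0, e = ∑ i, d.j (c i) * d.u ^ (i : ℕ) := by
  have hN : (0 : ℤ) < d.N := by exact_mod_cast NeZero.pos d.N
  -- lower bound of the support
  obtain ⟨m, hm⟩ : ∃ m : ℤ, ∀ k < m, d.co e k = 0 := by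
    by_cases he : e = 0
    · exact ⟨0, fun k _ => by rw [he]; rfl⟩
    · obtain ⟨m, _, hm⟩ := exists_order d.σ (x := e) he
      exact ⟨m, hm⟩
  have hb : ∀ r : Fin d.N, BddBelow (Function.support fun q : ℤ => d.co e (d.N * q + (r : ℕ))) := by
    intro r
    refine ⟨-|m| - 1, ?_⟩
    intro q hq
    by_contra hlt
    rw [not_le] at hlt
    apply hq
    apply hm
    have hr := r.2
    have h1 : (r : ℤ) < d.N := by exact_mod_cast hr
    have h2 : d.N * q ≤ d.N * (-|m| - 2) := mul_le_mul_of_nonneg_left (by omega) hN.le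
    have h3 : (d.N : ℤ) * (-|m| - 2) ≤ -|m| - 2 * d.N := by
      have : |m| ≤ d.N * |m| := by
        have := mul_le_mul_of_nonneg_right (show (1 : ℤ) ≤ d.N by omega) (abs_nonneg m)
        simpa using this
      linarith
    have h4 := neg_abs_le m
    omega
  let c : Fin d.N → LS L0 := fun r =>
    (HahnSeries.ofSuppBddBelow (fun q : ℤ => d.co e (d.N * q + (r : ℕ))) (hb r) : HahnSeries ℤ L0)
  have hc : ∀ r q, (c r).co q = d.co e (d.N * q + (r : ℕ)) := fun r q => by
    change (HahnSeries.ofSuppBddBelow _ (hb r) : HahnSeries ℤ L0).coeff q = _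
    rw [HahnSeries.coeff_ofSuppBddBelow]
  refine ⟨c, ?_, ?_⟩
  · change e = _
    apply d.ext; intro n
    obtain ⟨q, r, rfl⟩ := exists_qr d n
    rw [co_sum_j, hc]
  · intro c' hc'
    funext r
    apply LS.ext; intro q
    rw [hc]
    change e = _ at hc'
    conv_rhs => rw [hc']
    rw [co_sum_j]

/-- the decomposition map -/
def decMap : (Fin d.N → LS L0) →ₗ[d.K] d.E where
  toFun c := ∑ i, d.j (c i) * d.u ^ (i : ℕ)
  map_add' c c' := by
    rw [← Finset.sum_add_distrib]
    refine Finset.sum_congr rfl fun i _ => ?_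
    rw [Pi.add_apply, map_add, add_mul]
  map_smul' k c := by
    rw [RingHom.id_apply, Finset.smul_sum]
    refine Finset.sum_congr rfl fun i _ => ?_
    rw [Pi.smul_apply, map_smul, smul_mul_assoc]

theorem decMap_bijective : Function.Bijective (decMap d) := by
  constructor
  · intro c c' h
    obtain ⟨c0, _, hu⟩ := decomp d (decMap d c)
    rw [hu c rfl, hu c' h]
  · intro e
    obtain ⟨c, hc, _⟩ := decomp d e
    exact ⟨c, hc.symm⟩

instance : Module.Finite d.K d.E := Module.Finite.of_surjective (decMap d) (decMap_bijective d).2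

theorem finrank_E : Module.finrank d.K d.E = d.N * d.N := by
  rw [← (LinearEquiv.ofBijective (decMap d) (decMap_bijective d)).finrank_eq,
    Module.finrank_pi_fintype, Finset.sum_const, finrank_L']
  simp

instance : Algebra.IsCentral d.K d.E := by
  constructor
  intro x hx
  rw [Subalgebra.mem_center_iff] at hx
  have h1 : ∀ (b : L0) (n : ℤ), b * d.co x n = d.co x n * (d.σ ^ n) b := by
    intro b n
    have h := hx (ι d.σ b)
    have h' := congrArg (fun z => d.co z n) h
    have e1 := sc_ι_mul d.σ b x n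
    have e2 := sc_mul_ι d.σ b x n
    exact e1.symm.trans (h'.trans e2)
  have h2 : ∀ n : ℤ, ¬ (d.N : ℤ) ∣ n → d.co x n = 0 := by
    intro n hn
    by_contra h0
    apply hn
    apply d.hf
    ext b
    have h := h1 b n
    rw [mul_comm] at h
    exact (mul_left_cancel₀ h0 h).symm
  have h3 : ∀ n : ℤ, d.σ (d.co x n) = d.co x n := by
    intro n
    have h := hx (yp d.σ 1)
    have h' := congrArg (fun z => d.co z (n + 1)) h
    have e1 := sc_yp_mul d.σ 1 x (n + 1)
    have e2 := sc_mul_yp d.σ 1 x (n + 1)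
    rw [add_sub_cancel_right] at e1 e2
    rw [zpow_one] at e1
    exact e1.symm.trans (h'.trans e2)
  rw [Algebra.mem_bot]
  obtain ⟨c, hc, _⟩ := decomp d x
  let r0 : Fin d.N := ⟨0, NeZero.pos d.N⟩
  have hco : ∀ q : ℤ, (c r0).co q = d.co x (d.N * q) := by
    intro q
    conv_rhs => rw [hc]
    have := co_sum_j d c q r0
    simpa [r0] using this.symm
  have hfix : d.τ (c r0) = c r0 := by
    apply LS.ext; intro q
    rw [τ_apply, coeff_tau, hco]
    exact h3 _
  obtain ⟨k, hk⟩ := fix d _ hfix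
  refine ⟨k, ?_⟩
  rw [algebraMap_E, hk]
  apply d.ext; intro n
  rw [co_j]
  split_ifs with hn
  · obtain ⟨q, rfl⟩ := hn
    rw [Int.mul_ediv_cancel_left _ (by exact_mod_cast NeZero.ne d.N), hco]
  · exact (h2 n hn).symm

/-- `E ⊗ D` is a domain if `L₀ ⊗ D` is -/
theorem isDomain_tensor (D : Type) [Ring D] [Algebra F D] [IsDomain (L0 ⊗[F] D)] :
    IsDomain (d.E ⊗[F] D) :=
  Twist.isDomain_tensor d.σ D

end CycC

end

end Crest.Agent.R180
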