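import Crest.Agent.R180.CycGen

set_option autoImplicit false
set_option linter.unusedSectionVars false

/-!
# Row 180: rank property of the generic cyclic algebra
-/

namespace Crest.Agent.R180

noncomputable section

open TensorProduct HahnSeries

namespace CycC

/-- vectors witnessing the rank -/
theorem exists_vectors {F : Type} [Field F] {i j : Type} [Fintype i] [Fintype j] (r : ℕ)
    (M : Matrix j i F) (h : r ≤ M.rank) :
    ∃ v : Fin r → (i → F), LinearIndependent F (fun t => M.mulVec (v t)) := by
  classical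
  rw [Matrix.rank] at h
  obtain ⟨w, hw⟩ := exists_linearIndependent_of_le_finrank h
  have h1 : ∀ t, ∃ v, M.mulVecLin v = w t := fun t => (w t).2
  choose v hv using h1
  refine ⟨v, ?_⟩
  have h2 := hw.map' (LinearMap.range M.mulVecLin).subtype (Submodule.ker_subtype _)
  have h3 : (fun t => M.mulVec (v t)) = (LinearMap.range M.mulVecLin).subtype ∘ w := by
    funext t
    rw [Function.comp_apply, Submodule.subtype_apply, ← hv t, Matrix.mulVecLin_apply]
  rw [h3]; exact h2

/-- minimum of the orders of a nonzero finite family of Hahn series -/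
theorem exists_min_order {Γ R : Type} [LinearOrder Γ] [Zero R] {s : ℕ} (x : Fin s → HahnSeries Γ R)
    (hx : x ≠ 0) : ∃ g : Γ, (∃ a, (x a).coeff g ≠ 0) ∧ ∀ a, ∀ g' < g, (x a).coeff g' = 0 := by
  classical
  have h1 : ∃ a, x a ≠ 0 := by
    by_contra h
    push Not at h
    exact hx (funext h)
  have hW : (⋃ a, (x a).support).IsWF := by
    have h2 : (⋃ a ∈ (Finset.univ : Finset (Fin s)), (x a).support).IsWF :=
      (Finset.isWF_bUnion _).mpr (fun a _ => (x a).isWF_support)
    simpa using h2
  have hne : (⋃ a, (x a).support).Nonempty := by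
    obtain ⟨a, ha⟩ := h1
    obtain ⟨g, hg⟩ := HahnSeries.support_nonempty_iff.mpr ha
    exact ⟨g, Set.mem_iUnion.mpr ⟨a, hg⟩⟩
  refine ⟨hW.min hne, ?_, ?_⟩
  · obtain ⟨a, ha⟩ := Set.mem_iUnion.mp (hW.min_mem hne)
    exact ⟨a, ha⟩
  · intro a g' hg'
    by_contra h
    exact hW.not_lt_min hne (Set.mem_iUnion.mpr ⟨a, h⟩) hg'

section step1

variable {F : Type} [Field F] {Γ : Type} [AddCommGroup Γ] [LinearOrder Γ] [IsOrderedAddMonoid Γ]

/-- product of lowest coefficients -/
theorem coeff_mul_low {R : Type} [Ring R] (x y : HahnSeries Γ R) (m n : Γ)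
    (hx : ∀ k < m, x.coeff k = 0) (hy : ∀ k < n, y.coeff k = 0) :
    (x * y).coeff (m + n) = x.coeff m * y.coeff n := by
  rw [HahnSeries.coeff_mul, Finset.sum_eq_single (m, n)]
  · rintro ⟨i, j⟩ hij hne
    simp only [Finset.mem_antidiagonal, HahnSeries.mem_support] at hij
    exfalso
    apply hne
    have h1 : m ≤ i := not_lt.mp fun h => hij.1 (hx i h)
    have h2 : n ≤ j := not_lt.mp fun h => hij.2.1 (hy j h)
    have h3 : i = m := by
      by_contra h
      have h4 : m < i := lt_of_le_of_ne h1 (Ne.symm h)
      have h5 := add_lt_add_of_lt_of_le h4 h2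
      rw [hij.2.2] at h5
      exact lt_irrefl _ h5
    have h6 : j = n := by
      have := hij.2.2
      rw [h3] at this
      exact add_left_cancel this
    rw [h3, h6]
  · intro h
    simp only [Finset.mem_antidiagonal, HahnSeries.mem_support, and_true, not_and_or,
      not_not] at h
    rcases h with h | h
    · rw [h, zero_mul]
    · rw [h, mul_zero]

theorem coeff_algebraMap_mul {L0 : Type} [Field L0] [Algebra F L0] (φ : L0 →ₐ[F] HahnSeries Γ F)
    (c : F) (x : L0) (g : Γ) : (φ (c • x)).coeff g = c * (φ x).coeff g := by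
  rw [map_smul, HahnSeries.coeff_smul, smul_eq_mul]

/-- rank over the field `L₀` with an embedding into a Hahn series field -/
theorem step1 {L0 : Type} [Field L0] [Algebra F L0] (φ : L0 →ₐ[F] HahnSeries Γ F)
    {i j : Type} [Fintype i] [Fintype j] (s r : ℕ) (B : Fin s → Matrix j i F)
    (hB : ∀ c : Fin s → F, c ≠ 0 → r ≤ (∑ a, c a • B a).rank) (c : Fin s → L0) (hc : c ≠ 0) :
    ∃ v : Fin r → (i → F), ∀ l : Fin r → L0,
      (∀ b, ∑ t, (∑ a, (B a).mulVec (v t) b • c a) * l t = 0) → l = 0 := by
  have hφ : Function.Injective φ := RingHom.injective φ.toRingHom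
  obtain ⟨g, ⟨a0, ha0⟩, hg⟩ := exists_min_order (fun a => φ (c a)) (by
    intro h
    apply hc
    funext a
    apply hφ
    rw [Pi.zero_apply, map_zero]
    exact congrFun h a)
  obtain ⟨v, hv⟩ := exists_vectors r (∑ a, ((φ (c a)).coeff g) • B a)
    (hB (fun a => (φ (c a)).coeff g) (fun h => ha0 (congrFun h a0)))
  refine ⟨v, ?_⟩
  intro l hl
  by_contra hl0
  obtain ⟨g', ⟨t0, ht0⟩, hg'⟩ := exists_min_order (fun t => φ (l t)) (by
    intro h
    apply hl0
    funext a
    apply hφ
    rw [Pi.zero_apply, map_zero]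
    exact congrFun h a)
  have key : ∑ t, (φ (l t)).coeff g' • (∑ a, ((φ (c a)).coeff g) • B a).mulVec (v t) = 0 := by
    funext b
    have h1 := congrArg (fun x => (φ x).coeff (g + g')) (hl b)
    simp only [map_zero, HahnSeries.coeff_zero, map_sum, HahnSeries.coeff_sum, map_mul] at h1
    rw [Finset.sum_apply, Pi.zero_apply, ← h1]
    refine Finset.sum_congr rfl fun t _ => ?_
    rw [coeff_mul_low _ _ g g' ?_ (hg' t), mul_comm, HahnSeries.coeff_sum, Pi.smul_apply,
      smul_eq_mul]
    · congr 1
      rw [Matrix.sum_mulVec, Finset.sum_apply]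
      refine Finset.sum_congr rfl fun a _ => ?_
      rw [coeff_algebraMap_mul, Matrix.smul_mulVec, Pi.smul_apply, smul_eq_mul, mul_comm]
    · intro k hk
      rw [HahnSeries.coeff_sum]
      apply Finset.sum_eq_zero
      intro a _
      rw [coeff_algebraMap_mul, hg a k hk, mul_zero]
  have := (Fintype.linearIndependent_iff.mp hv) _ key t0
  exact ht0 this

end step1

variable {F : Type} [Field F]

/-- rank property of a cyclic algebra over a field with an embedding into a Hahn series field -/
theorem rankGood {L0 : Type} [Field L0] [Algebra F L0] (d : Dat F L0) {Γ : Type} [AddCommGroup Γ]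
    [LinearOrder Γ] [IsOrderedAddMonoid Γ] (φ : L0 →ₐ[F] HahnSeries Γ F)
    (i j : Type) [Fintype i] [Fintype j] (s r : ℕ) (B : Fin s → Matrix j i F)
    (hB : ∀ c : Fin s → F, c ≠ 0 → r ≤ (∑ a, c a • B a).rank)
    (c : Fin s → d.E) (hc : c ≠ 0) (T : (i → d.E) →ₗ[d.K] (j → d.E))
    (hT : ∀ x b, T x b = ∑ k, ∑ a, B a b k • (c a * x k)) :
    r * Module.finrank d.K d.E ≤ Module.finrank d.K (LinearMap.range T) := by
  classical
  obtain ⟨m, ⟨a0, ha0⟩, hm⟩ := exists_min_order (fun a => Twist.ser d.σ (c a)) (by
    intro h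
    apply hc
    funext a
    have h1 := congrFun h a
    simp only [Pi.zero_apply] at h1 ⊢
    have h2 := congrArg (Twist.mk d.σ) h1
    rw [Twist.mk_ser] at h2
    rw [h2]
    apply d.ext; intro n
    change Twist.sc d.σ (Twist.mk d.σ 0) n = 0
    rw [Twist.sc_mk]; simp)
  have hm' : ∀ a, ∀ k < m, d.co (c a) k = 0 := hm
  obtain ⟨v, hv⟩ := step1 φ s r B hB (fun a => d.co (c a) m) (fun h => ha0 (congrFun h a0))
  -- the E-level statement
  have hE : ∀ e : Fin r → d.E, (∀ b, ∑ t, (∑ a, (B a).mulVec (v t) b • c a) * e t = 0) → e = 0 := by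
    intro e he
    by_contra he0
    obtain ⟨l, ⟨t0, ht0⟩, hl⟩ := exists_min_order (fun t => Twist.ser d.σ (e t)) (by
      intro h
      apply he0
      funext a
      have h1 := congrFun h a
      simp only [Pi.zero_apply] at h1 ⊢
      have h2 := congrArg (Twist.mk d.σ) h1
      rw [Twist.mk_ser] at h2
      rw [h2]
      apply d.ext; intro n
      change Twist.sc d.σ (Twist.mk d.σ 0) n = 0
      rw [Twist.sc_mk]; simp)
    have hl' : ∀ t, ∀ k < l, d.co (e t) k = 0 := hl
    have h3 := hv (fun t => (d.σ ^ m) (d.co (e t) l)) (by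
      intro b
      have h1 := congrArg (fun x => d.co x (m + l)) (he b)
      simp only [co_sum, co_zero] at h1
      rw [← h1]
      refine Finset.sum_congr rfl fun t _ => ?_
      have h4 : ∀ n, d.co (∑ a, (B a).mulVec (v t) b • c a) n =
          ∑ a, (B a).mulVec (v t) b • d.co (c a) n := by
        intro n
        rw [co_sum]; rfl
      have h5 := Twist.sc_mul_low d.σ (x := (∑ a, (B a).mulVec (v t) b • c a : d.E))
        (y := e t) (m := m) (n := l) (fun k hk => by
          refine (h4 k).trans ?_
          apply Finset.sum_eq_zero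
          intro a _
          rw [hm' a k hk, smul_zero]) (hl' t)
      refine Eq.trans ?_ h5.symm
      congr 1
      exact (h4 m).symm)
    have h4 := congrFun h3 t0
    simp only [Pi.zero_apply] at h4
    apply ht0
    apply (d.σ ^ m).injective
    rw [map_zero]; exact h4
  -- the linear map
  let S : (Fin r → d.E) →ₗ[d.K] (i → d.E) :=
    { toFun := fun e k => ∑ t, (algebraMap F d.K (v t k)) • e t
      map_add' := by
        intro e e'
        funext k
        simp only [Pi.add_apply, smul_add, Finset.sum_add_distrib]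
      map_smul' := by
        intro x e
        funext k
        simp only [Pi.smul_apply, RingHom.id_apply, Finset.smul_sum]
        refine Finset.sum_congr rfl fun t _ => ?_
        rw [smul_comm] }
  have hS : ∀ e k, S e k = ∑ t, v t k • e t := by
    intro e k
    change ∑ t, (algebraMap F d.K (v t k)) • e t = _
    refine Finset.sum_congr rfl fun t _ => ?_
    rw [algebraMap_smul]
  have hTS : ∀ e b, T (S e) b = ∑ t, (∑ a, (B a).mulVec (v t) b • c a) * e t := by
    intro e b
    rw [hT]
    simp only [hS, Finset.mul_sum, Finset.sum_mul, Finset.smul_sum, Matrix.mulVec, dotProduct,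
      Finset.sum_smul, smul_mul_assoc, mul_smul_comm, smul_smul]
    rw [Finset.sum_congr rfl (fun k _ => Finset.sum_comm), Finset.sum_comm]
    refine Finset.sum_congr rfl fun t _ => ?_
    rw [Finset.sum_comm]
  have hinj : Function.Injective (T.rangeRestrict.comp S) := by
    rw [← LinearMap.ker_eq_bot, LinearMap.ker_eq_bot']
    intro e he
    apply hE
    intro b
    rw [← hTS]
    have h1 := congrArg Subtype.val he
    exact congrFun h1 b
  have h1 := LinearMap.finrank_le_finrank_of_injective hinj
  rw [Module.finrank_pi_fintype, Finset.sum_const, Finset.card_univ, Fintype.card_fin,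
    smul_eq_mul] at h1
  exact h1

end CycC

end

end Crest.Agent.R180
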