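import Crest.Agent.R180.CycDef

set_option autoImplicit false
noncomputable section
namespace Crest.Agent.R180

/-!
# Row 180, MODULE S: definitions for Theorem S ("plain" representations)

`Pcl Θ f`     : `f` is in the `𝔪`-adic closure of the subalgebra generated by ALL constants `D` and
                the (central coefficient) series `Θ c`
`PRS P A m Θ` : some element `a` with `P a` is conjugate to an element of this closure
`Adm.hE0`     : the `E`-level version of the evaluation of a move
`Adm.RankGood`: rank property of the extension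
-/

/-- `𝔪`-adic closure of the subalgebra generated by the constants and the series `Θ c` -/
def Pcl {A : DA} {m : ℕ} {κ : Type} (Θ : κ → NC (Fin m) A.F) (f : NC (Fin m) A.D) : Prop :=
  ∀ k : ℕ, ∃ g ∈ Algebra.adjoin A.F (Set.range (fun d : A.D => (NC.C d : NC (Fin m) A.D)) ∪
      Set.range (fun c => (NC.map (algebraMap A.F A.D) (Θ c) : NC (Fin m) A.D))),
    ∀ w : List (Fin m), w.length < k → f w = g w

/-- plain representation -/
structure PRS (P : (A : DA) → (m : ℕ) → NC (Fin m) A.D → Prop) (A : DA) (m : ℕ) {κ : Type}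
    (Θ : κ → NC (Fin m) A.F) : Prop where
  zero : ∀ c, Θ c [] = 0
  rep : ∃ (a v v' : NC (Fin m) A.D), v * v' = 1 ∧ v' * v = 1 ∧ P A m a ∧ Pcl Θ (v * a * v')

theorem hE_mem {E : Type} [Ring E] {m μ : ℕ} (X : Fin m → NC (Fin μ) (PowerSeries E))
    (hX : ∀ j, PowerSeries.constantCoeff (X j []) = 0) (j : Fin m) :
    X j ∈ (CFilt.nc (CFilt.powerSeries E) : CFilt (NC (Fin μ) (PowerSeries E))).I 1 := by
  rw [CFilt.mem_nc_one, CFilt.mem_powerSeries]
  intro i hi
  have : i = 0 := by omega
  subst this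
  rw [PowerSeries.coeff_zero_eq_constantCoeff_apply]
  exact hX j

theorem hE_comm {K E : Type} [CommRing K] [Ring E] [Algebra K E] {m μ : ℕ}
    (X : Fin m → NC (Fin μ) (PowerSeries E)) (k : K) (j : Fin m) :
    ((NC.C.comp (PowerSeries.C (R := E))).comp (algebraMap K E)) k * X j =
      X j * ((NC.C.comp (PowerSeries.C (R := E))).comp (algebraMap K E)) k := by
  apply NC.ext'; intro w
  simp only [RingHom.comp_apply, NC.C_mul_apply, NC.mul_C_apply]
  ext n
  rw [PowerSeries.coeff_C_mul, PowerSeries.coeff_mul_C]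
  exact Algebra.commutes k _

/-- general evaluation `NC m K → NC μ (E⟦t⟧)` -/
def hEv {K E : Type} [CommRing K] [Ring E] [Algebra K E] {m μ : ℕ}
    (X : Fin m → NC (Fin μ) (PowerSeries E))
    (hX : ∀ j, PowerSeries.constantCoeff (X j []) = 0) :
    NC (Fin m) K →+* NC (Fin μ) (PowerSeries E) :=
  NC.subst (CFilt.nc (CFilt.powerSeries E)) ((NC.C.comp (PowerSeries.C (R := E))).comp
    (algebraMap K E)) X (hE_mem X hX) (hE_comm X)

/-- the `E`-level evaluation of a move: `NC m F → NC μ (E⟦t⟧)` -/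
def Adm.hE0 {A : DA} (M : Adm A) {m μ : ℕ} (X : Fin m → NC (Fin μ) (PowerSeries M.E))
    (hX : ∀ j, PowerSeries.constantCoeff (X j []) = 0) :
    NC (Fin m) A.F →+* NC (Fin μ) (PowerSeries M.E) := hEv X hX

/-- rank property (G3) of an extension -/
def Adm.RankGood {A : DA} (M : Adm A) : Prop :=
  ∀ (i j : Type) [Fintype i] [Fintype j] (s r : ℕ) (B : Fin s → Matrix j i A.F),
    (∀ c : Fin s → A.F, c ≠ 0 → r ≤ (∑ a, c a • B a).rank) →
    ∀ c : Fin s → M.E, c ≠ 0 → ∀ T : (i → M.E) →ₗ[M.F1] (j → M.E),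
      (∀ x b, T x b = ∑ k, ∑ a, B a b k • (c a * x k)) →
      r * Module.finrank M.F1 M.E ≤ Module.finrank M.F1 (LinearMap.range T)

end Crest.Agent.R180
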