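import Crest.Agent.R180.CycConstr
import Crest.Agent.R180.CycRank
import Crest.Agent.R180.PRSDef

set_option autoImplicit false

/-!
# Row 180, module G: `exists_cyc_rank`, `exists_trivial_rank`
-/

namespace Crest.Agent.R180

noncomputable section

theorem cycModel_rankGood (A : DA) (N : ℕ) [NeZero N] (I : Type) :
    (cycModel A N I).toAdm.RankGood := by
  obtain ⟨Γ, h1, h2, h3, ⟨φ⟩⟩ := GenField.exists_emb A.F (Option I × ZMod N)
  intro i j _ _ s r B hB c hc T hT
  exact CycC.rankGood (CycC.genDat A.F I N) φ i j s r B hB c hc T hT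

/-- (MODULE G) -/
theorem exists_cyc_rank (A : DA) (N : ℕ) (hN : 1 ≤ N) : ∃ M : Cyc A N (Fin 2),
    M.toAdm.RankGood := by
  have : NeZero N := ⟨by omega⟩
  exact ⟨cycModel A N (Fin 2), cycModel_rankGood A N (Fin 2)⟩

theorem trivial_rank (F : Type) [Field F] : ∀ (i j : Type) [Fintype i] [Fintype j] (s r : ℕ)
    (B : Fin s → Matrix j i F),
    (∀ c : Fin s → F, c ≠ 0 → r ≤ (∑ a, c a • B a).rank) →
    ∀ c : Fin s → F, c ≠ 0 → ∀ T : (i → F) →ₗ[F] (j → F),
      (∀ x b, T x b = ∑ k, ∑ a, B a b k • (c a * x k)) →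
      r * Module.finrank F F ≤ Module.finrank F (LinearMap.range T) := by
  intro i j _ _ s r B hB c hc T hT
  have h1 : T = (∑ a, c a • B a).mulVecLin := by
    apply LinearMap.ext; intro x
    funext b
    rw [Matrix.mulVecLin_apply, hT x b]
    simp only [Matrix.mulVec, dotProduct, Matrix.sum_apply, Matrix.smul_apply, smul_eq_mul,
      Finset.sum_mul]
    refine Finset.sum_congr rfl fun k _ => Finset.sum_congr rfl fun a _ => ?_
    ring
  rw [h1, Module.finrank_self, mul_one]
  exact hB c hc

/-- (MODULE G) the trivial extension -/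
theorem exists_trivial_rank (A : DA) : ∃ M : Adm A,
    Function.Bijective (algebraMap A.F M.F1) ∧ Function.Bijective (algebraMap M.F1 M.E) ∧
      M.RankGood := by
  refine ⟨trivialAdm A, Function.bijective_id, Function.bijective_id, ?_⟩
  exact trivial_rank A.F


end

end Crest.Agent.R180
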