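import Crest.Agent.R180.StmtA

set_option autoImplicit false

/-!
# R180: definitions of the v3 plan (notes 4022, 4252)

`Good K K₁ E`     : good extension (finite central division algebra `E / K₁`, keeps division algebras)
`tens`            : `NC ι A ⊗[K] Γ ≃ NC ι (A ⊗[K] Γ)`
`extc φ Γ`        : extension of `φ : NC ι K → NC ι' E` to coefficients in `Γ`
`PD φ`            : preserves density
`Solvable γ`      : some `PD` substitution makes `γ` conjugate to a constant
-/

open scoped TensorProduct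

namespace Crest.Agent.R180

/-- the field contains all roots of unity -/
class HasRoots (K : Type) [Field K] : Prop where
  out : ∀ n : ℕ, 0 < n → ∃ ζ : K, IsPrimitiveRoot ζ n

theorem HasRoots.of_ringHom {K K' : Type} [Field K] [Field K'] (i : K →+* K') [HasRoots K] :
    HasRoots K' :=
  ⟨fun n hn => by
    obtain ⟨ζ, hζ⟩ := HasRoots.out (K := K) n hn
    exact ⟨i ζ, hζ.map_of_injective i.injective⟩⟩

instance (priority := 100) HasRoots.of_isAlgClosed (K : Type) [Field K] [CharZero K]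
    [IsAlgClosed K] : HasRoots K :=
  ⟨fun n hn => by
    haveI : NeZero n := ⟨hn.ne'⟩
    haveI : NeZero (n : K) := ⟨by exact_mod_cast hn.ne'⟩
    exact HasEnoughRootsOfUnity.exists_primitiveRoot K n⟩

/-- Theorem A with roots of unity in the base field (this is the version used by the frame). -/
def TheoremAR : Prop :=
  ∀ (F D : Type) [Field F] [CharZero F] [HasRoots F] [Ring D] [IsDomain D] [Algebra F D]
    [FiniteDimensional F D] [Algebra.IsCentral F D]
    (𝒜 : Subalgebra F (NC (Fin 2) D)), NC.Dense 𝒜 → ∀ a : NC (Fin 2) D,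
    ∃ (F' D' : Type) (_ : Field F') (_ : CharZero F') (_ : Ring D') (_ : IsDomain D')
      (_ : Algebra F' D') (_ : FiniteDimensional F' D') (_ : Algebra.IsCentral F' D')
      (i : F →+* F') (h : NC (Fin 2) D →+* NC (Fin 2) D'),
      (∀ c : F, h (algebraMap F (NC (Fin 2) D) c) = algebraMap F' (NC (Fin 2) D') (i c)) ∧
      IsAlgebraic F' (h a) ∧
      NC.Dense (Algebra.adjoin F' (h '' (𝒜 : Set (NC (Fin 2) D))))

/-- A good extension of `K`: `E` is a finite central algebra over the field `K₁ ⊇ K` and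
`E ⊗[K] Γ` is a domain for every finite-dimensional division algebra `Γ` over `K`. -/
class Good (K K₁ E : Type) [Field K] [Field K₁] [Algebra K K₁] [Ring E] [Algebra K₁ E]
    [Algebra K E] [IsScalarTower K K₁ E] : Prop where
  fin : FiniteDimensional K₁ E
  cen : Algebra.IsCentral K₁ E
  dom : ∀ (Γ : Type) [Ring Γ] [IsDomain Γ] [Algebra K Γ] [FiniteDimensional K Γ],
    IsDomain (E ⊗[K] Γ)

section tens

variable (K ι A Γ : Type) [Field K] [Ring A] [Algebra K A] [Ring Γ] [Algebra K Γ]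

/-- coefficientwise map as an algebra hom -/
def NC.mapAlg {K ι A B : Type} [CommRing K] [Ring A] [Algebra K A] [Ring B] [Algebra K B]
    (f : A →ₐ[K] B) : NC ι A →ₐ[K] NC ι B :=
  { NC.map (f : A →+* B) with
    commutes' := fun c => by
      apply NC.ext'; intro w
      cases w with
      | nil => simp [NC.algebraMap_eq]
      | cons s w => simp [NC.algebraMap_eq] }

@[simp] theorem NC.mapAlg_apply {K ι A B : Type} [CommRing K] [Ring A] [Algebra K A] [Ring B]
    [Algebra K B] (f : A →ₐ[K] B) (x : NC ι A) (w : List ι) : NC.mapAlg f x w = f (x w) := rfl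

/-- constants as an algebra hom -/
def NC.CAlg {K ι A : Type} [CommRing K] [Ring A] [Algebra K A] : A →ₐ[K] NC ι A :=
  { (NC.C : A →+* NC ι A) with commutes' := fun _ => rfl }

@[simp] theorem NC.CAlg_apply {K ι A : Type} [CommRing K] [Ring A] [Algebra K A] (a : A) :
    (NC.CAlg (K := K) a : NC ι A) = NC.C a := rfl

/-- `NC ι A ⊗[K] Γ → NC ι (A ⊗[K] Γ)` -/
noncomputable def tensHom : NC ι A ⊗[K] Γ →ₐ[K] NC ι (A ⊗[K] Γ) :=
  Algebra.TensorProduct.lift (NC.mapAlg Algebra.TensorProduct.includeLeft)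
    (NC.CAlg.comp Algebra.TensorProduct.includeRight) (fun x y => by
      change _ = _
      apply NC.ext'; intro w
      simp)

@[simp] theorem tensHom_tmul (f : NC ι A) (g : Γ) (w : List ι) :
    tensHom K ι A Γ (f ⊗ₜ g) w = (f w) ⊗ₜ[K] g := by
  have h : tensHom K ι A Γ (f ⊗ₜ g) =
      NC.mapAlg (K := K) Algebra.TensorProduct.includeLeft f *
        NC.CAlg (K := K) (Algebra.TensorProduct.includeRight g) := rfl
  rw [h]
  simp

theorem tensHom_apply_repr {κ : Type} [DecidableEq κ] (b : Module.Basis κ K Γ) (x : NC ι A ⊗[K] Γ) (w : List ι)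
    (k : κ) :
    TensorProduct.equivFinsuppOfBasisRight b (tensHom K ι A Γ x w) k =
      (TensorProduct.equivFinsuppOfBasisRight b x k) w := by
  induction x using TensorProduct.induction_on with
  | zero => simp
  | tmul f g =>
    rw [tensHom_tmul]
    simp only [TensorProduct.equivFinsuppOfBasisRight_apply_tmul_apply, NC.smul_apply]
  | add x y hx hy =>
    rw [map_add, NC.add_apply, map_add, map_add, Finsupp.add_apply, Finsupp.add_apply,
      NC.add_apply, hx, hy]

theorem tensHom_injective : Function.Injective (tensHom K ι A Γ) := by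
  classical
  intro x y h
  let b := Module.Basis.ofVectorSpace K Γ
  apply (TensorProduct.equivFinsuppOfBasisRight (M := NC ι A) b).injective
  ext k w
  rw [← tensHom_apply_repr, ← tensHom_apply_repr, h]

theorem tensHom_surjective [FiniteDimensional K Γ] : Function.Surjective (tensHom K ι A Γ) := by
  classical
  intro f
  let b := Module.finBasis K Γ
  refine ⟨∑ k, (⟨fun w => TensorProduct.equivFinsuppOfBasisRight b (f w) k⟩ : NC ι A) ⊗ₜ b k, ?_⟩
  apply NC.ext'; intro w
  apply (TensorProduct.equivFinsuppOfBasisRight (M := A) b).injective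
  ext k
  rw [tensHom_apply_repr]
  simp only [map_sum, Finsupp.coe_finsetSum, Finset.sum_apply, NC.sum_apply]
  rw [Finset.sum_eq_single k]
  · simp [TensorProduct.equivFinsuppOfBasisRight_apply_tmul_apply]
  · intro j _ hj
    simp [TensorProduct.equivFinsuppOfBasisRight_apply_tmul_apply, Finsupp.single_apply, hj]
  · simp

/-- `NC ι A ⊗[K] Γ ≃ NC ι (A ⊗[K] Γ)` for finite-dimensional `Γ` -/
noncomputable def tens [FiniteDimensional K Γ] : NC ι A ⊗[K] Γ ≃ₐ[K] NC ι (A ⊗[K] Γ) :=
  AlgEquiv.ofBijective (tensHom K ι A Γ) ⟨tensHom_injective K ι A Γ, tensHom_surjective K ι A Γ⟩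

@[simp] theorem tens_tmul [FiniteDimensional K Γ] (f : NC ι A) (g : Γ) (w : List ι) :
    tens K ι A Γ (f ⊗ₜ g) w = (f w) ⊗ₜ[K] g := tensHom_tmul K ι A Γ f g w

/-- `NC ι Γ ≃ NC ι K ⊗ Γ` -/
noncomputable def tensK [FiniteDimensional K Γ] : NC ι Γ →ₐ[K] NC ι K ⊗[K] Γ :=
  ((tens K ι K Γ).symm : NC ι (K ⊗[K] Γ) →ₐ[K] NC ι K ⊗[K] Γ).comp
    (NC.mapAlg (Algebra.TensorProduct.includeRight))

end tens

section ext

variable {K ι ι' E : Type} [Field K] [Ring E] [Algebra K E]

/-- Extension of a substitution `φ : NC ι K → NC ι' E` to coefficients in a finite-dimensional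
`K`-algebra `Γ`. -/
noncomputable def extc (φ : NC ι K →ₐ[K] NC ι' E) (Γ : Type) [Ring Γ] [Algebra K Γ]
    [FiniteDimensional K Γ] : NC ι Γ →ₐ[K] NC ι' (E ⊗[K] Γ) :=
  ((tens K ι' E Γ : NC ι' E ⊗[K] Γ ≃ₐ[K] NC ι' (E ⊗[K] Γ)) :
      NC ι' E ⊗[K] Γ →ₐ[K] NC ι' (E ⊗[K] Γ)).comp
    ((Algebra.TensorProduct.map φ (AlgHom.id K Γ)).comp (tensK K ι Γ))

variable (φ : NC ι K →ₐ[K] NC ι' E) (Γ : Type) [Ring Γ] [Algebra K Γ] [FiniteDimensional K Γ]

/-- on "pure tensors" `f·g` with `f` a series over `K` and `g : Γ` -/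
theorem extc_pure (f : NC ι K) (g : Γ) :
    extc φ Γ (NC.map (algebraMap K Γ) f * NC.C g)
      = NC.mapAlg (K := K) Algebra.TensorProduct.includeLeft (φ f) * NC.C (1 ⊗ₜ[K] g) := by
  have h1 : tensK K ι Γ (NC.map (algebraMap K Γ) f * NC.C g) = f ⊗ₜ g := by
    apply (tens K ι K Γ).injective
    rw [tensK, AlgHom.comp_apply]
    change (tens K ι K Γ) ((tens K ι K Γ).symm _) = _
    rw [AlgEquiv.apply_symm_apply]
    apply NC.ext'; intro w
    rw [tens_tmul]
    simp only [NC.mapAlg_apply, NC.mul_C_apply, NC.map_apply,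
      Algebra.TensorProduct.includeRight_apply]
    rw [← Algebra.smul_def, TensorProduct.tmul_smul, TensorProduct.smul_tmul', smul_eq_mul, mul_one]
  rw [extc, AlgHom.comp_apply, AlgHom.comp_apply, h1]
  apply NC.ext'; intro w
  rw [Algebra.TensorProduct.map_tmul]
  change (tens K ι' E Γ) _ w = _
  rw [tens_tmul]
  simp

/-- every series over `Γ` is a finite sum of pure ones -/
theorem NC.eq_sum_pure {κ : Type} [Fintype κ] (b : Module.Basis κ K Γ) (f : NC ι Γ) :
    f = ∑ k, NC.map (algebraMap K Γ) (⟨fun w => b.repr (f w) k⟩ : NC ι K) * NC.C (b k) := by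
  apply NC.ext'; intro w
  rw [NC.sum_apply]
  simp only [NC.mul_C_apply, NC.map_apply]
  conv_lhs => rw [← b.sum_repr (f w)]
  exact Finset.sum_congr rfl fun k _ => by rw [Algebra.smul_def]

@[simp] theorem extc_C (g : Γ) : extc φ Γ (NC.C g) = NC.C (1 ⊗ₜ[K] g) := by
  have := extc_pure φ Γ 1 g
  simpa using this

theorem extc_map (f : NC ι K) :
    extc φ Γ (NC.map (algebraMap K Γ) f)
      = NC.mapAlg (K := K) Algebra.TensorProduct.includeLeft (φ f) := by
  have := extc_pure φ Γ f 1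
  simpa [← Algebra.TensorProduct.one_def] using this

end ext

/-- `f` is in the closure of the set `B` of series (length filtration). -/
def NC.Cl {ι A : Type} [Ring A] (B : Set (NC ι A)) (f : NC ι A) : Prop :=
  ∀ k : ℕ, ∃ b ∈ B, ∀ w : List ι, w.length < k → b w = f w

/-- `φ` preserves density (for every coefficient algebra), and closures of subspaces. -/
structure PD {K K₁ ι ι' E : Type} [Field K] [Field K₁] [Algebra K K₁] [Ring E] [Algebra K₁ E]
    [Algebra K E] [IsScalarTower K K₁ E] (φ : NC ι K →ₐ[K] NC ι' E) : Prop where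
  dense : ∀ (Γ : Type) [Ring Γ] [IsDomain Γ] [Algebra K Γ] [FiniteDimensional K Γ]
    (𝒜 : Subalgebra K (NC ι Γ)), NC.Dense 𝒜 →
    NC.Dense (Algebra.adjoin K₁ (extc φ Γ '' (𝒜 : Set (NC ι Γ))))
  closure : ∀ (Γ : Type) [Ring Γ] [Algebra K Γ] [FiniteDimensional K Γ]
    (B : Submodule K (NC ι Γ)) (f : NC ι Γ), NC.Cl (B : Set (NC ι Γ)) f →
    NC.Cl (Submodule.span K₁ (extc φ Γ '' (B : Set (NC ι Γ))) : Set (NC ι' (E ⊗[K] Γ)))
      (extc φ Γ f)

/-- `γ ∈ Γ⟪ι⟫` can be made conjugate to a constant by a density preserving substitution into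
`E⟪a₁,a₂⟫`, `E` a good extension. -/
def Solvable (K ι Γ : Type) [Field K] [Ring Γ] [Algebra K Γ] [FiniteDimensional K Γ]
    (γ : NC ι Γ) : Prop :=
  ∃ (K₁ E : Type) (_ : Field K₁) (_ : Algebra K K₁) (_ : Ring E) (_ : Algebra K₁ E)
    (_ : Algebra K E) (_ : IsScalarTower K K₁ E) (_ : Good K K₁ E)
    (φ : NC ι K →ₐ[K] NC (Fin 2) E), PD (K₁ := K₁) φ ∧
      ∃ (v : (NC (Fin 2) (E ⊗[K] Γ))ˣ) (c : E ⊗[K] Γ),
        extc φ Γ γ = (v : NC (Fin 2) (E ⊗[K] Γ)) * (NC.C c : NC (Fin 2) (E ⊗[K] Γ)) *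
          (↑v⁻¹ : NC (Fin 2) (E ⊗[K] Γ))

end Crest.Agent.R180
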