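import Crest.Agent.R180.Basic

set_option autoImplicit false

/-!
# Row 180: density modulo all powers of the augmentation ideal
-/

namespace Crest.Agent.R180.NC

variable {σ K : Type} [Ring K]

/-- order is superadditive -/
theorem mul_vanish (f g : NC σ K) (m n : ℕ) (hf : ∀ w : List σ, w.length < m → f w = 0)
    (hg : ∀ w : List σ, w.length < n → g w = 0) (w : List σ) (hw : w.length < m + n) :
    (f * g) w = 0 := by
  induction w generalizing f m with
  | nil =>
    rw [mul_nil]
    by_cases hm : 0 < m
    · rw [hf [] (by simpa using hm), zero_mul]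
    · rw [hg [] (by simp at hw ⊢; omega), mul_zero]
  | cons s w ih =>
    rw [mul_cons]
    simp only [List.length_cons] at hw
    have h1 : (ld s f * g) w = 0 := by
      refine ih (ld s f) (m - 1) (fun v hv => ?_) (by omega)
      rw [ld_apply]
      exact hf _ (by simp only [List.length_cons]; omega)
    rw [h1, zero_add]
    by_cases hm : 0 < m
    · rw [hf [] (by simpa using hm), zero_mul]
    · rw [hg (s :: w) (by simp only [List.length_cons]; omega), mul_zero]

theorem decomp_of_nil [DecidableEq σ] [Fintype σ] (f : NC σ K) (hf : f [] = 0) :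
    f = ∑ i, NC.X i * ld i f := by
  apply ext'; intro w
  rw [sum_apply]
  cases w with
  | nil => simp [hf]
  | cons s w =>
    have h1 : ∀ i, (NC.X i * ld i f : NC σ K) (s :: w) = if s = i then f (i :: w) else 0 := by
      intro i
      rw [mul_cons, X_nil, zero_mul, add_zero]
      have h2 : ld s (NC.X i : NC σ K) = if s = i then 1 else 0 := by
        apply ext'; intro v
        cases v with
        | nil => by_cases h : s = i <;> simp [h]
        | cons r v => by_cases h : s = i <;> simp [h]
      rw [h2]
      split_ifs <;> simp
    rw [Finset.sum_congr rfl fun i _ => h1 i, Finset.sum_ite_eq Finset.univ s]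
    simp

/-- a subalgebra dense mod `𝔪²` is dense mod `𝔪^k` for all `k` -/
theorem Dense.all_gen {F : Type} [CommRing F] [Algebra F K] [Fintype σ] {𝒜 : Subalgebra F (NC σ K)}
    (h : Dense 𝒜) (k : ℕ) (f : NC σ K) : ∃ a ∈ 𝒜, ∀ w : List σ, w.length < k → a w = f w := by
  classical
  induction k generalizing f with
  | zero => exact ⟨0, 𝒜.zero_mem, fun w hw => absurd hw (Nat.not_lt_zero _)⟩
  | succ k ih =>
    by_cases hk : k ≤ 1
    · obtain ⟨a, ha, haf⟩ := h f
      exact ⟨a, ha, fun w hw => haf w (by omega)⟩
    · obtain ⟨b, hb, hbf⟩ := ih f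
      have hr : ∀ w : List σ, w.length < k → (f - b) w = 0 := fun w hw => by
        rw [sub_apply, hbf w hw, sub_self]
      choose c hc hcf using fun i => ih (ld i (f - b))
      choose x hx hxf using fun i : σ => h (NC.X i)
      refine ⟨b + ∑ i, x i * c i,
        𝒜.add_mem hb (𝒜.sum_mem fun i _ => 𝒜.mul_mem (hx i) (hc i)), fun w hw => ?_⟩
      have e1 : f = b + ∑ i, NC.X i * ld i (f - b) := by
        rw [← decomp_of_nil (f - b) (hr [] (by simp; omega))]; abel
      have e2 : (∑ i, x i * c i) - ∑ i, NC.X i * ld i (f - b) =
          ∑ i, ((x i - NC.X i) * c i + NC.X i * (c i - ld i (f - b))) := by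
        rw [← Finset.sum_sub_distrib]
        refine Finset.sum_congr rfl fun i _ => ?_
        noncomm_ring
      have e3 : ((∑ i, x i * c i) - ∑ i, NC.X i * ld i (f - b)) w = 0 := by
        rw [e2, sum_apply]
        refine Finset.sum_eq_zero fun i _ => ?_
        rw [add_apply]
        have t1 : ((x i - NC.X i) * c i : NC σ K) w = 0 := by
          refine mul_vanish _ _ 2 (k - 1) (fun v hv => ?_) (fun v hv => ?_) w (by omega)
          · rw [sub_apply, hxf i v hv, sub_self]
          · rw [hcf i v (by omega), ld_apply]
            exact hr _ (by simp only [List.length_cons]; omega)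
        have t2 : (NC.X i * (c i - ld i (f - b)) : NC σ K) w = 0 := by
          refine mul_vanish _ _ 1 k (fun v hv => ?_) (fun v hv => ?_) w (by omega)
          · have : v = [] := List.length_eq_zero_iff.mp (by omega)
            rw [this, X_nil]
          · rw [sub_apply, hcf i v hv, sub_self]
        rw [t1, t2, add_zero]
      rw [sub_apply, sub_eq_zero] at e3
      conv_rhs => rw [e1]
      rw [add_apply, add_apply, e3]

end Crest.Agent.R180.NC
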