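import Crest.Agent.R180.Basic

set_option autoImplicit false

namespace Crest.Agent.R180

/-- Theorem A (one step): given a stage `NC (Fin 2) D` (`D` finite-dimensional central division
algebra over a field of characteristic zero), a dense subalgebra `𝒜` and an element `a`, there is a
stage homomorphism to another stage making `a` algebraic and keeping density. -/
def TheoremA : Prop :=
  ∀ (F D : Type) [Field F] [CharZero F] [Ring D] [IsDomain D] [Algebra F D]
    [FiniteDimensional F D] [Algebra.IsCentral F D]
    (𝒜 : Subalgebra F (NC (Fin 2) D)), NC.Dense 𝒜 → ∀ a : NC (Fin 2) D,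
    ∃ (F' D' : Type) (_ : Field F') (_ : CharZero F') (_ : Ring D') (_ : IsDomain D')
      (_ : Algebra F' D') (_ : FiniteDimensional F' D') (_ : Algebra.IsCentral F' D')
      (i : F →+* F') (h : NC (Fin 2) D →+* NC (Fin 2) D'),
      (∀ c : F, h (algebraMap F (NC (Fin 2) D) c) = algebraMap F' (NC (Fin 2) D') (i c)) ∧
      IsAlgebraic F' (h a) ∧
      NC.Dense (Algebra.adjoin F' (h '' (𝒜 : Set (NC (Fin 2) D))))

/-- The statement of S0270. -/
def Goal : Prop :=
    ∃ (D : Type) (_ : DivisionRing D), Countable D ∧ CharZero D ∧
      Algebra.IsAlgebraic (Subring.center D) D ∧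
      (∃ x y : D, Algebra.adjoin (Subring.center D) ({x, y} : Set D) = ⊤) ∧
      ¬ FiniteDimensional (Subring.center D) D

end Crest.Agent.R180
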