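import Mathlib

set_option autoImplicit false

/-!
# Row 180: functions on a vector space which are polynomial along lines

Used to find points with finitely many open conditions over an infinite field.
-/

namespace Crest.Agent.R180

section Pol

variable {K V : Type*} [Field K] [AddCommGroup V] [Module K V]

variable (K V) in
/-- functions which are polynomial along every line -/
def Pol : Subalgebra K (V → K) where
  carrier := {f | ∀ z₀ z₁ : V, ∃ P : Polynomial K, ∀ c : K, f (z₀ + c • z₁) = P.eval c}
  mul_mem' := by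
    intro f g hf hg z₀ z₁
    obtain ⟨P, hP⟩ := hf z₀ z₁
    obtain ⟨Q, hQ⟩ := hg z₀ z₁
    exact ⟨P * Q, fun c => by rw [Pi.mul_apply, hP, hQ, Polynomial.eval_mul]⟩
  add_mem' := by
    intro f g hf hg z₀ z₁
    obtain ⟨P, hP⟩ := hf z₀ z₁
    obtain ⟨Q, hQ⟩ := hg z₀ z₁
    exact ⟨P + Q, fun c => by rw [Pi.add_apply, hP, hQ, Polynomial.eval_add]⟩
  algebraMap_mem' := by
    intro k z₀ z₁
    exact ⟨Polynomial.C k, fun c => by simp⟩

theorem mem_Pol {f : V → K} :
    f ∈ Pol K V ↔ ∀ z₀ z₁ : V, ∃ P : Polynomial K, ∀ c : K, f (z₀ + c • z₁) = P.eval c := Iff.rfl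

theorem Pol.linear (l : V →ₗ[K] K) : (fun z => l z) ∈ Pol K V := by
  intro z₀ z₁
  refine ⟨Polynomial.C (l z₀) + Polynomial.C (l z₁) * Polynomial.X, fun c => ?_⟩
  simp only [map_add, map_smul, smul_eq_mul, Polynomial.eval_add, Polynomial.eval_mul,
    Polynomial.eval_C, Polynomial.eval_X]
  ring

theorem Pol.const (k : K) : (fun _ : V => k) ∈ Pol K V := (Pol K V).algebraMap_mem k

/-- two nonzero conditions can be satisfied simultaneously -/
theorem Pol.exists_both [Infinite K] {f g : V → K} (hf : f ∈ Pol K V) (hg : g ∈ Pol K V)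
    {z₁ z₂ : V} (h1 : f z₁ ≠ 0) (h2 : g z₂ ≠ 0) : ∃ z, f z ≠ 0 ∧ g z ≠ 0 := by
  obtain ⟨P, hP⟩ := hf z₁ (z₂ - z₁)
  obtain ⟨Q, hQ⟩ := hg z₁ (z₂ - z₁)
  have hP0 : P ≠ 0 := by
    rintro rfl
    have := hP 0
    simp at this
    exact h1 this
  have hQ0 : Q ≠ 0 := by
    rintro rfl
    have := hQ 1
    simp at this
    exact h2 this
  obtain ⟨c, hc⟩ := Polynomial.exists_eval_ne_zero_of_natDegree_lt_card (P * Q)
    (mul_ne_zero hP0 hQ0) (by
      exact lt_of_lt_of_le (Cardinal.natCast_lt_aleph0) (Cardinal.aleph0_le_mk K))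
  rw [Polynomial.eval_mul] at hc
  exact ⟨z₁ + c • (z₂ - z₁), by rw [hP]; exact left_ne_zero_of_mul hc,
    by rw [hQ]; exact right_ne_zero_of_mul hc⟩

/-- vector valued polynomial functions -/
def PolV {W : Type*} [AddCommGroup W] [Module K W] (F : V → W) : Prop :=
  ∀ l : W →ₗ[K] K, (fun z => l (F z)) ∈ Pol K V

section V

variable {W W' : Type*} [AddCommGroup W] [Module K W] [AddCommGroup W'] [Module K W']

theorem PolV.linear (F : V →ₗ[K] W) : PolV (K := K) (fun z => F z) := fun l =>
  Pol.linear (l ∘ₗ F)

theorem PolV.const (w : W) : PolV (K := K) (fun _ : V => w) := fun l => Pol.const (l w)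

theorem PolV.comp_linear (L : W →ₗ[K] W') {F : V → W} (hF : PolV (K := K) F) :
    PolV (K := K) (fun z => L (F z)) := fun l => hF (l ∘ₗ L)

theorem PolV.add {F G : V → W} (hF : PolV (K := K) F) (hG : PolV (K := K) G) :
    PolV (K := K) (fun z => F z + G z) := fun l => by
  have := (Pol K V).add_mem (hF l) (hG l)
  have h2 : (fun z => l (F z + G z)) = (fun z => l (F z)) + (fun z => l (G z)) := by
    ext z; simp
  rw [h2]; exact this

theorem PolV.sub {F G : V → W} (hF : PolV (K := K) F) (hG : PolV (K := K) G) :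
    PolV (K := K) (fun z => F z - G z) := fun l => by
  have := (Pol K V).sub_mem (hF l) (hG l)
  have h2 : (fun z => l (F z - G z)) = (fun z => l (F z)) - (fun z => l (G z)) := by
    ext z; simp
  rw [h2]; exact this

theorem PolV.sum {ι : Type*} (s : Finset ι) (F : ι → V → W) (hF : ∀ i ∈ s, PolV (K := K) (F i)) :
    PolV (K := K) (fun z => ∑ i ∈ s, F i z) := fun l => by
  have h2 : (fun z => l (∑ i ∈ s, F i z)) = ∑ i ∈ s, (fun z => l (F i z)) := by
    ext z; simp
  rw [h2]; exact (Pol K V).sum_mem fun i hi => hF i hi l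

theorem PolV.smul {f : V → K} {F : V → W} (hf : f ∈ Pol K V) (hF : PolV (K := K) F) :
    PolV (K := K) (fun z => f z • F z) := fun l => by
  have h2 : (fun z => l (f z • F z)) = f * (fun z => l (F z)) := by
    ext z; simp
  rw [h2]; exact (Pol K V).mul_mem hf (hF l)

theorem PolV.const_smul (c : K) {F : V → W} (hF : PolV (K := K) F) :
    PolV (K := K) (fun z => c • F z) := PolV.smul (Pol.const c) hF

theorem PolV.of_pol {f : V → K} (hf : f ∈ Pol K V) : PolV (K := K) f := fun l => by
  have h2 : (fun z => l (f z)) = (fun _ => l 1) * f := by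
    ext z
    have : l (f z) = l (f z • (1 : K)) := by simp
    rw [this, map_smul]; simp [mul_comm]
  rw [h2]; exact (Pol K V).mul_mem (Pol.const _) hf

theorem PolV.to_pol {f : V → K} (hf : PolV (K := K) f) : f ∈ Pol K V := hf LinearMap.id

end V

section Alg

variable {A : Type*} [Ring A] [Algebra K A] [FiniteDimensional K A]

theorem PolV.mul {F G : V → A} (hF : PolV (K := K) F) (hG : PolV (K := K) G) :
    PolV (K := K) (fun z => F z * G z) := by
  let b := Module.finBasis K A
  have h : (fun z => F z * G z) = fun z => ∑ i, ∑ j, (b.repr (F z) i * b.repr (G z) j) •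
      (b i * b j) := by
    ext z
    conv_lhs => rw [← b.sum_repr (F z), ← b.sum_repr (G z)]
    rw [Finset.sum_mul]
    refine Finset.sum_congr rfl fun i _ => ?_
    rw [Finset.mul_sum]
    refine Finset.sum_congr rfl fun j _ => ?_
    rw [smul_mul_smul_comm]
  rw [h]
  refine PolV.sum _ _ fun i _ => PolV.sum _ _ fun j _ => ?_
  exact PolV.smul ((Pol K V).mul_mem (hF (b.coord i)) (hG (b.coord j))) (PolV.const _)

theorem PolV.list_prod {ι : Type*} (F : ι → V → A) (hF : ∀ i, PolV (K := K) (F i)) (L : List ι) :
    PolV (K := K) (fun z => (L.map fun i => F i z).prod) := by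
  induction L with
  | nil => simpa using PolV.const (K := K) (V := V) (1 : A)
  | cons i L ih =>
    simp only [List.map_cons, List.prod_cons]
    exact PolV.mul (hF i) ih

theorem PolV.ofFn_prod {n : ℕ} (F : Fin n → V → A) (hF : ∀ i, PolV (K := K) (F i)) :
    PolV (K := K) (fun z => (List.ofFn fun i => F i z).prod) := by
  have := PolV.list_prod F hF (List.finRange n)
  simpa [List.ofFn_eq_map] using this

theorem PolV.pow {F : V → A} (hF : PolV (K := K) F) (n : ℕ) :
    PolV (K := K) (fun z => F z ^ n) := by
  induction n with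
  | zero => simpa using PolV.const (K := K) (V := V) (1 : A)
  | succ n ih => simp only [pow_succ]; exact PolV.mul ih hF

end Alg

section Indep

variable {W : Type*} [AddCommGroup W] [Module K W]

/-- independence is an open condition -/
theorem Pol.indep {κ : Type*} [Fintype κ] (F : κ → V → W)
    (hF : ∀ k, PolV (K := K) (F k)) (z₀ : V) (h0 : LinearIndependent K (fun k => F k z₀)) :
    ∃ f ∈ Pol K V, f z₀ ≠ 0 ∧ ∀ z, f z ≠ 0 → LinearIndependent K (fun k => F k z) := by
  classical
  -- dual functionals
  have hinj : Function.Injective (Fintype.linearCombination K (fun k => F k z₀)) :=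
    linearIndependent_iff_injective_fintypeLinearCombination.mp h0
  obtain ⟨g, hg⟩ := LinearMap.exists_leftInverse_of_injective
    (Fintype.linearCombination K (fun k => F k z₀)) (LinearMap.ker_eq_bot.mpr hinj)
  let lam : κ → (W →ₗ[K] K) := fun k => (LinearMap.proj k) ∘ₗ g
  have hlam : ∀ k l, lam k (F l z₀) = if k = l then 1 else 0 := by
    intro k l
    have h1 : F l z₀ = Fintype.linearCombination K (fun k => F k z₀) (Pi.single l 1) := by
      rw [Fintype.linearCombination_apply_single, one_smul]
    have h2 := LinearMap.congr_fun hg (Pi.single l 1)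
    simp only [LinearMap.comp_apply, LinearMap.id_apply] at h2
    simp only [lam, LinearMap.comp_apply, LinearMap.proj_apply]
    rw [h1, h2, Pi.single_apply]
  refine ⟨fun z => (Matrix.of fun k l => lam k (F l z)).det, ?_, ?_, ?_⟩
  · have h3 : (fun z => (Matrix.of fun k l => lam k (F l z)).det) =
        ∑ σ : Equiv.Perm κ, ((Equiv.Perm.sign σ : ℤ) : V → K) *
          ∏ i, (fun z => lam (σ i) (F i z)) := by
      ext z
      rw [Matrix.det_apply']
      simp
    rw [h3]
    refine (Pol K V).sum_mem fun σ _ => (Pol K V).mul_mem ?_ ?_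
    · exact intCast_mem _ _
    · exact (Pol K V).prod_mem fun i _ => hF i _
  · have : (Matrix.of fun k l => lam k (F l z₀)) = (1 : Matrix κ κ K) := by
      ext k l
      rw [Matrix.of_apply, hlam, Matrix.one_apply]
    simp only [this, Matrix.det_one]
    exact one_ne_zero
  · intro z hz
    rw [Fintype.linearIndependent_iff]
    intro c hc
    have h4 : (Matrix.of fun k l => lam k (F l z)).mulVec c = 0 := by
      ext k
      have := congrArg (lam k) hc
      simp only [map_sum, map_smul, map_zero, smul_eq_mul] at this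
      simp only [Matrix.mulVec, dotProduct, Matrix.of_apply, Pi.zero_apply]
      rw [← this]
      exact Finset.sum_congr rfl fun l _ => mul_comm _ _
    have := Matrix.eq_zero_of_mulVec_eq_zero hz h4
    exact fun l => congrFun this l

end Indep

section Rank

variable {W W' : Type*} [AddCommGroup W] [Module K W] [AddCommGroup W'] [Module K W']
  [FiniteDimensional K W]

/-- upper semicontinuity of the kernel dimension -/
theorem Pol.finrank_ker_le (T : V → (W →ₗ[K] W')) (hT : ∀ w, PolV (K := K) (fun z => T z w))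
    (z₀ : V) :
    ∃ f ∈ Pol K V, f z₀ ≠ 0 ∧ ∀ z, f z ≠ 0 →
      Module.finrank K (LinearMap.ker (T z)) ≤ Module.finrank K (LinearMap.ker (T z₀)) := by
  classical
  let b := Module.finBasis K (LinearMap.range (T z₀))
  have hex : ∀ i, ∃ w, T z₀ w = (b i : W') := fun i => (b i).2
  choose w hw using hex
  obtain ⟨f, hf1, hf2, hf3⟩ := Pol.indep (K := K) (fun i z => T z (w i)) (fun i => hT (w i)) z₀ (by
    simp only [hw]
    have := b.linearIndependent.map' (Submodule.subtype _) (Submodule.ker_subtype _)
    exact this)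
  refine ⟨f, hf1, hf2, fun z hz => ?_⟩
  have hli := hf3 z hz
  have h1 : Module.finrank K (LinearMap.range (T z₀)) ≤ Module.finrank K (LinearMap.range (T z)) := by
    have h2 : LinearIndependent K (fun i => (⟨T z (w i), w i, rfl⟩ : LinearMap.range (T z))) := by
      rw [← LinearMap.linearIndependent_iff (LinearMap.range (T z)).subtype
        (Submodule.ker_subtype _)]
      exact hli
    have := h2.fintype_card_le_finrank
    simpa using this
  have h3 := LinearMap.finrank_range_add_finrank_ker (T z)
  have h4 := LinearMap.finrank_range_add_finrank_ker (T z₀)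
  omega

end Rank

section Gen

variable {ι E : Type*} [Ring E] [Algebra K E] [FiniteDimensional K E]

/-- generating the algebra is an open condition on tuples -/
theorem Pol.generate (z₀ : ι → E) (h0 : Algebra.adjoin K (Set.range z₀) = ⊤) :
    ∃ f ∈ Pol K (ι → E), f z₀ ≠ 0 ∧ ∀ z, f z ≠ 0 → Algebra.adjoin K (Set.range z) = ⊤ := by
  classical
  obtain ⟨b, hb1, hb2, hb3⟩ := exists_linearIndependent K
    ((Submonoid.closure (Set.range z₀) : Submonoid E) : Set E)
  have hspan : Submodule.span K b = ⊤ := by
    rw [hb2, ← Algebra.adjoin_eq_span, h0]; rfl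
  have hfin : b.Finite := hb3.setFinite
  have : Fintype b := hfin.fintype
  have hlist : ∀ x : b, ∃ L : List ι, (L.map z₀).prod = (x : E) := by
    intro x
    obtain ⟨l, hl, hl2⟩ := Submonoid.exists_list_of_mem_closure (hb1 x.2)
    obtain ⟨L, hL⟩ : ∃ L : List ι, L.map z₀ = l := by
      clear hl2
      induction l with
      | nil => exact ⟨[], rfl⟩
      | cons a l ih =>
        obtain ⟨L, hL⟩ := ih fun y hy => hl y (List.mem_cons_of_mem _ hy)
        obtain ⟨i, hi⟩ := hl a (by simp)
        exact ⟨i :: L, by simp [hi, hL]⟩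
    exact ⟨L, by rw [hL]; exact hl2⟩
  choose L hL using hlist
  obtain ⟨f, hf1, hf2, hf3⟩ := Pol.indep (K := K) (V := ι → E)
    (fun (x : b) z => ((L x).map z).prod)
    (fun x => PolV.list_prod (V := ι → E) (fun i (z : ι → E) => z i)
      (fun i => PolV.linear (LinearMap.proj i : (ι → E) →ₗ[K] E)) (L x)) z₀
    (by simp only [hL]; exact hb3)
  refine ⟨f, hf1, hf2, fun z hz => ?_⟩
  have hli := hf3 z hz
  have hcard : Fintype.card b = Module.finrank K E := by
    have h1 := finrank_span_set_eq_card hb3
    rw [hspan, finrank_top, Set.toFinset_card] at h1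
    exact h1.symm
  have hs : Submodule.span K (Set.range fun x : b => ((L x).map z).prod) = ⊤ :=
    hli.span_eq_top_of_card_eq_finrank' hcard
  rw [eq_top_iff]
  intro y _
  have hy : y ∈ Submodule.span K (Set.range fun x : b => ((L x).map z).prod) := by
    rw [hs]; exact Submodule.mem_top
  have hle : Submodule.span K (Set.range fun x : b => ((L x).map z).prod) ≤
      Subalgebra.toSubmodule (Algebra.adjoin K (Set.range z)) := by
    rw [Submodule.span_le]
    rintro _ ⟨x, rfl⟩
    refine Subalgebra.list_prod_mem _ fun y hy => ?_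
    obtain ⟨i, _, rfl⟩ := List.mem_map.mp hy
    exact Algebra.subset_adjoin ⟨i, rfl⟩
  exact hle hy

end Gen

end Pol

end Crest.Agent.R180
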