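import Crest.Agent.R180.TSNF
import Crest.Agent.R180.PolFun

set_option autoImplicit false

/-!
# Row 180: existence of regular generating points

`E` central division algebra over `K₁ ⊇ K`, `Γ` a finite-dimensional division algebra over `K`,
`θ(z) = ∑ z i ⊗ γ₁ i ∈ E ⊗ Γ`.
-/

open scoped TensorProduct

namespace Crest.Agent.R180

namespace RegPt

section Basic

variable {K K₁ E Γ ι : Type} [Field K] [Field K₁] [Algebra K K₁] [Ring E] [Algebra K₁ E]
  [Algebra K E] [IsScalarTower K K₁ E] [Ring Γ] [Algebra K Γ] [Fintype ι]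

/-- the linear map `z ↦ ∑ z i ⊗ γ₁ i` -/
noncomputable def th (K K₁ : Type) {E Γ ι : Type} [Field K] [Field K₁] [Algebra K K₁] [Ring E]
    [Algebra K₁ E] [Algebra K E] [IsScalarTower K K₁ E] [Ring Γ] [Algebra K Γ] [Fintype ι]
    (γ₁ : ι → Γ) : (ι → E) →ₗ[K₁] (E ⊗[K] Γ) :=
  ∑ i, ((TensorProduct.AlgebraTensorModule.mk K K₁ E Γ).flip (γ₁ i)) ∘ₗ LinearMap.proj i

theorem th_apply (γ₁ : ι → Γ) (z : ι → E) : th K K₁ γ₁ z = ∑ i, z i ⊗ₜ[K] γ₁ i := by
  simp [th]

/-- the linear functional `e ⊗ g ↦ ξ g • τ e` -/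
noncomputable def tx (K K₁ : Type) {E Γ : Type} [Field K] [Field K₁] [Algebra K K₁] [Ring E]
    [Algebra K₁ E] [Algebra K E] [IsScalarTower K K₁ E] [Ring Γ] [Algebra K Γ]
    (τ : E →ₗ[K₁] K₁) (ξ : Γ →ₗ[K] K) : E ⊗[K] Γ →ₗ[K₁] K₁ :=
  TensorProduct.AlgebraTensorModule.lift
    { toFun := fun e =>
        { toFun := fun g => ξ g • τ e
          map_add' := fun g g' => by rw [map_add, add_smul]
          map_smul' := fun c g => by rw [map_smul, smul_eq_mul, mul_smul]; rfl }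
      map_add' := fun e e' => by ext g; simp
      map_smul' := fun c e => by
        ext g
        simp only [map_smul, LinearMap.coe_mk, AddHom.coe_mk, RingHom.id_apply,
          LinearMap.smul_apply, smul_eq_mul]
        rw [mul_smul_comm] }

@[simp] theorem tx_tmul (τ : E →ₗ[K₁] K₁) (ξ : Γ →ₗ[K] K) (e : E) (g : Γ) :
    tx K K₁ τ ξ (e ⊗ₜ g) = ξ g • τ e := rfl

theorem tx_comm (τ : E →ₗ[K₁] K₁) (hτ : ∀ x y, τ (x * y) = τ (y * x)) (ξ : Γ →ₗ[K] K)
    (γ₁ : ι → Γ) (hcen : ∀ i a, a * γ₁ i = γ₁ i * a) (z : ι → E) (y : E ⊗[K] Γ) :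
    tx K K₁ τ ξ (y * th K K₁ γ₁ z) = tx K K₁ τ ξ (th K K₁ γ₁ z * y) := by
  rw [th_apply, Finset.mul_sum, Finset.sum_mul, map_sum, map_sum]
  refine Finset.sum_congr rfl fun i _ => ?_
  induction y using TensorProduct.induction_on with
  | zero => simp
  | add x x' hx hx' => rw [add_mul, mul_add, map_add, map_add, hx, hx']
  | tmul e g =>
    rw [Algebra.TensorProduct.tmul_mul_tmul, Algebra.TensorProduct.tmul_mul_tmul, tx_tmul, tx_tmul,
      hτ, hcen]

/-- evaluation of the degree `n` part -/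
noncomputable def ev (n : ℕ) (q : NC ι Γ) (z : ι → E) : E ⊗[K] Γ :=
  ∑ w : Fin n → ι, (List.ofFn fun j => z (w j)).prod ⊗ₜ[K] q (List.ofFn w)

theorem ev_mul_lin {Φ : Type} [Field Φ] [Algebra Φ Γ] (g : ι → Φ) (γ₁ : ι → Γ)
    (hg : ∀ i, algebraMap Φ Γ (g i) = γ₁ i) (n : ℕ) (q : NC ι Γ) (z : ι → E) :
    (ev (n + 1) (q * NC.linS g) z : E ⊗[K] Γ) = ev n q z * th K K₁ γ₁ z := by
  unfold ev
  rw [th_apply, Finset.sum_mul]
  rw [← (Fin.snocEquiv (fun _ : Fin (n + 1) => ι)).sum_comp]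
  rw [Fintype.sum_prod_type_right]
  refine Finset.sum_congr rfl fun w _ => ?_
  rw [Finset.mul_sum]
  refine Finset.sum_congr rfl fun i _ => ?_
  rw [Algebra.TensorProduct.tmul_mul_tmul]
  have h1 : List.ofFn (Fin.snocEquiv (fun _ : Fin (n + 1) => ι) (i, w)) = List.ofFn w ++ [i] := by
    rw [List.ofFn_succ', List.concat_eq_append]
    congr 2
    · ext j; simp [Fin.snocEquiv]
    · simp [Fin.snocEquiv]
  have h2 : (List.ofFn fun j => z ((Fin.snocEquiv (fun _ : Fin (n + 1) => ι) (i, w)) j)).prod =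
      (List.ofFn fun j => z (w j)).prod * z i := by
    have := congrArg (fun l => (List.map z l).prod) h1
    simp only [List.map_ofFn, List.map_append, List.prod_append, List.map_cons, List.map_nil,
      List.prod_cons, List.prod_nil, mul_one] at this
    exact this
  rw [h1, h2, NC.mul_lin_append, ← hg, Algebra.smul_def, Algebra.commutes]

theorem ev_mul_lin_pow {Φ : Type} [Field Φ] [Algebra Φ Γ] (g : ι → Φ) (γ₁ : ι → Γ)
    (hg : ∀ i, algebraMap Φ Γ (g i) = γ₁ i) (n i : ℕ) (q : NC ι Γ) (z : ι → E) :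
    (ev (n + i) (q * NC.linS g ^ i) z : E ⊗[K] Γ) = ev n q z * th K K₁ γ₁ z ^ i := by
  induction i with
  | zero => simp
  | succ i ih =>
    rw [pow_succ, ← mul_assoc, ← add_assoc, ev_mul_lin (K₁ := K₁) g γ₁ hg, ih, pow_succ, mul_assoc]

end Basic

section Sep

variable {K K₁ E Γ ι : Type} [Field K] [CharZero K] [Field K₁] [Algebra K K₁] [Ring E] [IsDomain E]
  [Algebra K₁ E] [Algebra K E] [IsScalarTower K K₁ E] [FiniteDimensional K₁ E]
  [Algebra.IsCentral K₁ E] [Ring Γ] [IsDomain Γ] [Algebra K Γ] [FiniteDimensional K Γ] [Fintype ι]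
  [DecidableEq ι]

/-- the value `p(z)` -/
noncomputable def pv (k : ℕ) (p : (Fin k → ι) → Γ) (z : ι → E) : E ⊗[K] Γ :=
  ∑ w : Fin k → ι, (List.ofFn fun j => z (w j)).prod ⊗ₜ[K] p w

/-- nonvanishing of a trace of `p(z) θ^i` -/
theorem exists_tx_ne_zero (γ₁ : ι → Γ) (hcen : ∀ i a, a * γ₁ i = γ₁ i * a) (i₀ : ι)
    (h1 : γ₁ i₀ = 1) (k : ℕ) (p : (Fin (k + 1) → ι) → Γ)
    (hp : ¬ ∃ b : (Fin k → ι) → Γ, ∀ w : Fin (k + 1) → ι,
      p w = b (fun j => w j.castSucc) * γ₁ (w (Fin.last k)) - γ₁ (w 0) * b (fun j => w j.succ))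
    (hnE : ((k + 1) + (k + 1)) ^ 2 ≤ Module.finrank K₁ E)
    (τ : E →ₗ[K₁] K₁) (hτ : ∀ x y, τ (x * y) = τ (y * x)) (hτ0 : τ ≠ 0) :
    ∃ (ξ : Γ →ₗ[K] K) (z : ι → E),
      tx K K₁ τ ξ (pv (K := K) (k + 1) p z * th K K₁ γ₁ z ^ (k + 1)) ≠ 0 := by
  classical
  by_contra hcon
  push Not at hcon
  apply hp
  let Φ : Type := Subalgebra.center K Γ
  let _ : Field Φ := fieldOfFiniteDimensional K (Subalgebra.center K Γ)
  let _ : Algebra Φ Γ := RingHom.toAlgebra' ((Subalgebra.center K Γ).val : _ →+* Γ) (fun c x => by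
    have := c.2
    rw [Subalgebra.mem_center_iff] at this
    exact (this x).symm)
  have hΦ : CharZero Φ := by
    have : CharZero Γ := charZero_of_injective_algebraMap (algebraMap K Γ).injective
    exact charZero_of_injective_algebraMap (algebraMap K Φ).injective
  let g : ι → Φ := fun i => ⟨γ₁ i, by rw [Subalgebra.mem_center_iff]; exact fun b => hcen i b⟩
  have hg : ∀ i, algebraMap Φ Γ (g i) = γ₁ i := fun i => rfl
  have hg0 : g ≠ 0 := by
    intro h
    have h2 : algebraMap Φ Γ (g i₀) = 0 := by rw [h]; exact map_zero _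
    rw [hg, h1] at h2
    exact one_ne_zero h2
  let P : NC ι Γ := ⟨fun w => if h : w.length = k + 1 then p (fun j => w.get (Fin.cast h.symm j))
    else 0⟩
  have hPof : ∀ w : Fin (k + 1) → ι, P (List.ofFn w) = p w := by
    intro w
    have : (List.ofFn w).length = k + 1 := by simp
    change (if h : (List.ofFn w).length = k + 1 then
      p (fun j => (List.ofFn w).get (Fin.cast h.symm j)) else 0) = _
    rw [dif_pos this]
    congr 1
    ext j
    simp [-List.ofFn_succ]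
  have hPhom : NC.Hom (k + 1) P := by
    intro w hw
    change (if h : w.length = k + 1 then p (fun j => w.get (Fin.cast h.symm j)) else 0) = 0
    rw [dif_neg hw]
  have hevP : ∀ z : ι → E, (ev (k + 1) P z : E ⊗[K] Γ) = pv (K := K) (k + 1) p z := by
    intro z
    unfold ev pv
    exact Finset.sum_congr rfl fun w _ => by rw [hPof]
  obtain ⟨b, hb1, -, hb3⟩ := NC.nfsep_of_trace (K := K) (K' := K₁) (E := E) (⊤ : Submodule Φ Γ) g hg0
    (k + 1) (k + 1) le_rfl (Nat.succ_pos k) hnE τ hτ hτ0 P hPhom (fun _ => Submodule.mem_top)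
    (fun ξ z => by
      have h2 := hcon ξ z
      rw [← hevP, ← ev_mul_lin_pow (K₁ := K₁) g γ₁ hg] at h2
      unfold ev at h2
      rw [map_sum] at h2
      simpa only [tx_tmul] using h2)
  refine ⟨fun v => b (List.ofFn v), fun w => ?_⟩
  have h3 := congrArg (fun f : NC ι Γ => f (List.ofFn w)) hb3
  simp only [NC.sub_apply, hPof] at h3
  rw [h3]
  congr 1
  · have h4 : List.ofFn w = List.ofFn (fun j : Fin k => w j.castSucc) ++ [w (Fin.last k)] := by
      rw [List.ofFn_succ', List.concat_eq_append]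
    rw [h4, NC.mul_lin_append, Algebra.smul_def, hg, ← hcen]
  · rw [List.ofFn_succ, NC.lin_mul_cons, Algebra.smul_def, hg]

end Sep

section Indep

variable {K K₁ E Γ : Type} [Field K] [Field K₁] [Algebra K K₁] [Ring E]
  [Algebra K₁ E] [Algebra K E] [IsScalarTower K K₁ E] [Ring Γ] [Algebra K Γ]

/-- independence of pure tensors over `K₁` -/
theorem indep_tmul {κ lam : Type} [Fintype κ] [Fintype lam] (e : κ → E)
    (he : LinearIndependent K₁ e) (b : Module.Basis lam K Γ) :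
    LinearIndependent K₁ (fun x : κ × lam => e x.1 ⊗ₜ[K] b x.2) := by
  classical
  rw [Fintype.linearIndependent_iff]
  intro c hc
  rw [Fintype.sum_prod_type_right] at hc
  have h1 : ∀ l, ∑ j, c (j, l) • e j = 0 := by
    have h2 : (∑ l, (∑ j, c (j, l) • e j) ⊗ₜ[K] b l) = 0 := by
      rw [← hc]
      refine Finset.sum_congr rfl fun l _ => ?_
      rw [TensorProduct.sum_tmul]
      refine Finset.sum_congr rfl fun j _ => ?_
      rw [TensorProduct.smul_tmul']
    have h3 := TensorProduct.sum_tmul_basis_right_eq_zero (M := E) b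
      (Finsupp.equivFunOnFinite.symm fun l => ∑ j, c (j, l) • e j) (by
        rw [Finsupp.sum_fintype]
        · exact h2
        · intro i; simp)
    intro l
    have := DFunLike.congr_fun h3 l
    simpa using this
  rintro ⟨j, l⟩
  exact (Fintype.linearIndependent_iff.mp he) (fun j => c (j, l)) (h1 l) j

/-- the centralizer of `P ⊗ 1` -/
theorem mem_span_of_commute (P : E) (m : ℕ) {lam : Type} [Fintype lam]
    (hcent : ∀ x : E, x * P = P * x →
      x ∈ Submodule.span K₁ (Set.range fun j : Fin m => P ^ (j : ℕ)))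
    (b : Module.Basis lam K Γ) (x : E ⊗[K] Γ)
    (hx : x * (P ⊗ₜ[K] (1 : Γ)) = (P ⊗ₜ[K] (1 : Γ)) * x) :
    x ∈ Submodule.span K₁ (Set.range fun y : Fin m × lam => (P ^ (y.1 : ℕ)) ⊗ₜ[K] b y.2) := by
  classical
  set f := TensorProduct.equivFinsuppOfBasisRight (M := E) b x with hf
  have hfx : x = ∑ l, (f l) ⊗ₜ[K] b l := by
    have h0 := (TensorProduct.equivFinsuppOfBasisRight (M := E) b).symm_apply_apply x
    rw [← hf, TensorProduct.equivFinsuppOfBasisRight_symm_apply, Finsupp.sum_fintype] at h0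
    · exact h0.symm
    · intro i; simp
  have h1 : ∀ l, f l * P = P * f l := by
    have h2 : (∑ l, (f l * P - P * f l) ⊗ₜ[K] b l) = 0 := by
      have h3 := sub_eq_zero.mpr hx
      rw [hfx, Finset.sum_mul, Finset.mul_sum, ← Finset.sum_sub_distrib] at h3
      rw [← h3]
      refine Finset.sum_congr rfl fun l _ => ?_
      rw [Algebra.TensorProduct.tmul_mul_tmul, Algebra.TensorProduct.tmul_mul_tmul, mul_one,
        one_mul, TensorProduct.sub_tmul]
    have h3 := TensorProduct.sum_tmul_basis_right_eq_zero (M := E) b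
      (Finsupp.equivFunOnFinite.symm fun l => (f l * P - P * f l)) (by
        rw [Finsupp.sum_fintype]
        · exact h2
        · intro i; simp)
    intro l
    have := DFunLike.congr_fun h3 l
    exact sub_eq_zero.mp (by simpa using this)
  rw [hfx]
  refine Submodule.sum_mem _ fun l _ => ?_
  have h2 := hcent _ (h1 l)
  -- push the span through `· ⊗ b l`
  have h3 : (f l) ⊗ₜ[K] b l ∈ Submodule.map
      ((TensorProduct.AlgebraTensorModule.mk K K₁ E Γ).flip (b l))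
      (Submodule.span K₁ (Set.range fun j : Fin m => P ^ (j : ℕ))) :=
    Submodule.mem_map.mpr ⟨f l, h2, rfl⟩
  rw [Submodule.map_span] at h3
  refine Submodule.span_mono ?_ h3
  rintro _ ⟨_, ⟨j, rfl⟩, rfl⟩
  exact ⟨(j, l), rfl⟩

end Indep

section Final

variable {K K₁ E Γ ι : Type} [Field K] [CharZero K] [Field K₁] [Algebra K K₁] [Ring E] [IsDomain E]
  [Algebra K₁ E] [Algebra K E] [IsScalarTower K K₁ E] [FiniteDimensional K₁ E]
  [Algebra.IsCentral K₁ E] [Ring Γ] [IsDomain Γ] [Algebra K Γ] [FiniteDimensional K Γ] [Fintype ι]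
  [DecidableEq ι]

theorem finite_tensor (K K₁ E Γ : Type) [Field K] [Field K₁] [Algebra K K₁] [Ring E]
    [Algebra K₁ E] [Algebra K E] [IsScalarTower K K₁ E] [FiniteDimensional K₁ E]
    [Ring Γ] [Algebra K Γ] [FiniteDimensional K Γ] : FiniteDimensional K₁ (E ⊗[K] Γ) := by
  have : Module.Finite E (E ⊗[K] Γ) := inferInstance
  have : IsScalarTower K₁ E (E ⊗[K] Γ) := inferInstance
  exact Module.Finite.trans E (E ⊗[K] Γ)

/-- **Regular generating point** (core version, explicit hypotheses on `E`). -/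
theorem regular_point_core (hι : 2 ≤ Fintype.card ι) (γ₁ : ι → Γ)
    (hcen : ∀ i a, a * γ₁ i = γ₁ i * a) (i₀ : ι)
    (h1 : γ₁ i₀ = 1) (k : ℕ) (p : (Fin (k + 1) → ι) → Γ)
    (hp : ¬ ∃ b : (Fin k → ι) → Γ, ∀ w : Fin (k + 1) → ι,
      p w = b (fun j => w j.castSucc) * γ₁ (w (Fin.last k)) - γ₁ (w 0) * b (fun j => w j.succ))
    (m : ℕ) (hm : (k + 1) + (k + 1) ≤ m) (hfin : Module.finrank K₁ E = m * m) (P Q : E)
    (hgen : Algebra.adjoin K₁ ({P, Q} : Set E) = ⊤)
    (hlin : LinearIndependent K₁ (fun j : Fin m => P ^ (j : ℕ)))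
    (hcent : ∀ x : E, x * P = P * x →
      x ∈ Submodule.span K₁ (Set.range fun j : Fin m => P ^ (j : ℕ))) :
    ∃ z : ι → E, Algebra.adjoin K₁ (Set.range z) = ⊤ ∧
      (∀ x : E ⊗[K] Γ, x * (∑ i, z i ⊗ₜ[K] γ₁ i) = (∑ i, z i ⊗ₜ[K] γ₁ i) * x →
        x ∈ Submodule.span K₁ (Set.range fun y : Fin m × Fin (Module.finrank K Γ) =>
          (∑ i, z i ⊗ₜ[K] γ₁ i) ^ (y.1 : ℕ) * ((1 : E) ⊗ₜ[K] Module.finBasis K Γ y.2))) ∧
      (¬ ∃ x : E ⊗[K] Γ,
        ∑ w : Fin (k + 1) → ι, (List.ofFn fun j => z (w j)).prod ⊗ₜ[K] p w =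
          x * (∑ i, z i ⊗ₜ[K] γ₁ i) - (∑ i, z i ⊗ₜ[K] γ₁ i) * x) ∧
      ∃ (τ : E →ₗ[K₁] K₁) (ξ : Γ →ₗ[K] K), (∀ x y, τ (x * y) = τ (y * x)) ∧
        tx K K₁ τ ξ ((∑ w : Fin (k + 1) → ι, (List.ofFn fun j => z (w j)).prod ⊗ₜ[K] p w) *
          (∑ i, z i ⊗ₜ[K] γ₁ i) ^ (k + 1)) ≠ 0 := by
  classical
  have hfd : FiniteDimensional K₁ (E ⊗[K] Γ) := finite_tensor K K₁ E Γ
  have hcz : CharZero K₁ := charZero_of_injective_algebraMap (algebraMap K K₁).injective
  have hinf : Infinite K₁ := CharZero.infinite K₁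
  obtain ⟨τ, hτ0, hτ⟩ := exists_tracial K₁ E
  obtain ⟨ξ, zN, hzN⟩ := exists_tx_ne_zero (K := K) (K₁ := K₁) (E := E) γ₁ hcen i₀ h1 k p hp
    (by rw [hfin]; nlinarith) τ hτ hτ0
  have hθ : PolV (K := K₁) (fun z : ι → E => th K K₁ γ₁ z) := PolV.linear _
  have hpv : PolV (K := K₁) (fun z : ι → E => pv (K := K) (k + 1) p z) := by
    unfold pv
    refine PolV.sum _ _ fun w _ => ?_
    have h2 : PolV (K := K₁) (V := ι → E) (fun z : ι → E => (List.ofFn fun j => z (w j)).prod) :=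
      PolV.ofFn_prod (V := ι → E) (fun j (z : ι → E) => z (w j))
        (fun j => PolV.linear (LinearMap.proj (w j) : (ι → E) →ₗ[K₁] E))
    exact PolV.comp_linear ((TensorProduct.AlgebraTensorModule.mk K K₁ E Γ).flip (p w)) h2
  have hN : (fun z : ι → E => tx K K₁ τ ξ (pv (K := K) (k + 1) p z * th K K₁ γ₁ z ^ (k + 1))) ∈
      Pol K₁ (ι → E) := PolV.mul hpv (PolV.pow hθ (k + 1)) _
  -- the regular point
  set b := Module.finBasis K Γ with hb
  let zR : ι → E := Pi.single i₀ P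
  have hθR : th K K₁ γ₁ zR = P ⊗ₜ[K] (1 : Γ) := by
    rw [th_apply, Finset.sum_eq_single i₀]
    · simp [zR, h1]
    · intro i _ hi; simp [zR, hi]
    · simp
  let T : (ι → E) → (E ⊗[K] Γ →ₗ[K₁] E ⊗[K] Γ) := fun z =>
    LinearMap.mulRight K₁ (th K K₁ γ₁ z) - LinearMap.mulLeft K₁ (th K K₁ γ₁ z)
  have hT : ∀ w, PolV (K := K₁) (fun z => T z w) := by
    intro w
    have : (fun z => T z w) = fun z => w * th K K₁ γ₁ z - th K K₁ γ₁ z * w := rfl
    rw [this]
    exact PolV.sub (PolV.mul (PolV.const w) hθ) (PolV.mul hθ (PolV.const w))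
  have hTmem : ∀ z x, x ∈ LinearMap.ker (T z) ↔ x * th K K₁ γ₁ z = th K K₁ γ₁ z * x := by
    intro z x
    rw [LinearMap.mem_ker]
    exact sub_eq_zero
  obtain ⟨f1, hf1, hf1R, hf1z⟩ := Pol.finrank_ker_le T hT zR
  have hker : Module.finrank K₁ (LinearMap.ker (T zR)) ≤ m * Module.finrank K Γ := by
    have hle : LinearMap.ker (T zR) ≤ Submodule.span K₁
        (Set.range fun y : Fin m × Fin (Module.finrank K Γ) => (P ^ (y.1 : ℕ)) ⊗ₜ[K] b y.2) := by
      intro x hx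
      rw [hTmem, hθR] at hx
      exact mem_span_of_commute P m hcent b x hx
    refine (Submodule.finrank_mono hle).trans ?_
    refine (finrank_range_le_card _).trans ?_
    simp
  obtain ⟨f2, hf2, hf2R, hf2z⟩ := Pol.indep (K := K₁)
    (fun (y : Fin m × Fin (Module.finrank K Γ)) (z : ι → E) =>
      th K K₁ γ₁ z ^ (y.1 : ℕ) * ((1 : E) ⊗ₜ[K] b y.2))
    (fun y => PolV.mul (PolV.pow hθ _) (PolV.const _)) zR (by
      have := indep_tmul (K := K) (K₁ := K₁) (fun j : Fin m => P ^ (j : ℕ)) hlin b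
      have heq : (fun y : Fin m × Fin (Module.finrank K Γ) =>
          th K K₁ γ₁ zR ^ (y.1 : ℕ) * ((1 : E) ⊗ₜ[K] b y.2)) =
          fun y => (P ^ (y.1 : ℕ)) ⊗ₜ[K] b y.2 := by
        funext y
        rw [hθR, Algebra.TensorProduct.tmul_pow, one_pow, Algebra.TensorProduct.tmul_mul_tmul,
          mul_one, one_mul]
      rw [heq]
      exact this)
  -- the generating point
  obtain ⟨i₁, hi₁⟩ : ∃ i₁, i₁ ≠ i₀ := by
    have : Nontrivial ι := Fintype.one_lt_card_iff_nontrivial.mp (by omega)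
    exact exists_ne i₀
  let zG : ι → E := Function.update (Pi.single i₀ P) i₁ Q
  obtain ⟨f3, hf3, hf3G, hf3z⟩ := Pol.generate (K := K₁) zG (by
    rw [eq_top_iff, ← hgen]
    apply Algebra.adjoin_mono
    intro x hx
    rcases hx with rfl | rfl
    · exact ⟨i₀, by simp [zG, Function.update_of_ne hi₁.symm]⟩
    · exact ⟨i₁, by simp [zG]⟩)
  obtain ⟨z₁, hz1, hz2⟩ := Pol.exists_both (mul_mem hf1 hf2 : f1 * f2 ∈ Pol K₁ (ι → E)) hf3
    (z₁ := zR) (z₂ := zG) (mul_ne_zero hf1R hf2R) hf3G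
  obtain ⟨z, hz3, hz4⟩ := Pol.exists_both
    (mul_mem (mul_mem hf1 hf2) hf3 : f1 * f2 * f3 ∈ Pol K₁ (ι → E)) hN
    (z₁ := z₁) (z₂ := zN) (mul_ne_zero hz1 hz2) hzN
  have hz5 : f1 z ≠ 0 ∧ f2 z ≠ 0 ∧ f3 z ≠ 0 := by
    simp only [Pi.mul_apply, ne_eq, mul_eq_zero, not_or] at hz3
    exact ⟨hz3.1.1, hz3.1.2, hz3.2⟩
  have hθz : th K K₁ γ₁ z = ∑ i, z i ⊗ₜ[K] γ₁ i := th_apply γ₁ z
  refine ⟨z, hf3z z hz5.2.2, ?_, ?_, ?_⟩
  · intro x hx
    rw [← hθz] at hx ⊢
    have hmem : x ∈ LinearMap.ker (T z) := (hTmem z x).mpr hx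
    have hli := hf2z z hz5.2.1
    have hle : Submodule.span K₁ (Set.range fun y : Fin m × Fin (Module.finrank K Γ) =>
        th K K₁ γ₁ z ^ (y.1 : ℕ) * ((1 : E) ⊗ₜ[K] b y.2)) ≤ LinearMap.ker (T z) := by
      rw [Submodule.span_le]
      rintro _ ⟨y, rfl⟩
      rw [SetLike.mem_coe, hTmem]
      have hc1 : Commute ((1 : E) ⊗ₜ[K] b y.2) (th K K₁ γ₁ z) := by
        rw [th_apply]
        refine Commute.sum_right _ _ _ fun i _ => ?_
        change _ * _ = _ * _
        rw [Algebra.TensorProduct.tmul_mul_tmul, Algebra.TensorProduct.tmul_mul_tmul, mul_one,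
          one_mul, hcen]
      exact ((Commute.refl (th K K₁ γ₁ z)).pow_left _).mul_left hc1
    have heq := Submodule.eq_of_le_of_finrank_le hle (by
      rw [finrank_span_eq_card hli]
      refine (hf1z z hz5.1).trans (hker.trans ?_)
      simp)
    rw [heq]
    exact hmem
  · rintro ⟨x, hx⟩
    rw [← hθz] at hx
    apply hz4
    have hx' : pv (K := K) (k + 1) p z = x * th K K₁ γ₁ z - th K K₁ γ₁ z * x := hx
    rw [hx', sub_mul, map_sub, mul_assoc, mul_assoc, ← pow_succ', 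
      ← tx_comm τ hτ ξ γ₁ hcen z (x * th K K₁ γ₁ z ^ (k + 1)), mul_assoc, ← pow_succ, sub_self]
  · refine ⟨τ, ξ, hτ, ?_⟩
    rw [← hθz]
    exact hz4

end Final

end RegPt

end Crest.Agent.R180
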