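import Crest.Agent.R180.Euler
import Crest.Agent.R180.Move
import Crest.Agent.R180.RegPoint

set_option autoImplicit false
noncomputable section

/-!
# Row 180: values of `γ` at homogeneous base points `z = t z₁`
-/

namespace Crest.Agent.R180

open TensorProduct RegPt

theorem pv_zero_eq {A : DA} (M : Adm A) {m : ℕ} (f : NC (Fin m) A.D) (z : Fin m → M.E) :
    pv (K := A.F) 0 (fun w => f (List.ofFn w)) z = M.jD (f []) := by
  unfold pv
  rw [Fintype.sum_unique]
  simp [Adm.jD]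

theorem pv_succ_eq {A : DA} (M : Adm A) {m : ℕ} (n : ℕ) (f : NC (Fin m) A.D) (z : Fin m → M.E) :
    pv (K := A.F) (n + 1) (fun w => f (List.ofFn w)) z =
      ∑ i, M.jE (z i) * pv (K := A.F) n (fun w => (NC.ld i f) (List.ofFn w)) z := by
  unfold pv
  rw [← (Fin.consEquiv (fun _ : Fin (n + 1) => Fin m)).sum_comp, Fintype.sum_prod_type]
  refine Finset.sum_congr rfl fun i _ => ?_
  rw [Finset.mul_sum]
  refine Finset.sum_congr rfl fun w _ => ?_
  change _ ⊗ₜ[A.F] f (List.ofFn _) = _ * (_ ⊗ₜ[A.F] f (i :: List.ofFn w))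
  have h1 : List.ofFn (Fin.consEquiv (fun _ : Fin (n + 1) => Fin m) (i, w)) = i :: List.ofFn w := by
    simp [Fin.consEquiv, List.ofFn_succ]
  have h2 : (List.ofFn fun j => z ((Fin.consEquiv (fun _ : Fin (n + 1) => Fin m) (i, w)) j)).prod =
      z i * (List.ofFn fun j => z (w j)).prod := by
    simp [Fin.consEquiv, List.ofFn_succ]
  rw [h1, h2]
  change _ = (z i ⊗ₜ[A.F] (1 : A.D)) * _
  rw [Algebra.TensorProduct.tmul_mul_tmul, one_mul]

theorem Adm.let0_nil {A : DA} (M : Adm A) {m μ : ℕ}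
    (X : Fin m → NC (Fin μ) (PowerSeries M.E)) (z : Fin m → M.E)
    (hz : ∀ j, X j [] = PowerSeries.X * PowerSeries.C (z j)) (j : Fin m) :
    M.let0 X j [] = PowerSeries.X * PowerSeries.C (M.jE (z j)) := by
  rw [Adm.let0, NC.map_apply, hz, map_mul, PowerSeries.map_X, PowerSeries.map_C]

/-- the value of `f` at a homogeneous point -/
theorem Adm.coeff_hX0_nil {A : DA} (M : Adm A) {m μ : ℕ}
    (X : Fin m → NC (Fin μ) (PowerSeries M.E))
    (hX : ∀ j, PowerSeries.constantCoeff (X j []) = 0) (z : Fin m → M.E)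
    (hz : ∀ j, X j [] = PowerSeries.X * PowerSeries.C (z j)) (n : ℕ) (f : NC (Fin m) A.D) :
    PowerSeries.coeff n (M.hX0 X hX f []) = pv (K := A.F) n (fun w => f (List.ofFn w)) z := by
  induction n generalizing f with
  | zero =>
    rw [Adm.hX0, NC.subst_eq, NC.add_apply, NC.sum_apply, map_add, map_sum, pv_zero_eq,
      Finset.sum_eq_zero, add_zero]
    · simp [Adm.phi0]
    · intro i _
      rw [NC.mul_nil, M.let0_nil X z hz, mul_assoc, PowerSeries.coeff_zero_X_mul]
  | succ n ih =>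
    rw [Adm.hX0, NC.subst_eq, NC.add_apply, NC.sum_apply, map_add, map_sum, pv_succ_eq]
    have h0 : PowerSeries.coeff (n + 1) ((M.phi0 μ (f [])) []) = 0 := by
      simp [Adm.phi0]
    rw [h0, zero_add]
    refine Finset.sum_congr rfl fun i _ => ?_
    rw [NC.mul_nil, M.let0_nil X z hz, mul_assoc, PowerSeries.coeff_succ_X_mul,
      PowerSeries.coeff_C_mul]
    congr 1
    exact ih (NC.ld i f)

/-- contraction: a map with `Δ f = ∑ z_j Δ (ld j f)`, `z_j ∈ (t)`, vanishes -/
theorem eq_zero_of_contract {A : DA} {S : Type} [Ring S] {m : ℕ} (z : Fin m → PowerSeries S)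
    (hz : ∀ j, PowerSeries.constantCoeff (z j) = 0) (Δ : NC (Fin m) A.D → PowerSeries S)
    (hΔ : ∀ f, Δ f = ∑ j, z j * Δ (NC.ld j f)) (f : NC (Fin m) A.D) : Δ f = 0 := by
  have key : ∀ n : ℕ, ∀ f, ∀ k < n, PowerSeries.coeff k (Δ f) = 0 := by
    intro n
    induction n with
    | zero => intro f k hk; omega
    | succ n ih =>
      intro f k hk
      rw [hΔ, map_sum]
      refine Finset.sum_eq_zero fun j _ => ?_
      rw [PowerSeries.coeff_mul]
      refine Finset.sum_eq_zero fun p hp => ?_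
      rw [Finset.HasAntidiagonal.mem_antidiagonal] at hp
      rcases Nat.eq_zero_or_pos p.1 with h0 | h0
      · rw [h0, PowerSeries.coeff_zero_eq_constantCoeff_apply, hz, zero_mul]
      · rw [ih (NC.ld j f) p.2 (by omega), mul_zero]
  ext k
  rw [key (k + 1) f k (Nat.lt_succ_self k), map_zero]

theorem Adm.hX0_nil_eq {A : DA} (M : Adm A) {m μ : ℕ} (X : Fin m → NC (Fin μ) (PowerSeries M.E))
    (hX : ∀ j, PowerSeries.constantCoeff (X j []) = 0) (f : NC (Fin m) A.D) :
    M.hX0 X hX f [] = PowerSeries.C (M.jD (f [])) +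
      ∑ j, M.let0 X j [] * M.hX0 X hX (NC.ld j f) [] := by
  conv_lhs => rw [Adm.hX0, NC.subst_eq, NC.add_apply, NC.sum_apply]
  rfl

theorem Adm.hX0_single_eq {A : DA} (M : Adm A) {m μ : ℕ}
    (X : Fin m → NC (Fin μ) (PowerSeries M.E))
    (hX : ∀ j, PowerSeries.constantCoeff (X j []) = 0) (f : NC (Fin m) A.D) (i : Fin μ) :
    M.hX0 X hX f [i] = ∑ j, (M.let0 X j [i] * M.hX0 X hX (NC.ld j f) [] +
      M.let0 X j [] * M.hX0 X hX (NC.ld j f) [i]) := by
  conv_lhs => rw [Adm.hX0, NC.subst_eq, NC.add_apply, NC.sum_apply]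
  have h0 : (M.phi0 μ (f [])) [i] = 0 := rfl
  rw [h0, zero_add]
  refine Finset.sum_congr rfl fun j _ => ?_
  rw [NC.mul_cons, NC.mul_nil]
  rfl

/-- **Chain rule**: for a derivation `θ` of `D₀⟦t⟧` killing the constants `D`, whose values on
the base point are combinations of the directions, `θ(γ(z))` is the same combination of the
linear coefficients. -/
theorem Adm.chain {A : DA} (M : Adm A) {m μ : ℕ} (X : Fin m → NC (Fin μ) (PowerSeries M.E))
    (hX : ∀ j, PowerSeries.constantCoeff (X j []) = 0)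
    (θ : PowerSeries M.D0 →+ PowerSeries M.D0)
    (hθ : ∀ x y, θ (x * y) = θ x * y + x * θ y)
    (hθ0 : ∀ a : A.D, θ (PowerSeries.C (M.jD a)) = 0)
    (a : Fin μ → PowerSeries M.D0) (ha : ∀ i x, a i * x = x * a i)
    (h : ∀ j, θ (M.let0 X j []) = ∑ i, a i * M.let0 X j [i]) (f : NC (Fin m) A.D) :
    θ (M.hX0 X hX f []) = ∑ i, a i * M.hX0 X hX f [i] := by
  rw [← sub_eq_zero]
  refine eq_zero_of_contract (fun j => M.let0 X j []) ?_
    (fun f => θ (M.hX0 X hX f []) - ∑ i, a i * M.hX0 X hX f [i]) ?_ f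
  · intro j
    rw [Adm.let0, NC.map_apply, ← PowerSeries.coeff_zero_eq_constantCoeff_apply,
      PowerSeries.coeff_map, PowerSeries.coeff_zero_eq_constantCoeff_apply, hX, map_zero]
  · intro f
    have e1 : θ (M.hX0 X hX f []) = ∑ j, (θ (M.let0 X j []) * M.hX0 X hX (NC.ld j f) [] +
        M.let0 X j [] * θ (M.hX0 X hX (NC.ld j f) [])) := by
      rw [M.hX0_nil_eq X hX f, map_add, hθ0, zero_add, map_sum]
      exact Finset.sum_congr rfl fun j _ => hθ _ _
    have e2 : ∑ i, a i * M.hX0 X hX f [i] = ∑ j, (θ (M.let0 X j []) * M.hX0 X hX (NC.ld j f) [] +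
        M.let0 X j [] * ∑ i, a i * M.hX0 X hX (NC.ld j f) [i]) := by
      have e3 : ∀ i, a i * M.hX0 X hX f [i] = ∑ j, (a i * M.let0 X j [i] *
          M.hX0 X hX (NC.ld j f) [] + M.let0 X j [] * (a i * M.hX0 X hX (NC.ld j f) [i])) := by
        intro i
        rw [M.hX0_single_eq X hX f i, Finset.mul_sum]
        refine Finset.sum_congr rfl fun j _ => ?_
        rw [mul_add, mul_assoc, ← mul_assoc (a i) (M.let0 X j []), ha i (M.let0 X j []),
          mul_assoc (M.let0 X j [])]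
      rw [Finset.sum_congr rfl fun i _ => e3 i, Finset.sum_comm]
      refine Finset.sum_congr rfl fun j _ => ?_
      rw [Finset.sum_add_distrib, h, Finset.sum_mul, Finset.mul_sum]
    change θ (M.hX0 X hX f []) - ∑ i, a i * M.hX0 X hX f [i] = ∑ j, M.let0 X j [] *
      (θ (M.hX0 X hX (NC.ld j f) []) - ∑ i, a i * M.hX0 X hX (NC.ld j f) [i])
    rw [e1, e2, ← Finset.sum_sub_distrib]
    refine Finset.sum_congr rfl fun j _ => ?_
    rw [mul_sub]
    abel

end Crest.Agent.R180
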