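import Crest.Agent.R180.Basic

set_option autoImplicit false

/-! # Row 180: facts on noncommutative power series (domain, density, centralizer) -/

namespace Crest.Agent.R180

namespace NC

variable {σ K : Type}

section Ring
variable [Ring K]

theorem mul_eq_zero_of_short (f g : NC σ K) (n : ℕ) (hg : ∀ w : List σ, w.length < n → g w = 0)
    (w : List σ) (hw : w.length < n) : (f * g) w = 0 := by
  induction w generalizing f with
  | nil => rw [mul_nil, hg [] hw, mul_zero]
  | cons s w ih =>
    have hw' : w.length < n := by simp only [List.length_cons] at hw; omega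
    rw [mul_cons, ih (ld s f) hw', hg _ hw, mul_zero, add_zero]

theorem mul_eq_of_short (f g : NC σ K) (n : ℕ) (hg : ∀ w : List σ, w.length < n → g w = 0)
    (w : List σ) (hw : w.length ≤ n) : (f * g) w = f [] * g w := by
  cases w with
  | nil => rw [mul_nil]
  | cons s w =>
    have hw' : w.length < n := by simp only [List.length_cons] at hw; omega
    rw [mul_cons, mul_eq_zero_of_short (ld s f) g n hg w hw', zero_add]

theorem mul_append (f g : NC σ K) (u v : List σ) (hf : ∀ w : List σ, w.length < u.length → f w = 0)
    (hg : ∀ w : List σ, w.length < v.length → g w = 0) : (f * g) (u ++ v) = f u * g v := by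
  induction u generalizing f with
  | nil => rw [List.nil_append, mul_eq_of_short f g v.length hg v le_rfl]
  | cons s u ih =>
    have h0 : f [] = 0 := hf [] (by simp)
    rw [List.cons_append, mul_cons, h0, zero_mul, add_zero, ih (ld s f)]
    · rfl
    · intro w hw
      rw [ld_apply]
      exact hf _ (by simp only [List.length_cons]; omega)

instance instNoZeroDivisors [NoZeroDivisors K] : NoZeroDivisors (NC σ K) := by
  classical
  refine ⟨?_⟩
  intro f g hfg
  by_contra hne
  rw [not_or] at hne
  have key : ∀ f : NC σ K, f ≠ 0 → ∃ u : List σ, f u ≠ 0 ∧ ∀ w : List σ, w.length < u.length → f w = 0 := by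
    intro f hf
    have hex : ∃ n, ∃ u : List σ, u.length = n ∧ f u ≠ 0 := by
      by_contra h
      push Not at h
      exact hf (ext' fun w => h w.length w rfl)
    obtain ⟨u, hu, hfu⟩ := Nat.find_spec hex
    refine ⟨u, hfu, fun w hw => ?_⟩
    by_contra hw0
    exact Nat.find_min hex (by rw [← hu]; exact hw) ⟨w, rfl, hw0⟩
  obtain ⟨u, hu, hu'⟩ := key f hne.1
  obtain ⟨v, hv, hv'⟩ := key g hne.2
  have h1 := mul_append f g u v hu' hv'
  rw [hfg, zero_apply] at h1
  exact mul_ne_zero hu hv h1.symm

theorem C_injective : Function.Injective (C : K →+* NC σ K) := by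
  intro a b h
  have := congrArg (fun f : NC σ K => f []) h
  simpa using this

instance instNontrivial [Nontrivial K] : Nontrivial (NC σ K) :=
  (C_injective (σ := σ) (K := K)).nontrivial

/-- (F1) -/
instance isDomain [IsDomain K] : IsDomain (NC σ K) := NoZeroDivisors.to_isDomain _

instance instCharZero [CharZero K] : CharZero (NC σ K) :=
  charZero_of_injective_ringHom (C_injective (σ := σ) (K := K))

theorem ld_X' [DecidableEq σ] (r s : σ) : ld r (X s : NC σ K) = if r = s then 1 else 0 := by
  apply ext'
  intro w
  cases w with
  | nil => rw [ld_apply, X_single]; split_ifs <;> simp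
  | cons t w => rw [ld_apply, X_cons_cons]; split_ifs <;> simp

theorem X_mul_cons [DecidableEq σ] (s r : σ) (z : NC σ K) (v : List σ) :
    ((X s : NC σ K) * z) (r :: v) = if r = s then z v else 0 := by
  rw [mul_cons, X_nil, zero_mul, add_zero, ld_X']
  split_ifs
  · rw [one_mul]
  · rw [zero_mul, zero_apply]

theorem mul_X_concat [DecidableEq σ] (s t : σ) (z : NC σ K) (w : List σ) :
    (z * (X s : NC σ K)) (w ++ [t]) = if t = s then z w else 0 := by
  induction w generalizing z with
  | nil =>
    rw [List.nil_append, mul_cons, mul_nil, X_nil, mul_zero, zero_add, X_single]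
    split_ifs <;> simp
  | cons r w ih =>
    have h0 : (X s : NC σ K) (r :: (w ++ [t])) = 0 := by
      cases w with
      | nil => rfl
      | cons a w => rfl
    rw [List.cons_append, mul_cons, ih, h0, mul_zero, add_zero]
    rfl

end Ring

section Dense

variable {F D : Type} [Field F] [Ring D] [Algebra F D] {𝒜 : Subalgebra F (NC (Fin 2) D)}

/-- (F0) -/
theorem Dense.all (h𝒜 : Dense 𝒜) (k : ℕ) (f : NC (Fin 2) D) :
    ∃ a ∈ 𝒜, ∀ w : List (Fin 2), w.length < k → a w = f w := by
  classical
  -- approximations of letters and constants
  choose u hu hu' using fun s : Fin 2 => h𝒜 (X s)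
  choose c hc hc' using fun d : D => h𝒜 (C d)
  -- monomials
  let U : List (Fin 2) → NC (Fin 2) D := fun w => (w.map u).prod
  have hU : ∀ w, U w ∈ 𝒜 := by
    intro w
    refine Subalgebra.list_prod_mem 𝒜 ?_
    intro x hx
    obtain ⟨s, _, rfl⟩ := List.mem_map.1 hx
    exact hu s
  have hUcons : ∀ s w, U (s :: w) = u s * U w := fun s w => by simp [U]
  have hUval : ∀ w v : List (Fin 2), v.length ≤ w.length →
      (U w) v = if v = w then 1 else 0 := by
    intro w
    induction w with
    | nil =>
      intro v hv
      have : v = [] := List.length_eq_zero_iff.1 (Nat.le_zero.1 hv)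
      subst this
      simp [U]
    | cons s w ih =>
      intro v hv
      have hshort : ∀ v : List (Fin 2), v.length < w.length → (U w) v = 0 := by
        intro v hv
        rw [ih v hv.le, if_neg]
        rintro rfl
        exact lt_irrefl _ hv
      rw [hUcons]
      cases v with
      | nil =>
        rw [mul_nil, hu' s [] (by simp), X_nil, zero_mul, if_neg (by simp)]
      | cons r v =>
        have hv' : v.length ≤ w.length := by simpa using hv
        have h0 : (u s) [] = 0 := by rw [hu' s [] (by simp), X_nil]
        rw [mul_cons, h0, zero_mul, add_zero, mul_eq_of_short _ _ w.length hshort v hv', ld_apply,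
          hu' s [r] (by simp), X_single, ih v hv']
        by_cases h1 : r = s
        · by_cases h2 : v = w
          · simp [h1, h2]
          · simp [h1, h2]
        · simp [h1]
  induction k with
  | zero => exact ⟨0, 𝒜.zero_mem, fun w hw => absurd hw (Nat.not_lt_zero _)⟩
  | succ k ih =>
    obtain ⟨a, ha, ha'⟩ := ih
    let g := f - a
    let b : NC (Fin 2) D := ∑ w : List.Vector (Fin 2) k, c (g w.toList) * U w.toList
    have hb : b ∈ 𝒜 := Subalgebra.sum_mem 𝒜 fun w _ => 𝒜.mul_mem (hc _) (hU _)
    have hbval : ∀ v : List (Fin 2), v.length ≤ k →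
        b v = ∑ w : List.Vector (Fin 2) k, g w.toList * (if v = w.toList then 1 else 0) := by
      intro v hv
      simp only [b]
      rw [sum_apply]
      refine Finset.sum_congr rfl fun w _ => ?_
      have hwl : w.toList.length = k := w.toList_length
      have hshort : ∀ v : List (Fin 2), v.length < k → (U w.toList) v = 0 := by
        intro v hv
        rw [hUval _ v (by rw [hwl]; exact hv.le), if_neg]
        rintro rfl
        rw [hwl] at hv; exact lt_irrefl _ hv
      rw [mul_eq_of_short _ _ k hshort v hv, hc' _ [] (by simp), C_nil,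
        hUval _ v (by rw [hwl]; exact hv)]
    refine ⟨a + b, 𝒜.add_mem ha hb, fun v hv => ?_⟩
    have hvk : v.length ≤ k := Nat.lt_succ_iff.1 hv
    rw [add_apply, hbval v hvk]
    rcases Nat.lt_or_ge v.length k with h | h
    · rw [Finset.sum_eq_zero, add_zero, ha' v h]
      intro w _
      rw [if_neg, mul_zero]
      rintro rfl
      rw [w.toList_length] at h
      exact lt_irrefl _ h
    · have hvk' : v.length = k := le_antisymm hvk h
      have hs : (∑ w : List.Vector (Fin 2) k, g w.toList * (if v = w.toList then 1 else 0)) = g v := by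
        have h3 := Finset.sum_eq_single_of_mem (s := (Finset.univ : Finset (List.Vector (Fin 2) k)))
          (f := fun w : List.Vector (Fin 2) k => g w.toList * (if v = w.toList then (1 : D) else 0))
          (List.Vector.ofFn fun i : Fin k => v.get (i.cast hvk'.symm)) (Finset.mem_univ _)
        have h4 : (List.Vector.ofFn fun i : Fin k => v.get (i.cast hvk'.symm)).toList = v := by
          rw [List.Vector.toList_ofFn]
          subst hvk'
          exact List.ofFn_get v
        rw [h3]
        · rw [h4, if_pos rfl, mul_one]
        · intro w _ hw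
          rw [if_neg, mul_zero]
          intro hvw
          exact hw (List.Vector.eq _ _ (by rw [h4, hvw]))
      rw [hs, sub_apply]
      abel

/-- (F2) -/
theorem centralizer_dense [Algebra.IsCentral F D]
    (𝒜 : Subalgebra F (NC (Fin 2) D)) (h𝒜 : Dense 𝒜) (z : NC (Fin 2) D)
    (hz : ∀ a ∈ 𝒜, a * z = z * a) : ∃ c : F, z = algebraMap F _ c := by
  classical
  -- `z` is central
  have hmul1 : ∀ (f a z : NC (Fin 2) D) (k : ℕ), (∀ w : List (Fin 2), w.length < k → a w = f w) →
      ∀ w : List (Fin 2), w.length < k → (a * z) w = (f * z) w := by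
    intro f a z k h w hw
    induction w generalizing f a k with
    | nil => rw [mul_nil, mul_nil, h [] hw]
    | cons s w ih =>
      have hk : 0 < k := by omega
      rw [mul_cons, mul_cons, h [] (by simpa using hk)]
      rw [ih (ld s f) (ld s a) (k - 1) (fun v hv => h _ (by simp only [List.length_cons]; omega))
        (by simp only [List.length_cons] at hw; omega)]
  have hmul2 : ∀ (f a z : NC (Fin 2) D) (k : ℕ), (∀ w : List (Fin 2), w.length < k → a w = f w) →
      ∀ w : List (Fin 2), w.length < k → (z * a) w = (z * f) w := by
    intro f a z k h w hw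
    have h0 : ∀ w : List (Fin 2), w.length < k → (a - f) w = 0 := by
      intro w hw; rw [sub_apply, h w hw, sub_self]
    have := mul_eq_zero_of_short z (a - f) k h0 w hw
    rw [mul_sub, sub_apply] at this
    exact sub_eq_zero.1 this
  have hcen : ∀ f : NC (Fin 2) D, f * z = z * f := by
    intro f
    apply ext'
    intro w
    obtain ⟨a, ha, ha'⟩ := h𝒜.all (w.length + 1) f
    rw [← hmul1 f a z _ ha' w (Nat.lt_succ_self _), hz a ha,
      hmul2 f a z _ ha' w (Nat.lt_succ_self _)]
  -- constant term central
  have h1 : z [] ∈ Subalgebra.center F D := by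
    rw [Subalgebra.mem_center_iff]
    intro d
    have := congrArg (fun f : NC (Fin 2) D => f []) (hcen (C d))
    simpa using this
  have h2 : ∀ w : List (Fin 2), w ≠ [] → z w = 0 := by
    intro w hw
    obtain ⟨r, v, rfl⟩ := List.exists_cons_of_ne_nil hw
    obtain ⟨s, hs⟩ : ∃ s : Fin 2, r ≠ s := by
      refine ⟨r + 1, ?_⟩
      fin_cases r <;> decide
    have := congrArg (fun f : NC (Fin 2) D => f ((r :: v) ++ [s])) (hcen (X s : NC (Fin 2) D))
    simp only [List.cons_append] at this
    rw [X_mul_cons, if_neg hs, ← List.cons_append, mul_X_concat, if_pos rfl] at this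
    exact this.symm
  rw [Algebra.IsCentral.center_eq_bot, Algebra.mem_bot] at h1
  obtain ⟨c, hc⟩ := h1
  refine ⟨c, ?_⟩
  rw [algebraMap_eq]
  apply ext'
  intro w
  cases w with
  | nil => rw [C_nil, hc]
  | cons s w => rw [C_cons, h2 _ (by simp)]

/-- (F3) -/
theorem not_finite_of_dense [Nontrivial D]
    (𝒜 : Subalgebra F (NC (Fin 2) D)) (h𝒜 : Dense 𝒜) (V : Submodule F (NC (Fin 2) D))
    [FiniteDimensional F V] : ¬ (∀ a ∈ 𝒜, a ∈ V) := by
  classical
  intro hV
  choose a ha ha' using fun k : ℕ => h𝒜.all (k + 1)
    (⟨fun w => if w = List.replicate k 0 then (1 : D) else 0⟩ : NC (Fin 2) D)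
  have hval : ∀ k j : ℕ, j ≤ k → (a k) (List.replicate j 0) = if j = k then 1 else 0 := by
    intro k j hj
    rw [ha' k _ (by rw [List.length_replicate]; omega)]
    by_cases h : j = k
    · simp [h]
    · rw [if_neg h]
      change (if List.replicate j (0 : Fin 2) = List.replicate k 0 then (1 : D) else 0) = 0
      rw [if_neg]
      intro h'
      exact h (by simpa using congrArg List.length h')
  let b : ℕ → V := fun k => ⟨a k, hV _ (ha k)⟩
  have hli : LinearIndependent F b := by
    rw [linearIndependent_iff']
    intro s g hg i
    induction i using Nat.strong_induction_on with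
    | _ i ih =>
      intro hi
      have h1 : ∑ k ∈ s, g k • a k = 0 := by
        have := congrArg (Subtype.val) hg
        simpa [b] using this
      have h2 := congrArg (fun f : NC (Fin 2) D => f (List.replicate i 0)) h1
      simp only [sum_apply, zero_apply, smul_apply] at h2
      rw [Finset.sum_eq_single i] at h2
      · rw [hval i i le_rfl, if_pos rfl] at h2
        rw [Algebra.smul_def, mul_one] at h2
        exact (map_eq_zero_iff _ (algebraMap F D).injective).1 h2
      · intro k hk hki
        rcases Nat.lt_or_ge k i with h | h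
        · rw [ih k h hk, zero_smul]
        · rw [hval k i h, if_neg (Ne.symm hki), smul_zero]
      · intro h; exact absurd hi h
  have hfin : Finite ℕ := by
    have := hli.finite_of_isNoetherian
    exact this
  exact not_finite ℕ

end Dense

end NC

end Crest.Agent.R180
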