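import Crest.Agent.R180.StmtA
import Crest.Agent.R180.NCFacts

set_option autoImplicit false

/-!
# Row 180 (S0270), PART I: `TheoremA → Goal` (the limit construction)
-/

namespace Crest.Agent.R180.PartI

open Filter

/-- Theorem A (one step) over base fields with all roots of unity. -/
def TheoremAR : Prop :=
  ∀ (F D : Type) [Field F] [CharZero F] [Ring D] [IsDomain D] [Algebra F D]
    [FiniteDimensional F D] [Algebra.IsCentral F D]
    (_ : ∀ n : ℕ, 0 < n → ∃ z : F, IsPrimitiveRoot z n)
    (𝒜 : Subalgebra F (NC (Fin 2) D)), NC.Dense 𝒜 → ∀ a : NC (Fin 2) D,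
    ∃ (F' D' : Type) (_ : Field F') (_ : CharZero F') (_ : Ring D') (_ : IsDomain D')
      (_ : Algebra F' D') (_ : FiniteDimensional F' D') (_ : Algebra.IsCentral F' D')
      (i : F →+* F') (h : NC (Fin 2) D →+* NC (Fin 2) D'),
      (∀ c : F, h (algebraMap F (NC (Fin 2) D) c) = algebraMap F' (NC (Fin 2) D') (i c)) ∧
      IsAlgebraic F' (h a) ∧
      NC.Dense (Algebra.adjoin F' (h '' (𝒜 : Set (NC (Fin 2) D))))

theorem TheoremA.toAR (h : TheoremA) : TheoremAR :=
  fun F D _ _ _ _ _ _ _ _ 𝒜 h𝒜 a => h F D 𝒜 h𝒜 a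

/-- A stage together with two generators and names of central elements. -/
structure Stage : Type 1 where
  F : Type
  D : Type
  [fieldF : Field F]
  [charF : CharZero F]
  [ringD : Ring D]
  [domD : IsDomain D]
  [algD : Algebra F D]
  [finD : FiniteDimensional F D]
  [centD : Algebra.IsCentral F D]
  x : NC (Fin 2) D
  y : NC (Fin 2) D
  dense : NC.Dense (Algebra.adjoin F ({x, y} : Set (NC (Fin 2) D)))
  roots : ∀ n : ℕ, 0 < n → ∃ z : F, IsPrimitiveRoot z n
  c : ℕ × ℕ → F

attribute [instance] Stage.fieldF Stage.charF Stage.ringD Stage.domD Stage.algD Stage.finD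
  Stage.centD

/-- the ring of a stage -/
abbrev Stage.R (s : Stage) : Type := NC (Fin 2) s.D

/-- names of generators: `inl true` is `x`, `inl false` is `y`, `inr (n, k)` is a central element -/
abbrev Gen : Type := Bool ⊕ (ℕ × ℕ)

/-- the free ring on the names -/
abbrev P : Type := FreeAlgebra ℤ Gen

instance : Countable P := by
  rw [← Cardinal.mk_le_aleph0_iff]
  refine (FreeAlgebra.cardinalMk_le_max ℤ Gen).trans ?_
  simp

/-- value of a generator at a stage -/
def Stage.gen (s : Stage) : Gen → s.R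
  | Sum.inl true => s.x
  | Sum.inl false => s.y
  | Sum.inr p => algebraMap s.F s.R (s.c p)

/-- evaluation at a stage -/
noncomputable def Stage.ev (s : Stage) : P →ₐ[ℤ] s.R := FreeAlgebra.lift ℤ s.gen

/-- generators of `P` -/
noncomputable def g (a : Gen) : P := FreeAlgebra.ι ℤ a

@[simp] theorem Stage.ev_g (s : Stage) (a : Gen) : s.ev (g a) = s.gen a := by
  simp [Stage.ev, g]

/-- one step: everything old is transported by `h`, names `(n, ·)` are the coefficients of a
polynomial `q` with `p * q(p) = 1` at the new stage (if `p ≠ 0` there). -/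
structure IsStep (n : ℕ) (p : P) (s t : Stage) (i : s.F →+* t.F) (h : s.R →+* t.R) : Prop where
  comm : ∀ c : s.F, h (algebraMap s.F s.R c) = algebraMap t.F t.R (i c)
  hx : h s.x = t.x
  hy : h s.y = t.y
  hc : ∀ m k, m ≠ n → t.c (m, k) = i (s.c (m, k))
  hinv : ∃ K : ℕ, h (s.ev p) ≠ 0 →
    h (s.ev p) * ∑ k ∈ Finset.range K, algebraMap t.F t.R (t.c (n, k)) * (h (s.ev p)) ^ k = 1

theorem exists_inv {F R : Type} [Field F] [Ring R] [IsDomain R] [Algebra F R] (a : R)
    (ha : IsAlgebraic F a) : ∃ (K : ℕ) (q : ℕ → F), a ≠ 0 →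
      a * ∑ k ∈ Finset.range K, algebraMap F R (q k) * a ^ k = 1 := by
  classical
  by_cases h0 : a = 0
  · exact ⟨0, fun _ => 0, fun h => absurd h0 h⟩
  have hint : IsIntegral F a := ha.isIntegral
  set m := minpoly F a with hm
  have hc0 : m.coeff 0 ≠ 0 := minpoly.coeff_zero_ne_zero hint h0
  set q : Polynomial F := Polynomial.C (-(m.coeff 0)⁻¹) * m.divX with hq
  refine ⟨q.natDegree + 1, fun k => q.coeff k, fun _ => ?_⟩
  have h1 : ∑ k ∈ Finset.range (q.natDegree + 1), algebraMap F R (q.coeff k) * a ^ k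
      = Polynomial.aeval a q := by
    rw [Polynomial.aeval_eq_sum_range]
    simp [Algebra.smul_def]
  rw [h1]
  have h2 : Polynomial.aeval a m = 0 := minpoly.aeval F a
  have h3 : m.divX * Polynomial.X + Polynomial.C (m.coeff 0) = m := Polynomial.divX_mul_X_add m
  have h4 : a * Polynomial.aeval a m.divX = - algebraMap F R (m.coeff 0) := by
    have h5 : Polynomial.aeval a (Polynomial.X * m.divX + Polynomial.C (m.coeff 0)) = 0 := by
      rw [mul_comm, h3, h2]
    rw [map_add, map_mul, Polynomial.aeval_X, Polynomial.aeval_C] at h5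
    exact eq_neg_of_add_eq_zero_left h5
  have h6 : Polynomial.aeval a q = algebraMap F R (-(m.coeff 0)⁻¹) * Polynomial.aeval a m.divX := by
    rw [hq, map_mul, Polynomial.aeval_C]
  rw [h6, ← mul_assoc, ← Algebra.commutes, mul_assoc, h4, map_neg, neg_mul_neg, ← map_mul,
    inv_mul_cancel₀ hc0, map_one]

theorem exists_step (hA : TheoremAR) (n : ℕ) (p : P) (s : Stage) :
    ∃ (t : Stage) (i : s.F →+* t.F) (h : s.R →+* t.R), IsStep n p s t i h := by
  classical
  obtain ⟨F', D', _, _, _, _, _, _, _, i, h, hcomm, halg, hdense⟩ :=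
    hA s.F s.D s.roots (Algebra.adjoin s.F ({s.x, s.y} : Set (NC (Fin 2) s.D))) s.dense (s.ev p)
  have : IsDomain (NC (Fin 2) D') := NC.isDomain
  obtain ⟨K, q, hq⟩ := exists_inv (h (s.ev p)) halg
  have hd : NC.Dense (Algebra.adjoin F' ({h s.x, h s.y} : Set (NC (Fin 2) D'))) := by
    have hle : Algebra.adjoin F' (h '' (Algebra.adjoin s.F ({s.x, s.y} : Set (NC (Fin 2) s.D)) :
        Set (NC (Fin 2) s.D))) ≤ Algebra.adjoin F' ({h s.x, h s.y} : Set (NC (Fin 2) D')) := by
      apply Algebra.adjoin_le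
      rintro _ ⟨a, ha, rfl⟩
      induction ha using Algebra.adjoin_induction with
      | mem a ha =>
        rcases ha with rfl | ha
        · exact Algebra.subset_adjoin (by simp)
        · rw [Set.mem_singleton_iff] at ha
          subst ha
          exact Algebra.subset_adjoin (by simp)
      | algebraMap c =>
        rw [hcomm]
        exact Subalgebra.algebraMap_mem _ _
      | add a b _ _ ha hb =>
        rw [map_add]
        exact Subalgebra.add_mem _ ha hb
      | mul a b _ _ ha hb =>
        rw [map_mul]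
        exact Subalgebra.mul_mem _ ha hb
    intro f
    obtain ⟨a, ha, haf⟩ := hdense f
    exact ⟨a, hle ha, haf⟩
  refine ⟨{ F := F', D := D', x := h s.x, y := h s.y, dense := hd,
            roots := fun n hn => by
              obtain ⟨z, hz⟩ := s.roots n hn
              exact ⟨i z, hz.map_of_injective i.injective⟩
            c := fun mk => if mk.1 = n then q mk.2 else i (s.c mk) }, i, h, ?_⟩
  refine ⟨hcomm, rfl, rfl, ?_, K, ?_⟩
  · intro m k hm
    simp [hm]
  · intro h0
    have := hq h0
    simpa using this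


/-- the tower of stages -/
structure Tower where
  s : ℕ → Stage
  i : ∀ n, (s n).F →+* (s (n + 1)).F
  h : ∀ n, (s n).R →+* (s (n + 1)).R
  e : ℕ → P
  he : ∀ (p : P) (N : ℕ), ∃ n, N ≤ n ∧ e n = p
  step : ∀ n, IsStep n (e n) (s n) (s (n + 1)) (i n) (h n)

theorem exists_tower (hA : TheoremAR) (s0 : Stage) : Nonempty Tower := by
  classical
  obtain ⟨e0, he0⟩ := exists_surjective_nat P
  have hstep : ∀ (n : ℕ) (s : Stage), ∃ (t : Stage) (i : s.F →+* t.F) (h : s.R →+* t.R),
      IsStep n (e0 (Nat.unpair n).1) s t i h := fun n s => exists_step hA n _ s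
  choose t i h hs using hstep
  let S : ℕ → Stage := fun n => Nat.rec s0 (fun n s => t n s) n
  refine ⟨{ s := S, i := fun n => i n (S n), h := fun n => h n (S n),
            e := fun n => e0 (Nat.unpair n).1, he := ?_, step := fun n => hs n (S n) }⟩
  intro p N
  obtain ⟨m, rfl⟩ := he0 p
  exact ⟨Nat.pair m N, Nat.right_le_pair m N, by simp⟩

namespace Tower

variable (T : Tower)

/-- evaluation at stage `n` -/
noncomputable def ev (n : ℕ) : P →ₐ[ℤ] (T.s n).R := (T.s n).ev

/-- elements which are compatible with all transition maps from `n` on -/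
def Compat (p : P) (N : ℕ) : Prop := ∀ n, N ≤ n → T.ev (n + 1) p = T.h n (T.ev n p)

theorem compat_mono {p : P} {N M : ℕ} (h : T.Compat p N) (hNM : N ≤ M) : T.Compat p M :=
  fun n hn => h n (hNM.trans hn)

theorem compat_add {p q : P} {N : ℕ} (hp : T.Compat p N) (hq : T.Compat q N) :
    T.Compat (p + q) N := fun n hn => by rw [map_add, map_add, map_add, hp n hn, hq n hn]

theorem compat_mul {p q : P} {N : ℕ} (hp : T.Compat p N) (hq : T.Compat q N) :
    T.Compat (p * q) N := fun n hn => by rw [map_mul, map_mul, map_mul, hp n hn, hq n hn]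

theorem compat_int (k : ℤ) (N : ℕ) : T.Compat (algebraMap ℤ P k) N := fun n _ => by
  simp

theorem compat_one (N : ℕ) : T.Compat 1 N := fun n _ => by simp

theorem compat_pow {p : P} {N : ℕ} (hp : T.Compat p N) (k : ℕ) :
    T.Compat (p ^ k) N := fun n hn => by rw [map_pow, map_pow, map_pow, hp n hn]

theorem compat_sum {ι : Type*} (s : Finset ι) (f : ι → P) {N : ℕ}
    (hf : ∀ a ∈ s, T.Compat (f a) N) : T.Compat (∑ a ∈ s, f a) N := fun n hn => by
  rw [map_sum, map_sum, map_sum]
  exact Finset.sum_congr rfl fun a ha => hf a ha n hn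

theorem compat_x (N : ℕ) : T.Compat (g (Sum.inl true)) N := fun n _ => by
  change (T.s (n + 1)).ev _ = T.h n ((T.s n).ev _)
  rw [Stage.ev_g, Stage.ev_g]
  exact ((T.step n).hx).symm

theorem compat_y (N : ℕ) : T.Compat (g (Sum.inl false)) N := fun n _ => by
  change (T.s (n + 1)).ev _ = T.h n ((T.s n).ev _)
  rw [Stage.ev_g, Stage.ev_g]
  exact ((T.step n).hy).symm

theorem compat_c (m k : ℕ) {N : ℕ} (hN : m < N) : T.Compat (g (Sum.inr (m, k))) N := fun n hn => by
  change (T.s (n + 1)).ev _ = T.h n ((T.s n).ev _)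
  rw [Stage.ev_g, Stage.ev_g]
  change algebraMap _ _ _ = T.h n (algebraMap _ _ _)
  rw [(T.step n).comm, (T.step n).hc m k (by omega)]

theorem exists_compat (p : P) : ∃ N, T.Compat p N := by
  induction p using FreeAlgebra.induction with
  | grade0 r => exact ⟨0, T.compat_int r 0⟩
  | grade1 a =>
    match a with
    | Sum.inl true => exact ⟨0, T.compat_x 0⟩
    | Sum.inl false => exact ⟨0, T.compat_y 0⟩
    | Sum.inr (m, k) => exact ⟨m + 1, T.compat_c m k (Nat.lt_succ_self m)⟩
  | mul a b ha hb =>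
    obtain ⟨N, hN⟩ := ha
    obtain ⟨M, hM⟩ := hb
    exact ⟨max N M, T.compat_mul (T.compat_mono hN (le_max_left _ _))
      (T.compat_mono hM (le_max_right _ _))⟩
  | add a b ha hb =>
    obtain ⟨N, hN⟩ := ha
    obtain ⟨M, hM⟩ := hb
    exact ⟨max N M, T.compat_add (T.compat_mono hN (le_max_left _ _))
      (T.compat_mono hM (le_max_right _ _))⟩

/-- equality at some compatible stage propagates -/
theorem eventually_of_eq {p q : P} {N n : ℕ} (hp : T.Compat p N) (hq : T.Compat q N) (hn : N ≤ n)
    (h : T.ev n p = T.ev n q) : ∀ m, n ≤ m → T.ev m p = T.ev m q := by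
  intro m hm
  induction m, hm using Nat.le_induction with
  | base => exact h
  | succ m hm ih => rw [hp m (hn.trans hm), hq m (hn.trans hm), ih]

/-- the congruence: eventually equal -/
def con : RingCon P where
  r p q := ∀ᶠ n in atTop, T.ev n p = T.ev n q
  iseqv := by
    refine ⟨fun p => Eventually.of_forall fun n => rfl, fun h => h.mono fun n hn => hn.symm,
      fun h h' => ?_⟩
    filter_upwards [h, h'] with n hn hn' using hn.trans hn'
  add' := by
    intro a b c d h h'
    filter_upwards [h, h'] with n hn hn'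
    rw [map_add, map_add, hn, hn']
  mul' := by
    intro a b c d h h'
    filter_upwards [h, h'] with n hn hn'
    rw [map_mul, map_mul, hn, hn']

/-- the limit ring -/
abbrev Q : Type := T.con.Quotient

noncomputable instance : Ring T.Q := inferInstance

/-- quotient map -/
noncomputable def pr : P →+* T.Q := T.con.mk'

theorem pr_surjective : Function.Surjective T.pr := RingCon.mk'_surjective _

theorem pr_eq {p q : P} : T.pr p = T.pr q ↔ ∀ᶠ n in atTop, T.ev n p = T.ev n q := by
  change (p : T.con.Quotient) = (q : T.con.Quotient) ↔ _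
  rw [RingCon.eq]
  rfl

theorem pr_eq_zero {p : P} : T.pr p = 0 ↔ ∀ᶠ n in atTop, T.ev n p = 0 := by
  rw [← map_zero T.pr, pr_eq]
  simp

instance : Countable T.Q := T.pr_surjective.countable

instance : Nontrivial T.Q := by
  refine ⟨⟨T.pr 1, T.pr 0, ?_⟩⟩
  intro h
  rw [pr_eq] at h
  obtain ⟨n, hn⟩ := h.exists
  have : IsDomain (NC (Fin 2) (T.s n).D) := NC.isDomain
  rw [map_one, map_zero] at hn
  exact one_ne_zero hn

theorem charZero : CharZero T.Q := by
  refine charZero_of_inj_zero fun k hk => ?_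
  rw [← map_natCast T.pr, pr_eq_zero] at hk
  obtain ⟨n, hn⟩ := hk.exists
  have : IsDomain (NC (Fin 2) (T.s n).D) := NC.isDomain
  rw [map_natCast] at hn
  have h1 : algebraMap (T.s n).F (T.s n).R (k : (T.s n).F) = 0 := by rw [map_natCast, hn]
  have h2 := (FaithfulSMul.algebraMap_injective (T.s n).F (T.s n).R) (h1.trans (map_zero _).symm)
  exact_mod_cast h2

/-- the names are central -/
theorem c_central (a : ℕ × ℕ) : T.pr (g (Sum.inr a)) ∈ Subring.center T.Q := by
  rw [Subring.mem_center_iff]
  intro q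
  obtain ⟨p, rfl⟩ := T.pr_surjective q
  rw [← map_mul, ← map_mul, pr_eq]
  refine Eventually.of_forall fun n => ?_
  rw [map_mul, map_mul]
  have : T.ev n (g (Sum.inr a)) = algebraMap (T.s n).F (T.s n).R ((T.s n).c a) :=
    Stage.ev_g _ _
  rw [this]
  exact (Algebra.commutes _ _).symm

theorem exists_inv' (q : T.Q) (hq : q ≠ 0) : ∃ (K : ℕ) (z : ℕ → Subring.center T.Q),
    q * ∑ k ∈ Finset.range K, (z k : T.Q) * q ^ k = 1 := by
  obtain ⟨p, rfl⟩ := T.pr_surjective q
  obtain ⟨N, hN⟩ := T.exists_compat p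
  obtain ⟨n, hn, hen⟩ := T.he p N
  have hst := T.step n
  rw [hen] at hst
  obtain ⟨K, hK⟩ := hst.hinv
  refine ⟨K, fun k => ⟨T.pr (g (Sum.inr (n, k))), T.c_central (n, k)⟩, ?_⟩
  have hne : ∀ m, N ≤ m → T.ev m p ≠ 0 := by
    intro m hm h0
    apply hq
    rw [pr_eq_zero]
    rw [eventually_atTop]
    refine ⟨m, fun b hb => ?_⟩
    have := T.eventually_of_eq hN (T.compat_int 0 N) hm (by rw [h0, map_zero, map_zero]) b hb
    simpa using this
  have hp1 : T.h n ((T.s n).ev p) = T.ev (n + 1) p := (hN n hn).symm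
  rw [hp1] at hK
  have hK' := hK (hne (n + 1) (by omega))
  have key : T.pr (p * ∑ k ∈ Finset.range K, g (Sum.inr (n, k)) * p ^ k) = T.pr 1 := by
    rw [pr_eq, eventually_atTop]
    refine ⟨n + 1, T.eventually_of_eq (N := n + 1) ?_ (T.compat_one _) le_rfl ?_⟩
    · refine T.compat_mul (T.compat_mono hN (by omega)) (T.compat_sum _ _ fun k _ =>
        T.compat_mul (T.compat_c n k (Nat.lt_succ_self n)) (T.compat_pow (T.compat_mono hN (by omega)) k))
    · rw [map_one, ← hK', map_mul, map_sum]
      congr 1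
      refine Finset.sum_congr rfl fun k _ => ?_
      rw [map_mul, map_pow]
      congr 1
      exact Stage.ev_g _ _
  simpa using key

theorem isUnit_or (q : T.Q) : IsUnit q ∨ q = 0 := by
  by_cases hq : q = 0
  · exact Or.inr hq
  left
  obtain ⟨K, z, hz⟩ := T.exists_inv' q hq
  have hcomm : Commute q (∑ k ∈ Finset.range K, (z k : T.Q) * q ^ k) := by
    refine Commute.sum_right _ _ _ fun k _ => ?_
    exact Commute.mul_right ((Subring.mem_center_iff.1 (z k).2 q)) ((Commute.refl q).pow_right k)
  exact ⟨⟨q, _, hz, by rw [← hcomm.eq, hz]⟩, rfl⟩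

noncomputable instance : DivisionRing T.Q := DivisionRing.ofIsUnitOrEqZero T.isUnit_or


/-- the quotient map into the division ring -/
theorem isAlgebraic : Algebra.IsAlgebraic (Subring.center T.Q) T.Q := by
  constructor
  intro q
  by_cases hq : q = 0
  · subst hq; exact isAlgebraic_zero
  obtain ⟨K, z, hz⟩ := T.exists_inv' q hq
  refine ⟨(∑ k ∈ Finset.range K, Polynomial.C (z k) * Polynomial.X ^ (k + 1)) - 1, ?_, ?_⟩
  · intro h0
    have := congrArg (fun f => Polynomial.coeff f 0) h0
    simp [Polynomial.coeff_X_pow] at this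
  · rw [map_sub, map_sum, map_one, sub_eq_zero, ← hz, Finset.mul_sum]
    refine Finset.sum_congr rfl fun k _ => ?_
    rw [map_mul, Polynomial.aeval_C, map_pow, Polynomial.aeval_X, pow_succ']
    change (z k : T.Q) * (q * q ^ k) = q * ((z k : T.Q) * q ^ k)
    rw [← mul_assoc, ← mul_assoc, Subring.mem_center_iff.1 (z k).2 q]

theorem adjoin_eq_top : Algebra.adjoin (Subring.center T.Q)
    ({T.pr (g (Sum.inl true)), T.pr (g (Sum.inl false))} : Set T.Q) = ⊤ := by
  rw [eq_top_iff]
  rintro q -
  obtain ⟨p, rfl⟩ := T.pr_surjective q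
  induction p using FreeAlgebra.induction with
  | grade0 r =>
    have : T.pr (algebraMap ℤ P r) = algebraMap (Subring.center T.Q) T.Q r := by simp
    rw [this]
    exact Subalgebra.algebraMap_mem _ _
  | grade1 a =>
    match a with
    | Sum.inl true => exact Algebra.subset_adjoin (by simp [g])
    | Sum.inl false => exact Algebra.subset_adjoin (by simp [g])
    | Sum.inr (m, k) =>
      exact Subalgebra.algebraMap_mem _ (⟨T.pr (g (Sum.inr (m, k))), T.c_central (m, k)⟩ :
        Subring.center T.Q)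
  | mul a b ha hb => rw [map_mul]; exact Subalgebra.mul_mem _ ha hb
  | add a b ha hb => rw [map_add]; exact Subalgebra.add_mem _ ha hb

theorem not_finite : ¬ Module.Finite (Subring.center T.Q) T.Q := by
  classical
  intro hfin
  obtain ⟨N, e, he⟩ := Module.Finite.exists_fin (R := Subring.center T.Q) (M := T.Q)
  have hrep : ∀ q : T.Q, ∃ z : Fin N → Subring.center T.Q, q = ∑ i, (z i : T.Q) * e i := by
    intro q
    have hq : q ∈ Submodule.span (Subring.center T.Q) (Set.range e) := by rw [he]; trivial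
    rw [Submodule.mem_span_range_iff_exists_fun] at hq
    obtain ⟨z, hz⟩ := hq
    exact ⟨z, by rw [← hz]; rfl⟩
  -- lifts
  choose z hz using hrep
  choose l hl using T.pr_surjective
  set X : P := g (Sum.inl true) with hX
  set Y : P := g (Sum.inl false) with hY
  have hevent : ∀ q : T.Q, ∀ᶠ n in atTop, T.ev n (l q) = ∑ i, T.ev n (l (z q i)) * T.ev n (l (e i)) := by
    intro q
    have h1 : T.pr (l q) = T.pr (∑ i, l (z q i) * l (e i)) := by
      rw [map_sum, hl]
      conv_lhs => rw [hz q]
      refine Finset.sum_congr rfl fun i _ => ?_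
      rw [map_mul, hl, hl]
    rw [pr_eq] at h1
    filter_upwards [h1] with n hn
    rw [hn, map_sum]
    exact Finset.sum_congr rfl fun i _ => by rw [map_mul]
  have hcomm : ∀ (q : T.Q) (i : Fin N) (W : P), ∀ᶠ n in atTop,
      T.ev n W * T.ev n (l (z q i)) = T.ev n (l (z q i)) * T.ev n W := by
    intro q i W
    have h1 : T.pr (W * l (z q i)) = T.pr (l (z q i) * W) := by
      rw [map_mul, map_mul, hl]
      exact Subring.mem_center_iff.1 (z q i).2 _
    rw [pr_eq] at h1
    filter_upwards [h1] with n hn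
    rw [← map_mul, hn, map_mul]
  have hmulX : ∀ (q : T.Q) (W : P), ∀ᶠ n in atTop,
      T.ev n (l (T.pr W * q)) = T.ev n W * T.ev n (l q) := by
    intro q W
    have h1 : T.pr (l (T.pr W * q)) = T.pr (W * l q) := by rw [hl, map_mul, hl]
    rw [pr_eq] at h1
    filter_upwards [h1] with n hn
    rw [hn, map_mul]
  have hone : ∀ᶠ n in atTop, T.ev n (l 1) = 1 := by
    have h1 : T.pr (l 1) = T.pr 1 := by rw [hl, map_one]
    rw [pr_eq] at h1
    filter_upwards [h1] with n hn
    rw [hn, map_one]
  have hall : ∀ᶠ n in atTop,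
      (T.ev n (l 1) = 1 ∧ T.ev n (l 1) = ∑ i, T.ev n (l (z 1 i)) * T.ev n (l (e i)) ∧
        (∀ i, T.ev n X * T.ev n (l (z 1 i)) = T.ev n (l (z 1 i)) * T.ev n X) ∧
        (∀ i, T.ev n Y * T.ev n (l (z 1 i)) = T.ev n (l (z 1 i)) * T.ev n Y)) ∧
      (∀ j, T.ev n (l (T.pr X * e j)) = T.ev n X * T.ev n (l (e j)) ∧
        T.ev n (l (T.pr X * e j)) = ∑ i, T.ev n (l (z (T.pr X * e j) i)) * T.ev n (l (e i)) ∧
        (∀ i, T.ev n X * T.ev n (l (z (T.pr X * e j) i)) =
          T.ev n (l (z (T.pr X * e j) i)) * T.ev n X) ∧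
        (∀ i, T.ev n Y * T.ev n (l (z (T.pr X * e j) i)) =
          T.ev n (l (z (T.pr X * e j) i)) * T.ev n Y)) ∧
      (∀ j, T.ev n (l (T.pr Y * e j)) = T.ev n Y * T.ev n (l (e j)) ∧
        T.ev n (l (T.pr Y * e j)) = ∑ i, T.ev n (l (z (T.pr Y * e j) i)) * T.ev n (l (e i)) ∧
        (∀ i, T.ev n X * T.ev n (l (z (T.pr Y * e j) i)) =
          T.ev n (l (z (T.pr Y * e j) i)) * T.ev n X) ∧
        (∀ i, T.ev n Y * T.ev n (l (z (T.pr Y * e j) i)) =
          T.ev n (l (z (T.pr Y * e j) i)) * T.ev n Y)) := by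
    refine Eventually.and ?_ (Eventually.and ?_ ?_)
    · exact hone.and ((hevent 1).and ((eventually_all.2 fun i => hcomm 1 i X).and
        (eventually_all.2 fun i => hcomm 1 i Y)))
    · exact eventually_all.2 fun j => (hmulX (e j) X).and ((hevent _).and
        ((eventually_all.2 fun i => hcomm _ i X).and (eventually_all.2 fun i => hcomm _ i Y)))
    · exact eventually_all.2 fun j => (hmulX (e j) Y).and ((hevent _).and
        ((eventually_all.2 fun i => hcomm _ i X).and (eventually_all.2 fun i => hcomm _ i Y)))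
  obtain ⟨n, ⟨ho1, ho2, ho3, ho4⟩, hx, hy⟩ := hall.exists
  -- at stage `n`
  have : IsDomain (NC (Fin 2) (T.s n).D) := NC.isDomain
  have hevX : T.ev n X = (T.s n).x := Stage.ev_g _ _
  have hevY : T.ev n Y = (T.s n).y := Stage.ev_g _ _
  set A := Algebra.adjoin (T.s n).F ({(T.s n).x, (T.s n).y} : Set (NC (Fin 2) (T.s n).D)) with hA
  have hcent : ∀ w : (T.s n).R, T.ev n X * w = w * T.ev n X → T.ev n Y * w = w * T.ev n Y →
      ∃ c : (T.s n).F, w = algebraMap (T.s n).F (T.s n).R c := by
    intro w h1 h2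
    refine NC.centralizer_dense A (T.s n).dense w ?_
    intro a ha
    induction ha using Algebra.adjoin_induction with
    | mem a ha =>
      rcases ha with rfl | ha
      · rw [← hevX, h1]
      · rw [Set.mem_singleton_iff] at ha
        rw [ha, ← hevY, h2]
    | algebraMap c => exact Algebra.commutes _ _
    | add a b _ _ ha hb => rw [add_mul, mul_add, ha, hb]
    | mul a b _ _ ha hb => rw [mul_assoc, hb, ← mul_assoc, ha, mul_assoc]
  set V : Submodule (T.s n).F (T.s n).R :=
    Submodule.span (T.s n).F (Set.range fun i => T.ev n (l (e i))) with hV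
  have hfinV : FiniteDimensional (T.s n).F V := by
    rw [hV]; exact FiniteDimensional.span_of_finite _ (Set.finite_range _)
  have hsum : ∀ w : Fin N → (T.s n).R,
      (∀ i, T.ev n X * w i = w i * T.ev n X) → (∀ i, T.ev n Y * w i = w i * T.ev n Y) →
      ∑ i, w i * T.ev n (l (e i)) ∈ V := by
    intro w h1 h2
    refine Submodule.sum_mem _ fun i _ => ?_
    obtain ⟨c, hc⟩ := hcent (w i) (h1 i) (h2 i)
    rw [hc, ← Algebra.smul_def]
    exact Submodule.smul_mem _ _ (Submodule.subset_span ⟨i, rfl⟩)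
  have h1V : (1 : (T.s n).R) ∈ V := by
    rw [← ho1, ho2]
    exact hsum _ ho3 ho4
  have hXV : ∀ v ∈ V, T.ev n X * v ∈ V := by
    intro v hv
    induction hv using Submodule.span_induction with
    | mem v hv =>
      obtain ⟨j, rfl⟩ := hv
      obtain ⟨h1, h2, h3, h4⟩ := hx j
      rw [← h1, h2]
      exact hsum _ h3 h4
    | zero => rw [mul_zero]; exact Submodule.zero_mem _
    | add a b _ _ ha hb => rw [mul_add]; exact Submodule.add_mem _ ha hb
    | smul c a _ ha => rw [mul_smul_comm]; exact Submodule.smul_mem _ _ ha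
  have hYV : ∀ v ∈ V, T.ev n Y * v ∈ V := by
    intro v hv
    induction hv using Submodule.span_induction with
    | mem v hv =>
      obtain ⟨j, rfl⟩ := hv
      obtain ⟨h1, h2, h3, h4⟩ := hy j
      rw [← h1, h2]
      exact hsum _ h3 h4
    | zero => rw [mul_zero]; exact Submodule.zero_mem _
    | add a b _ _ ha hb => rw [mul_add]; exact Submodule.add_mem _ ha hb
    | smul c a _ ha => rw [mul_smul_comm]; exact Submodule.smul_mem _ _ ha
  refine NC.not_finite_of_dense A (T.s n).dense V ?_
  intro a ha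
  have hmain : ∀ v ∈ V, a * v ∈ V := by
    induction ha using Algebra.adjoin_induction with
    | mem a ha =>
      rcases ha with rfl | ha
      · rw [← hevX]; exact hXV
      · rw [Set.mem_singleton_iff] at ha
        rw [ha, ← hevY]; exact hYV
    | algebraMap c =>
      intro v hv
      rw [← Algebra.smul_def]; exact Submodule.smul_mem _ _ hv
    | add a b _ _ ha hb =>
      intro v hv
      rw [add_mul]; exact Submodule.add_mem _ (ha v hv) (hb v hv)
    | mul a b _ _ ha hb =>
      intro v hv
      rw [mul_assoc]; exact ha _ (hb v hv)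
  simpa using hmain 1 h1V

end Tower

end Crest.Agent.R180.PartI

namespace Crest.Agent.R180.PartI

open Filter

/-- the initial stage -/
noncomputable def stage0 : Stage where
  F := AlgebraicClosure ℚ
  D := AlgebraicClosure ℚ
  x := NC.X 0
  y := NC.X 1
  dense := by
    intro f
    set A := Algebra.adjoin (AlgebraicClosure ℚ)
      ({NC.X 0, NC.X 1} : Set (NC (Fin 2) (AlgebraicClosure ℚ))) with hA
    refine ⟨algebraMap (AlgebraicClosure ℚ) (NC (Fin 2) (AlgebraicClosure ℚ)) (f []) +
      (f [0] • (NC.X 0 : NC (Fin 2) (AlgebraicClosure ℚ)) +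
        f [1] • (NC.X 1 : NC (Fin 2) (AlgebraicClosure ℚ))), ?_, ?_⟩
    · refine Subalgebra.add_mem _ (Subalgebra.algebraMap_mem _ _) (Subalgebra.add_mem _
        (Subalgebra.smul_mem _ (Algebra.subset_adjoin (by simp)) _)
        (Subalgebra.smul_mem _ (Algebra.subset_adjoin (by simp)) _))
    · intro w hw
      rw [NC.algebraMap_eq]
      match w, hw with
      | [], _ => simp
      | [s], _ =>
        fin_cases s <;> simp
  roots := by
    intro n hn
    have : NeZero n := ⟨hn.ne'⟩
    have : NeZero (n : AlgebraicClosure ℚ) := ⟨by exact_mod_cast hn.ne'⟩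
    exact HasEnoughRootsOfUnity.exists_primitiveRoot (AlgebraicClosure ℚ) n
  c := fun _ => 0

theorem goal_of_theoremAR (hA : TheoremAR) : Goal := by
  obtain ⟨T⟩ := exists_tower hA stage0
  exact ⟨T.Q, inferInstance, inferInstance, T.charZero, T.isAlgebraic,
    ⟨_, _, T.adjoin_eq_top⟩, T.not_finite⟩

theorem goal_of_theoremA (hA : TheoremA) : Goal := goal_of_theoremAR (TheoremA.toAR hA)

end Crest.Agent.R180.PartI
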