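import Crest.Agent.R180.Defs
import Crest.Agent.R180.PartI

set_option autoImplicit false

namespace Crest.Agent.R180

/-- PART I in the final form: Theorem A over base fields with all roots of unity implies S0270. -/
theorem goal_of_TheoremAR (h : TheoremAR) : Goal :=
  PartI.goal_of_theoremAR (fun F D _ _ _ _ _ _ _ hroots 𝒜 h𝒜 a =>
    haveI : HasRoots F := ⟨hroots⟩
    h F D 𝒜 h𝒜 a)

end Crest.Agent.R180
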