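import Crest.Agent.R180.StmtA

set_option autoImplicit false

/-! # Row 180: colimits of sequences of rings -/

namespace Crest.Agent.R180.Frame

section Tr

variable {G : ℕ → Type} [∀ n, Ring (G n)] (g : ∀ n, G n →+* G (n + 1))

/-- transition maps of a sequence of ring homs -/
noncomputable def tr (m n : ℕ) (hmn : m ≤ n) : G m →+* G n :=
  Nat.leRec (motive := fun n _ => G m →+* G n) (RingHom.id _) (fun k _ φ => (g k).comp φ) hmn

theorem tr_self (m : ℕ) (x : G m) : tr g m m le_rfl x = x := by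
  unfold tr; rw [Nat.leRec_self]; rfl

theorem tr_succ (m n : ℕ) (hmn : m ≤ n) (x : G m) :
    tr g m (n + 1) (hmn.trans (Nat.le_succ n)) x = g n (tr g m n hmn x) := by
  unfold tr; rw [Nat.leRec_succ _ _ hmn]; rfl

theorem tr_tr (m n k : ℕ) (hmn : m ≤ n) (hnk : n ≤ k) (x : G m) :
    tr g n k hnk (tr g m n hmn x) = tr g m k (hmn.trans hnk) x := by
  induction k, hnk using Nat.le_induction with
  | base => rw [tr_self]
  | succ k hk ih => rw [tr_succ g n k hk, ih, tr_succ g m k (hmn.trans hk)]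

instance instDS : DirectedSystem G (fun m n hmn => (tr g m n hmn : G m → G n)) where
  map_self := fun m x => tr_self g m x
  map_map := fun k j i hij hjk x => tr_tr g i j k hij hjk x

end Tr

section Colim

variable {G : ℕ → Type} [∀ n, Ring (G n)] (g : ∀ n, G n →+* G (n + 1))

abbrev Lim : Type := DirectLimit G (tr g)

noncomputable def of (n : ℕ) : G n →+* Lim g := DirectLimit.Ring.of G (tr g) n

theorem of_tr (m n : ℕ) (hmn : m ≤ n) (x : G m) : of g n (tr g m n hmn x) = of g m x :=
  DirectLimit.Ring.of_f hmn x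

theorem of_succ (n : ℕ) (x : G n) : of g (n + 1) (g n x) = of g n x := by
  have := of_tr g n (n + 1) (Nat.le_succ n) x
  rwa [tr_succ g n n le_rfl, tr_self] at this

theorem exists_of (z : Lim g) : ∃ n x, z = of g n x := DirectLimit.exists_eq_mk _ z

theorem of_eq_zero (n : ℕ) (x : G n) (h : of g n x = 0) : ∃ m, ∃ hm : n ≤ m, tr g n m hm x = 0 := by
  have h0 : of g n x = of g n 0 := by rw [h, map_zero]
  obtain ⟨m, h1, h2, h3⟩ := Quotient.exact h0
  refine ⟨m, h1, ?_⟩
  rw [map_zero] at h3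
  exact h3

theorem exists_of_le (z : Lim g) : ∃ n, ∀ m, n ≤ m → ∃ x, z = of g m x := by
  obtain ⟨n, x, rfl⟩ := exists_of g z
  exact ⟨n, fun m hm => ⟨tr g n m hm x, (of_tr g n m hm x).symm⟩⟩

theorem lim_isDomain [∀ n, IsDomain (G n)] : IsDomain (Lim g) := by
  have : Nontrivial (Lim g) := inferInstance
  have : NoZeroDivisors (Lim g) := by
    refine ⟨?_⟩
    intro a b hab
    obtain ⟨n, hn⟩ := exists_of_le g a
    obtain ⟨n', hn'⟩ := exists_of_le g b
    obtain ⟨x, rfl⟩ := hn (max n n') (le_max_left _ _)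
    obtain ⟨y, rfl⟩ := hn' (max n n') (le_max_right _ _)
    rw [← map_mul] at hab
    obtain ⟨m, hm, h0⟩ := of_eq_zero g _ _ hab
    rw [map_mul, mul_eq_zero] at h0
    rcases h0 with h0 | h0
    · left; rw [← of_tr g _ m hm, h0, map_zero]
    · right; rw [← of_tr g _ m hm, h0, map_zero]
  exact NoZeroDivisors.to_isDomain _

end Colim

end Crest.Agent.R180.Frame
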