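import Crest.Agent.R180.MinDefs

set_option autoImplicit false

/-!
# Row 180, ROUTE M, STEP part 1: full moves

For an admissible base point `z` the space of directions modulo inner directions has dimension
`(m - 1) * dim E + 1`; directions in `E⟦t⟧` representing a basis exist.
-/

noncomputable section
namespace Crest.Agent.R180

open TensorProduct

section Full
variable {F1 E : Type} [Field F1] [Ring E] [Algebra F1 E] {m : ℕ}

/-- inner directions `g ↦ [g, z]` -/
def innerMap (z : Fin m → LD E) : LD E →ₗ[LF F1] (Fin m → LD E) where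
  toFun g := fun j => g * z j - z j * g
  map_add' x y := by
    funext j
    simp only [Pi.add_apply]
    noncomm_ring
  map_smul' c x := by
    funext j
    simp only [Pi.smul_apply, RingHom.id_apply, smul_mul_assoc, mul_smul_comm, smul_sub]

@[simp] theorem innerMap_apply (z : Fin m → LD E) (g : LD E) (j : Fin m) :
    innerMap (F1 := F1) z g j = g * z j - z j * g := rfl

theorem ker_innerMap [Module.Finite F1 E] [Algebra.IsCentral F1 E] (z : Fin m → LD E)
    (hz : Algebra.adjoin (LF F1) (Set.range z) = ⊤) :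
    LinearMap.ker (innerMap (F1 := F1) z) = Subalgebra.toSubmodule (⊥ : Subalgebra (LF F1) (LD E)) := by
  apply le_antisymm
  · intro g hg
    have hg' : ∀ j, g * z j = z j * g := fun j => by
      have := congrFun (LinearMap.mem_ker.1 hg) j
      simpa [sub_eq_zero] using this
    have hc : g ∈ Subalgebra.center (LF F1) (LD E) := by
      rw [Subalgebra.mem_center_iff]
      intro b
      have hb : b ∈ Algebra.adjoin (LF F1) (Set.range z) := by rw [hz]; trivial
      induction hb using Algebra.adjoin_induction with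
      | mem x hx => obtain ⟨j, rfl⟩ := hx; exact (hg' j).symm
      | algebraMap c => exact Algebra.commutes _ _
      | add x y _ _ hx hy => rw [add_mul, mul_add, hx, hy]
      | mul x y _ _ hx hy => rw [mul_assoc, hy, ← mul_assoc, hx, mul_assoc]
    have h2 := Algebra.IsCentral.out (K := LF F1) (D := LD E) hc
    exact h2
  · intro g hg
    have hg2 : g ∈ (⊥ : Subalgebra (LF F1) (LD E)) := hg
    obtain ⟨c, rfl⟩ := Algebra.mem_bot.1 hg2
    rw [LinearMap.mem_ker]
    funext j
    rw [innerMap_apply, Algebra.commutes, sub_self]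
    rfl

theorem finrank_ker_innerMap [Module.Finite F1 E] [Algebra.IsCentral F1 E] [Nontrivial E]
    (z : Fin m → LD E)
    (hz : Algebra.adjoin (LF F1) (Set.range z) = ⊤) :
    Module.finrank (LF F1) (LinearMap.ker (innerMap (F1 := F1) z)) = 1 := by
  rw [ker_innerMap z hz]
  have : Nontrivial (LD E) := by
    refine ⟨⟨0, 1, ?_⟩⟩
    intro h
    have h2 := congrArg (fun x : LD E => x.co 0) h
    simp only [LD.co_zero, LD.co_one] at h2
    exact zero_ne_one h2
  exact Subalgebra.finrank_bot

/-- clearing denominators -/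
theorem exists_tp_int {ι : Type} [Finite ι] (v : ι → LD E) :
    ∃ (N : ℕ) (y : ι → PowerSeries E), ∀ j, (LF.tp (N : ℤ) : LF F1) • v j = LD.ofPS (y j) := by
  classical
  have := Fintype.ofFinite ι
  choose b hb using fun j => LD.exists_bound (v j)
  have h1 : ∀ j, LD.IsInt ((LF.tp ((∑ i, (b i).natAbs : ℕ) : ℤ) : LF F1) • v j) := by
    intro j n hn
    rw [LD.co_tp_smul]
    apply hb
    have h1 : (b j).natAbs ≤ ∑ i, (b i).natAbs :=
      Finset.single_le_sum (f := fun w => (b w).natAbs) (fun _ _ => Nat.zero_le _)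
        (Finset.mem_univ j)
    omega
  choose y hy using fun j => (LD.isInt_iff _).1 (h1 j)
  exact ⟨_, y, hy⟩

theorem exists_dirs [Module.Finite F1 E] [Algebra.IsCentral F1 E] [Nontrivial E] (hm : 1 ≤ m)
    (z : Fin m → LD E)
    (hz : Algebra.adjoin (LF F1) (Set.range z) = ⊤) :
    ∃ dir : Fin ((m - 1) * Module.finrank F1 E + 1) → Fin m → PowerSeries E,
      (∀ v : Fin m → LD E, ∃ (l : Fin ((m - 1) * Module.finrank F1 E + 1) → LF F1) (g : LD E),
        ∀ j, v j = ∑ i, l i • (LD.ofPS (dir i j) : LD E) + (g * z j - z j * g)) ∧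
      (∀ (l : Fin ((m - 1) * Module.finrank F1 E + 1) → LF F1) (g : LD E),
        (∀ j, ∑ i, l i • (LD.ofPS (dir i j) : LD E) = g * z j - z j * g) → l = 0) := by
  classical
  set e := Module.finrank F1 E with he
  have he1 : 0 < e := Module.finrank_pos
  have hE : Module.finrank (LF F1) (LD E) = e := LD.finrank_eq
  set I := innerMap (F1 := F1) z with hI
  obtain ⟨W, hW⟩ := Submodule.exists_isCompl (LinearMap.range I)
  have hrk : Module.finrank (LF F1) (LinearMap.range I) + 1 = e := by
    have h1 := I.finrank_range_add_finrank_ker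
    rw [finrank_ker_innerMap z hz, hE] at h1
    exact h1
  have htot : Module.finrank (LF F1) (Fin m → LD E) = m * e := by
    rw [Module.finrank_pi_fintype]
    simp [hE]
  have hWr : Module.finrank (LF F1) W = (m - 1) * e + 1 := by
    have h1 := Submodule.finrank_add_eq_of_isCompl hW
    rw [htot] at h1
    obtain ⟨k, rfl⟩ : ∃ k, m = k + 1 := ⟨m - 1, by omega⟩
    have h2 : (k + 1) * e = k * e + e := by ring
    have h3 : k + 1 - 1 = k := by omega
    rw [h3]
    omega
  let b : Module.Basis (Fin ((m - 1) * e + 1)) (LF F1) W := Module.finBasisOfFinrankEq _ _ hWr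
  choose N y hy using fun i => exists_tp_int (F1 := F1) (fun j => (b i).1 j)
  refine ⟨y, ?_, ?_⟩
  · intro v
    obtain ⟨x, hx, w, hw, hxw⟩ := Submodule.mem_sup.1
      (show v ∈ LinearMap.range I ⊔ W by rw [hW.sup_eq_top]; trivial)
    obtain ⟨g, rfl⟩ := hx
    refine ⟨fun i => b.repr ⟨w, hw⟩ i * LF.tp (-(N i : ℤ)), g, fun j => ?_⟩
    have h1 : ∀ i, (b.repr ⟨w, hw⟩ i * LF.tp (-(N i : ℤ))) • (LD.ofPS (y i j) : LD E) =
        b.repr ⟨w, hw⟩ i • (b i).1 j := by
      intro i
      rw [← hy, smul_smul, mul_assoc, LF.tp_mul_tp, neg_add_cancel, LF.tp_zero, mul_one]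
    rw [Finset.sum_congr rfl fun i _ => h1 i]
    have h2 : w = ∑ i, b.repr ⟨w, hw⟩ i • (b i).1 := by
      have h3 := congrArg Subtype.val (b.sum_repr ⟨w, hw⟩)
      refine h3.symm.trans ?_
      simp only [Submodule.coe_sum, Submodule.coe_smul]
    have h4 : w j = ∑ i, b.repr ⟨w, hw⟩ i • (b i).1 j := by
      conv_lhs => rw [h2]
      simp
    rw [← h4, ← hxw, Pi.add_apply, innerMap_apply, add_comm]
  · intro l g h
    have h1 : ∀ i j, l i • (LD.ofPS (y i j) : LD E) = (l i * LF.tp (N i : ℤ)) • (b i).1 j := by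
      intro i j
      rw [← hy, smul_smul]
    have h2 : ((∑ i, (l i * LF.tp (N i : ℤ)) • b i : W) : Fin m → LD E) = I g := by
      funext j
      rw [innerMap_apply, ← h j]
      simp only [Submodule.coe_sum, Submodule.coe_smul, Finset.sum_apply, Pi.smul_apply]
      exact (Finset.sum_congr rfl fun i _ => h1 i j).symm
    have h3 : ((∑ i, (l i * LF.tp (N i : ℤ)) • b i : W) : Fin m → LD E) = 0 := by
      have := Submodule.disjoint_def.1 hW.disjoint _ (⟨g, h2.symm⟩ :
        ((∑ i, (l i * LF.tp (N i : ℤ)) • b i : W) : Fin m → LD E) ∈ LinearMap.range I)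
        (Subtype.mem _)
      exact this
    have h4 : (∑ i, (l i * LF.tp (N i : ℤ)) • b i : W) = 0 := Subtype.ext h3
    have h5 := Fintype.linearIndependent_iff.1 b.linearIndependent _ h4
    funext i
    exact (mul_eq_zero.1 (h5 i)).resolve_right (LF.tp_ne_zero _)

end Full

end Crest.Agent.R180
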