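import Crest.Agent.R180.Defs
import Crest.Agent.R180.Move

set_option autoImplicit false
noncomputable section
namespace Crest.Agent.R180

open TensorProduct

/-- A good extension of the field `K`: a field `K₁ ⊇ K` and a finite-dimensional central division
`K₁`-algebra `E` such that `E ⊗[K] Γ` is a domain for every finite-dimensional division
`K`-algebra `Γ` (class `Good` of `Defs`). -/
structure GE (K : Type) [Field K] : Type 1 where
  K₁ : Type
  E : Type
  [f1 : Field K₁]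
  [cz : CharZero K₁]
  [a1 : Algebra K K₁]
  [rE : Ring E]
  [aE : Algebra K₁ E]
  [aE' : Algebra K E]
  [tw : IsScalarTower K K₁ E]
  [good : Good K K₁ E]

attribute [instance] GE.f1 GE.cz GE.a1 GE.rE GE.aE GE.aE' GE.tw GE.good

namespace GE
variable {K : Type} [Field K] (G : GE K)

instance finE : FiniteDimensional G.K₁ G.E := Good.fin K

instance cenE : Algebra.IsCentral G.K₁ G.E := Good.cen K

/-- the coefficient algebra `E ⊗ Γ` -/
abbrev T (Γ : Type) [Ring Γ] [Algebra K Γ] : Type := G.E ⊗[K] Γ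

instance domT (Γ : Type) [Ring Γ] [IsDomain Γ] [Algebra K Γ] [FiniteDimensional K Γ] :
    IsDomain (G.E ⊗[K] Γ) := Good.dom (K₁ := G.K₁) Γ

instance finT (Γ : Type) [Ring Γ] [Algebra K Γ] [FiniteDimensional K Γ] :
    FiniteDimensional G.K₁ (G.E ⊗[K] Γ) := by
  have : Module.Finite G.E (G.E ⊗[K] Γ) := inferInstance
  exact Module.Finite.trans G.E (G.E ⊗[K] Γ)

instance domE : IsDomain G.E := by
  haveI : IsDomain (G.E ⊗[K] K) := Good.dom (K₁ := G.K₁) K
  have hinj : Function.Injective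
      ((Algebra.TensorProduct.includeLeft : G.E →ₐ[G.K₁] G.E ⊗[K] K) : G.E →+* G.E ⊗[K] K) :=
    Algebra.TensorProduct.includeLeft_injective (S := G.K₁) (algebraMap K K).injective
  exact Function.Injective.isDomain _ hinj

/-- the degree of `E` (dimension over `K₁`) -/
abbrev dim : ℕ := Module.finrank G.K₁ G.E

end GE

/-- a good extension of `A.F` gives an admissible extension of `A` -/
def GE.adm {A : DA} (G : GE A.F) : Adm A where
  F1 := G.K₁
  E := G.E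
  dom := inferInstance

/-- (G3) rank inequality for a good extension (form of helper41 / captain's `Lau.lean`). -/
def GE.RankGood {K : Type} [Field K] (G : GE K) : Prop :=
  ∀ (i j : Type) [Fintype i] [Fintype j] (s r : ℕ) (B : Fin s → Matrix j i K),
    (∀ c : Fin s → K, c ≠ 0 → r ≤ (∑ a, c a • B a).rank) →
    ∀ c : Fin s → G.E, c ≠ 0 → ∀ T : (i → G.E) →ₗ[G.K₁] (j → G.E),
      (∀ x b, T x b = ∑ k, ∑ a, B a b k • (c a * x k)) →
      r * Module.finrank G.K₁ G.E ≤ Module.finrank G.K₁ (LinearMap.range T)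

section mvh
/-! ### The evaluation homomorphism of a move, for arbitrary coefficients `Γ` -/

variable {K : Type} [Field K] (G : GE K) (Γ : Type) [Ring Γ] [Algebra K Γ] {m μ : ℕ}

/-- inclusion `Γ → E ⊗ Γ` -/
def GE.jΓ : Γ →+* G.E ⊗[K] Γ :=
  (Algebra.TensorProduct.includeRight : Γ →ₐ[K] G.E ⊗[K] Γ).toRingHom
/-- inclusion `E → E ⊗ Γ` -/
def GE.jE : G.E →+* G.E ⊗[K] Γ :=
  (Algebra.TensorProduct.includeLeft : G.E →ₐ[G.K₁] G.E ⊗[K] Γ).toRingHom

@[simp] theorem GE.jΓ_apply (x : Γ) : G.jΓ Γ x = (1 : G.E) ⊗ₜ[K] x := rfl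
@[simp] theorem GE.jE_apply (x : G.E) : G.jE Γ x = x ⊗ₜ[K] (1 : Γ) := rfl

theorem GE.jE_jΓ_comm (e : G.E) (d : Γ) : G.jE Γ e * G.jΓ Γ d = G.jΓ Γ d * G.jE Γ e := by
  simp

/-- the images of the letters in `NC μ ((E ⊗ Γ)⟦t⟧)` -/
def GE.let0 (X : Fin m → NC (Fin μ) (PowerSeries G.E)) (j : Fin m) :
    NC (Fin μ) (PowerSeries (G.E ⊗[K] Γ)) := NC.map (PowerSeries.map (G.jE Γ)) (X j)

theorem GE.let0_mem (X : Fin m → NC (Fin μ) (PowerSeries G.E))
    (hX : ∀ j, PowerSeries.constantCoeff (X j []) = 0) (j : Fin m) :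
    G.let0 Γ X j ∈ (CFilt.nc (σ := Fin μ) (CFilt.powerSeries (G.E ⊗[K] Γ))).I 1 := by
  rw [CFilt.mem_nc_one, CFilt.mem_powerSeries]
  intro i hi
  have : i = 0 := by omega
  subst this
  have h := hX j
  rw [← PowerSeries.coeff_zero_eq_constantCoeff_apply] at h
  simp only [GE.let0, NC.map_apply, PowerSeries.coeff_map, h, map_zero]

/-- coefficients: `Γ → NC μ ((E ⊗ Γ)⟦t⟧)` -/
def GE.phi0 (μ : ℕ) : Γ →+* NC (Fin μ) (PowerSeries (G.E ⊗[K] Γ)) :=
  (NC.C.comp (PowerSeries.C (R := G.E ⊗[K] Γ))).comp (G.jΓ Γ)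

theorem GE.let0_comm (X : Fin m → NC (Fin μ) (PowerSeries G.E)) (k : Γ) (j : Fin m) :
    G.phi0 Γ μ k * G.let0 Γ X j = G.let0 Γ X j * G.phi0 Γ μ k := by
  apply NC.ext'; intro w
  simp only [GE.phi0, RingHom.comp_apply, NC.C_mul_apply, NC.mul_C_apply, GE.let0, NC.map_apply]
  ext n
  rw [PowerSeries.coeff_C_mul, PowerSeries.coeff_mul_C, PowerSeries.coeff_map, G.jE_jΓ_comm]

/-- the evaluation `NC m Γ → NC μ ((E ⊗ Γ)⟦t⟧)` of a move -/
def GE.mvh0 (X : Fin m → NC (Fin μ) (PowerSeries G.E))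
    (hX : ∀ j, PowerSeries.constantCoeff (X j []) = 0) :
    NC (Fin m) Γ →+* NC (Fin μ) (PowerSeries (G.E ⊗[K] Γ)) :=
  NC.subst (CFilt.nc (CFilt.powerSeries (G.E ⊗[K] Γ))) (G.phi0 Γ μ) (G.let0 Γ X)
    (G.let0_mem Γ X hX) (G.let0_comm Γ X)

/-- the move homomorphism `NC m Γ → NC μ ((E ⊗ Γ)((t)))` -/
def GE.mvh (X : Fin m → NC (Fin μ) (PowerSeries G.E))
    (hX : ∀ j, PowerSeries.constantCoeff (X j []) = 0) :
    NC (Fin m) Γ →+* NC (Fin μ) (LD (G.E ⊗[K] Γ)) :=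
  (NC.map (LD.ofPS (K := G.E ⊗[K] Γ))).comp (G.mvh0 Γ X hX)

end mvh

/-- good moves, in terms of `G` only -/
structure GE.GoodX {K : Type} [Field K] (G : GE K) {m μ : ℕ}
    (X : Fin m → NC (Fin μ) (PowerSeries G.E)) : Prop where
  x0 : ∀ j, PowerSeries.constantCoeff (X j []) = 0
  gen : Algebra.adjoin (LF G.K₁) (Set.range fun j => (LD.ofPS (X j []) : LD G.E)) = ⊤
  indep : ∀ (l : Fin μ → LF G.K₁) (g : LD G.E),
    (∀ j, ∑ i, l i • (LD.ofPS (X j [i]) : LD G.E)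
      = g * LD.ofPS (X j []) - LD.ofPS (X j []) * g) → l = 0

theorem GE.GoodX.good' {A : DA} {G : GE A.F} {m μ : ℕ}
    {X : Fin m → NC (Fin μ) (PowerSeries G.E)} (h : G.GoodX X) : Good' (G.adm (A := A)) X where
  x0 := h.x0
  gen := h.gen
  indep := h.indep

theorem GE.adm_hX {A : DA} (G : GE A.F) {m μ : ℕ} (X : Fin m → NC (Fin μ) (PowerSeries G.E))
    (hX : ∀ j, PowerSeries.constantCoeff (X j []) = 0) :
    (G.adm (A := A)).hX X hX = G.mvh A.D X hX := rfl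

/-! ### Homogeneous recentering -/

section hom
variable {K : Type} [Field K] (G : GE K) {m μ : ℕ}

/-- `t (z_j + Σ_i u_i,j x_i)` -/
def GE.Xhom (z : Fin m → G.E) (u : Fin μ → Fin m → G.E) (j : Fin m) :
    NC (Fin μ) (PowerSeries G.E) :=
  NC.C (PowerSeries.X * PowerSeries.C (z j)) +
    ∑ i, NC.C (PowerSeries.X * PowerSeries.C (u i j)) * NC.X i

/-- `u` is a basis of a complement of the inner directions at `z` -/
structure GE.Compl (z : Fin m → G.E) (u : Fin μ → Fin m → G.E) : Prop where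
  indep : ∀ (l : Fin μ → G.K₁) (g : G.E),
    (∀ j, ∑ i, l i • u i j = g * z j - z j * g) → l = 0
  span : ∀ y : Fin m → G.E, ∃ (l : Fin μ → G.K₁) (g : G.E),
    ∀ j, y j = ∑ i, l i • u i j + (g * z j - z j * g)

/-- the value of the homogeneous part of degree `n` of `γ` at `z` -/
def GE.hval {Γ : Type} [Ring Γ] [Algebra K Γ] (z : Fin m → G.E) (γ : NC (Fin m) Γ) (n : ℕ) :
    G.E ⊗[K] Γ :=
  ∑ w : Fin n → Fin m, (List.ofFn fun k => z (w k)).prod ⊗ₜ[K] γ (List.ofFn w)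

end hom

end Crest.Agent.R180
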