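import Crest.Agent.R180.Win

set_option autoImplicit false
noncomputable section
namespace Crest.Agent.R180

open TensorProduct

/-! Definitions for homogeneous recentering: values and derivatives of homogeneous parts. -/

namespace GE
variable {K : Type} [Field K] (G : GE K) {m μ : ℕ} {Γ : Type} [Ring Γ] [Algebra K Γ]

/-- derivative of the homogeneous part of degree `n` of `γ` at `z` in the direction `y` -/
def dval (z y : Fin m → G.E) (γ : NC (Fin m) Γ) (n : ℕ) : G.E ⊗[K] Γ :=
  ∑ w : Fin n → Fin m, ∑ k : Fin n,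
    (List.ofFn fun l => if l = k then y (w l) else z (w l)).prod ⊗ₜ[K] γ (List.ofFn w)

/-- second derivative (ordered: direction `x` before direction `y`) -/
def d2val (z x y : Fin m → G.E) (γ : NC (Fin m) Γ) (n : ℕ) : G.E ⊗[K] Γ :=
  ∑ w : Fin n → Fin m, ∑ k : Fin n, ∑ l : Fin n, if k < l then
    (List.ofFn fun i => if i = k then x (w i) else if i = l then y (w i) else z (w i)).prod
      ⊗ₜ[K] γ (List.ofFn w) else 0

theorem Xhom_x0 (z : Fin m → G.E) (u : Fin μ → Fin m → G.E) (j : Fin m) :
    PowerSeries.constantCoeff (G.Xhom z u j []) = 0 := by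
  simp [GE.Xhom, NC.sum_apply]

/-- the homogeneous move applied to `γ` -/
def hmv (z : Fin m → G.E) (u : Fin μ → Fin m → G.E) (γ : NC (Fin m) Γ) :
    NC (Fin μ) (LD (G.E ⊗[K] Γ)) :=
  G.mvh Γ (G.Xhom z u) (G.Xhom_x0 z u) γ

end GE

end Crest.Agent.R180
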