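import Crest.Agent.R180.CycGDef

set_option autoImplicit false
noncomputable section
namespace Crest.Agent.R180

/-! INTERFACE (sorried): MODULE G, owner helper684 (+149), file `Cyc.lean`. -/

theorem exists_cycG (K : Type) [Field K] [CharZero K] (N : ℕ) (hN : 1 ≤ N) (I : Type) [Finite I] :
    ∃ C : CycG K N I, C.toGE.RankGood := sorry

end Crest.Agent.R180
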