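import Crest.Agent.R180.IfPhase

set_option autoImplicit false
noncomputable section
namespace Crest.Agent.R180

open TensorProduct

/-! Final assembly (against the interface; to be switched to the real files). -/

theorem hval_eq_sum {K : Type} [Field K] (G : GE K) {m : ℕ} {Γ : Type} [Ring Γ] [Algebra K Γ]
    (z : Fin m → G.E) (γ : NC (Fin m) Γ) (n : ℕ) :
    G.hval z γ n = ∑ w : Fin n → Fin m, (List.ofFn fun j => z (w j)).prod ⊗ₜ[K] γ (List.ofFn w) :=
  rfl

/-- all series win -/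
theorem win_all (K Γ : Type) [Field K] [CharZero K] [HasRoots K] (m : ℕ) (hm : 2 ≤ m)
    [Ring Γ] [IsDomain Γ] [Algebra K Γ] [FiniteDimensional K Γ]
    (γ : NC (Fin m) Γ) (h0 : γ [] = 0) : Win K m Γ γ := by
  by_cases hγ : γ = 0
  · subst hγ; exact Win.zero hm
  -- some homogeneous part is nonzero
  obtain ⟨w, hw⟩ : ∃ w, γ w ≠ 0 := by
    by_contra h
    push Not at h
    exact hγ (NC.ext' h)
  have hp : (fun v : Fin w.length → Fin m => γ (List.ofFn v)) ≠ 0 := by
    intro h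
    have := congrFun h (fun i => w.get i)
    simp only [List.ofFn_get, Pi.zero_apply] at this
    exact hw this
  obtain ⟨G, z, hz, hval⟩ := exists_nonvanish K Γ m hm w.length _ hp
  obtain ⟨u, hu⟩ := G.exists_compl (by omega) z hz
  set A := G.hmv z u γ with hA
  have hc0 : A [] ≠ 0 := by
    intro h
    apply hval
    have h1 := G.hmv_nil z u γ w.length
    rw [← hA, h, LD.co_zero] at h1
    exact h1.symm
  obtain ⟨i, hi⟩ := G.exists_lin_ne z u hu γ h0 hc0
  have hroots : HasRoots (LF G.K₁) :=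
    HasRoots.of_ringHom ((LF.C : G.K₁ →+* LF G.K₁).comp (algebraMap K G.K₁))
  set B := Subalgebra.centralizer (LF G.K₁) ({A []} : Set (LD (G.E ⊗[K] Γ))) with hB
  have hmem : ∀ v, normA (LF G.K₁) A v ∈ B := by
    intro v
    rw [hB, Subalgebra.mem_centralizer_iff]
    intro g hg
    rw [Set.mem_singleton_iff] at hg
    subst hg
    exact commute_normA (LF G.K₁) A v
  let γ' : NC (Fin ((m - 1) * G.dim + 1)) B :=
    ⟨fun v => if v = [] then 0 else ⟨normA (LF G.K₁) A v, hmem v⟩⟩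
  have hγ'0 : γ' [] = 0 := by
    change (if ([] : List (Fin ((m - 1) * G.dim + 1))) = [] then (0 : B)
      else ⟨normA (LF G.K₁) A [], hmem []⟩) = 0
    rw [if_pos rfl]
  have hγ' : ∀ v : List (Fin ((m - 1) * G.dim + 1)), v ≠ [] →
      (γ' v : LD (G.E ⊗[K] Γ)) = normA (LF G.K₁) A v := by
    intro v hv
    have : γ' v = ⟨normA (LF G.K₁) A v, hmem v⟩ := by
      change (if v = [] then (0 : B) else ⟨normA (LF G.K₁) A v, hmem v⟩) = _
      rw [if_neg hv]
    rw [this]
  refine Win.hom G z hz u hu γ 1 1 (by simp) (by simp) B ?_ γ' hγ'0 ?_ ?_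
  · intro x hx
    rw [one_mul, mul_one]
    rw [hB, Subalgebra.mem_centralizer_iff] at hx
    exact hx _ rfl
  · intro v hv
    rw [one_mul, mul_one]; exact hγ' v hv
  · have hdim : 1 ≤ G.dim := by
      have : 0 < Module.finrank G.K₁ G.E := Module.finrank_pos
      exact this
    refine phase1 (LF G.K₁) B _ ?_ γ' hγ'0 i ?_
    · have : 1 * 1 ≤ (m - 1) * G.dim := Nat.mul_le_mul (by omega) hdim
      omega
    · intro h
      apply hi
      rw [← hγ' [i] (by simp), h]
      rfl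

theorem theoremAR : TheoremAR := by
  intro F D _ _ _ _ _ _ _ _ 𝒜 h𝒜 a
  let A₀ : DA := { F := F, D := D }
  let P := Reach A₀ 𝒜 a
  have hP : MoveClosed P := reach_moveClosed A₀ 𝒜 a
  have h0 : P A₀ 2 a := by
    refine ⟨RingHom.id _, RingHom.id _, fun c => rfl, rfl, ?_⟩
    have : (RingHom.id (NC (Fin 2) A₀.D) : NC (Fin 2) A₀.D → NC (Fin 2) A₀.D) ''
        (𝒜 : Set (NC (Fin 2) A₀.D)) = (𝒜 : Set (NC (Fin 2) A₀.D)) := by
      simp
    rw [this, Algebra.adjoin_eq]
    exact h𝒜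
  have key : ∃ (A' : DA) (a' : NC (Fin 2) A'.D), P A' 2 a' ∧ IsAlgebraic A'.F a' := by
    obtain ⟨γ, hγ⟩ := RS.start (A := A₀) a h0
    set Λ : Subalgebra F D := Algebra.adjoin F {a []} with hΛ
    set C : Subalgebra F D := Subalgebra.centralizer F (Λ : Set D) with hC
    have hmem : ∀ w, γ w ∈ C := by
      intro w
      rw [hC, Subalgebra.mem_centralizer_iff]
      intro g hg
      exact hγ.cent w g hg
    let γ' : NC (Fin 2) C := ⟨fun w => ⟨γ w, hmem w⟩⟩
    have hmap : NC.map (C.val : C →+* D) γ' = γ := by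
      apply NC.ext'; intro w; rfl
    refine win_all F C 2 le_rfl γ' ?_ P hP D C.val Λ ?_ ?_
    · apply Subtype.ext
      exact hγ.zero
    · intro b hb x
      exact (Subalgebra.mem_centralizer_iff F).1 x.2 b hb
    · rw [hmap]; exact hγ
  obtain ⟨A', a', ⟨i, h, h1, h2, h3⟩, halg⟩ := key
  refine ⟨A'.F, A'.D, A'.fF, A'.cz, A'.rD, A'.dD, A'.aD, A'.fd, A'.ce, i, h, h1, ?_, h3⟩
  rw [h2]; exact halg

end Crest.Agent.R180
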