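import Crest.Agent.R180.Laurent

set_option autoImplicit false
noncomputable section
namespace Crest.Agent.R180

/-! INTERFACE (never import in proofs): lemmas on Laurent series. Prove them in
`Crest/Agent/R180/LaurentLemmas.lean` with exactly these names and statements. -/

namespace LD

section basics
variable {K : Type} [Ring K]

/-- integral elements -/
def IsInt (x : LD K) : Prop := ∀ n : ℤ, n < 0 → x.co n = 0

theorem co_ofPS (x : PowerSeries K) (n : ℕ) : (ofPS x).co (n : ℤ) = PowerSeries.coeff n x := sorry
theorem co_ofPS_neg (x : PowerSeries K) (n : ℤ) (hn : n < 0) : (ofPS x).co n = 0 := sorry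
theorem ofPS_injective : Function.Injective (ofPS : PowerSeries K →+* LD K) := sorry
theorem isInt_ofPS (x : PowerSeries K) : IsInt (ofPS x) := sorry
theorem isInt_iff (x : LD K) : IsInt x ↔ ∃ y : PowerSeries K, x = ofPS y := sorry
theorem IsInt.mul {x y : LD K} (hx : IsInt x) (hy : IsInt y) : IsInt (x * y) := sorry
theorem IsInt.add {x y : LD K} (hx : IsInt x) (hy : IsInt y) : IsInt (x + y) := sorry
theorem IsInt.co_mul_zero {x y : LD K} (hx : IsInt x) (hy : IsInt y) :
    (x * y).co 0 = x.co 0 * y.co 0 := sorry
theorem co_C (k : K) (n : ℤ) : (C k).co n = if n = 0 then k else 0 := sorry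
theorem co_one (n : ℤ) : (1 : LD K).co n = if n = 0 then 1 else 0 := sorry
theorem tp_mul_tp (m n : ℤ) : (tp m * tp n : LD K) = tp (m + n) := sorry
theorem tp_zero : (tp 0 : LD K) = 1 := sorry
theorem tp_commute (m : ℤ) (x : LD K) : tp m * x = x * tp m := sorry
theorem co_tp_mul (m n : ℤ) (x : LD K) : (tp m * x).co n = x.co (n - m) := sorry
/-- the support is bounded below -/
theorem exists_bound (x : LD K) : ∃ N : ℤ, ∀ n < N, x.co n = 0 := sorry
/-- every nonzero element is `t^k` times an integral element with nonzero residue -/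
theorem exists_normal {x : LD K} (hx : x ≠ 0) :
    ∃ (k : ℤ) (y : LD K), x = tp k * y ∧ IsInt y ∧ y.co 0 ≠ 0 := sorry
/-- constants and scalars commute as expected -/
theorem C_mul_co (k : K) (x : LD K) (n : ℤ) : (C k * x).co n = k * x.co n := sorry
theorem mul_C_co (k : K) (x : LD K) (n : ℤ) : (x * C k).co n = x.co n * k := sorry
end basics

section algebra
variable {F K : Type} [Field F] [Ring K] [Algebra F K]

theorem toLD_tp (n : ℤ) : (LF.toLD (LF.tp n : LF F) : LD K) = tp n := sorry
theorem toLD_C (c : F) : (LF.toLD (LF.C c) : LD K) = C (algebraMap F K c) := sorry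

/-- the `LF F`-basis of `LD K` given by an `F`-basis of `K` -/
def basis {ι : Type} [Fintype ι] (b : Module.Basis ι F K) : Module.Basis ι (LF F) (LD K) := sorry
theorem basis_apply {ι : Type} [Fintype ι] (b : Module.Basis ι F K) (i : ι) :
    basis b i = C (b i) := sorry
theorem basis_repr_co {ι : Type} [Fintype ι] (b : Module.Basis ι F K) (x : LD K) (i : ι) (n : ℤ) :
    ((basis b).repr x i).co n = b.repr (x.co n) i := sorry

instance instFinite [Module.Finite F K] : Module.Finite (LF F) (LD K) := sorry
theorem finrank_eq : Module.finrank (LF F) (LD K) = Module.finrank F K := sorry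
instance instCentral [Module.Finite F K] [Algebra.IsCentral F K] :
    Algebra.IsCentral (LF F) (LD K) := sorry

/-- Laurent series with all coefficients in a subalgebra -/
def sub (B : Subalgebra F K) : Subalgebra (LF F) (LD K) where
  carrier := {x | ∀ n, x.co n ∈ B}
  mul_mem' := sorry
  add_mem' := sorry
  algebraMap_mem' := sorry
theorem mem_sub (B : Subalgebra F K) (x : LD K) : x ∈ sub B ↔ ∀ n, x.co n ∈ B := Iff.rfl
theorem finrank_sub [Module.Finite F K] (B : Subalgebra F K) :
    Module.finrank (LF F) (sub B) = Module.finrank F B := sorry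
/-- centralizers commute with Laurent series -/
theorem centralizer_C_image (s : Set K) :
    Subalgebra.centralizer (LF F) (C '' s : Set (LD K)) = sub (Subalgebra.centralizer F s) := sorry

/-- residue space of an `LF F`-subspace -/
def resSp (S : Submodule (LF F) (LD K)) : Submodule F K where
  carrier := {v | ∃ x ∈ S, IsInt x ∧ x.co 0 = v}
  add_mem' := sorry
  zero_mem' := sorry
  smul_mem' := sorry
theorem mem_resSp (S : Submodule (LF F) (LD K)) (v : K) :
    v ∈ resSp S ↔ ∃ x ∈ S, IsInt x ∧ x.co 0 = v := Iff.rfl
theorem finrank_resSp [Module.Finite F K] (S : Submodule (LF F) (LD K)) :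
    Module.finrank F (resSp S) = Module.finrank (LF F) S := sorry

/-- closedness of subspaces in finite-dimensional spaces -/
theorem closed_pi [Module.Finite F K] {ι : Type} [Finite ι]
    (S : Submodule (LF F) (ι → LD K)) (y : ι → LD K)
    (h : ∀ n : ℤ, ∃ s ∈ S, ∀ i, ∀ k < n, (y i - s i).co k = 0) : y ∈ S := sorry
end algebra

end LD

namespace LF
variable {F : Type} [Field F]

def IsInt (x : LF F) : Prop := ∀ n : ℤ, n < 0 → x.co n = 0

theorem co_mul_zero {x y : LF F} (hx : IsInt x) (hy : IsInt y) : (x * y).co 0 = x.co 0 * y.co 0 := sorry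
theorem tp_ne_zero (n : ℤ) : (tp n : LF F) ≠ 0 := sorry
theorem co_tp_mul (m n : ℤ) (x : LF F) : (tp m * x).co n = x.co (n - m) := sorry

/-- residue space in coordinates -/
def resPi {ι : Type} (S : Submodule (LF F) (ι → LF F)) : Submodule F (ι → F) where
  carrier := {v | ∃ x ∈ S, (∀ i, IsInt (x i)) ∧ ∀ i, (x i).co 0 = v i}
  add_mem' := sorry
  zero_mem' := sorry
  smul_mem' := sorry
theorem mem_resPi {ι : Type} (S : Submodule (LF F) (ι → LF F)) (v : ι → F) :
    v ∈ resPi S ↔ ∃ x ∈ S, (∀ i, IsInt (x i)) ∧ ∀ i, (x i).co 0 = v i := Iff.rfl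
theorem finrank_resPi {ι : Type} [Finite ι] (S : Submodule (LF F) (ι → LF F)) :
    Module.finrank F (resPi S) = Module.finrank (LF F) S := sorry

/-- rank can only go up under deformation: residue matrix has smaller rank -/
theorem rank_residue_le {m n : Type} [Fintype m] [Fintype n] [DecidableEq m] [DecidableEq n]
    (M : Matrix m n (LF F)) (hM : ∀ i j, IsInt (M i j)) :
    (M.map (fun x => x.co 0)).rank ≤ M.rank := sorry

/-- Gram matrix version: the rank of a bilinear form on a subspace is at least the rank of the
residue form on the residue subspace. -/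
theorem brank_residue_le {ι : Type} [Fintype ι] [DecidableEq ι]
    (M : Matrix ι ι (LF F)) (hM : ∀ i j, IsInt (M i j)) (S : Submodule (LF F) (ι → LF F)) :
    Module.finrank F (LinearMap.range
      ((Matrix.toBilin' (M.map (fun x => x.co 0))).domRestrict₁₂ (resPi S) (resPi S))) ≤
    Module.finrank (LF F) (LinearMap.range ((Matrix.toBilin' M).domRestrict₁₂ S S)) := sorry

end LF

end Crest.Agent.R180
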