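import Mathlib

set_option autoImplicit false

/-!
# Row 180: two-sided multiplications on a finite-dimensional central division algebra

`E` a finite-dimensional domain, central over the field `k`.
* `MulLR.eq_zero_of_sum`: `y ↦ ∑ cᵢ y bᵢ` is zero only if `c = 0` (`b` linearly independent).
* `MulLR.exists_coeffs`: every `k`-linear endomorphism of `E` is `y ↦ ∑ cᵢ y bᵢ`.
* `MulLR.derivation_inner`: every `k`-linear derivation of `E` is inner.
* `MulLR.bimodule_eq_top`: a sub-bimodule of `E^J` killed by no nonzero functional of `k^J` is `⊤`.
-/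

namespace Crest.Agent.R180.MulLR

variable {k E : Type*} [Field k] [Ring E] [IsDomain E] [Algebra k E] [Algebra.IsCentral k E]
  [FiniteDimensional k E]

theorem exists_inv (k : Type*) {E : Type*} [Field k] [Ring E] [IsDomain E] [Algebra k E]
    [FiniteDimensional k E] (x : E) (hx : x ≠ 0) : ∃ y : E, y * x = 1 ∧ x * y = 1 := by
  have hinj : Function.Injective (LinearMap.mulRight k x) := by
    intro a b hab
    exact mul_right_cancel₀ hx hab
  have hsurj := LinearMap.injective_iff_surjective.mp hinj
  obtain ⟨y, hy⟩ := hsurj 1
  have hy' : y * x = 1 := hy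
  refine ⟨y, hy', ?_⟩
  have : (x * y - 1) * x = 0 := by
    rw [sub_mul, mul_assoc, hy', mul_one, one_mul, sub_self]
  rcases mul_eq_zero.mp this with h | h
  · exact sub_eq_zero.mp h
  · exact absurd h hx

theorem eq_zero_of_sum {n : ℕ} (b : Fin n → E) (hb : LinearIndependent k b) :
    ∀ (c : Fin n → E), (∀ y : E, ∑ i, c i * y * b i = 0) → c = 0 := by
  classical
  suffices H : ∀ (m : ℕ) (c : Fin n → E), (Finset.univ.filter fun i => c i ≠ 0).card = m →
      (∀ y : E, ∑ i, c i * y * b i = 0) → c = 0 from fun c hc => H _ c rfl hc
  intro m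
  induction m using Nat.strong_induction_on with
  | _ m ih =>
    intro c hm hc
    by_contra hne
    obtain ⟨i0, hi0⟩ : ∃ i, c i ≠ 0 := by
      by_contra hcon
      push Not at hcon
      exact hne (funext hcon)
    obtain ⟨d, hd, -⟩ := exists_inv k (c i0) hi0
    -- normalise
    let c' : Fin n → E := fun i => d * c i
    have hc' : ∀ y : E, ∑ i, c' i * y * b i = 0 := by
      intro y
      have : d * ∑ i, c i * y * b i = 0 := by rw [hc y, mul_zero]
      rw [Finset.mul_sum] at this
      rw [← this]
      refine Finset.sum_congr rfl fun i _ => ?_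
      simp only [c', mul_assoc]
    have hcen : ∀ i (x : E), x * c' i - c' i * x = 0 := by
      intro i x
      have hsum : ∀ y : E, ∑ i, (x * c' i - c' i * x) * y * b i = 0 := by
        intro y
        have h1 : x * ∑ i, c' i * y * b i = 0 := by rw [hc' y, mul_zero]
        have h2 := hc' (x * y)
        rw [Finset.mul_sum] at h1
        have h3 : ∑ i, (x * c' i - c' i * x) * y * b i
            = ∑ i, x * (c' i * y * b i) - ∑ i, c' i * (x * y) * b i := by
          rw [← Finset.sum_sub_distrib]
          refine Finset.sum_congr rfl fun i _ => ?_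
          simp only [sub_mul, mul_assoc]
        rw [h3, h1, h2, sub_zero]
      have hlt : (Finset.univ.filter fun i => (fun i => x * c' i - c' i * x) i ≠ 0).card < m := by
        rw [← hm]
        apply Finset.card_lt_card
        rw [Finset.ssubset_iff_of_subset]
        · refine ⟨i0, by simp [hi0], ?_⟩
          simp [c', hd]
        · intro j hj
          simp only [Finset.mem_filter, Finset.mem_univ, true_and] at hj ⊢
          intro hcj
          apply hj
          simp [c', hcj]
      have := ih _ hlt (fun i => x * c' i - c' i * x) rfl hsum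
      exact congrFun this i
    have hk : ∀ i, ∃ a : k, c' i = algebraMap k E a := by
      intro i
      rw [← Algebra.IsCentral.mem_center_iff k, Subalgebra.mem_center_iff]
      intro x
      exact sub_eq_zero.mp (hcen i x)
    choose a ha using hk
    have hlin : ∑ i, a i • b i = 0 := by
      have := hc' 1
      rw [← this]
      refine Finset.sum_congr rfl fun i _ => ?_
      rw [ha i, mul_one, Algebra.smul_def]
    have := (Fintype.linearIndependent_iff.mp hb) a hlin i0
    have h1 : c' i0 = 1 := hd
    rw [ha i0, this, map_zero] at h1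
    exact zero_ne_one h1

/-- the operator `y ↦ ∑ cᵢ y bᵢ`, linear in `c` -/
noncomputable def op {n : ℕ} (b : Fin n → E) : (Fin n → E) →ₗ[k] (E →ₗ[k] E) where
  toFun c :=
    { toFun := fun y => ∑ i, c i * y * b i
      map_add' := fun x y => by
        rw [← Finset.sum_add_distrib]
        exact Finset.sum_congr rfl fun i _ => by rw [mul_add, add_mul]
      map_smul' := fun t y => by
        rw [RingHom.id_apply, Finset.smul_sum]
        exact Finset.sum_congr rfl fun i _ => by simp }
  map_add' c c' := by
    ext y
    simp only [LinearMap.coe_mk, AddHom.coe_mk, Pi.add_apply, LinearMap.add_apply]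
    rw [← Finset.sum_add_distrib]
    exact Finset.sum_congr rfl fun i _ => by rw [add_mul, add_mul]
  map_smul' t c := by
    ext y
    simp only [LinearMap.coe_mk, AddHom.coe_mk, Pi.smul_apply, LinearMap.smul_apply,
      RingHom.id_apply]
    rw [Finset.smul_sum]
    exact Finset.sum_congr rfl fun i _ => by simp

theorem exists_coeffs {n : ℕ} (b : Module.Basis (Fin n) k E) (f : E →ₗ[k] E) :
    ∃ c : Fin n → E, ∀ y, f y = ∑ i, c i * y * b i := by
  have hinj : Function.Injective (op (k := k) b) := by
    rw [← LinearMap.ker_eq_bot, LinearMap.ker_eq_bot']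
    intro c hc
    refine eq_zero_of_sum b b.linearIndependent c fun y => ?_
    exact LinearMap.congr_fun hc y
  have hdim : Module.finrank k (Fin n → E) = Module.finrank k (E →ₗ[k] E) := by
    rw [Module.finrank_pi_fintype, Module.finrank_linearMap, Module.finrank_eq_card_basis b]
    simp
  have hsurj : Function.Surjective (op (k := k) b) :=
    (LinearMap.injective_iff_surjective_of_finrank_eq_finrank hdim).mp hinj
  obtain ⟨c, hc⟩ := hsurj f
  exact ⟨c, fun y => by rw [← hc]; rfl⟩

/-- every `k`-linear endomorphism of `E` is a sum of two-sided multiplications -/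
theorem exists_sum_mul (f : E →ₗ[k] E) : ∃ (n : ℕ) (c b : Fin n → E),
    ∀ y, f y = ∑ i, c i * y * b i := by
  obtain ⟨c, hc⟩ := exists_coeffs (Module.finBasis k E) f
  exact ⟨_, c, _, hc⟩

/-- every `k`-linear derivation of `E` is inner -/
theorem derivation_inner (δ : E →ₗ[k] E) (hδ : ∀ x y, δ (x * y) = δ x * y + x * δ y) :
    ∃ v : E, ∀ x, δ x = v * x - x * v := by
  let b := Module.finBasis k E
  obtain ⟨a, ha⟩ := exists_coeffs b δ
  set β := b.repr 1 with hβ
  have h1 : ∑ i, β i • b i = (1 : E) := b.sum_repr 1
  have key : ∀ x i, (a i * x - x * a i) = algebraMap k E (β i) * δ x := by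
    intro x i
    have := eq_zero_of_sum b b.linearIndependent
      (fun i => (a i * x - x * a i) - algebraMap k E (β i) * δ x) ?_
    · exact sub_eq_zero.mp (congrFun this i)
    · intro y
      have e1 : δ x * y = ∑ i, algebraMap k E (β i) * δ x * y * b i := by
        calc δ x * y = δ x * y * ∑ i, β i • b i := by rw [h1, mul_one]
          _ = _ := by
            rw [Finset.mul_sum]
            refine Finset.sum_congr rfl fun i _ => ?_
            rw [Algebra.smul_def, ← mul_assoc, ← Algebra.commutes (β i) (δ x * y),
              ← mul_assoc]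
      have e2 : δ x * y = δ (x * y) - x * δ y := by rw [hδ]; abel
      rw [ha (x * y), ha y, Finset.mul_sum, ← Finset.sum_sub_distrib] at e2
      rw [e1] at e2
      rw [← sub_eq_zero.mpr e2.symm, ← Finset.sum_sub_distrib]
      refine Finset.sum_congr rfl fun i _ => ?_
      simp only [sub_mul, mul_assoc]
  obtain ⟨i, hi⟩ : ∃ i, β i ≠ 0 := by
    by_contra hcon
    push Not at hcon
    rw [Finset.sum_eq_zero (fun i _ => by rw [hcon i, zero_smul])] at h1
    exact zero_ne_one h1
  refine ⟨(β i)⁻¹ • a i, fun x => ?_⟩
  have := key x i
  rw [← Algebra.smul_def] at this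
  calc δ x = (β i)⁻¹ • (β i • δ x) := by rw [smul_smul, inv_mul_cancel₀ hi, one_smul]
    _ = _ := by rw [← this, smul_sub, smul_mul_assoc, mul_smul_comm]

/-- a sub-bimodule of `E^J` annihilated by no nonzero functional in `k^J` is everything -/
theorem bimodule_eq_top {J : Type*} [Fintype J] (M : Submodule k (J → E))
    (hl : ∀ (a : E) (m : J → E), m ∈ M → (fun j => a * m j) ∈ M)
    (hr : ∀ (a : E) (m : J → E), m ∈ M → (fun j => m j * a) ∈ M)
    (hM : ∀ l : J → k, (∀ m ∈ M, ∑ j, l j • m j = 0) → l = 0) : M = ⊤ := by
  classical
  -- closed under coordinatewise `k`-linear maps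
  have hf : ∀ (f : E →ₗ[k] E) (m : J → E), m ∈ M → (fun j => f (m j)) ∈ M := by
    intro f m hm
    obtain ⟨n, c, b, hcb⟩ := exists_sum_mul f
    have : (fun j => f (m j)) = ∑ i, fun j => c i * m j * b i := by
      funext j
      rw [hcb, Finset.sum_apply]
    rw [this]
    refine Submodule.sum_mem _ fun i _ => ?_
    exact hr (b i) _ (hl (c i) m hm)
  -- the `k`-rational vectors of `M`
  let V : Submodule k (J → k) :=
    { carrier := {c | (fun j => algebraMap k E (c j)) ∈ M}
      add_mem' := fun {a b} ha hb => by
        have := M.add_mem ha hb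
        simp only [Set.mem_ofPred_eq] at *
        convert this using 1
        funext j
        simp
      zero_mem' := by
        simp only [Set.mem_ofPred_eq]
        convert M.zero_mem using 1
        funext j
        simp
      smul_mem' := fun t a ha => by
        have := M.smul_mem t ha
        simp only [Set.mem_ofPred_eq] at *
        convert this using 1
        funext j
        simp [Algebra.smul_def] }
  have hV : V = ⊤ := by
    by_contra hne
    obtain ⟨g, hg0, hg⟩ := Submodule.exists_dual_map_eq_bot_of_lt_top (lt_top_iff_ne_top.mpr hne)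
      inferInstance
    let l : J → k := fun j => g (Pi.single j 1)
    have hgl : ∀ c : J → k, g c = ∑ j, l j * c j := by
      intro c
      have : c = ∑ j, c j • (Pi.single j (1 : k) : J → k) := by
        funext j
        simp [Finset.sum_apply, Pi.single_apply]
      conv_lhs => rw [this]
      rw [map_sum]
      refine Finset.sum_congr rfl fun j _ => ?_
      rw [map_smul, smul_eq_mul, mul_comm]
    have hl0 : l = 0 := by
      apply hM
      intro m hm
      rw [← Module.forall_dual_apply_eq_zero_iff k]
      intro φ
      have hmem : (fun j => φ (m j)) ∈ V := by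
        have := hf ((Algebra.linearMap k E).comp φ) m hm
        exact this
      have h0 : g (fun j => φ (m j)) = 0 := by
        have : g (fun j => φ (m j)) ∈ V.map g := Submodule.mem_map_of_mem hmem
        rw [hg] at this
        exact (Submodule.mem_bot k).mp this
      rw [hgl] at h0
      rw [map_sum, ← h0]
      refine Finset.sum_congr rfl fun j _ => ?_
      rw [map_smul, smul_eq_mul]
    apply hg0
    ext j
    have := congrFun hl0 j
    simpa [l] using this
  rw [eq_top_iff]
  intro x _
  have hone : ∀ j : J, (fun j' => algebraMap k E ((Pi.single j (1 : k) : J → k) j')) ∈ M := by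
    intro j
    have : (Pi.single j (1 : k) : J → k) ∈ V := by rw [hV]; trivial
    exact this
  have : x = ∑ j, fun j' => x j * algebraMap k E ((Pi.single j (1 : k) : J → k) j') := by
    funext j'
    rw [Finset.sum_apply, Finset.sum_eq_single j']
    · simp
    · intro j _ hj
      rw [Pi.single_apply, if_neg (Ne.symm hj)]
      simp
    · simp
  rw [this]
  exact Submodule.sum_mem _ fun j _ => hl (x j) _ (hone j)

end Crest.Agent.R180.MulLR
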