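import Crest.Agent.R180.Basic
import Crest.Agent.R180.MulLR

set_option autoImplicit false

/-!
# Row 180: the jet lemma

`E` a finite-dimensional domain central over `k`, `X i ∈ NC J E`.  If the constant terms of the
`X i` generate `E` over `k` and no nontrivial `k`-combination of the linear parts
`(X i [j])_i` is an inner derivation `([v, X i []])_i`, then the algebra generated by the `X i`
is dense (surjects onto `NC J E / 𝔪²`).
-/

namespace Crest.Agent.R180

namespace NC

theorem mul_single {σ K : Type} [Ring K] (f g : NC σ K) (s : σ) :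
    (f * g) [s] = f [s] * g [] + f [] * g [s] := by
  rw [mul_cons, mul_nil, ld_apply]

end NC

section

variable {k E ι J : Type} [Field k] [Ring E] [IsDomain E] [Algebra k E] [Algebra.IsCentral k E]
  [FiniteDimensional k E] [Fintype J]

/-- residue as an algebra hom -/
def NC.resAlg (k : Type) {E J : Type} [Field k] [Ring E] [Algebra k E] : NC J E →ₐ[k] E :=
  { (NC.res : NC J E →+* E) with commutes' := fun _ => rfl }

@[simp] theorem NC.resAlg_apply {k : Type} {E J : Type} [Field k] [Ring E] [Algebra k E]
    (f : NC J E) : NC.resAlg k f = f [] := rfl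

/-- general form: a subalgebra `S` of `NC J E` whose constant terms are everything, and such that no
nonzero functional `l ∈ k^J` is inner on `S`, is dense. -/
theorem jet_dense_subalgebra (S : Subalgebra k (NC J E))
    (hz : ∀ a : E, ∃ q ∈ S, q [] = a)
    (hu : ∀ (l : J → k) (v : E), (∀ q ∈ S, ∑ j, l j • q [j] = v * q [] - q [] * v) → l = 0) :
    NC.Dense S := by
  classical
  let M : Submodule k (J → E) :=
    { carrier := {m | ∃ p ∈ S, p [] = 0 ∧ ∀ j, p [j] = m j}
      add_mem' := by
        rintro a b ⟨p, hp, hp0, hpj⟩ ⟨q, hq, hq0, hqj⟩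
        exact ⟨p + q, S.add_mem hp hq, by simp [hp0, hq0], fun j => by simp [hpj, hqj]⟩
      zero_mem' := ⟨0, S.zero_mem, rfl, fun j => rfl⟩
      smul_mem' := by
        rintro c a ⟨p, hp, hp0, hpj⟩
        exact ⟨c • p, S.smul_mem hp c, by simp [hp0], fun j => by simp [hpj]⟩ }
  have hMem : ∀ m : J → E, m ∈ M ↔ ∃ p ∈ S, p [] = 0 ∧ ∀ j, p [j] = m j := fun _ => Iff.rfl
  choose q hqS hq0 using hz
  have hMtop : M = ⊤ := by
    apply MulLR.bimodule_eq_top
    · rintro a m ⟨p, hp, hp0, hpj⟩
      refine ⟨q a * p, S.mul_mem (hqS a) hp, by simp [hp0], fun j => ?_⟩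
      rw [NC.mul_single, hp0, hq0, hpj]; simp
    · rintro a m ⟨p, hp, hp0, hpj⟩
      refine ⟨p * q a, S.mul_mem hp (hqS a), by simp [hp0], fun j => ?_⟩
      rw [NC.mul_single, hp0, hq0, hpj]; simp
    · intro l hl
      -- the induced derivation
      have hwd : ∀ p ∈ S, p [] = 0 → ∑ j, l j • p [j] = 0 := fun p hp hp0 =>
        hl (fun j => p [j]) ⟨p, hp, hp0, fun _ => rfl⟩
      let D : NC J E → E := fun p => ∑ j, l j • p [j]
      have hDsub : ∀ p p' : NC J E, D (p - p') = D p - D p' := by
        intro p p'
        simp only [D, NC.sub_apply, smul_sub, Finset.sum_sub_distrib]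
      have hDadd : ∀ p p' : NC J E, D (p + p') = D p + D p' := by
        intro p p'
        simp only [D, NC.add_apply, smul_add, Finset.sum_add_distrib]
      have hDsmul : ∀ (c : k) (p : NC J E), D (c • p) = c • D p := by
        intro c p
        simp only [D, NC.smul_apply, Finset.smul_sum]
        exact Finset.sum_congr rfl fun j _ => smul_comm _ _ _
      have hDmul : ∀ p p' : NC J E, D (p * p') = D p * p' [] + p [] * D p' := by
        intro p p'
        simp only [D, NC.mul_single, smul_add, Finset.sum_add_distrib, Finset.sum_mul,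
          Finset.mul_sum, smul_mul_assoc, mul_smul_comm]
      have heq : ∀ p ∈ S, ∀ p' ∈ S, p [] = p' [] → D p = D p' := by
        intro p hp p' hp' h
        have := hwd (p - p') (S.sub_mem hp hp') (by simp [h])
        have h2 := hDsub p p'
        rw [← sub_eq_zero, ← h2]
        exact this
      let δ : E →ₗ[k] E :=
        { toFun := fun a => D (q a)
          map_add' := fun a b => by
            rw [← hDadd]
            exact heq _ (hqS _) _ (S.add_mem (hqS _) (hqS _)) (by simp [hq0])
          map_smul' := fun c a => by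
            rw [RingHom.id_apply, ← hDsmul]
            exact heq _ (hqS _) _ (S.smul_mem (hqS _) c) (by simp [hq0]) }
      have hδ : ∀ x y, δ (x * y) = δ x * y + x * δ y := by
        intro x y
        have h1 : D (q (x * y)) = D (q x * q y) :=
          heq _ (hqS _) _ (S.mul_mem (hqS _) (hqS _)) (by simp [hq0])
        change D (q (x * y)) = D (q x) * y + x * D (q y)
        rw [h1, hDmul, hq0, hq0]
      obtain ⟨v, hv⟩ := MulLR.derivation_inner δ hδ
      refine hu l v fun p hp => ?_
      have h1 : D p = δ (p []) := heq p hp _ (hqS _) (by simp [hq0])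
      change D p = _
      rw [h1, hv]
  intro f
  have hm : (fun j => f [j] - q (f []) [j]) ∈ M := by rw [hMtop]; trivial
  obtain ⟨p, hp, hp0, hpj⟩ := hm
  refine ⟨q (f []) + p, S.add_mem (hqS _) hp, fun w hw => ?_⟩
  match w, hw with
  | [], _ => simp [hp0, hq0]
  | [j], _ => simp [hpj]

/-- **Jet lemma.** -/
theorem jet_dense (X : ι → NC J E)
    (hz : Algebra.adjoin k (Set.range fun i => (X i) []) = ⊤)
    (hu : ∀ (l : J → k) (v : E),
      (∀ i, ∑ j, l j • (X i) [j] = v * (X i) [] - (X i) [] * v) → l = 0) :
    NC.Dense (Algebra.adjoin k (Set.range X)) := by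
  apply jet_dense_subalgebra
  · intro a
    have h1 : (Algebra.adjoin k (Set.range X)).map (NC.resAlg k) = ⊤ := by
      rw [AlgHom.map_adjoin, ← Set.range_comp]
      exact hz
    have h2 : a ∈ (Algebra.adjoin k (Set.range X)).map (NC.resAlg k) := by rw [h1]; trivial
    obtain ⟨q, hq, hqa⟩ := h2
    exact ⟨q, hq, hqa⟩
  · intro l v h
    exact hu l v fun i => h (X i) (Algebra.subset_adjoin ⟨i, rfl⟩)

end

end Crest.Agent.R180
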