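import Crest.Agent.R180.Move
import Crest.Agent.R180.Jet
import Crest.Agent.R180.DenseAll

set_option autoImplicit false

/-!
# Row 180, MODULE D: reachability is closed under good moves
-/

noncomputable section
namespace Crest.Agent.R180

open TensorProduct

namespace ModD

section hX

variable {A : DA} (M : Adm A) {m μ : ℕ} (X : Fin m → NC (Fin μ) (PowerSeries M.E))
  (hX : ∀ j, PowerSeries.constantCoeff (X j []) = 0)

/-- plain-typed version of `Adm.hX` -/
def hXr : NC (Fin m) A.D →+* NC (Fin μ) (LD M.D0) :=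
  (NC.map (LD.ofPS (K := M.D0))).comp (M.hX0 X hX)

/-- plain-typed version of `Adm.inc` -/
def incr : A.D →+* LD M.D0 := (LD.C (K := M.D0)).comp M.jD

/-- plain-typed version of `Adm.incE` -/
def incEr : LD M.E →+* LD M.D0 := LD.map M.jE

theorem hX_C (d : A.D) : hXr M X hX (NC.C d) = NC.C (incr M d) := by
  have h1 : M.hX0 X hX (NC.C d) = NC.C (PowerSeries.C (M.jD d)) := NC.subst_C _ _ _ _ _ d
  change NC.map LD.ofPS (M.hX0 X hX (NC.C d)) = _
  rw [h1, NC.map_C]
  rfl

/-- the image of a letter, as a series over `E((t))` -/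
def flat (j : Fin m) : NC (Fin μ) (LD M.E) := NC.map LD.ofPS (X j)

theorem flat_nil (j : Fin m) : (flat M X j) [] = M.pt X j := rfl
theorem flat_single (j : Fin m) (i : Fin μ) : (flat M X j) [i] = M.dir X i j := rfl

theorem ofPS_map {K K' : Type} [Ring K] [Ring K'] (φ : K →+* K') (x : PowerSeries K) :
    (LD.ofPS (PowerSeries.map φ x) : LD K') = LD.map φ (LD.ofPS x) := by
  apply LD.ext; intro n
  rw [LD.co_map]
  rcases lt_or_ge n 0 with hn | hn
  · rw [LD.co_ofPS_neg _ _ hn, LD.co_ofPS_neg _ _ hn, map_zero]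
  · obtain ⟨k, rfl⟩ := Int.eq_ofNat_of_zero_le hn
    rw [LD.co_ofPS, LD.co_ofPS, PowerSeries.coeff_map]

theorem hX_X (j : Fin m) : hXr M X hX (NC.X j) = NC.map (incEr M) (flat M X j) := by
  have h1 : M.hX0 X hX (NC.X j) = M.let0 X j := NC.subst_X _ _ _ _ _ j
  change NC.map LD.ofPS (M.hX0 X hX (NC.X j)) = _
  rw [h1]
  apply NC.ext'; intro w
  rw [NC.map_apply, NC.map_apply, flat, NC.map_apply]
  change _ = LD.map M.jE _
  rw [← ofPS_map]
  rfl

/-- continuity of the move homomorphism -/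
theorem hX_co (f : NC (Fin m) A.D) (n : ℕ) (hf : ∀ w : List (Fin m), w.length < n → f w = 0)
    (w : List (Fin μ)) (k : ℤ) (hk : k + w.length < n) : LD.co ((hXr M X hX f) w) k = 0 := by
  change LD.co (LD.ofPS ((M.hX0 X hX f) w)) k = 0
  rcases lt_or_ge k 0 with h | h
  · rw [LD.co_ofPS_neg _ _ h]
  · obtain ⟨i, rfl⟩ := Int.eq_ofNat_of_zero_le h
    rw [LD.co_ofPS]
    have h1 : M.hX0 X hX f ∈ (M.filt μ).I n := NC.subst_mem _ _ _ _ _ n f hf
    rw [CFilt.mem_nc] at h1
    have h2 := h1 w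
    rw [CFilt.mem_powerSeries] at h2
    exact h2 i (by omega)

theorem hX_algebraMap (c : A.F) : hXr M X hX (algebraMap A.F _ c) =
    algebraMap (LF M.F1) (NC (Fin μ) (LD M.D0)) (LF.C (algebraMap A.F M.F1 c)) := by
  rw [NC.algebraMap_eq, hX_C, NC.algebraMap_eq]
  congr 1
  rw [LD.algebraMap_eq, LD.toLD_C]
  change LD.C (M.jD (algebraMap A.F A.D c)) = _
  congr 1
  change (1 : M.E) ⊗ₜ[A.F] (algebraMap A.F A.D c) = algebraMap M.F1 M.E (algebraMap A.F M.F1 c) ⊗ₜ[A.F] (1 : A.D)
  rw [Algebra.algebraMap_eq_smul_one, TensorProduct.tmul_smul, TensorProduct.smul_tmul',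
    ← IsScalarTower.algebraMap_apply, Algebra.algebraMap_eq_smul_one]

end hX

/-- the jet (constant and linear part) -/
def jet {F K : Type} [Field F] [Ring K] [Algebra F K] {μ : ℕ} :
    NC (Fin μ) K →ₗ[F] (Option (Fin μ) → K) where
  toFun f o := match o with
    | none => f []
    | some i => f [i]
  map_add' f g := by
    funext o
    cases o <;> rfl
  map_smul' c f := by
    funext o
    cases o <;> simp


/-- core statement with plain types -/
theorem core {A : DA} (M : Adm A) {m μ : ℕ} (X : Fin m → NC (Fin μ) (PowerSeries M.E))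
    (hG : Good' M X) (S : Set (NC (Fin m) A.D)) (hdense : NC.Dense (Algebra.adjoin A.F S)) :
    NC.Dense (Algebra.adjoin (LF M.F1) (hXr M X hG.x0 '' S)) := by
  classical
  set B := Algebra.adjoin A.F S with hB
  let B' : Subalgebra (LF M.F1) (NC (Fin μ) (LD M.D0)) := Algebra.adjoin (LF M.F1)
    (hXr M X hG.x0 '' S)
  change NC.Dense B'
  -- `hX` maps `B` into `B'`
  have hBB' : ∀ b ∈ B, hXr M X hG.x0 b ∈ B' := by
    intro b hb
    induction hb using Algebra.adjoin_induction with
    | mem x hx => exact Algebra.subset_adjoin ⟨x, hx, rfl⟩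
    | algebraMap r =>
      rw [hX_algebraMap]
      exact B'.algebraMap_mem _
    | add x y _ _ hx hy => rw [map_add]; exact B'.add_mem hx hy
    | mul x y _ _ hx hy => rw [map_mul]; exact B'.mul_mem hx hy
  -- jets of `B'`
  let V : Submodule (LF M.F1) (Option (Fin μ) → LD M.D0) :=
    (Subalgebra.toSubmodule B').map (jet (F := LF M.F1) (K := LD M.D0))
  have hV1 : ∀ q : NC (Fin m) A.D, jet (F := LF M.F1) (K := LD M.D0) (hXr M X hG.x0 q) ∈ V := by
    intro q
    apply LD.closed_pi
    intro n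
    obtain ⟨b, hb, hbq⟩ := hdense.all_gen (n.toNat + 1) q
    refine ⟨jet (F := LF M.F1) (K := LD M.D0) (hXr M X hG.x0 b),
      Submodule.mem_map_of_mem (hBB' b hb), fun o k hk => ?_⟩
    have hcont : ∀ w : List (Fin μ), w.length < 2 → LD.co ((hXr M X hG.x0 (q - b)) w) k = 0 := by
      intro w hw
      refine hX_co M X hG.x0 (q - b) (n.toNat + 1) (fun v hv => ?_) w k (by omega)
      rw [NC.sub_apply, hbq v hv, sub_self]
    rw [map_sub] at hcont
    cases o with
    | none => exact hcont [] (by simp)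
    | some j => exact hcont [j] (by simp)
  -- hence all jets of the algebra generated by the range of `hX` are in `V`
  let B2 : Subalgebra (LF M.F1) (NC (Fin μ) (LD M.D0)) :=
    Algebra.adjoin (LF M.F1) (Set.range (hXr M X hG.x0))
  have hV2 : ∀ f ∈ B2, jet (F := LF M.F1) (K := LD M.D0) f ∈ V := by
    intro f hf
    have hspan : f ∈ Submodule.span (LF M.F1) (Set.range (hXr M X hG.x0)) := by
      have h1 : Subalgebra.toSubmodule B2 =
          Submodule.span (LF M.F1) (Submonoid.closure (Set.range (hXr M X hG.x0)) : Set _) :=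
        Algebra.adjoin_eq_span _ _
      have h2 : (Submonoid.closure (Set.range (hXr M X hG.x0)) : Set (NC (Fin μ) (LD M.D0))) =
          Set.range (hXr M X hG.x0) := by
        have : Submonoid.closure (Set.range (hXr M X hG.x0)) =
            MonoidHom.mrange (hXr M X hG.x0 : NC (Fin m) A.D →* NC (Fin μ) (LD M.D0)) :=
          Submonoid.closure_eq (MonoidHom.mrange
            (hXr M X hG.x0 : NC (Fin m) A.D →* NC (Fin μ) (LD M.D0)))
        rw [this]; rfl
      rw [h2] at h1
      rw [← h1]; exact hf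
    have hle : Submodule.span (LF M.F1) (Set.range (hXr M X hG.x0)) ≤
        V.comap (jet (F := LF M.F1) (K := LD M.D0)) := by
      rw [Submodule.span_le]
      rintro _ ⟨q, rfl⟩
      exact hV1 q
    exact hle hspan
  -- `B2` is dense, by the jet lemma
  have hjet : NC.Dense (Algebra.adjoin (LF M.F1) (Set.range (flat M X))) := by
    apply jet_dense
    · exact hG.gen
    · exact hG.indep
  have hB2E : ∀ p ∈ Algebra.adjoin (LF M.F1) (Set.range (flat M X)),
      NC.map (incEr M) p ∈ B2 := by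
    intro p hp
    induction hp using Algebra.adjoin_induction with
    | mem x hx =>
      obtain ⟨j, rfl⟩ := hx
      rw [← hX_X M X hG.x0]
      exact Algebra.subset_adjoin ⟨_, rfl⟩
    | algebraMap r =>
      have : NC.map (incEr M) (algebraMap (LF M.F1) (NC (Fin μ) (LD M.E)) r) =
          algebraMap (LF M.F1) (NC (Fin μ) (LD M.D0)) r := by
        rw [NC.algebraMap_eq, NC.map_C, NC.algebraMap_eq]
        congr 1
      rw [this]
      exact B2.algebraMap_mem _
    | add x y _ _ hx hy => rw [map_add]; exact B2.add_mem hx hy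
    | mul x y _ _ hx hy => rw [map_mul]; exact B2.mul_mem hx hy
  have hB2D : ∀ d : A.D, (NC.C (incr M d) : NC (Fin μ) (LD M.D0)) ∈ B2 := by
    intro d
    rw [← hX_C M X hG.x0]
    exact Algebra.subset_adjoin ⟨_, rfl⟩
  -- coordinates of `E ⊗ D` along a basis of `D`
  let b := Module.finBasis A.F A.D
  let crd : Fin (Module.finrank A.F A.D) → M.D0 → M.E := fun κ x =>
    TensorProduct.equivFinsuppOfBasisRight (M := M.E) b x κ
  have hcrd0 : ∀ κ, crd κ 0 = 0 := by intro κ; simp [crd]
  have hcrd : ∀ x : M.D0, x = ∑ κ, (crd κ x) ⊗ₜ[A.F] (b κ) := by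
    intro x
    apply (TensorProduct.equivFinsuppOfBasisRight (M := M.E) b).injective
    ext κ
    rw [map_sum, Finsupp.coe_finsetSum, Finset.sum_apply, Finset.sum_eq_single κ]
    · simp [crd]
    · intro j _ hj
      simp [hj]
    · simp
  let crdL : Fin (Module.finrank A.F A.D) → LD M.D0 → LD M.E := fun κ x =>
    HahnSeries.map (x : HahnSeries ℤ M.D0) (⟨crd κ, hcrd0 κ⟩ : ZeroHom M.D0 M.E)
  have hcrdL : ∀ x : LD M.D0, x = ∑ κ, incr M (b κ) * (incEr M) (crdL κ x) := by
    intro x
    apply LD.ext; intro n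
    have hs : LD.co (∑ κ, incr M (b κ) * (incEr M) (crdL κ x)) n =
        ∑ κ, LD.co (incr M (b κ) * (incEr M) (crdL κ x)) n := by
      let g : LD M.D0 →+ M.D0 :=
        { toFun := fun y => LD.co y n, map_zero' := rfl, map_add' := fun _ _ => rfl }
      exact map_sum g _ _
    rw [hs, hcrd (LD.co x n)]
    refine Finset.sum_congr rfl fun κ _ => ?_
    have e1 : LD.co (incr M (b κ) * (incEr M) (crdL κ x)) n =
        M.jD (b κ) * LD.co ((incEr M) (crdL κ x)) n := LD.C_mul_co _ _ _
    rw [e1]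
    change _ = ((1 : M.E) ⊗ₜ[A.F] (b κ)) * ((crd κ (LD.co x n)) ⊗ₜ[A.F] (1 : A.D))
    rw [Algebra.TensorProduct.tmul_mul_tmul, one_mul, mul_one]
  intro f
  -- approximate `f` by an element of `B2`
  choose p hp hpf using fun κ : Fin (Module.finrank A.F A.D) =>
    hjet (⟨fun w => crdL κ (f w)⟩ : NC (Fin μ) (LD M.E))
  let f2 : NC (Fin μ) (LD M.D0) := ∑ κ, NC.C (incr M (b κ)) * NC.map (incEr M) (p κ)
  have hf2 : f2 ∈ B2 := B2.sum_mem fun κ _ => B2.mul_mem (hB2D _) (hB2E _ (hp κ))
  have hf2f : ∀ w : List (Fin μ), w.length < 2 → f2 w = f w := by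
    intro w hw
    rw [NC.sum_apply, hcrdL (f w)]
    refine Finset.sum_congr rfl fun κ _ => ?_
    rw [NC.C_mul_apply, NC.map_apply, hpf κ w hw]
  obtain ⟨b', hb', hb'j⟩ := hV2 f2 hf2
  refine ⟨b', hb', fun w hw => ?_⟩
  rw [← hf2f w hw]
  match w, hw with
  | [], _ => exact congrFun hb'j none
  | [j], _ => exact congrFun hb'j (some j)

end ModD

theorem reach_moveClosed (A₀ : DA) (𝒜 : Subalgebra A₀.F (NC (Fin 2) A₀.D))
    (a₀ : NC (Fin 2) A₀.D) : MoveClosed (Reach A₀ 𝒜 a₀) := by
  rintro A m a ⟨i, h, hc, rfl, hdense⟩ M μ X hG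
  refine ⟨(LF.C.comp (algebraMap A.F M.F1)).comp i, (M.hX X hG.x0).comp h, fun c => ?_, rfl, ?_⟩
  · rw [RingHom.comp_apply, hc]
    exact ModD.hX_algebraMap M X hG.x0 (i c)
  · have h1 := ModD.core M X hG _ hdense
    have h2 : ((M.hX X hG.x0).comp h : NC (Fin 2) A₀.D → NC (Fin μ) (A.mv M).D) ''
        (𝒜 : Set (NC (Fin 2) A₀.D)) =
        (M.hX X hG.x0 : NC (Fin m) A.D → NC (Fin μ) (A.mv M).D) ''
          (h '' (𝒜 : Set (NC (Fin 2) A₀.D))) := by
      rw [← Set.image_comp]; rfl
    rw [h2]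
    exact h1

end Crest.Agent.R180
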