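import Crest.Agent.R180.Move
import Crest.Agent.R180.ConjNF

set_option autoImplicit false

/-!
# Row 180, MODULE R: behaviour of representations under moves
-/

noncomputable section
namespace Crest.Agent.R180

open TensorProduct

/-! ### Laurent series: orders of products -/

theorem LD.co_mul_eq_zero {K : Type} [Ring K] (x y : LD K) (a b : ℤ)
    (hx : ∀ j < a, x.co j = 0) (hy : ∀ j < b, y.co j = 0) :
    ∀ j < a + b, (x * y).co j = 0 := by
  intro j hj
  have h1 := @HahnSeries.coeff_mul ℤ K _ _ _ _ (x : HahnSeries ℤ K) (y : HahnSeries ℤ K) j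
  refine h1.trans (Finset.sum_eq_zero ?_)
  rintro ⟨p, q⟩ hpq
  rw [Finset.mem_antidiagonal] at hpq
  have h2 : p + q = j := hpq.2.2
  by_cases hp : p < a
  · have : HahnSeries.coeff (x : HahnSeries ℤ K) p = 0 := hx p hp
    simp only [this, zero_mul]
  · have : HahnSeries.coeff (y : HahnSeries ℤ K) q = 0 := hy q (by omega)
    simp only [this, mul_zero]

/-! ### Closedness -/

/-- An `LF F`-submodule of `NC μ (LD K)` is closed: truncations of `t`-adic limits. -/
theorem trunc_closed {F K : Type} [Field F] [Ring K] [Algebra F K] [Module.Finite F K] {μ : ℕ}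
    (S : Submodule (LF F) (NC (Fin μ) (LD K))) (f : NC (Fin μ) (LD K)) (k : ℕ)
    (h : ∀ n : ℕ, ∃ s ∈ S, ∀ w : List (Fin μ), w.length < k → ∀ j : ℤ, j < n →
      (f w - s w).co j = 0) :
    ∃ g ∈ S, ∀ w : List (Fin μ), w.length < k → f w = g w := by
  classical
  have hfin : Finite {w : List (Fin μ) // w.length < k} :=
    (List.finite_length_lt (Fin μ) k).to_subtype
  let ρ : NC (Fin μ) (LD K) →ₗ[LF F] ({w : List (Fin μ) // w.length < k} → LD K) :=
    { toFun := fun f w => f w.1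
      map_add' := fun f g => rfl
      map_smul' := fun c f => funext fun w => NC.smul_apply c f w.1 }
  have hmem : ρ f ∈ S.map ρ := by
    apply LD.closed_pi
    intro n
    obtain ⟨s, hs, hsw⟩ := h n.toNat
    refine ⟨ρ s, Submodule.mem_map_of_mem hs, fun w j hj => ?_⟩
    exact hsw w.1 w.2 j (lt_of_lt_of_le hj (Int.self_le_toNat n))
  obtain ⟨g, hg, hgf⟩ := hmem
  refine ⟨g, hg, fun w hw => ?_⟩
  exact (congrFun hgf ⟨w, hw⟩).symm

/-! ### The move homomorphism -/

section hX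

variable {A : DA} (M : Adm A) {m μ : ℕ} (X : Fin m → NC (Fin μ) (PowerSeries M.E))
  (hX : ∀ j, PowerSeries.constantCoeff (X j []) = 0)

theorem Adm.hX_C (d : A.D) : M.hX X hX (NC.C d) = NC.C (M.inc d) := by
  change NC.map (LD.ofPS (K := M.D0)) (NC.subst (M.filt μ) (M.phi0 μ) (M.let0 X) (M.let0_mem X hX)
    (M.let0_comm X) (NC.C d)) = _
  rw [NC.subst_C]
  change NC.map (LD.ofPS (K := M.D0)) (NC.C (PowerSeries.C (M.jD d))) = _
  rw [NC.map_C]
  rfl

/-- continuity of the move homomorphism -/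
theorem Adm.hX_co (n : ℕ) (f : NC (Fin m) A.D) (hf : ∀ w : List (Fin m), w.length < n → f w = 0)
    (v : List (Fin μ)) (j : ℤ) (hj : j < (n : ℤ) - v.length) :
    LD.co (M.hX X hX f v) j = 0 := by
  have h1 : M.hX0 X hX f ∈ (M.filt μ).I n :=
    NC.subst_mem (M.filt μ) (M.phi0 μ) (M.let0 X) (M.let0_mem X hX) (M.let0_comm X) n f hf
  have h2 : M.hX0 X hX f v ∈ (CFilt.powerSeries M.D0).I (n - v.length) := h1 v
  rw [CFilt.mem_powerSeries] at h2
  change LD.co (LD.ofPS (M.hX0 X hX f v)) j = 0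
  by_cases hj0 : j < 0
  · exact LD.co_ofPS_neg _ _ hj0
  · obtain ⟨i, rfl⟩ := Int.eq_ofNat_of_zero_le (not_lt.1 hj0)
    exact (LD.co_ofPS _ i).trans (h2 i (by omega))

end hX

/-- commuting generators generate a commutative subalgebra -/
theorem adjoin_comm_of {R B : Type*} [CommRing R] [Ring B] [Algebra R B] {s : Set B}
    (hs : ∀ a ∈ s, ∀ b ∈ s, a * b = b * a) {a b : B} (ha : a ∈ Algebra.adjoin R s)
    (hb : b ∈ Algebra.adjoin R s) : a * b = b * a := by
  have h := (Algebra.isMulCommutative_adjoin R hs).is_comm.comm ⟨a, ha⟩ ⟨b, hb⟩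
  exact congrArg Subtype.val h

theorem adjoin_comm_elt {R B : Type*} [CommRing R] [Ring B] [Algebra R B] {s : Set B} {y : B}
    (hs : ∀ a ∈ s, a * y = y * a) {a : B} (ha : a ∈ Algebra.adjoin R s) : a * y = y * a := by
  induction ha using Algebra.adjoin_induction with
  | mem a ha => exact hs a ha
  | algebraMap c => exact Algebra.commutes _ _
  | add a b _ _ ha hb => rw [add_mul, mul_add, ha, hb]
  | mul a b _ _ ha hb => rw [mul_assoc, hb, ← mul_assoc, ha, mul_assoc]

/-- finitely many Laurent series have a common lower bound on the order -/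
theorem exists_common_bound {K : Type} [Ring K] {μ : ℕ} (f : NC (Fin μ) (LD K)) (k : ℕ) :
    ∃ N : ℕ, ∀ w : List (Fin μ), w.length < k → ∀ j : ℤ, j < -(N : ℤ) → (f w).co j = 0 := by
  classical
  have hfin : Finite {w : List (Fin μ) // w.length < k} :=
    (List.finite_length_lt (Fin μ) k).to_subtype
  have := Fintype.ofFinite {w : List (Fin μ) // w.length < k}
  choose b hb using fun w : {w : List (Fin μ) // w.length < k} => LD.exists_bound (f w.1)
  refine ⟨∑ w, (b w).natAbs, fun w hw j hj => hb ⟨w, hw⟩ j ?_⟩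
  have h1 : (b ⟨w, hw⟩).natAbs ≤ ∑ w, (b w).natAbs :=
    Finset.single_le_sum (f := fun w => (b w).natAbs) (fun _ _ => Nat.zero_le _)
      (Finset.mem_univ (⟨w, hw⟩ : {w : List (Fin μ) // w.length < k}))
  omega

/-- `t`-order estimate for the conjugate of a small series -/
theorem conj_small {K : Type} [Ring K] {μ : ℕ} (w w' : NC (Fin μ) (LD K)) (k : ℕ) :
    ∃ N : ℕ, ∀ (h : NC (Fin μ) (LD K)) (n : ℤ),
      (∀ v : List (Fin μ), v.length < k → ∀ j : ℤ, j < n → (h v).co j = 0) →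
      ∀ v : List (Fin μ), v.length < k → ∀ j : ℤ, j < n - N → ((w * h * w') v).co j = 0 := by
  obtain ⟨N₁, h₁⟩ := exists_common_bound w k
  obtain ⟨N₂, h₂⟩ := exists_common_bound w' k
  have hsum : ∀ (s : Finset ℕ) (F : ℕ → LD K) (j : ℤ), (∀ i ∈ s, (F i).co j = 0) →
      (∑ i ∈ s, F i).co j = 0 := by
    intro s F j hs
    induction s using Finset.induction_on with
    | empty => simp
    | insert a s ha ih =>
      rw [Finset.sum_insert ha, LD.co_add, hs a (Finset.mem_insert_self a s),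
        ih fun i hi => hs i (Finset.mem_insert_of_mem hi), add_zero]
  refine ⟨N₁ + N₂, fun h n hh v hv j hj => ?_⟩
  push_cast at hj
  rw [ConjNF.mul_apply]
  refine hsum _ _ _ fun i hi => ?_
  have hlen : (v.take i).length < k := lt_of_le_of_lt (List.length_take_le' i v) hv
  have hlen' : (v.drop i).length < k := by
    rw [List.length_drop]; omega
  refine LD.co_mul_eq_zero _ _ (n - N₁) (-(N₂ : ℤ)) ?_ (h₂ _ hlen') j (by omega)
  intro j hj
  rw [ConjNF.mul_apply]
  refine hsum _ _ _ fun i' hi' => ?_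
  have hlen1 : ((v.take i).take i').length < k := lt_of_le_of_lt (List.length_take_le' i' _) hlen
  have hlen2 : ((v.take i).drop i').length < k := by
    rw [List.length_drop]; omega
  exact LD.co_mul_eq_zero _ _ (-(N₁ : ℤ)) n (h₁ _ hlen1) (hh _ hlen2) j (by omega)

/-- General closure principle: if `f` is in the `𝔪`-adic closure of a set `G` and `G` is moved into
a submodule `S`, then the conjugated image of `f` is in the `𝔪`-adic closure of `S`. -/
theorem closure_move {A : DA} {m : ℕ} (M : Adm A) {μ : ℕ}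
    (X : Fin m → NC (Fin μ) (PowerSeries M.E))
    (hX : ∀ j, PowerSeries.constantCoeff (X j []) = 0)
    (w w' : NC (Fin μ) (A.mv M).D) (G : Set (NC (Fin m) A.D))
    (S : Submodule (A.mv M).F (NC (Fin μ) (A.mv M).D))
    (hG : ∀ g ∈ G, w * M.hX X hX g * w' ∈ S) (f : NC (Fin m) A.D)
    (hf : ∀ k : ℕ, ∃ g ∈ G, ∀ v : List (Fin m), v.length < k → f v = g v) (k : ℕ) :
    ∃ g ∈ S, ∀ v : List (Fin μ), v.length < k → (w * M.hX X hX f * w') v = g v := by
  obtain ⟨N, hN⟩ := conj_small (K := M.D0) (w : NC (Fin μ) (LD M.D0)) (w' : NC (Fin μ) (LD M.D0)) k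
  refine trunc_closed (F := M.F1) (K := M.D0) S _ k fun n => ?_
  obtain ⟨g, hgG, hg⟩ := hf (n + N + k)
  refine ⟨w * M.hX X hX g * w', hG g hgG, fun v hv j hj => ?_⟩
  have h1 : ∀ v : List (Fin μ), v.length < k → ∀ j : ℤ, j < (n : ℤ) + N →
      LD.co (M.hX X hX (f - g) v) j = 0 := by
    intro v hv j hj
    refine M.hX_co X hX (n + N + k) (f - g) (fun u hu => ?_) v j ?_
    · rw [NC.sub_apply, hg u hu, sub_self]
    · push_cast; omega
  have h2 := hN (M.hX X hX (f - g)) ((n : ℤ) + N) h1 v hv j (by omega)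
  have h3 : (w * M.hX X hX f * w') v - (w * M.hX X hX g * w') v =
      (w * M.hX X hX (f - g) * w') v := by
    rw [map_sub, mul_sub, sub_mul, NC.sub_apply]
  have h4 := congrArg (fun z => LD.co (K := M.D0) z j) h3
  exact h4.trans h2

/-- MODULE R: behaviour of representations under good moves. `c0` is the constant term of
the image of `γ`; `w` conjugates the image to `c0 + γ'` with `γ'` commuting with `Λ` and `c0`. -/
theorem RS.move {P : (A : DA) → (m : ℕ) → NC (Fin m) A.D → Prop} (hP : MoveClosed P)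
    {A : DA} {m : ℕ} {Λ : Subalgebra A.F A.D} {γ : NC (Fin m) A.D} (h : RS P A m Λ γ)
    (M : Adm A) {μ : ℕ} (X : Fin m → NC (Fin μ) (PowerSeries M.E)) (hX : Good' M X)
    (w w' γ' : NC (Fin μ) (A.mv M).D) (hw : w * w' = 1) (hw' : w' * w = 1)
    (hwΛ : ∀ v, ∀ a ∈ Λ, M.inc a * w v = w v * M.inc a)
    (c0 : (A.mv M).D)
    (hconj : w * M.hX X hX.x0 γ * w' = NC.C c0 + γ')
    (hγ0 : γ' [] = 0)
    (hγΛ : ∀ v, ∀ a ∈ Λ, M.inc a * γ' v = γ' v * M.inc a)
    (hγc : ∀ v, c0 * γ' v = γ' v * c0)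
    (hcΛ : ∀ a ∈ Λ, M.inc a * c0 = c0 * M.inc a) :
    RS P (A.mv M) μ (Algebra.adjoin (A.mv M).F
      (M.inc '' (Λ : Set A.D) ∪ {c0})) γ' := by
  set Λ' := Algebra.adjoin (A.mv M).F (M.inc '' (Λ : Set A.D) ∪ {c0}) with hΛ'
  have hincΛ' : ∀ a ∈ Λ, M.inc a ∈ Λ' := fun a ha =>
    Algebra.subset_adjoin (Or.inl ⟨a, ha, rfl⟩)
  have hc0Λ' : c0 ∈ Λ' := Algebra.subset_adjoin (Or.inr rfl)
  refine ⟨?_, hγ0, ?_, ?_⟩
  · intro a ha b hb
    refine adjoin_comm_of ?_ ha hb
    rintro _ (⟨a₁, ha₁, rfl⟩ | ha₁) _ (⟨b₁, hb₁, rfl⟩ | hb₁)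
    · rw [← map_mul, h.comm a₁ ha₁ b₁ hb₁, map_mul]
    · rw [Set.mem_singleton_iff.1 hb₁]; exact hcΛ a₁ ha₁
    · rw [Set.mem_singleton_iff.1 ha₁]; exact (hcΛ b₁ hb₁).symm
    · rw [Set.mem_singleton_iff.1 ha₁, Set.mem_singleton_iff.1 hb₁]
  · intro v a ha
    refine adjoin_comm_elt ?_ ha
    rintro _ (⟨a, ha, rfl⟩ | ha)
    · exact hγΛ v a ha
    · rw [Set.mem_singleton_iff] at ha; subst ha; exact hγc v
  · obtain ⟨a, v, v', hv, hv', hPa, hcl⟩ := h.rep
    have e1 : (w * M.hX X hX.x0 v) * (M.hX X hX.x0 v' * w') = 1 := by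
      rw [mul_assoc, ← mul_assoc (M.hX X hX.x0 v), ← map_mul, hv, map_one, one_mul, hw]
    have e2 : (M.hX X hX.x0 v' * w') * (w * M.hX X hX.x0 v) = 1 := by
      rw [mul_assoc, ← mul_assoc w', hw', one_mul, ← map_mul, hv', map_one]
    refine ⟨M.hX X hX.x0 a, w * M.hX X hX.x0 v, M.hX X hX.x0 v' * w', e1, e2,
      hP A m a hPa M μ X hX, ?_⟩
    have e3 : (w * M.hX X hX.x0 v) * M.hX X hX.x0 a * (M.hX X hX.x0 v' * w') =
        w * M.hX X hX.x0 (v * a * v') * w' := by
      rw [map_mul, map_mul]; noncomm_ring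
    rw [e3]
    intro k
    set B' := Algebra.adjoin (A.mv M).F
      ((fun d => (NC.C d : NC (Fin μ) (A.mv M).D)) '' (Λ' : Set (A.mv M).D) ∪ {γ'}) with hB'
    have hCB : ∀ d ∈ Λ', (NC.C d : NC (Fin μ) (A.mv M).D) ∈ B' := fun d hd =>
      Algebra.subset_adjoin (Or.inl ⟨d, hd, rfl⟩)
    have hγB : γ' ∈ B' := Algebra.subset_adjoin (Or.inr rfl)
    have hΛw : ∀ d ∈ Λ, w * NC.C (M.inc d) * w' = NC.C (M.inc d) := by
      intro d hd
      have : w * NC.C (M.inc d) = NC.C (M.inc d) * w := by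
        apply NC.ext'; intro u
        rw [NC.mul_C_apply, NC.C_mul_apply, hwΛ u d hd]
      rw [this, mul_assoc, hw, mul_one]
    have hG : ∀ g ∈ Algebra.adjoin A.F ((fun d => (NC.C d : NC (Fin m) A.D)) '' (Λ : Set A.D)
        ∪ {γ}), w * M.hX X hX.x0 g * w' ∈ B' := by
      intro g hg
      induction hg using Algebra.adjoin_induction with
      | mem g hg =>
        rcases hg with ⟨d, hd, rfl⟩ | hg
        · change w * M.hX X hX.x0 (NC.C d) * w' ∈ B'
          rw [M.hX_C, hΛw d hd]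
          exact hCB _ (hincΛ' d hd)
        · rw [Set.mem_singleton_iff] at hg
          subst hg
          rw [hconj]
          exact B'.add_mem (hCB _ hc0Λ') hγB
      | algebraMap c =>
        rw [NC.algebraMap_eq, M.hX_C, hΛw _ (Λ.algebraMap_mem c)]
        exact hCB _ (hincΛ' _ (Λ.algebraMap_mem c))
      | add g₁ g₂ _ _ h₁ h₂ =>
        rw [map_add, mul_add, add_mul]
        exact B'.add_mem h₁ h₂
      | mul g₁ g₂ _ _ h₁ h₂ =>
        have : w * M.hX X hX.x0 (g₁ * g₂) * w' =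
            (w * M.hX X hX.x0 g₁ * w') * (w * M.hX X hX.x0 g₂ * w') := by
          rw [map_mul]
          calc w * (M.hX X hX.x0 g₁ * M.hX X hX.x0 g₂) * w'
              = w * M.hX X hX.x0 g₁ * 1 * M.hX X hX.x0 g₂ * w' := by noncomm_ring
            _ = w * M.hX X hX.x0 g₁ * (w' * w) * M.hX X hX.x0 g₂ * w' := by rw [hw']
            _ = _ := by noncomm_ring
        rw [this]
        exact B'.mul_mem h₁ h₂
    exact closure_move M X hX.x0 w w'
      (Algebra.adjoin A.F ((fun d => (NC.C d : NC (Fin m) A.D)) '' (Λ : Set A.D) ∪ {γ}) : Set _)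
      (Subalgebra.toSubmodule B') hG (v * a * v') hcl k


/-- end of the game: `γ = 0` means that `a` is algebraic -/
theorem RS.final {P : (A : DA) → (m : ℕ) → NC (Fin m) A.D → Prop}
    {A : DA} {m : ℕ} {Λ : Subalgebra A.F A.D} (h : RS P A m Λ 0) :
    ∃ a : NC (Fin m) A.D, P A m a ∧ IsAlgebraic A.F a := by
  obtain ⟨a, v, v', hv, hv', hPa, hcl⟩ := h.rep
  refine ⟨a, hPa, ?_⟩
  have hconst : ∀ g ∈ Algebra.adjoin A.F
      ((fun d => (NC.C d : NC (Fin m) A.D)) '' (Λ : Set A.D) ∪ {0}),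
      ∃ d : A.D, g = NC.C d := by
    intro g hg
    induction hg using Algebra.adjoin_induction with
    | mem g hg =>
      rcases hg with ⟨d, _, rfl⟩ | hg
      · exact ⟨d, rfl⟩
      · exact ⟨0, by rw [Set.mem_singleton_iff.1 hg, map_zero]⟩
    | algebraMap c => exact ⟨algebraMap A.F A.D c, NC.algebraMap_eq c⟩
    | add g₁ g₂ _ _ h₁ h₂ =>
      obtain ⟨d₁, rfl⟩ := h₁
      obtain ⟨d₂, rfl⟩ := h₂
      exact ⟨d₁ + d₂, (map_add _ _ _).symm⟩
    | mul g₁ g₂ _ _ h₁ h₂ =>
      obtain ⟨d₁, rfl⟩ := h₁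
      obtain ⟨d₂, rfl⟩ := h₂
      exact ⟨d₁ * d₂, (map_mul _ _ _).symm⟩
  have hb : v * a * v' = NC.C ((v * a * v') []) := by
    apply NC.ext'; intro w
    obtain ⟨g, hg, hgw⟩ := hcl (w.length + 1)
    obtain ⟨d, rfl⟩ := hconst g hg
    rw [hgw w (Nat.lt_succ_self _), hgw [] (by simp)]
    rw [NC.C_nil]
  have halg : IsAlgebraic A.F ((v * a * v') []) := Algebra.IsAlgebraic.isAlgebraic _
  have halg' : IsAlgebraic A.F (v * a * v') := by
    obtain ⟨p, hp0, hp⟩ := halg
    refine ⟨p, hp0, ?_⟩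
    rw [hb]
    have : ∀ d : A.D, Polynomial.aeval (NC.C d : NC (Fin m) A.D) p =
        NC.C (Polynomial.aeval d p) := by
      intro d
      rw [Polynomial.aeval_eq_sum_range, Polynomial.aeval_eq_sum_range, map_sum]
      refine Finset.sum_congr rfl fun i _ => ?_
      rw [Algebra.smul_def, Algebra.smul_def, map_mul, map_pow, NC.algebraMap_eq]
    rw [this, hp, map_zero]
  obtain ⟨p, hp0, hp⟩ := halg'
  refine ⟨p, hp0, ?_⟩
  have hpow : ∀ n : ℕ, (v * a * v') ^ n = v * a ^ n * v' := by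
    intro n
    induction n with
    | zero => rw [pow_zero, pow_zero, mul_one, hv]
    | succ n ih =>
      rw [pow_succ, ih, pow_succ]
      calc v * a ^ n * v' * (v * a * v') = v * a ^ n * (v' * v) * a * v' := by noncomm_ring
        _ = v * (a ^ n * a) * v' := by rw [hv']; noncomm_ring
  have hconj : Polynomial.aeval (v * a * v') p = v * Polynomial.aeval a p * v' := by
    rw [Polynomial.aeval_eq_sum_range, Polynomial.aeval_eq_sum_range, Finset.mul_sum,
      Finset.sum_mul]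
    refine Finset.sum_congr rfl fun i _ => ?_
    rw [hpow, mul_smul_comm, smul_mul_assoc]
  calc Polynomial.aeval a p = (v' * v) * Polynomial.aeval a p * (v' * v) := by
        rw [hv', one_mul, mul_one]
    _ = v' * (v * Polynomial.aeval a p * v') * v := by noncomm_ring
    _ = 0 := by rw [← hconj, hp, mul_zero, zero_mul]

/-- start: conjugate `a` to `a[] + γ` with `γ` commuting with `a[]` -/
theorem RS.start {P : (A : DA) → (m : ℕ) → NC (Fin m) A.D → Prop}
    {A : DA} {m : ℕ} (a : NC (Fin m) A.D) (ha : P A m a) :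
    ∃ γ : NC (Fin m) A.D, RS P A m (Algebra.adjoin A.F {a []}) γ := by
  obtain ⟨S⟩ := ConjNF.exists_splitData (F := A.F) (a [])
  obtain ⟨U, V, hUV, hVU, hU, hV, h0, hc⟩ := ConjNF.conj_centralizer (a [])
    (fun r => ⟨S.π r, S.κ r, S.comm r, S.split r⟩) a rfl
  refine ⟨U * a * V - NC.C (a []), ?_, ?_, ?_, ?_⟩
  · intro b hb c hc'
    exact adjoin_comm_of (fun x hx y hy => by
      rw [Set.mem_singleton_iff.1 hx, Set.mem_singleton_iff.1 hy]) hb hc'
  · rw [NC.sub_apply, h0, NC.C_nil, sub_self]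
  · intro w b hb
    refine adjoin_comm_elt ?_ hb
    intro x hx
    rw [Set.mem_singleton_iff.1 hx, NC.sub_apply, mul_sub, sub_mul, hc w]
    congr 1
    cases w with
    | nil => rfl
    | cons s w => rw [NC.C_cons, mul_zero, zero_mul]
  · refine ⟨a, U, V, hUV, hVU, ha, fun k => ⟨U * a * V, ?_, fun w _ => rfl⟩⟩
    have e : U * a * V = NC.C (a []) + (U * a * V - NC.C (a [])) := by abel
    rw [e]
    refine Subalgebra.add_mem _ (Algebra.subset_adjoin (Or.inl ⟨a [], ?_, rfl⟩))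
      (Algebra.subset_adjoin (Or.inr ?_))
    · exact Algebra.subset_adjoin rfl
    · simp

end Crest.Agent.R180
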