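import Crest.Agent.R180.MinDefs2
import Crest.Agent.R180.ModR
import Crest.Agent.R180.ModD

set_option autoImplicit false
noncomputable section
namespace Crest.Agent.R180

open TensorProduct

/-! # Row 180, ROUTE M (note 4871): INTERFACE (never import in final proofs).
Each block is to be proved in its own file with the same names and statements; the assembly at the
end is checked. -/

variable {P : (A : DA) → (m : ℕ) → NC (Fin m) A.D → Prop}

/-! ## (T) MinTaylor.lean : expansions of evaluations -/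

section Taylor
variable {A : DA} (M : Adm A) {m : ℕ}

theorem ev_rec (z : Fin m → PowerSeries M.E) (hz : ∀ j, PowerSeries.constantCoeff (z j) = 0)
    (f : NC (Fin m) A.D) : M.ev z f = PowerSeries.C (M.jD (f [])) +
      ∑ j, PowerSeries.map M.jE (z j) * M.ev z (NC.ld j f) := sorry

theorem dv_rec (z v : Fin m → PowerSeries M.E) (hz : ∀ j, PowerSeries.constantCoeff (z j) = 0)
    (f : NC (Fin m) A.D) : M.dv z v f =
      ∑ j, (PowerSeries.map M.jE (v j) * M.ev z (NC.ld j f) +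
        PowerSeries.map M.jE (z j) * M.dv z v (NC.ld j f)) := sorry

theorem d2_rec (z v v' : Fin m → PowerSeries M.E) (hz : ∀ j, PowerSeries.constantCoeff (z j) = 0)
    (f : NC (Fin m) A.D) : M.d2 z v v' f =
      ∑ j, (PowerSeries.map M.jE (v j) * M.dv z v' (NC.ld j f) +
        PowerSeries.map M.jE (z j) * M.d2 z v v' (NC.ld j f)) := sorry

/-- coefficients of the total evaluation in terms of `ev`, `dv`, `d2` -/
theorem hT_nil {μ : ℕ} (X : Fin m → NC (Fin μ) (PowerSeries M.E))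
    (hX : ∀ j, PowerSeries.constantCoeff (X j []) = 0) (f : NC (Fin m) A.D) :
    M.hT X f [] = M.ev (fun j => X j []) f := sorry
theorem hT_single {μ : ℕ} (X : Fin m → NC (Fin μ) (PowerSeries M.E))
    (hX : ∀ j, PowerSeries.constantCoeff (X j []) = 0) (f : NC (Fin m) A.D) (i : Fin μ) :
    M.hT X f [i] = M.dv (fun j => X j []) (fun j => X j [i]) f := sorry
theorem hT_pair {μ : ℕ} (X : Fin m → NC (Fin μ) (PowerSeries M.E))
    (hX : ∀ j, PowerSeries.constantCoeff (X j []) = 0) (f : NC (Fin m) A.D) (i k : Fin μ)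
    (h2 : ∀ j, X j [i, k] = 0) : M.hT X f [i, k] =
      M.d2 (fun j => X j []) (fun j => X j [i]) (fun j => X j [k]) f := sorry

/-- leading term at a point of order `≥ a` -/
theorem ev_lead (z : Fin m → PowerSeries M.E) (a : ℕ) (ha : 1 ≤ a)
    (hz : ∀ j, ∃ y, z j = PowerSeries.X ^ a * y) (f : NC (Fin m) A.D) (hf : f [] = 0) :
    ∃ y, M.ev z f = M.l1 z f + PowerSeries.X ^ (2 * a) * y := sorry

theorem ev_add (z h : Fin m → PowerSeries M.E) (a b : ℕ) (ha : 1 ≤ a) (hab : a ≤ b)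
    (hz : ∀ j, ∃ y, z j = PowerSeries.X ^ a * y) (hh : ∀ j, ∃ y, h j = PowerSeries.X ^ b * y)
    (f : NC (Fin m) A.D) :
    ∃ y, M.ev (fun j => z j + h j) f = M.ev z f + M.l1 h f + PowerSeries.X ^ (a + b) * y := sorry

theorem dv_lead (z v : Fin m → PowerSeries M.E) (a b : ℕ) (ha : 1 ≤ a)
    (hz : ∀ j, ∃ y, z j = PowerSeries.X ^ a * y) (hv : ∀ j, ∃ y, v j = PowerSeries.X ^ b * y)
    (f : NC (Fin m) A.D) : ∃ y, M.dv z v f = M.l1 v f + PowerSeries.X ^ (a + b) * y := sorry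

theorem dv_congr (z h v : Fin m → PowerSeries M.E) (b c : ℕ) (hc : 1 ≤ c)
    (hz : ∀ j, PowerSeries.constantCoeff (z j) = 0)
    (hh : ∀ j, ∃ y, h j = PowerSeries.X ^ c * y) (hv : ∀ j, ∃ y, v j = PowerSeries.X ^ b * y)
    (f : NC (Fin m) A.D) :
    ∃ y, M.dv (fun j => z j + h j) v f = M.dv z v f + PowerSeries.X ^ (b + c) * y := sorry

theorem dv_add (z v v' : Fin m → PowerSeries M.E) (hz : ∀ j, PowerSeries.constantCoeff (z j) = 0)
    (f : NC (Fin m) A.D) : M.dv z (fun j => v j + v' j) f = M.dv z v f + M.dv z v' f := sorry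
/-- inner directions -/
theorem dv_inner (z : Fin m → PowerSeries M.E) (hz : ∀ j, PowerSeries.constantCoeff (z j) = 0)
    (g : PowerSeries M.E) (f : NC (Fin m) A.D) : M.dv z (fun j => g * z j - z j * g) f =
      PowerSeries.map M.jE g * M.ev z f - M.ev z f * PowerSeries.map M.jE g := sorry
/-- Euler direction -/
theorem dv_eul (z : Fin m → PowerSeries M.E) (hz : ∀ j, PowerSeries.constantCoeff (z j) = 0)
    (f : NC (Fin m) A.D) : M.dv z (fun j => eul (z j)) f = eul (M.ev z f) := sorry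

/-- composition -/
theorem ev_comp {n : ℕ} (X : Fin m → NC (Fin n) A.F) (hX : ∀ j, X j [] = 0)
    (z : Fin n → PowerSeries M.E) (hz : ∀ j, PowerSeries.constantCoeff (z j) = 0)
    (f : NC (Fin m) A.D) : M.ev (fun j => M.evE z (X j)) f = M.ev z (compD X f) := sorry
/-- `X_j(t^c p) = O(t^c)` -/
theorem evE_ord {n : ℕ} (X : NC (Fin n) A.F) (hX : X [] = 0) (c : ℕ) (hc : 1 ≤ c)
    (p : Fin n → M.E) :
    ∃ y, M.evE (fun i => PowerSeries.X ^ c * PowerSeries.C (p i)) X = PowerSeries.X ^ c * y := sorry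
/-- leading term of an evaluation at `t^c p` -/
theorem ev_hom {n : ℕ} (g : NC (Fin n) A.D) (k c : ℕ) (hc : 1 ≤ c)
    (hg : ∀ w : List (Fin n), w.length < k → g w = 0) (p : Fin n → M.E) :
    ∃ y, M.ev (fun i => PowerSeries.X ^ c * PowerSeries.C (p i)) g =
      PowerSeries.X ^ (c * k) * (PowerSeries.C (M.homv k p g) + PowerSeries.X ^ c * y) := sorry

end Taylor

/-! ## (P) MinPoint.lean : the base points of types I/II and III -/

/-- (owner of PolFun) generation by a small perturbation -/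
theorem exists_genPt {A : DA} {N : ℕ} (M : PE A N) {m : ℕ} (hm : 2 ≤ m)
    (z : Fin m → PowerSeries M.E) (hz : ∀ j, PowerSeries.constantCoeff (z j) = 0) (B : ℕ)
    (hB : 1 ≤ B) : ∃ h : Fin m → PowerSeries M.E, (∀ j, ∃ y, h j = PowerSeries.X ^ B * y) ∧
      GenPt M.toAdm (fun j => z j + h j) := sorry

theorem exists_pt12 {A : DA} {N m : ℕ} (hm : 2 ≤ m) (γ : NC (Fin m) A.D) (hγ : γ [] = 0)
    (M : PE A N) (X : Fin m → NC (Fin 2) A.F) (hX : ∀ j, X j [] = 0) (k : ℕ) (hk : 2 ≤ k)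
    (hr : ∀ w : List (Fin 2), w.length < k → compD X γ w = 0) (p : Fin 2 → M.E)
    (s : M.E) (u : A.D) (hu : u ∈ UU γ) :
    ∃ z, Pt12 γ M.toAdm k s u (M.homv k p (compD X γ)) z := sorry

theorem exists_pt3 {A : DA} {N m : ℕ} (hm : 2 ≤ m) (γ : NC (Fin m) A.D) (hγ : γ [] = 0)
    (M : PE A N) (X : Fin m → NC (Fin 2) A.F) (hX : ∀ j, X j [] = 0) (k : ℕ) (hk : 2 ≤ k)
    (hr : ∀ w : List (Fin 2), w.length < k → compD X γ w = 0) (p : Fin 2 → M.E)
    (l0 : M.L) {r : ℕ} (u : A.D) (hu : u ∈ UU γ) (b : Fin r → A.D) (hb : ∀ i, b i ∈ UU γ) :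
    ∃ z, Pt3 γ M k l0 u b (M.homv k p (compD X γ)) z := sorry

/-- type III point with `ρ = 0`, `k = 2` (used to start (III), (IV), (VI)) -/
theorem exists_pt3_zero {A : DA} {N m : ℕ} (hm : 2 ≤ m) (γ : NC (Fin m) A.D) (hγ : γ [] = 0)
    (M : PE A N) (l0 : M.L) {r : ℕ} (u : A.D) (hu : u ∈ UU γ) (b : Fin r → A.D)
    (hb : ∀ i, b i ∈ UU γ) : ∃ z, Pt3 γ M 2 l0 u b 0 z := by
  have h := exists_pt3 hm γ hγ M (fun _ => 0) (fun _ => rfl) 2 le_rfl
    (fun w _ => sorry) (fun _ => 0) l0 u hu b hb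
  sorry

/-! ## (G) existence of extensions -/

theorem exists_PE (A : DA) (n : ℕ) : ∃ N, n < N ∧ Nonempty (PE A N) := sorry
theorem exists_trivialAdm (A : DA) : ∃ M : Adm A,
    Function.Bijective (algebraMap A.F M.F1) ∧ Function.Bijective (algebraMap M.F1 M.E) := sorry

/-! ## (STEP) MinStep.lean -/

theorem exists_step (hP : MoveClosed P) {A : DA} {m : ℕ} (hm : 2 ≤ m) {Λ : Subalgebra A.F A.D}
    {γ : NC (Fin m) A.D} (h : RS P A m Λ γ) (M : Adm A) (z : Fin m → PowerSeries M.E)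
    (hz : GenPt M z) : Nonempty (Step P Λ γ M z) := sorry

/-- consequence: modulo `[c₀, ·]` every derivative is a value of `γ'₁` -/
theorem Step.exists_T {A : DA} {m : ℕ} {Λ : Subalgebra A.F A.D} {γ : NC (Fin m) A.D} {M : Adm A}
    {z : Fin m → PowerSeries M.E} (hz : GenPt M z) (st : Step P Λ γ M z)
    (v : Fin m → PowerSeries M.E) : ∃ T ∈ st.U, ∃ x : LD M.D0,
      T = LD.ofPS (M.dv z v γ) -
        (LD.ofPS (M.ev z γ) * x - x * LD.ofPS (M.ev z γ)) := sorry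

theorem exists_isTr (A : DA) : ∃ t : A.D →ₗ[A.F] A.F, IsTr t := sorry

/-- the trace functional after a move -/
theorem isTr_mv {A : DA} (M : Adm A) {t : A.D →ₗ[A.F] A.F} (ht : IsTr t)
    {tE : M.E →ₗ[M.F1] M.F1} (htE : (∀ x y, tE (x * y) = tE (y * x)) ∧ tE 1 ≠ 0) :
    IsTr (F := (A.mv M).F) (D := (A.mv M).D) (LD.mapL (M.tt tE t)) := sorry

theorem exists_isTrE {A : DA} (M : Adm A) : ∃ tE : M.E →ₗ[M.F1] M.F1,
    (∀ x y, tE (x * y) = tE (y * x)) ∧ tE 1 ≠ 0 := sorry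

/-- liveness is inherited -/
theorem Step.live {A : DA} {m : ℕ} {Λ : Subalgebra A.F A.D} {γ : NC (Fin m) A.D} {M : Adm A}
    {z : Fin m → PowerSeries M.E} (hz : GenPt M z) (st : Step P Λ γ M z) (h : Live Λ γ) :
    Live (A := A.mv M) (M.adj Λ (M.ev z γ)) st.γ' := sorry

/-- the new state -/
def Step.toSt {S : St P} {M : Adm S.A} {z : Fin S.m → PowerSeries M.E} (hz : GenPt M z)
    (st : Step P S.Λ S.γ M z) : St P where
  A := S.A.mv M
  m := st.μ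
  hm := by
    have h1 := st.hμ
    have h2 : 0 < Module.finrank M.F1 M.E := Module.finrank_pos
    have h3 := S.hm
    have h4 : 1 * 1 ≤ (S.m - 1) * Module.finrank M.F1 M.E :=
      Nat.mul_le_mul (by omega) h2
    omega
  Λ := M.adj S.Λ (M.ev z S.γ)
  γ := st.γ'
  rs := st.rs
  live := st.live hz S.live

/-! ## (A), (0) MinStart.lean -/

/-- (A) -/
theorem exists_live (hP : MoveClosed P) {A : DA} {m : ℕ} (hm : 2 ≤ m) {Λ : Subalgebra A.F A.D}
    {γ : NC (Fin m) A.D} (h : RS P A m Λ γ) (hγ : γ ≠ 0) : Nonempty (St P) := sorry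

/-- (0) -/
theorem St.Good1.lin_mem (hP : MoveClosed P) {S : St P} (h : S.Good1) :
    S.U ≤ Subalgebra.toSubmodule S.Λ := sorry

/-- dimension bounds at minimal states -/
theorem St.Good1.finrank_le {S : St P} (h : S.Good1) {M : Adm S.A} {N : ℕ}
    (hN : Module.finrank M.F1 M.E = N * N) {z : Fin S.m → PowerSeries M.E} (hz : GenPt M z)
    (st : Step P S.Λ S.γ M z) :
    Module.finrank (LF M.F1) st.Lam ≤ N * Module.finrank S.A.F S.Λ := sorry

theorem St.Good1.of_finrank {S : St P} (h : S.Good1) {M : Adm S.A} {N : ℕ}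
    (hN : Module.finrank M.F1 M.E = N * N) {z : Fin S.m → PowerSeries M.E} (hz : GenPt M z)
    (st : Step P S.Λ S.γ M z)
    (h' : N * Module.finrank S.A.F S.Λ ≤
      Module.finrank (LF M.F1) st.Lam) : (st.toSt hz).Good1 := sorry

theorem St.Good2.finrank_le {S : St P} (h : S.Good2) (hU : S.U ≤ Subalgebra.toSubmodule S.Λ)
    {M : Adm S.A} {N : ℕ}
    (hN : Module.finrank M.F1 M.E = N * N) {z : Fin S.m → PowerSeries M.E} (hz : GenPt M z)
    (st : Step P S.Λ S.γ M z) (h1 : (st.toSt hz).Good1)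
    (hU' : (st.toSt hz).U ≤ Subalgebra.toSubmodule (st.toSt hz).Λ) :
    Module.finrank (LF M.F1) st.Psi ≤
      N * Module.finrank S.A.F S.Psi := sorry

theorem St.Good2.of_finrank {S : St P} (h : S.Good2) (hU : S.U ≤ Subalgebra.toSubmodule S.Λ)
    {M : Adm S.A} {N : ℕ}
    (hN : Module.finrank M.F1 M.E = N * N) {z : Fin S.m → PowerSeries M.E} (hz : GenPt M z)
    (st : Step P S.Λ S.γ M z) (h1 : (st.toSt hz).Good1)
    (hU' : (st.toSt hz).U ≤ Subalgebra.toSubmodule (st.toSt hz).Λ)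
    (h' : N * Module.finrank S.A.F S.Psi ≤
      Module.finrank (LF M.F1) st.Psi) : (st.toSt hz).Good2 := sorry

/-! ## general facts about `Λ`, `Ψ`, `𝓗` at a state -/

theorem PE.finrank_E {A : DA} {N : ℕ} (M : PE A N) : Module.finrank M.F1 M.E = N * N := sorry

theorem St.U_ne (S : St P) : ∃ u ∈ S.U, u ≠ 0 := sorry

/-- inverses in `Λ` -/
theorem St.exists_inv (S : St P) {u : S.A.D} (hu : u ∈ S.Λ) (h0 : u ≠ 0) :
    ∃ u' ∈ S.Λ, u * u' = 1 ∧ u' * u = 1 := sorry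

theorem St.psi_le (S : St P) (hU : S.U ≤ Subalgebra.toSubmodule S.Λ) : S.Psi ≤ S.Λ := sorry

/-- `b = a ψ` for `a, b ∈ U`, `a ≠ 0` -/
theorem St.mem_U_mul (S : St P) (hU : S.U ≤ Subalgebra.toSubmodule S.Λ) {a b : S.A.D}
    (ha : a ∈ S.U) (h0 : a ≠ 0) (hb : b ∈ S.U) : ∃ ψ ∈ S.Psi, b = a * ψ := sorry

/-- `dim 𝓗 = dim Ψ - dim U` -/
theorem St.finrank_HH (S : St P) (hU : S.U ≤ Subalgebra.toSubmodule S.Λ)
    {t : S.A.D →ₗ[S.A.F] S.A.F} (ht : IsTr t) :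
    Module.finrank S.A.F (HH t S.U) = S.sd ∧
      Module.finrank S.A.F S.U ≤ Module.finrank S.A.F S.Psi := sorry

/-- biduality: what is killed by `𝓗` is in `U` -/
theorem St.mem_U_of_HH (S : St P) (hU : S.U ≤ Subalgebra.toSubmodule S.Λ)
    {t : S.A.D →ₗ[S.A.F] S.A.F} (ht : IsTr t) {u : S.A.D} (hu : u ∈ S.U) (h0 : u ≠ 0)
    (x : S.A.D) (hx : ∃ ψ ∈ S.Psi, x = u * ψ) (hh : ∀ h ∈ HH t S.U, t (h * x) = 0) :
    x ∈ S.U := sorry

/-! ## (I), (II) MinOne.lean (helper180 / helper259; core in MinI.lean) -/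

/-- (I) -/
theorem minI (hP : MoveClosed P) {S : St P} (h : S.Good1) (X : Fin S.m → NC (Fin 2) S.A.F)
    (hX : ∀ j, X j [] = 0) (k : ℕ) (hk : 2 ≤ k)
    (hr : ∀ w : List (Fin 2), w.length < k → compD X S.γ w = 0) (w : List (Fin 2))
    (hw : w.length = k) : compD X S.γ w ∈ S.Λ := sorry

/-- (II) -/
theorem minII (hP : MoveClosed P) {S : St P} (h : S.Good2) (X : Fin S.m → NC (Fin 2) S.A.F)
    (hX : ∀ j, X j [] = 0) (k : ℕ) (hk : 2 ≤ k)
    (hr : ∀ w : List (Fin 2), w.length < k → compD X S.γ w = 0) (w : List (Fin 2))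
    (hw : w.length = k) (u : S.A.D) (hu : u ∈ S.U) (h0 : u ≠ 0) :
    ∃ ψ ∈ S.Psi, compD X S.γ w = u * ψ := sorry

/-! ## (III) MinIII.lean -/

/-- conclusions of the move lemma -/
structure C3 {S : St P} {N : ℕ} (M : PE S.A N) {z : Fin S.m → PowerSeries M.E}
    (hz : GenPt M.toAdm z) (st : Step P S.Λ S.γ M.toAdm z) (t : S.A.D →ₗ[S.A.F] S.A.F)
    (tE : M.E →ₗ[M.F1] M.F1) (u' : S.A.D) (ρ : M.D0) : Prop where
  g2 : (st.toSt hz).Good2
  resLam : LD.resSp (Subalgebra.toSubmodule st.Lam) = Subalgebra.toSubmodule (M.psiL S.Λ)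
  resPsi : LD.resSp (Subalgebra.toSubmodule st.Psi) = Subalgebra.toSubmodule (M.psiL S.Psi)
  resH : ∀ x ∈ st.H t tE, LD.IsInt x →
    x.co 0 ∈ Submodule.span M.F1 {y : M.D0 | ∃ (a : M.L) (h : S.A.D), h ∈ HH2 t S.U u' ∧
        y = M.j a ⊗ₜ[S.A.F] h} ⊔
      Submodule.span M.F1 {y : M.D0 | ∃ h ∈ HH t S.U, y = (1 : M.E) ⊗ₜ[S.A.F] h}
  rho : ∀ x ∈ st.H t tE, LD.IsInt x → M.tt tE t (x.co 0 * ρ) = 0
  /-- the residues of `U'` contain `L ⊗ U` -/
  resU : ∀ a ∈ S.U, ∀ l : M.L, (M.j l) ⊗ₜ[S.A.F] a ∈ LD.resSp st.U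

theorem minIII (hP : MoveClosed P) {S : St P} (h : S.Good2) {N : ℕ} (M : PE S.A N)
    (l0 : M.L) (hl0 : Algebra.adjoin M.F1 ({l0} : Set M.L) = ⊤) (k : ℕ) (hk : 2 ≤ k)
    (u u' : S.A.D) (hu : u ∈ S.U) (huu' : u * u' = 1) {r : ℕ} (hrN : r < N)
    (b : Fin r → S.A.D) (hb : Submodule.span S.A.F (Set.range b) = S.U)
    (ρ : M.D0) {z : Fin S.m → PowerSeries M.E} (hz : Pt3 S.γ M k l0 u b ρ z)
    (st : Step P S.Λ S.γ M.toAdm z) (t : S.A.D →ₗ[S.A.F] S.A.F) (ht : IsTr t)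
    (tE : M.E →ₗ[M.F1] M.F1) (htE : (∀ x y, tE (x * y) = tE (y * x)) ∧ tE 1 ≠ 0) :
    C3 M hz.gp st t tE u' ρ := sorry

/-! ## (IV) MinIV.lean -/

/-- the index drops by one -/
theorem minIV {S : St P} (h : S.Good2) {N : ℕ} (M : PE S.A N) (hN : 2 ≤ N)
    {z : Fin S.m → PowerSeries M.E} (hz : GenPt M.toAdm z) (st : Step P S.Λ S.γ M.toAdm z)
    (t : S.A.D →ₗ[S.A.F] S.A.F) (ht : IsTr t) (tE : M.E →ₗ[M.F1] M.F1)
    (htE : (∀ x y, tE (x * y) = tE (y * x)) ∧ tE 1 ≠ 0) (u u' : S.A.D) (hu : u ∈ S.U)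
    (huu' : u * u' = 1) (ρ : M.D0) (hC : C3 M hz st t tE u' ρ) (q p : ℕ) (hq : S.Full q)
    (hqp : q ≤ p + 1) (hp : 2 ≤ p) : (st.toSt hz).Full p := sorry

theorem exists_good4 (hP : MoveClosed P) (h : Nonempty (St P)) : ∃ S : St P, S.Good4 := sorry

/-! ## (V) MinV.lean -/

theorem minV (hP : MoveClosed P) {S : St P} (h : S.Good4) (t : S.A.D →ₗ[S.A.F] S.A.F)
    (ht : IsTr t) (X : Fin S.m → NC (Fin 2) S.A.F)
    (hX : ∀ j, X j [] = 0) (k : ℕ) (hk : 2 ≤ k)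
    (hr : ∀ w : List (Fin 2), w.length < k → compD X S.γ w = 0) (η : S.A.D)
    (hη : η ∈ HH t S.U) (w : List (Fin 2)) (hw : w.length = k) :
    ∑ i ∈ Finset.range k, t (η * compD X S.γ (w.rotate i)) = 0 := sorry

/-! ## (VI) MinVI.lean -/

/-- nondegenerate minimal states: all `q_h`, `0 ≠ h ∈ 𝓗`, have large rank on `V = ker γ₁` -/
def St.NDeg (S : St P) : Prop :=
  S.Good4 ∧ S.sd + 2 ≤ Module.finrank S.A.F (LinearMap.ker (lin S.γ)) ∧
  ∃ t : S.A.D →ₗ[S.A.F] S.A.F, IsTr t ∧ ∀ h ∈ HH t S.U, h ≠ 0 →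
    3 * S.sd ≤ brk (qH S.γ t h) (LinearMap.ker (lin S.γ))

/-- first move: make `d ≥ 2 s + 3` -/
theorem exists_big (hP : MoveClosed P) {S : St P} (h : S.Good4) (n : ℕ) :
    ∃ S' : St P, S'.Good4 ∧ S'.sd = S.sd ∧ n ≤ Module.finrank S'.A.F S'.Psi := sorry

theorem minVI (hP : MoveClosed P) {S : St P} (h : S.Good4)
    (hd : 2 * S.sd + 3 ≤ Module.finrank S.A.F S.Psi) : ∃ S' : St P, S'.NDeg := sorry

/-! ## (VII) MinVII.lean -/

theorem minVII (hP : MoveClosed P) {S : St P} (h : S.NDeg) :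
    ∃ (A' : DA) (Λ' : Subalgebra A'.F A'.D), RS P A' 2 Λ' 0 := sorry

/-! ## assembly -/

theorem St.reach_zero (hP : MoveClosed P) (h : Nonempty (St P)) :
    ∃ (A' : DA) (Λ' : Subalgebra A'.F A'.D), RS P A' 2 Λ' 0 := by
  obtain ⟨S, hS⟩ := exists_good4 hP h
  obtain ⟨S1, h1, h2, h3⟩ := exists_big hP hS (2 * S.sd + 3)
  obtain ⟨S2, h4⟩ := minVI hP h1 (by rw [h2]; exact h3)
  exact minVII hP h4

theorem theoremA : TheoremA := by
  intro F D _ _ _ _ _ _ _ 𝒜 h𝒜 a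
  let A₀ : DA := { F := F, D := D }
  let P := Reach A₀ 𝒜 a
  have hP : MoveClosed P := reach_moveClosed A₀ 𝒜 a
  have key : ∃ (A' : DA) (Λ' : Subalgebra A'.F A'.D), RS P A' 2 Λ' 0 := by
    have h0 : P A₀ 2 a := by
      refine ⟨RingHom.id _, RingHom.id _, fun c => rfl, rfl, ?_⟩
      have : (RingHom.id (NC (Fin 2) A₀.D) : NC (Fin 2) A₀.D → NC (Fin 2) A₀.D) ''
          (𝒜 : Set (NC (Fin 2) A₀.D)) = (𝒜 : Set (NC (Fin 2) A₀.D)) := by
        simp
      rw [this, Algebra.adjoin_eq]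
      exact h𝒜
    obtain ⟨γ, hγ⟩ := RS.start (A := A₀) a h0
    by_cases hz : γ = 0
    · subst hz; exact ⟨_, _, hγ⟩
    · exact St.reach_zero hP (exists_live hP le_rfl hγ hz)
  obtain ⟨A', Λ', hRS⟩ := key
  obtain ⟨a', ⟨i, h, h1, h2, h3⟩, halg⟩ := RS.final hRS
  refine ⟨A'.F, A'.D, A'.fF, A'.cz, A'.rD, A'.dD, A'.aD, A'.fd, A'.ce, i, h, h1, ?_, h3⟩
  rw [h2]; exact halg

end Crest.Agent.R180
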