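import Crest.Agent.R180.MinDefs

set_option autoImplicit false
noncomputable section
namespace Crest.Agent.R180

open TensorProduct

/-! # Row 180, ROUTE M: INTERFACE of MinAlg.lean (helper725). Never import in final files. -/

namespace PE
variable {A : DA} {N : ℕ} (M : PE A N)

theorem span_two (V1 V2 : Submodule A.F A.D) (hle : V2 ≤ V1) (y : M.D0)
    (h1 : ∀ l : A.D →ₗ[A.F] A.F, ∃ a : M.L, MinI.ellE (F1 := M.F1) M.E l y = M.j a)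
    (h2 : ∀ l : A.D →ₗ[A.F] A.F, (∀ h ∈ V1, l h = 0) → MinI.ellE (F1 := M.F1) M.E l y = 0)
    (h3 : ∀ l : A.D →ₗ[A.F] A.F, (∀ h ∈ V2, l h = 0) →
      ∃ c : M.F1, MinI.ellE (F1 := M.F1) M.E l y = algebraMap M.F1 M.E c) :
    y ∈ Submodule.span M.F1 {y : M.D0 | ∃ (a : M.L) (h : A.D), h ∈ V2 ∧ y = M.j a ⊗ₜ[A.F] h} ⊔
      Submodule.span M.F1 {y : M.D0 | ∃ h ∈ V1, y = (1 : M.E) ⊗ₜ[A.F] h} := sorry

theorem fix_of_comm {r : ℕ} (hr : r < N) (a : Fin r → M.L)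
    (h : ∑ i, M.j (a i) * M.u ^ (i.val + 1) = ∑ i, M.u ^ (i.val + 1) * M.j (a i)) (i : Fin r) :
    ∃ c : M.F1, algebraMap M.F1 M.L c = a i := sorry

theorem psiL_eq (Ξ : Subalgebra A.F A.D) (hc : ∀ a ∈ Ξ, ∀ b ∈ Ξ, a * b = b * a) :
    Subalgebra.toSubmodule (M.psiL Ξ) =
      Submodule.span M.F1 {y : M.D0 | ∃ (a : M.L) (h : A.D), h ∈ Ξ ∧ y = M.j a ⊗ₜ[A.F] h} := sorry

theorem finrank_psiL (Ξ : Subalgebra A.F A.D) (hc : ∀ a ∈ Ξ, ∀ b ∈ Ξ, a * b = b * a) :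
    Module.finrank M.F1 (M.psiL Ξ) = N * Module.finrank A.F Ξ := sorry

theorem W_eq (l0 : M.L) (hl0 : Algebra.adjoin M.F1 ({l0} : Set M.L) = ⊤)
    (Ξ : Subalgebra A.F A.D) (hc : ∀ a ∈ Ξ, ∀ b ∈ Ξ, a * b = b * a) :
    MinI.W (F1 := M.F1) (M.j l0) Ξ = Subalgebra.toSubmodule (M.psiL Ξ) := sorry

theorem finrank_adjoin_j (l0 : M.L) (hl0 : Algebra.adjoin M.F1 ({l0} : Set M.L) = ⊤) :
    Module.finrank M.F1 (Algebra.adjoin M.F1 ({M.j l0} : Set M.E)) = N := sorry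

theorem exists_gen : ∃ l0 : M.L, Algebra.adjoin M.F1 ({l0} : Set M.L) = ⊤ := sorry

theorem finrank_adjoin (s : M.E) (hs : s ∉ Set.range (algebraMap M.F1 M.E)) :
    Module.finrank M.F1 (Algebra.adjoin M.F1 ({s} : Set M.E)) = N := sorry

theorem span_noncentral :
    Submodule.span M.F1 {s : M.E | s ∉ Set.range (algebraMap M.F1 M.E)} = ⊤ := sorry

end PE

end Crest.Agent.R180
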