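import Crest.Agent.R180.Move

set_option autoImplicit false
noncomputable section
namespace Crest.Agent.R180

/-! INTERFACE (never import in final proofs). MODULE D (density) and MODULE R (representations). -/

/-- MODULE D (density): reachability is closed under good moves. -/
theorem reach_moveClosed (A₀ : DA) (𝒜 : Subalgebra A₀.F (NC (Fin 2) A₀.D))
    (a₀ : NC (Fin 2) A₀.D) : MoveClosed (Reach A₀ 𝒜 a₀) := sorry

/-- MODULE R: behaviour of representations under good moves. `c0` is the constant term of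
the image of `γ`; `w` conjugates the image to `c0 + γ'` with `γ'` commuting with `Λ` and `c0`. -/
theorem RS.move {P : (A : DA) → (m : ℕ) → NC (Fin m) A.D → Prop} (hP : MoveClosed P)
    {A : DA} {m : ℕ} {Λ : Subalgebra A.F A.D} {γ : NC (Fin m) A.D} (h : RS P A m Λ γ)
    (M : Adm A) {μ : ℕ} (X : Fin m → NC (Fin μ) (PowerSeries M.E)) (hX : Good' M X)
    (w w' γ' : NC (Fin μ) (A.mv M).D) (hw : w * w' = 1) (hw' : w' * w = 1)
    (hwΛ : ∀ v, ∀ a ∈ Λ, M.inc a * w v = w v * M.inc a)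
    (c0 : (A.mv M).D)
    (hconj : w * M.hX X hX.x0 γ * w' = NC.C c0 + γ')
    (hγ0 : γ' [] = 0)
    (hγΛ : ∀ v, ∀ a ∈ Λ, M.inc a * γ' v = γ' v * M.inc a)
    (hγc : ∀ v, c0 * γ' v = γ' v * c0)
    (hcΛ : ∀ a ∈ Λ, M.inc a * c0 = c0 * M.inc a) :
    RS P (A.mv M) μ (Algebra.adjoin (A.mv M).F
      (M.inc '' (Λ : Set A.D) ∪ {c0})) γ' := sorry

/-- end of the game: `γ = 0` means that `a` is algebraic -/
theorem RS.final {P : (A : DA) → (m : ℕ) → NC (Fin m) A.D → Prop}
    {A : DA} {m : ℕ} {Λ : Subalgebra A.F A.D} (h : RS P A m Λ 0) :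
    ∃ a : NC (Fin m) A.D, P A m a ∧ IsAlgebraic A.F a := sorry

/-- start: conjugate `a` to `a[] + γ` with `γ` commuting with `a[]` -/
theorem RS.start {P : (A : DA) → (m : ℕ) → NC (Fin m) A.D → Prop}
    {A : DA} {m : ℕ} (a : NC (Fin m) A.D) (ha : P A m a) :
    ∃ γ : NC (Fin m) A.D, RS P A m (Algebra.adjoin A.F {a []}) γ := sorry

end Crest.Agent.R180
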