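import Crest.Agent.R180.IfWin
import Crest.Agent.R180.IfMove

set_option autoImplicit false
noncomputable section
namespace Crest.Agent.R180

open TensorProduct

/-! INTERFACE (sorried; never import in final proofs). Existence of points and the PHASES. -/

/-! ### 5. Existence of points (file `RegPoint.lean`) -/

/-- the point used in Phases 1 and 2: `γ₁` central linear form with a coefficient `1`, `p` a form
of degree `k + 1` which is not a commutator with `γ₁`.  Then there is a good extension and a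
generating point `z` at which `θ = γ₁(z)` is regular and `p(z)` is not in `[θ, E ⊗ Γ]`. -/
theorem exists_regular_point (K Γ : Type) [Field K] [CharZero K] [HasRoots K] (m : ℕ)
    (hm : 2 ≤ m) [Ring Γ] [IsDomain Γ] [Algebra K Γ]
    [FiniteDimensional K Γ] (γ₁ : Fin m → Γ) (hcen : ∀ i a, a * γ₁ i = γ₁ i * a) (i₀ : Fin m)
    (h1 : γ₁ i₀ = 1) (k : ℕ) (p : (Fin (k + 1) → Fin m) → Γ)
    (hp : ¬ ∃ b : (Fin k → Fin m) → Γ, ∀ w : Fin (k + 1) → Fin m,
      p w = b (fun j => w j.castSucc) * γ₁ (w (Fin.last k)) - γ₁ (w 0) * b (fun j => w j.succ)) :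
    ∃ (G : GE K) (z : Fin m → G.E),
      Algebra.adjoin G.K₁ (Set.range z) = ⊤ ∧
      (∀ x : G.E ⊗[K] Γ, x * (∑ i, z i ⊗ₜ[K] γ₁ i) = (∑ i, z i ⊗ₜ[K] γ₁ i) * x →
        x ∈ Algebra.adjoin G.K₁ (insert (∑ i, z i ⊗ₜ[K] γ₁ i)
          (Set.range fun g : Γ => (1 : G.E) ⊗ₜ[K] g))) ∧
      ¬ ∃ x : G.E ⊗[K] Γ,
        ∑ w : Fin (k + 1) → Fin m, (List.ofFn fun j => z (w j)).prod ⊗ₜ[K] p w =
          x * (∑ i, z i ⊗ₜ[K] γ₁ i) - (∑ i, z i ⊗ₜ[K] γ₁ i) * x := sorry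

/-- nonvanishing at a generating point -/
theorem exists_nonvanish (K Γ : Type) [Field K] [CharZero K] [HasRoots K] (m : ℕ)
    (hm : 2 ≤ m) [Ring Γ] [Algebra K Γ] [FiniteDimensional K Γ] (k : ℕ)
    (p : (Fin k → Fin m) → Γ) (hp : p ≠ 0) :
    ∃ (G : GE K) (z : Fin m → G.E),
      Algebra.adjoin G.K₁ (Set.range z) = ⊤ ∧
      ∑ w : Fin k → Fin m, (List.ofFn fun j => z (w j)).prod ⊗ₜ[K] p w ≠ 0 := sorry

/-- the trivial good extension `E = K₁ = K` (files of helper684: `Cyc.lean`) -/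
theorem exists_triv (K : Type) [Field K] [CharZero K] : ∃ G : GE K,
    Function.Bijective (algebraMap K G.K₁) ∧ Function.Bijective (algebraMap G.K₁ G.E) := sorry

/-! ### 6. Phases -/

/-- PHASE 3 (file `Phase3.lean`, uses `Win.of_S`): `Φ` a finite field extension of `K` generated
by the linear coefficients of `γ`, one of which is `1`. -/
theorem phase3 (K Φ : Type) [Field K] [CharZero K] [HasRoots K] (m : ℕ) (hm : 2 ≤ m)
    [Ring Φ] [IsDomain Φ] [Algebra K Φ] [FiniteDimensional K Φ]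
    (hc : ∀ a b : Φ, a * b = b * a) (γ : NC (Fin m) Φ) (h0 : γ [] = 0) (i₀ : Fin m)
    (h1 : γ [i₀] = 1) (hgen : Algebra.adjoin K (Set.range fun i => γ [i]) = ⊤) :
    Win K m Φ γ := sorry

/-- PHASE 2 (file `Phase2.lean`, uses `phase3`) -/
theorem phase2 (K Φ : Type) [Field K] [CharZero K] [HasRoots K] (m : ℕ) (hm : 2 ≤ m)
    [Ring Φ] [IsDomain Φ] [Algebra K Φ] [FiniteDimensional K Φ]
    (hc : ∀ a b : Φ, a * b = b * a) (γ : NC (Fin m) Φ) (h0 : γ [] = 0) (i₀ : Fin m)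
    (h1 : γ [i₀] ≠ 0) : Win K m Φ γ := sorry

/-- PHASE 1 (file `Phase1.lean`, uses `phase2`) -/
theorem phase1 (K Γ : Type) [Field K] [CharZero K] [HasRoots K] (m : ℕ) (hm : 2 ≤ m)
    [Ring Γ] [IsDomain Γ] [Algebra K Γ] [FiniteDimensional K Γ]
    (γ : NC (Fin m) Γ) (h0 : γ [] = 0) (i₀ : Fin m) (h1 : γ [i₀] ≠ 0) : Win K m Γ γ := sorry

end Crest.Agent.R180
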