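import Crest.Agent.R180.PRSDef

set_option autoImplicit false
noncomputable section
namespace Crest.Agent.R180

/-! INTERFACE of MODULE S (never import in final proofs). -/

variable {P : (A : DA) → (m : ℕ) → NC (Fin m) A.D → Prop}

/-- (PRS.lean, helper213/259) behaviour of plain representations under good moves -/
theorem PRS.move (hP : MoveClosed P) {A : DA} {m : ℕ} {κ : Type} [Finite κ]
    {Θ : κ → NC (Fin m) A.F} (h : PRS P A m Θ) (M : Adm A) {μ : ℕ}
    (X : Fin m → NC (Fin μ) (PowerSeries M.E)) (hX : Good' M X) {β : Type} [Fintype β]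
    (e : Module.Basis β M.F1 M.E) (Θ' : κ × β → NC (Fin μ) (A.mv M).F)
    (h0 : ∀ p, Θ' p [] = 0)
    (hΘ' : ∀ c w, w ≠ [] → LD.ofPS ((M.hE0 X hX.x0 (Θ c)) w) =
      ∑ b, LF.toLD (Θ' (c, b) w) * (LD.C (e b) : LD M.E)) :
    PRS P (A.mv M) μ Θ' := sorry

/-- (PRS.lean) end of Theorem S -/
theorem PRS.final {A : DA} {m : ℕ} {κ : Type} {Θ : κ → NC (Fin m) A.F} (h : PRS P A m Θ)
    (hΘ : ∀ c, Θ c = 0) : ∃ a : NC (Fin m) A.D, P A m a ∧ IsAlgebraic A.F a := sorry

/-- (PRS.lean) from a representation to a plain one: all coefficients of `γ` in the span of the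
family `b`, with coordinates `Θ`. -/
theorem RS.toPRS {A : DA} {m : ℕ} {Λ : Subalgebra A.F A.D} {γ : NC (Fin m) A.D}
    (h : RS P A m Λ γ) {κ : Type} [Fintype κ] (b : κ → A.D) (Θ : κ → NC (Fin m) A.F)
    (h0 : ∀ c, Θ c [] = 0) (hγ : ∀ w, γ w = ∑ c, Θ c w • b c) : PRS P A m Θ := sorry

/-- (STr.lean) the trace functional and the generic pair of a generic cyclic algebra: if the
homogeneous series `R` of degree `N` has a nonzero cyclic sum then its value at the generic pair has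
nonzero trace; the generic pair generates. -/
theorem Cyc.exists_pair {A : DA} {N : ℕ} (hN : 2 ≤ N) (M : Cyc A N (Fin 2))
    (R : List (Fin 2) → A.F) (w : List (Fin 2)) (hw : w.length = N)
    (hR : ∑ k ∈ Finset.range N, R (w.rotate k) ≠ 0) :
    ∃ (p : Fin 2 → M.E) (tr : M.E →ₗ[M.F1] M.F1), (∀ x y, tr (x * y) = tr (y * x)) ∧
      Algebra.adjoin M.F1 (Set.range p) = ⊤ ∧
      tr (∑ v : Fin N → Fin 2, R (List.ofFn v) • (List.ofFn fun k => p (v k)).prod) ≠ 0 := sorry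

/-- (SGram.lean) Gram matrix estimate -/
theorem gram_rank {A : DA} (M : Adm A) (hM : M.RankGood) (tr : M.E →ₗ[M.F1] M.F1) (htr : tr ≠ 0)
    {m s μ r D : ℕ} (q : Fin s → Matrix (Fin m) (Fin m) A.F)
    (hq : ∀ c : Fin s → A.F, c ≠ 0 → r ≤ (∑ a, c a • q a).rank)
    (g : Fin s → M.E) (hg : g ≠ 0) (d : Fin μ → Fin m → M.E) (hd : LinearIndependent M.F1 d)
    (hD : m * Module.finrank M.F1 M.E ≤ μ + D) :
    r * Module.finrank M.F1 M.E ≤ (Matrix.of fun i j : Fin μ => tr (∑ k, ∑ l, ∑ a, q a k l •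
      (g a * (d i k * d j l)))).rank + 2 * D := sorry

/-- (from helper684, MODULE G) -/
theorem exists_cyc_rank (A : DA) (N : ℕ) (hN : 1 ≤ N) : ∃ M : Cyc A N (Fin 2),
    M.toAdm.RankGood := sorry

/-- (from helper684, MODULE G) the trivial extension -/
theorem exists_trivial_rank (A : DA) : ∃ M : Adm A,
    Function.Bijective (algebraMap A.F M.F1) ∧ Function.Bijective (algebraMap M.F1 M.E) ∧
      M.RankGood := sorry

/-- THEOREM S (SMain.lean) -/
theorem theoremS (hP : MoveClosed P) {A : DA} {m : ℕ} {κ : Type} [Fintype κ]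
    {Θ : κ → NC (Fin m) A.F} (h : PRS P A m Θ) (hcard : Fintype.card κ + 2 ≤ m)
    (hR : ∀ h : κ → A.F, h ≠ 0 → (∀ i, ∑ c, h c * Θ c [i] = 0) →
      4 * Fintype.card κ + 4 ≤ (Matrix.of fun i j : Fin m => ∑ c, h c * Θ c [i, j]).rank) :
    ∃ (A' : DA) (a' : NC (Fin 2) A'.D), P A' 2 a' ∧ IsAlgebraic A'.F a' := sorry

end Crest.Agent.R180
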