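import Crest.Agent.R180.HomDefs

set_option autoImplicit false
noncomputable section
namespace Crest.Agent.R180

open TensorProduct

/-! INTERFACE (sorried; never import in final proofs). Every theorem is to be proved under the same
name and statement in the file named in the comment. -/

/-! ### 1. Closure rules for `Win` (file `WinClosure.lean`) -/
section closure
variable {K : Type} [Field K] [CharZero K] {m : ℕ} {Γ : Type} [Ring Γ] [Algebra K Γ]

theorem Win.map {Γ' : Type} [Ring Γ'] [Algebra K Γ'] (g : Γ' →ₐ[K] Γ) (γ' : NC (Fin m) Γ')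
    (h : Win K m Γ' γ') : Win K m Γ (NC.map (g : Γ' →+* Γ) γ') := sorry

theorem Win.conj (v w : NC (Fin m) Γ) (h : v * w = 1) (h' : w * v = 1) (γ : NC (Fin m) Γ)
    (hs : Win K m Γ (v * γ * w)) : Win K m Γ γ := sorry

theorem Win.const_mul (c d : Γ) (hc : ∀ a : Γ, a * c = c * a) (hd : d * c = 1)
    (γ : NC (Fin m) Γ) (hs : Win K m Γ (NC.C c * γ)) : Win K m Γ γ := sorry

theorem Win.of_Hval (H : ℕ → Γ) (h0 : H 0 = 0) (h1 : H 1 = 1) (hH : ∀ n a, a * H n = H n * a)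
    (γ : NC (Fin m) Γ) (hγ : γ [] = 0) (hs : Win K m Γ (NC.Hval H γ)) : Win K m Γ γ := sorry

/-- limit form of the closure rules: it suffices that `γ` lies in the closure of `Z[γ₁]`, where
`γ₁` is conjugate ... (use `conj`, `of_Hval`). A zero representation wins. -/
theorem Win.zero (hm : 2 ≤ m) : Win K m Γ 0 := sorry

/-- Theorem S for `Win` (file `WinS.lean`, from helper41's theorem and `RS.toPRS`). -/
theorem Win.of_S [IsDomain Γ] [FiniteDimensional K Γ] (γ : NC (Fin m) Γ)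
    (hdim : Module.finrank K Γ + 2 ≤ m)
    (hrank : ∀ h : Γ →ₗ[K] K, h ≠ 0 → (∀ i, h (γ [i]) = 0) →
      4 * Module.finrank K Γ + 4 ≤ (Matrix.of fun i j => h (γ [i, j])).rank) :
    Win K m Γ γ := sorry

end closure

/-! ### 2. Moves for `Win` (file `WinMove.lean`) -/
section move
variable {K : Type} [Field K] [CharZero K] (G : GE K) {m μ : ℕ} {Γ : Type} [Ring Γ] [Algebra K Γ]

/-- general move, from `RS.move` and naturality of `mvh` in `Γ` -/
theorem Win.move (X : Fin m → NC (Fin μ) (PowerSeries G.E)) (hX : G.GoodX X)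
    (γ : NC (Fin m) Γ) {Γ' : Type} [Ring Γ'] [Algebra (LF G.K₁) Γ']
    (g : Γ' →ₐ[LF G.K₁] LD (G.E ⊗[K] Γ)) (γ' : NC (Fin μ) Γ')
    (w w' : NC (Fin μ) (LD (G.E ⊗[K] Γ))) (c0 : LD (G.E ⊗[K] Γ))
    (hw : w * w' = 1) (hw' : w' * w = 1) (hγ' : γ' [] = 0)
    (hc : ∀ x : Γ', c0 * g x = g x * c0)
    (h : w * G.mvh Γ X hX.x0 γ * w' = NC.C c0 + NC.map (g : Γ' →+* _) γ')
    (hwin : Win (LF G.K₁) μ Γ' γ') : Win K m Γ γ := sorry

/-- move followed by normalisation (`Norm.lean`) and conjugation by a unit `v` of `D'` -/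
theorem Win.state [IsDomain Γ] [FiniteDimensional K Γ]
    (X : Fin m → NC (Fin μ) (PowerSeries G.E)) (hX : G.GoodX X) (γ : NC (Fin m) Γ)
    (v v' : LD (G.E ⊗[K] Γ)) (hv : v * v' = 1) (hv' : v' * v = 1)
    (B : Subalgebra (LF G.K₁) (LD (G.E ⊗[K] Γ)))
    (hB : ∀ x ∈ B, v * G.mvh Γ X hX.x0 γ [] * v' * x = x * (v * G.mvh Γ X hX.x0 γ [] * v'))
    (γ' : NC (Fin μ) B) (h0 : γ' [] = 0)
    (hγ' : ∀ w : List (Fin μ), w ≠ [] →
      (γ' w : LD (G.E ⊗[K] Γ)) = v * normA (LF G.K₁) (G.mvh Γ X hX.x0 γ) w * v')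
    (hwin : Win (LF G.K₁) μ B γ') : Win K m Γ γ := sorry

/-- the same for homogeneous moves -/
theorem Win.hom [IsDomain Γ] [FiniteDimensional K Γ]
    (z : Fin m → G.E) (hz : Algebra.adjoin G.K₁ (Set.range z) = ⊤)
    (u : Fin μ → Fin m → G.E) (hu : G.Compl z u) (γ : NC (Fin m) Γ)
    (v v' : LD (G.E ⊗[K] Γ)) (hv : v * v' = 1) (hv' : v' * v = 1)
    (B : Subalgebra (LF G.K₁) (LD (G.E ⊗[K] Γ)))
    (hB : ∀ x ∈ B, v * G.hmv z u γ [] * v' * x = x * (v * G.hmv z u γ [] * v'))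
    (γ' : NC (Fin μ) B) (h0 : γ' [] = 0)
    (hγ' : ∀ w : List (Fin μ), w ≠ [] →
      (γ' w : LD (G.E ⊗[K] Γ)) = v * normA (LF G.K₁) (G.hmv z u γ) w * v')
    (hwin : Win (LF G.K₁) μ B γ') : Win K m Γ γ := sorry

end move

/-! ### 3. Homogeneous moves (file `HomMove.lean`, `MoveLemmas.lean`) -/
section hom
variable {K : Type} [Field K] (G : GE K) {m μ : ℕ} {Γ : Type} [Ring Γ] [Algebra K Γ]

theorem GE.Xhom_good (z : Fin m → G.E) (hz : Algebra.adjoin G.K₁ (Set.range z) = ⊤)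
    (u : Fin μ → Fin m → G.E) (hu : G.Compl z u) : G.GoodX (G.Xhom z u) := sorry

/-- `dim Inn(z) = dim E - 1` since `z` generates the central algebra `E` -/
theorem GE.exists_compl (hm : 1 ≤ m) (z : Fin m → G.E)
    (hz : Algebra.adjoin G.K₁ (Set.range z) = ⊤) :
    ∃ u : Fin ((m - 1) * G.dim + 1) → Fin m → G.E, G.Compl z u := sorry

theorem GE.hmv_neg (z : Fin m → G.E) (u : Fin μ → Fin m → G.E) (γ : NC (Fin m) Γ)
    (w : List (Fin μ)) (n : ℤ) (hn : n < 0) : (G.hmv z u γ w).co n = 0 := sorry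
theorem GE.hmv_nil (z : Fin m → G.E) (u : Fin μ → Fin m → G.E) (γ : NC (Fin m) Γ) (n : ℕ) :
    (G.hmv z u γ []).co n = G.hval z γ n := sorry
theorem GE.hmv_one (z : Fin m → G.E) (u : Fin μ → Fin m → G.E) (γ : NC (Fin m) Γ) (i : Fin μ)
    (n : ℕ) : (G.hmv z u γ [i]).co n = G.dval z (u i) γ n := sorry
theorem GE.hmv_two (z : Fin m → G.E) (u : Fin μ → Fin m → G.E) (γ : NC (Fin m) Γ) (i j : Fin μ)
    (n : ℕ) : (G.hmv z u γ [i, j]).co n = G.d2val z (u i) (u j) γ n := sorry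

theorem GE.dval_euler (z : Fin m → G.E) (γ : NC (Fin m) Γ) (n : ℕ) :
    G.dval z z γ n = n • G.hval z γ n := sorry
theorem GE.dval_inner (z : Fin m → G.E) (g : G.E) (γ : NC (Fin m) Γ) (n : ℕ) :
    G.dval z (fun j => g * z j - z j * g) γ n =
      (g ⊗ₜ[K] (1 : Γ)) * G.hval z γ n - G.hval z γ n * (g ⊗ₜ[K] (1 : Γ)) := sorry
theorem GE.dval_add (z x y : Fin m → G.E) (γ : NC (Fin m) Γ) (n : ℕ) :
    G.dval z (fun j => x j + y j) γ n = G.dval z x γ n + G.dval z y γ n := sorry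
theorem GE.dval_sum_smul (z : Fin m → G.E) (l : Fin μ → G.K₁) (u : Fin μ → Fin m → G.E)
    (γ : NC (Fin m) Γ) (n : ℕ) :
    G.dval z (fun j => ∑ i, l i • u i j) γ n = ∑ i, l i • G.dval z (u i) γ n := sorry
/-- the derivative in an arbitrary direction `y`, as an element of `D'`, is congruent modulo
`[c₀, D']` to a constant combination of the linear coefficients of the move -/
theorem GE.dval_compl [CharZero K] [IsDomain Γ] [FiniteDimensional K Γ]
    (z : Fin m → G.E) (u : Fin μ → Fin m → G.E) (hu : G.Compl z u) (γ : NC (Fin m) Γ)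
    (y : Fin m → G.E) (x : LD (G.E ⊗[K] Γ)) (hneg : ∀ n : ℤ, n < 0 → x.co n = 0)
    (hx : ∀ n : ℕ, x.co n = G.dval z y γ n) :
    ∃ l : Fin μ → G.K₁, cpi (LF G.K₁) (G.hmv z u γ []) x =
      ∑ i, LF.C (l i) • cpi (LF G.K₁) (G.hmv z u γ []) (G.hmv z u γ [i]) := sorry
/-- (N0) some linear coefficient of the new state is nonzero -/
theorem GE.exists_lin_ne [CharZero K] [IsDomain Γ] [FiniteDimensional K Γ]
    (z : Fin m → G.E) (u : Fin μ → Fin m → G.E) (hu : G.Compl z u) (γ : NC (Fin m) Γ)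
    (hγ : γ [] = 0) (hc : G.hmv z u γ [] ≠ 0) :
    ∃ i, normA (LF G.K₁) (G.hmv z u γ) [i] ≠ 0 := sorry

end hom

/-! ### 4. Leading terms (file `Lead.lean`) -/
section lead
variable {F A : Type} [Field F] [CharZero F] [Ring A] [IsDomain A] [Algebra F A]
  [FiniteDimensional F A]

/-- conjugation of a Laurent series into the Laurent series over the centraliser of its leading
coefficient -/
theorem exists_lau_conj (c : LD A) (k₀ : ℤ) (θ : A) (h0 : ∀ n < k₀, c.co n = 0)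
    (hθ : c.co k₀ = θ) :
    ∃ v v' : LD A, v * v' = 1 ∧ v' * v = 1 ∧
      (∀ n < (0 : ℤ), v.co n = 0 ∧ v'.co n = 0) ∧ v.co 0 = 1 ∧ v'.co 0 = 1 ∧
      (∀ n, θ * (v * c * v').co n = (v * c * v').co n * θ) ∧
      (v * c * v').co k₀ = θ ∧ (∀ n < k₀, (v * c * v').co n = 0) ∧
      ∀ (S : Subalgebra F A), θ ∈ S → ∀ k : ℤ, (∀ n < k, c.co n ∈ S) →
        (∀ n < k, (v * c * v').co n ∈ S) ∧
        (∃ s ∈ S, (v * c * v').co k = cpi F θ (c.co k) + s) ∧
        (∀ n < k - k₀, v.co n ∈ S ∧ v'.co n ∈ S) := sorry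

/-- residues of the centraliser of `c` when the coefficients of `c` below `k` are central in the
centraliser of the leading coefficient `θ` -/
theorem commute_residue (c : LD A) (k₀ : ℤ) (θ : A) (h0 : ∀ n < k₀, c.co n = 0)
    (hθ : c.co k₀ = θ) (hC : ∀ n, θ * c.co n = c.co n * θ) (k : ℤ)
    (hcen : ∀ n < k, ∀ a, θ * a = a * θ → c.co n * a = a * c.co n)
    (x : LD A) (hx : ∀ n < (0 : ℤ), x.co n = 0) (hcx : c * x = x * c) :
    θ * x.co 0 = x.co 0 * θ ∧ c.co k * x.co 0 = x.co 0 * c.co k := sorry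

/-- if the centraliser of `θ` is commutative, the centraliser of `c` is everything with
coefficients commuting with `θ` -/
theorem commute_iff_of_comm (c : LD A) (k₀ : ℤ) (θ : A) (h0 : ∀ n < k₀, c.co n = 0)
    (hθ : c.co k₀ = θ) (hC : ∀ n, θ * c.co n = c.co n * θ)
    (hcomm : ∀ a b, θ * a = a * θ → θ * b = b * θ → a * b = b * a) (x : LD A) :
    c * x = x * c ↔ ∀ n, θ * x.co n = x.co n * θ := sorry

/-- (constants lemma) a commutative subalgebra of `LD A` contains the residues of its integral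
elements as constants -/
theorem const_mem_of_integral (S : Subalgebra (LF F) (LD A))
    (hS : ∀ x ∈ S, ∀ y ∈ S, x * y = y * x)
    (hcomm : ∀ x ∈ S, ∀ y ∈ S, ∀ n k : ℤ, x.co n * y.co k = y.co k * x.co n)
    (x : LD A) (hx : x ∈ S) (hint : ∀ n < (0 : ℤ), x.co n = 0) :
    (LD.C (x.co 0) : LD A) ∈ S := sorry

end lead

end Crest.Agent.R180
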