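import Crest.Agent.R180.Lau

set_option autoImplicit false

/-!
# R180: INTERFACE (sorried statements, never imported by final proofs)

Every theorem below gets proved in the file named in its comment, under the same name; dependents
import `Iface` only while developing.
-/

open scoped TensorProduct

namespace Crest.Agent.R180

section Laurent   -- file `LauFacts.lean`

/-- Laurent series over a finite algebra are finite over Laurent series. -/
instance lau_finite (K₁ A : Type) [Field K₁] [Ring A] [Algebra K₁ A] [FiniteDimensional K₁ A] :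
    FiniteDimensional (Lau K₁) (Lau A) := sorry

instance good_fin (K K₁ E Γ : Type) [Field K] [Field K₁] [Algebra K K₁] [Ring E] [Algebra K₁ E]
    [Algebra K E] [IsScalarTower K K₁ E] [Good K K₁ E] [Ring Γ] [Algebra K Γ]
    [FiniteDimensional K Γ] : FiniteDimensional K₁ (E ⊗[K] Γ) := sorry

/-- `E((t))` is a good extension of `K` over `K₁((t))`. -/
theorem good_lau (K K₁ E : Type) [Field K] [CharZero K] [Field K₁] [Algebra K K₁] [Ring E]
    [Algebra K₁ E] [Algebra K E] [IsScalarTower K K₁ E] [Good K K₁ E] :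
    Good K (Lau K₁) (Lau E) := sorry

/-- transitivity: the composite of good extensions is good. -/
theorem good_trans (K K₁ E K₂ E₂ : Type) [Field K] [Field K₁] [Algebra K K₁] [Ring E]
    [Algebra K₁ E] [Algebra K E] [IsScalarTower K K₁ E] [Good K K₁ E]
    [Field K₂] [Algebra K₁ K₂] [Ring E₂] [Algebra K₂ E₂] [Algebra K₁ E₂] [IsScalarTower K₁ K₂ E₂]
    [Good K₁ K₂ E₂] [Algebra K K₂] [IsScalarTower K K₁ K₂] [Algebra K (E₂ ⊗[K₁] E)]
    [IsScalarTower K K₂ (E₂ ⊗[K₁] E)] :
    Good K K₂ (E₂ ⊗[K₁] E) := sorry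

end Laurent

section Existence  -- files `Quantum*.lean`, `RegPoint.lean`

/-- existence of good extensions of large degree with all properties used in Theorem S -/
theorem exists_TSX (K : Type) [Field K] [CharZero K] [HasRoots K] (n : ℕ)
    (R : List (Fin 2) → K) (w : List (Fin 2)) (hw : w.length = n) (hn : 0 < n)
    (hR : ∑ k ∈ Finset.range n, R (w.rotate k) ≠ 0) :
    ∃ (K₁ E : Type) (_ : Field K₁) (_ : Algebra K K₁) (_ : Ring E) (_ : Algebra K₁ E)
      (_ : Algebra K E) (_ : IsScalarTower K K₁ E) (_ : Good K K₁ E) (P Q : E) (tr : E →ₗ[K₁] K₁),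
      RankGood K K₁ E ∧ (∀ x y, tr (x * y) = tr (y * x)) ∧
      Algebra.adjoin K₁ ({P, Q} : Set E) = ⊤ ∧
      tr (∑ v : Fin n → Fin 2, R (List.ofFn v) • (List.ofFn fun k => ![P, Q] (v k)).prod) ≠ 0 := sorry

/-- the point used in Phases 1 and 2: `γ₁` central linear form with a coefficient `1`, `p` a form
of degree `k` which is not a commutator with `γ₁`.  Then there is a good extension and a generating
point `z` at which `θ = γ₁(z)` is regular and `p(z)` is not in `[θ, E ⊗ Γ]`. -/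
theorem exists_regular_point (K ι Γ : Type) [Field K] [CharZero K] [HasRoots K] [Fintype ι]
    [DecidableEq ι] (hι : 2 ≤ Fintype.card ι) [Ring Γ] [IsDomain Γ] [Algebra K Γ]
    [FiniteDimensional K Γ] (γ₁ : ι → Γ) (hcen : ∀ i a, a * γ₁ i = γ₁ i * a) (i₀ : ι)
    (h1 : γ₁ i₀ = 1) (k : ℕ) (p : (Fin (k + 1) → ι) → Γ)
    (hp : ¬ ∃ b : (Fin k → ι) → Γ, ∀ w : Fin (k + 1) → ι,
      p w = b (fun j => w j.castSucc) * γ₁ (w (Fin.last k)) - γ₁ (w 0) * b (fun j => w j.succ)) :
    ∃ (K₁ E : Type) (_ : Field K₁) (_ : Algebra K K₁) (_ : Ring E) (_ : Algebra K₁ E)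
      (_ : Algebra K E) (_ : IsScalarTower K K₁ E) (_ : Good K K₁ E) (z : ι → E),
      Algebra.adjoin K₁ (Set.range z) = ⊤ ∧
      (∀ x : E ⊗[K] Γ, x * (∑ i, z i ⊗ₜ[K] γ₁ i) = (∑ i, z i ⊗ₜ[K] γ₁ i) * x →
        x ∈ Algebra.adjoin K₁ (insert (∑ i, z i ⊗ₜ[K] γ₁ i)
          (Set.range fun g : Γ => (1 : E) ⊗ₜ[K] g))) ∧
      ¬ ∃ x : E ⊗[K] Γ,
        ∑ w : Fin (k + 1) → ι, (List.ofFn fun j => z (w j)).prod ⊗ₜ[K] p w =
          x * (∑ i, z i ⊗ₜ[K] γ₁ i) - (∑ i, z i ⊗ₜ[K] γ₁ i) * x := sorry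

end Existence

section TheoremS -- files `SOrd, SSolve, SStep, SMain` (helper41)

/-- all the series `Θ c` can be made constant simultaneously -/
def PlainSolvable (K ι κ : Type) [Field K] (Θ : κ → NC ι K) : Prop :=
  ∃ (K₁ E : Type) (_ : Field K₁) (_ : Algebra K K₁) (_ : Ring E) (_ : Algebra K₁ E)
    (_ : Algebra K E) (_ : IsScalarTower K K₁ E) (_ : Good K K₁ E)
    (φ : NC ι K →ₐ[K] NC (Fin 2) E), PD (K₁ := K₁) φ ∧ ∀ c, ∃ e : E, φ (Θ c) = NC.C e

theorem theoremS (K ι κ : Type) [Field K] [CharZero K] [HasRoots K] [Fintype ι] [DecidableEq ι]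
    [Fintype κ] [DecidableEq κ] (Θ : κ → NC ι K) (hcard : Fintype.card κ + 2 ≤ Fintype.card ι)
    (hrank : ∀ h : κ → K, h ≠ 0 → (∀ i, ∑ c, h c * (Θ c) [i] = 0) →
      4 * Fintype.card κ + 4 ≤ (Matrix.of fun i j => ∑ c, h c * (Θ c) [i, j]).rank) :
    PlainSolvable K ι κ Θ := sorry

end TheoremS

section Closure  -- file `Closure.lean`

variable {K ι Γ : Type} [Field K] [Ring Γ] [Algebra K Γ] [FiniteDimensional K Γ]

/-- conjugation -/
theorem Solvable.conj (v w : NC ι Γ) (h : v * w = 1) (h' : w * v = 1) (γ : NC ι Γ)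
    (hs : Solvable K ι Γ (v * γ * w)) : Solvable K ι Γ γ := sorry

/-- adding a central constant -/
theorem Solvable.add_const (c : Γ) (hc : ∀ a : Γ, a * c = c * a) (γ : NC ι Γ)
    (hs : Solvable K ι Γ (γ + NC.C c)) : Solvable K ι Γ γ := sorry

/-- multiplying by a central invertible constant -/
theorem Solvable.const_mul (c d : Γ) (hc : ∀ a : Γ, a * c = c * a) (hd : d * c = 1) (γ : NC ι Γ)
    (hs : Solvable K ι Γ (NC.C c * γ)) : Solvable K ι Γ γ := sorry

/-- change of coefficients along an algebra hom (in particular: shrinking to a subalgebra,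
and replacing `Γ` by an isomorphic algebra) -/
theorem Solvable.map {Γ' : Type} [Ring Γ'] [Algebra K Γ'] [FiniteDimensional K Γ']
    (f : Γ' →ₐ[K] Γ) (γ' : NC ι Γ') (hs : Solvable K ι Γ' γ') :
    Solvable K ι Γ (NC.mapAlg f γ') := sorry

/-- a constant is solvable (two letters at least) -/
theorem Solvable.const [Fintype ι] (hι : 2 ≤ Fintype.card ι) (c : Γ) :
    Solvable K ι Γ (NC.C c) := sorry

/-- the value at `γ` (`γ [] = 0`) of the commutative power series `H` with coefficients in `Γ`: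
the coefficient of the word `w` in `H(γ)` is the finite sum `Σ_{n ≤ |w|} H_n (γ^n)(w)`. -/
noncomputable def Hval (H : ℕ → Γ) (γ : NC ι Γ) : NC ι Γ :=
  ⟨fun w => ∑ n ∈ Finset.range (w.length + 1), H n * (γ ^ n) w⟩

/-- (C2') if `H(γ)` is solvable, so is `γ` (`H = X + c₂ X² + ⋯` with central coefficients,
`γ [] = 0`, `Γ` a division algebra of characteristic `0`). -/
theorem Solvable.of_Hval [CharZero K] [IsDomain Γ] (H : ℕ → Γ) (h0 : H 0 = 0) (h1 : H 1 = 1)
    (hH : ∀ n a, a * H n = H n * a) (γ : NC ι Γ) (hγ : γ [] = 0)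
    (hs : Solvable K ι Γ (Hval H γ)) : Solvable K ι Γ γ := sorry

end Closure

section Recenter   -- files `RecHom.lean` (hom + formula), `Jet.lean`, `Recenter.lean` (PD, C3)

variable {K K₁ E ι J : Type} [Field K] [Field K₁] [Algebra K K₁] [Ring E] [Algebra K₁ E]
  [Algebra K E] [IsScalarTower K K₁ E] [Good K K₁ E] [Fintype ι] [Fintype J] [DecidableEq J]

/-- (C3) homogeneous recentering `t_i ↦ ε (z i + Σ_j u j i · t_j)`. -/
theorem Solvable.recenter [CharZero K] (z : ι → E) (u : J → ι → E)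
    (hgen : Algebra.adjoin K₁ (Set.range z) = ⊤)
    (hu : LinearIndependent K₁ (fun j => (Inn K₁ z).mkQ (u j)))
    {Γ : Type} [Ring Γ] [IsDomain Γ] [Algebra K Γ] [FiniteDimensional K Γ] (γ : NC ι Γ)
    (hs : Solvable (Lau K₁) J (Lau (E ⊗[K] Γ)) (recc z u γ)) :
    Solvable K ι Γ γ := sorry

end Recenter

section Main

/-- PHASE 3 (file `Phase3.lean`, uses Theorem S): `Φ` a finite field extension of `K` generated by
the linear coefficients of `γ`, one of which is `1`. -/
theorem phase3 (K ι Φ : Type) [Field K] [CharZero K] [HasRoots K] [Fintype ι] [DecidableEq ι]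
    (hι : 2 ≤ Fintype.card ι) [Ring Φ] [IsDomain Φ] [Algebra K Φ] [FiniteDimensional K Φ]
    (hc : ∀ a b : Φ, a * b = b * a) (γ : NC ι Φ) (h0 : γ [] = 0) (i₀ : ι) (h1 : γ [i₀] = 1)
    (hgen : Algebra.adjoin K (Set.range fun i => γ [i]) = ⊤) : Solvable K ι Φ γ := sorry

/-- PHASE 2 (file `Phase2.lean`, uses phase3) -/
theorem phase2 (K ι Φ : Type) [Field K] [CharZero K] [HasRoots K] [Fintype ι] [DecidableEq ι]
    (hι : 2 ≤ Fintype.card ι) [Ring Φ] [IsDomain Φ] [Algebra K Φ] [FiniteDimensional K Φ]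
    (hc : ∀ a b : Φ, a * b = b * a) (γ : NC ι Φ) (h0 : γ [] = 0) (i₀ : ι) (h1 : γ [i₀] ≠ 0) :
    Solvable K ι Φ γ := sorry

/-- PHASE 1 (file `Phase1.lean`, uses phase2) -/
theorem phase1 (K ι Γ : Type) [Field K] [CharZero K] [HasRoots K] [Fintype ι] [DecidableEq ι]
    (hι : 2 ≤ Fintype.card ι) [Ring Γ] [IsDomain Γ] [Algebra K Γ] [FiniteDimensional K Γ]
    (γ : NC ι Γ) (h0 : γ [] = 0) (i₀ : ι) (h1 : γ [i₀] ≠ 0) :
    Solvable K ι Γ γ := sorry

/-- all series are solvable (file `Phase0.lean`: normal form + nonvanishing + phase1) -/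
theorem solvable_all (K ι Γ : Type) [Field K] [CharZero K] [HasRoots K] [Fintype ι]
    [DecidableEq ι] (hι : 2 ≤ Fintype.card ι) [Ring Γ] [IsDomain Γ] [Algebra K Γ]
    [FiniteDimensional K Γ] (γ : NC ι Γ) : Solvable K ι Γ γ := sorry

/-- file `Final.lean` -/
theorem theoremAR : TheoremAR := sorry

end Main

end Crest.Agent.R180
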