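import Crest.Agent.R180.Defs

set_option autoImplicit false

/-!
# R180: Laurent extensions and homogeneous recentering: DEFINITIONS (frozen interface)

* `Lau A` : Laurent series over `A` (= `HahnSeries ℤ A`, own type to avoid instance diamonds);
  `Lau.coeff`, `Lau.ofPS : PowerSeries A →+* Lau A`, `Lau.map`, algebra over `Lau R` and over `R`.
* `hev j n f Y` : value of the degree-`n` homogeneous part of `f` at the tuple `Y`.
* `lin z u`     : the tuple `z i + Σ_j u j i · t_j` in `NC J A`.
* `recc z u γ`   : `γ(ε (z + Σ u_j t_j))` as an element of `NC J (Lau (E ⊗[K] Γ))`.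
* `Inn z`       : the inner directions `([v, z i])_i`.
* `RankGood`    : rank inequality (G3)
-/

open scoped TensorProduct

namespace Crest.Agent.R180

/-- map of Hahn series as a ring hom (auxiliary) -/
noncomputable def hsMap {R A : Type} [Ring R] [Ring A] (f : R →+* A) :
    HahnSeries ℤ R →+* HahnSeries ℤ A where
  toFun x := HahnSeries.map x f
  map_one' := by
    ext n; by_cases h : n = 0
    · subst h; simp [HahnSeries.coeff_one]
    · simp [HahnSeries.coeff_one, h]
  map_zero' := by ext n; simp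
  map_add' x y := by ext n; simp
  map_mul' x y := by
    ext n
    simp only [HahnSeries.map_coeff, HahnSeries.coeff_mul, map_sum, map_mul]
    symm
    apply Finset.sum_subset
    · intro p hp
      simp only [Finset.mem_antidiagonal, HahnSeries.mem_support, HahnSeries.map_coeff] at hp ⊢
      refine ⟨fun h => hp.1 (by rw [h, map_zero]), fun h => hp.2.1 (by rw [h, map_zero]), hp.2.2⟩
    · intro p hp hp'
      simp only [Finset.mem_antidiagonal, HahnSeries.mem_support, HahnSeries.map_coeff] at hp hp'
      by_contra hne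
      apply hp'
      refine ⟨fun h => hne (by rw [h, zero_mul]), fun h => hne (by rw [h, mul_zero]), hp.2.2⟩

theorem hsMap_commute {R A : Type} [CommRing R] [Ring A] [Algebra R A] (c : HahnSeries ℤ R)
    (x : HahnSeries ℤ A) : hsMap (algebraMap R A) c * x = x * hsMap (algebraMap R A) c := by
  ext n
  have hc : ∀ m, (hsMap (algebraMap R A) c).coeff m = algebraMap R A (c.coeff m) := fun m => rfl
  simp only [HahnSeries.coeff_mul, hc]
  refine Finset.sum_bij (fun p _ => (p.2, p.1)) ?_ ?_ ?_ ?_
  · intro p hp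
    simp only [Finset.mem_antidiagonal, HahnSeries.mem_support] at hp ⊢
    exact ⟨hp.2.1, hp.1, by rw [add_comm]; exact hp.2.2⟩
  · intro p _ q _ h
    simp only [Prod.mk.injEq] at h
    exact Prod.ext h.2 h.1
  · intro p hp
    refine ⟨(p.2, p.1), ?_, rfl⟩
    simp only [Finset.mem_antidiagonal, HahnSeries.mem_support] at hp ⊢
    exact ⟨hp.2.1, hp.1, by rw [add_comm]; exact hp.2.2⟩
  · intro p _
    exact Algebra.commutes _ _

/-- Laurent series (own type) -/
def Lau (A : Type) [Zero A] : Type := HahnSeries ℤ A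

namespace Lau

noncomputable instance (A : Type) [Ring A] : Ring (Lau A) :=
  inferInstanceAs (Ring (HahnSeries ℤ A))

noncomputable instance (A : Type) [CommRing A] : CommRing (Lau A) :=
  inferInstanceAs (CommRing (HahnSeries ℤ A))

noncomputable instance (A : Type) [Field A] : Field (Lau A) :=
  inferInstanceAs (Field (HahnSeries ℤ A))

noncomputable instance (R A : Type) [CommRing R] [Ring A] [Algebra R A] : Algebra R (Lau A) :=
  inferInstanceAs (Algebra R (HahnSeries ℤ A))

instance (A : Type) [Ring A] [IsDomain A] : IsDomain (Lau A) :=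
  inferInstanceAs (IsDomain (HahnSeries ℤ A))

/-- the `n`-th coefficient -/
def coeff {A : Type} [Zero A] (x : Lau A) (n : ℤ) : A := HahnSeries.coeff x n

@[ext] theorem ext {A : Type} [Zero A] {x y : Lau A} (h : ∀ n, x.coeff n = y.coeff n) : x = y :=
  HahnSeries.ext (funext h)

section
variable {A : Type} [Ring A]

@[simp] theorem coeff_zero (n : ℤ) : (0 : Lau A).coeff n = 0 := rfl
@[simp] theorem coeff_add (x y : Lau A) (n : ℤ) : (x + y).coeff n = x.coeff n + y.coeff n := rfl
@[simp] theorem coeff_neg (x : Lau A) (n : ℤ) : (-x).coeff n = -x.coeff n := rfl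
@[simp] theorem coeff_sub (x y : Lau A) (n : ℤ) : (x - y).coeff n = x.coeff n - y.coeff n := rfl
theorem coeff_one (n : ℤ) : (1 : Lau A).coeff n = if n = 0 then 1 else 0 := by
  change HahnSeries.coeff (1 : HahnSeries ℤ A) n = _
  rw [HahnSeries.coeff_one]; split_ifs <;> rfl

/-- power series as Laurent series -/
noncomputable def ofPS : PowerSeries A →+* Lau A := HahnSeries.ofPowerSeries ℤ A

theorem ofPS_coeff (f : PowerSeries A) (n : ℕ) : (ofPS f).coeff n = PowerSeries.coeff n f :=
  HahnSeries.ofPowerSeries_apply_coeff f n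

/-- every Laurent series has order bounded below -/
theorem exists_bound (x : Lau A) : ∃ N : ℤ, ∀ n < N, x.coeff n = 0 := by
  by_cases hx : x = 0
  · exact ⟨0, fun n _ => by rw [hx]; rfl⟩
  · refine ⟨HahnSeries.order (show HahnSeries ℤ A from x), fun n hn => ?_⟩
    exact HahnSeries.coeff_eq_zero_of_lt_order hn

theorem coeff_mul (x y : Lau A) (n : ℤ) :
    (x * y).coeff n = ∑ p ∈ Finset.antidiagonal (HahnSeries.isPWO_support (show HahnSeries ℤ A from x))
      (HahnSeries.isPWO_support (show HahnSeries ℤ A from y)) n, x.coeff p.1 * y.coeff p.2 :=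
  HahnSeries.coeff_mul

end

/-- coefficientwise map as a ring hom -/
noncomputable def map {R A : Type} [Ring R] [Ring A] (f : R →+* A) : Lau R →+* Lau A := hsMap f

@[simp] theorem map_coeff {R A : Type} [Ring R] [Ring A] (f : R →+* A) (x : Lau R)
    (n : ℤ) : (map f x).coeff n = f (x.coeff n) := rfl

/-- `Lau A` is an algebra over `Lau R` when `A` is an algebra over `R`. -/
noncomputable instance algLau (R A : Type) [CommRing R] [Ring A] [Algebra R A] :
    Algebra (Lau R) (Lau A) :=
  RingHom.toAlgebra' (map (algebraMap R A)) (fun c x => hsMap_commute c x)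

theorem algebraMap_lau (R A : Type) [CommRing R] [Ring A] [Algebra R A] (c : Lau R) :
    algebraMap (Lau R) (Lau A) c = map (algebraMap R A) c := rfl

theorem algebraMap_coeff (R A : Type) [CommRing R] [Ring A] [Algebra R A] (c : R) (n : ℤ) :
    (algebraMap R (Lau A) c).coeff n = if n = 0 then algebraMap R A c else 0 := by
  change HahnSeries.coeff (algebraMap R (HahnSeries ℤ A) c) n = _
  rw [HahnSeries.algebraMap_apply, HahnSeries.C_apply, HahnSeries.coeff_single]
  split_ifs <;> rfl

instance tower (K K₁ E : Type) [Field K] [Field K₁] [Algebra K K₁] [Ring E]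
    [Algebra K₁ E] [Algebra K E] [IsScalarTower K K₁ E] :
    IsScalarTower K (Lau K₁) (Lau E) :=
  IsScalarTower.of_algebraMap_eq (R := K) (S := Lau K₁) (A := Lau E) (fun c => by
    ext n
    rw [algebraMap_lau, map_coeff, algebraMap_coeff, algebraMap_coeff]
    split_ifs with h
    · exact IsScalarTower.algebraMap_apply K K₁ E c
    · simp)

end Lau

section rec

variable {K ι J A R : Type}

/-- `hev j n f Y = Σ_{w : ι^n} j (f w) * Y_{w 0} ⋯ Y_{w (n-1)}` -/
noncomputable def hev [Ring A] [Ring R] [Fintype ι] (j : A →+* R) (n : ℕ) (f : NC ι A)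
    (Y : ι → R) : R :=
  ∑ w : Fin n → ι, j (f (List.ofFn w)) * (List.ofFn fun k => Y (w k)).prod

/-- the tuple `z i + Σ_j u j i · t_j` -/
noncomputable def lin [Ring A] [Fintype J] [DecidableEq J] (z : ι → A) (u : J → ι → A) :
    ι → NC J A :=
  fun i => NC.C (z i) + ∑ j, NC.C (u j i) * NC.X j

/-- inner directions at `z` -/
def Inn (K : Type) {ι E : Type} [Field K] [Ring E] [Algebra K E] (z : ι → E) :
    Submodule K (ι → E) :=
  LinearMap.range (LinearMap.pi (fun i =>
    (LinearMap.mulRight K (z i) - LinearMap.mulLeft K (z i) : E →ₗ[K] E)))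

theorem mem_Inn (K : Type) {ι E : Type} [Field K] [Ring E] [Algebra K E] (z y : ι → E) :
    y ∈ Inn K z ↔ ∃ v : E, ∀ i, y i = v * z i - z i * v := by
  constructor
  · rintro ⟨v, rfl⟩; exact ⟨v, fun i => rfl⟩
  · rintro ⟨v, h⟩; exact ⟨v, funext fun i => (h i).symm⟩

variable [Field K] [Fintype ι] [Fintype J] [DecidableEq J]

/-- `γ(ε (z + Σ u_j t_j))`, `γ ∈ Γ⟪ι⟫`, `z, u_j ∈ E^ι`: the coefficient at the word `v` is the
power series in `ε` whose `n`-th coefficient is the `v`-coefficient of `γ_n (z + Σ u_j t_j)`. -/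
noncomputable def recc {E : Type} [Ring E] [Algebra K E] {Γ : Type} [Ring Γ] [Algebra K Γ]
    (z : ι → E) (u : J → ι → E) (γ : NC ι Γ) : NC J (Lau (E ⊗[K] Γ)) :=
  ⟨fun v => Lau.ofPS (PowerSeries.mk fun n =>
    (hev (NC.C.comp
        ((Algebra.TensorProduct.includeRight : Γ →ₐ[K] E ⊗[K] Γ) : Γ →+* E ⊗[K] Γ)) n γ
      (lin (fun i => z i ⊗ₜ[K] (1 : Γ)) (fun j i => u j i ⊗ₜ[K] (1 : Γ)))) v)⟩

end rec

/-- (G3) rank inequality for a good extension (helper41's form). -/
def RankGood (K K₁ E : Type) [Field K] [Field K₁] [Ring E] [Algebra K₁ E] [Algebra K E] : Prop :=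
  ∀ (i j : Type) [Fintype i] [Fintype j] (s r : ℕ) (B : Fin s → Matrix j i K),
    (∀ c : Fin s → K, c ≠ 0 → r ≤ (∑ a, c a • B a).rank) →
    ∀ c : Fin s → E, c ≠ 0 → ∀ T : (i → E) →ₗ[K₁] (j → E),
      (∀ x b, T x b = ∑ k, ∑ a, B a b k • (c a * x k)) →
      r * Module.finrank K₁ E ≤ Module.finrank K₁ (LinearMap.range T)

end Crest.Agent.R180
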