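import Mathlib

set_option autoImplicit false

/-!
# Row 180: Laurent series over (possibly noncommutative) rings

`LF F` : Laurent series field over a field `F` (type synonym of `HahnSeries ℤ F`).
`LD K` : Laurent series ring over a ring `K` (type synonym, to avoid instance diamonds).
`LD K` is an algebra over `LF F` when `K` is an `F`-algebra.
-/

noncomputable section

namespace Crest.Agent.R180

open HahnSeries

/-- Laurent series over a ring (coefficient ring of the new stage). -/
def LD (K : Type) [Zero K] : Type := HahnSeries ℤ K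

/-- Laurent series over a field (scalar field of the new stage). -/
def LF (F : Type) [Zero F] : Type := HahnSeries ℤ F

/-- coefficientwise ring hom on Hahn series -/
def hmap {R S : Type} [Ring R] [Ring S] (φ : R →+* S) : HahnSeries ℤ R →+* HahnSeries ℤ S where
  toFun x := x.map φ
  map_one' := by
    ext n; simp [HahnSeries.coeff_one, apply_ite φ]
  map_zero' := by ext n; simp
  map_add' x y := by ext n; simp
  map_mul' x y := HahnSeries.map_mul (φ : R →ₙ+* S)

namespace LD

variable {K : Type}

instance instRing [Ring K] : Ring (LD K) := inferInstanceAs (Ring (HahnSeries ℤ K))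
instance instDomain [Ring K] [IsDomain K] : IsDomain (LD K) :=
  inferInstanceAs (IsDomain (HahnSeries ℤ K))

/-- coefficient -/
def co [Zero K] (x : LD K) (n : ℤ) : K := HahnSeries.coeff (x : HahnSeries ℤ K) n

theorem ext [Zero K] {x y : LD K} (h : ∀ n, x.co n = y.co n) : x = y := HahnSeries.ext (funext h)

@[simp] theorem co_zero [Ring K] (n : ℤ) : (0 : LD K).co n = 0 := rfl
@[simp] theorem co_add [Ring K] (x y : LD K) (n : ℤ) : (x + y).co n = x.co n + y.co n := rfl
@[simp] theorem co_neg [Ring K] (x : LD K) (n : ℤ) : (-x).co n = - x.co n := rfl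
@[simp] theorem co_sub [Ring K] (x y : LD K) (n : ℤ) : (x - y).co n = x.co n - y.co n := by
  rw [sub_eq_add_neg, co_add, co_neg, sub_eq_add_neg]

/-- power series as Laurent series -/
def ofPS [Ring K] : PowerSeries K →+* LD K := HahnSeries.ofPowerSeries ℤ K

/-- constants -/
def C [Ring K] : K →+* LD K := ofPS.comp (PowerSeries.C)

/-- the uniformizer `t` and its powers -/
def tp [Ring K] (n : ℤ) : LD K := (HahnSeries.single n (1 : K) : HahnSeries ℤ K)

/-- functoriality -/
def map {K' : Type} [Ring K] [Ring K'] (φ : K →+* K') : LD K →+* LD K' := hmap φ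

@[simp] theorem co_map {K' : Type} [Ring K] [Ring K'] (φ : K →+* K') (x : LD K) (n : ℤ) :
    (map φ x).co n = φ (x.co n) := rfl

end LD

namespace LF

variable {F : Type}

instance instField [Field F] : Field (LF F) := inferInstanceAs (Field (HahnSeries ℤ F))

/-- coefficient -/
def co [Zero F] (x : LF F) (n : ℤ) : F := HahnSeries.coeff (x : HahnSeries ℤ F) n

theorem ext [Zero F] {x y : LF F} (h : ∀ n, x.co n = y.co n) : x = y := HahnSeries.ext (funext h)

@[simp] theorem co_zero [Field F] (n : ℤ) : (0 : LF F).co n = 0 := rfl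
@[simp] theorem co_add [Field F] (x y : LF F) (n : ℤ) : (x + y).co n = x.co n + y.co n := rfl
@[simp] theorem co_neg [Field F] (x : LF F) (n : ℤ) : (-x).co n = - x.co n := rfl

/-- power series as Laurent series -/
def ofPS [Field F] : PowerSeries F →+* LF F := HahnSeries.ofPowerSeries ℤ F

/-- constants -/
def C [Field F] : F →+* LF F := ofPS.comp (PowerSeries.C)

/-- powers of the uniformizer `t` -/
def tp [Field F] (n : ℤ) : LF F := (HahnSeries.single n (1 : F) : HahnSeries ℤ F)

instance instCharZero [Field F] [CharZero F] : CharZero (LF F) :=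
  charZero_of_injective_ringHom (f := (C : F →+* LF F)) (RingHom.injective _)

/-- the structure map `LF F → LD K` -/
def toLD {K : Type} [Field F] [Ring K] [Algebra F K] : LF F →+* LD K := hmap (algebraMap F K)

@[simp] theorem co_toLD {K : Type} [Field F] [Ring K] [Algebra F K] (x : LF F) (n : ℤ) :
    (toLD x : LD K).co n = algebraMap F K (x.co n) := rfl

theorem toLD_commutes {K : Type} [Field F] [Ring K] [Algebra F K] (x : LF F) (y : LD K) :
    (toLD x : LD K) * y = y * toLD x := by
  apply HahnSeries.ext
  funext n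
  have h1 := @HahnSeries.coeff_mul ℤ K _ _ _ _ (hmap (algebraMap F K) x : HahnSeries ℤ K) (y : HahnSeries ℤ K) n
  have h2 := @HahnSeries.coeff_mul ℤ K _ _ _ _ (y : HahnSeries ℤ K) (hmap (algebraMap F K) x : HahnSeries ℤ K) n
  refine h1.trans (Eq.trans ?_ h2.symm)
  refine Finset.sum_nbij' Prod.swap Prod.swap ?_ ?_ ?_ ?_ ?_
  · rintro ⟨a, b⟩ h
    simp only [Prod.swap, Finset.mem_antidiagonal] at h ⊢
    exact ⟨h.2.1, h.1, by rw [add_comm]; exact h.2.2⟩
  · rintro ⟨a, b⟩ h
    simp only [Prod.swap, Finset.mem_antidiagonal] at h ⊢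
    exact ⟨h.2.1, h.1, by rw [add_comm]; exact h.2.2⟩
  · rintro ⟨a, b⟩ _; rfl
  · rintro ⟨a, b⟩ _; rfl
  · rintro ⟨a, b⟩ _
    exact Algebra.commutes (x.co a) (HahnSeries.coeff (y : HahnSeries ℤ K) b)

end LF

namespace LD

variable {F K : Type} [Field F] [Ring K] [Algebra F K]

instance instAlgebra : Algebra (LF F) (LD K) :=
  RingHom.toAlgebra' LF.toLD LF.toLD_commutes

theorem algebraMap_eq (x : LF F) : algebraMap (LF F) (LD K) x = LF.toLD x := rfl

end LD

end Crest.Agent.R180
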