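import Mathlib

set_option autoImplicit false
set_option linter.unusedSimpArgs false

/-!
# Row 180: linear algebra selection lemmas for Theorem S

* `exists_separating`: a finite-dimensional space `S` of operators all of whose nonzero elements
  have rank `≥ dim S` has a separating vector (infinite field).
* `exists_separating_notMem`: the same, outside of a given proper subspace.
* `exists_two`: for a space of bilinear forms of ranks `≥ 3 dim H`: the choice of `u₁, u₂`.
-/

namespace Crest.Agent.R180.LinSep

open Module Polynomial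

variable {K : Type*} [Field K]

/-- Linear independence is an open condition on a line (over an infinite field). -/
theorem exists_ne_zero_linearIndependent [Infinite K] {W : Type*} [AddCommGroup W] [Module K W]
    {n : ℕ} (a b : Fin n → W) (ha : LinearIndependent K a) (bad : Finset K) :
    ∃ t : K, t ∉ bad ∧ LinearIndependent K (fun i => a i + t • b i) := by
  classical
  -- a left inverse of the coordinates
  obtain ⟨φ, hφ⟩ : ∃ φ : W →ₗ[K] (Fin n → K), ∀ i, φ (a i) = Pi.single i 1 := by
    have hinj : LinearMap.ker (Fintype.linearCombination K a) = ⊥ := by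
      rw [LinearMap.ker_eq_bot']
      intro m hm
      rw [Fintype.linearCombination_apply] at hm
      funext i
      exact (Fintype.linearIndependent_iff.mp ha) m hm i
    obtain ⟨g, hg⟩ := LinearMap.exists_leftInverse_of_injective _ hinj
    refine ⟨g, fun i => ?_⟩
    have h1 : Fintype.linearCombination K a (Pi.single i 1) = a i := by
      simp [Fintype.linearCombination_apply, Pi.single_apply]
    rw [← h1]
    have := LinearMap.congr_fun hg (Pi.single i 1)
    simpa using this
  let B : Matrix (Fin n) (Fin n) K := fun i j => φ (b j) i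
  let P : K[X] := Matrix.det (1 + (X : K[X]) • B.map C)
  have hPeval : ∀ t : K, P.eval t = Matrix.det (1 + t • B) := by
    intro t
    have h := (RingHom.map_det (evalRingHom t) (1 + (X : K[X]) • B.map C))
    simp only [coe_evalRingHom] at h
    rw [h]
    congr 1
    ext i j
    simp [Matrix.one_apply, Matrix.map_apply]
    split_ifs <;> simp [mul_comm]
  have hP0 : P ≠ 0 := by
    intro h
    have := hPeval 0
    rw [h] at this
    simp at this
  have hQ : P * ∏ c ∈ bad, (X - C c) ≠ 0 := by
    refine mul_ne_zero hP0 ?_
    rw [Finset.prod_ne_zero_iff]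
    intro c _
    exact X_sub_C_ne_zero c
  obtain ⟨t, ht⟩ : ∃ t : K, (P * ∏ c ∈ bad, (X - C c)).eval t ≠ 0 := by
    by_contra hcon
    push Not at hcon
    apply hQ
    apply Polynomial.funext
    intro r
    rw [hcon r, eval_zero]
  rw [eval_mul, eval_prod] at ht
  have h1 := left_ne_zero_of_mul ht
  have h2 := right_ne_zero_of_mul ht
  refine ⟨t, ?_, ?_⟩
  · intro hmem
    apply h2
    apply Finset.prod_eq_zero hmem
    simp
  · rw [hPeval] at h1
    -- if a combination vanishes then the matrix kills a vector
    rw [Fintype.linearIndependent_iff]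
    intro m hm
    have hmv : (1 + t • B).mulVec m = 0 := by
      have hφm := congrArg φ hm
      rw [map_sum, map_zero] at hφm
      funext i
      have hi := congrFun hφm i
      simp only [Finset.sum_apply, Pi.zero_apply, map_smul, map_add, hφ, Pi.smul_apply,
        Pi.add_apply, smul_eq_mul] at hi
      rw [Matrix.mulVec, dotProduct, Pi.zero_apply, ← hi]
      refine Finset.sum_congr rfl fun j _ => ?_
      simp only [Matrix.add_apply, Matrix.one_apply, Matrix.smul_apply, smul_eq_mul, B,
        Pi.single_apply]
      ring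
    have := Matrix.eq_zero_of_mulVec_eq_zero h1 hmv
    intro i
    rw [this]; rfl

section Sep

variable {S V W : Type*} [AddCommGroup S] [Module K S] [FiniteDimensional K S]
  [AddCommGroup V] [Module K V] [AddCommGroup W] [Module K W]

/-- A finite-dimensional space of operators all of whose nonzero elements have rank at least
the dimension of the space has a separating vector. -/
theorem exists_separating [Infinite K] [FiniteDimensional K W] (T : S →ₗ[K] V →ₗ[K] W)
    (hT : ∀ h : S, h ≠ 0 → finrank K S ≤ finrank K (LinearMap.range (T h))) :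
    ∃ u : V, Function.Injective (T.flip u) := by
  classical
  -- choose `u` with maximal rank
  obtain ⟨u, hu⟩ : ∃ u : V, ∀ v : V, finrank K (LinearMap.range (T.flip v)) ≤
      finrank K (LinearMap.range (T.flip u)) := by
    have hbdd : ∀ v : V, finrank K (LinearMap.range (T.flip v)) ≤ finrank K S :=
      fun v => LinearMap.finrank_range_le _
    have hne : (Set.range fun v : V => finrank K (LinearMap.range (T.flip v))).Nonempty :=
      ⟨_, 0, rfl⟩
    have hb : BddAbove (Set.range fun v : V => finrank K (LinearMap.range (T.flip v))) :=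
      ⟨finrank K S, by rintro _ ⟨v, rfl⟩; exact hbdd v⟩
    obtain ⟨u, hu⟩ := Nat.sSup_mem hne hb
    refine ⟨u, fun v => ?_⟩
    have := le_csSup hb ⟨v, rfl⟩
    simp only at hu this
    rw [← hu] at this
    exact this
  refine ⟨u, ?_⟩
  by_contra hinj
  obtain ⟨h0, hh0, hne0⟩ : ∃ h0 : S, T.flip u h0 = 0 ∧ h0 ≠ 0 := by
    rw [← LinearMap.ker_eq_bot, Submodule.eq_bot_iff] at hinj
    push Not at hinj
    obtain ⟨x, hx, hx0⟩ := hinj
    exact ⟨x, by simpa using hx, hx0⟩
  -- range of `T h0` is inside the range of `T.flip u`
  have hsub : LinearMap.range (T h0) ≤ LinearMap.range (T.flip u) := by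
    rintro _ ⟨v, rfl⟩
    by_contra hnot
    set r := finrank K (LinearMap.range (T.flip u)) with hr
    let bas := Module.finBasis K (LinearMap.range (T.flip u))
    have hch : ∀ i, ∃ h : S, T.flip u h = (bas i : W) := fun i => (bas i).2
    choose hh hhh using hch
    let a : Fin (r + 1) → W := Fin.cons (T h0 v) (fun i : Fin r => (bas i : W))
    let b : Fin (r + 1) → W := Fin.cons 0 (fun i : Fin r => T (hh i) v)
    have ha : LinearIndependent K a := by
      rw [linearIndependent_finCons]
      refine ⟨?_, ?_⟩
      · have := bas.linearIndependent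
        exact this.map' (Submodule.subtype _) (Submodule.ker_subtype _)
      · intro hmem
        apply hnot
        have hle : Submodule.span K (Set.range fun i : Fin r => (bas i : W)) ≤
            LinearMap.range (T.flip u) := by
          rw [Submodule.span_le]
          rintro _ ⟨i, rfl⟩
          exact (bas i).2
        exact hle hmem
    obtain ⟨t, ht0, ht⟩ := exists_ne_zero_linearIndependent a b ha {0}
    rw [Finset.mem_singleton] at ht0
    have hmem : ∀ i, a i + t • b i ∈ LinearMap.range (T.flip (u + t • v)) := by
      intro i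
      refine Fin.cases ?_ (fun j => ?_) i
      · refine ⟨t⁻¹ • h0, ?_⟩
        have h0u : T h0 u = 0 := by simpa using hh0
        change T (t⁻¹ • h0) (u + t • v) = T h0 v + t • (0 : W)
        rw [map_smul, LinearMap.smul_apply, map_add, map_smul, h0u, zero_add, smul_smul,
          inv_mul_cancel₀ ht0, one_smul, smul_zero, add_zero]
      · refine ⟨hh j, ?_⟩
        have hj : T (hh j) u = (bas j : W) := hhh j
        change T (hh j) (u + t • v) = (bas j : W) + t • T (hh j) v
        rw [map_add, map_smul, hj]
    have hcard : r + 1 ≤ finrank K (LinearMap.range (T.flip (u + t • v))) := by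
      have hli : LinearIndependent K
          (fun i => (⟨a i + t • b i, hmem i⟩ : LinearMap.range (T.flip (u + t • v)))) := by
        apply LinearIndependent.of_comp (Submodule.subtype _)
        exact ht
      have := hli.fintype_card_le_finrank
      simpa using this
    have := hu (u + t • v)
    omega
  have h1 : finrank K (LinearMap.range (T h0)) ≤ finrank K (LinearMap.range (T.flip u)) :=
    Submodule.finrank_mono hsub
  have h2 := hT h0 hne0
  have h3 := (T.flip u).finrank_range_add_finrank_ker
  have h4 : 0 < finrank K (LinearMap.ker (T.flip u)) := by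
    rw [Module.finrank_pos_iff_exists_ne_zero]
    exact ⟨⟨h0, hh0⟩, fun h => hne0 (congrArg Subtype.val h)⟩
  omega

/-- Separating vectors are stable under generic perturbation. -/
theorem separating_add_smul [Infinite K] (T : S →ₗ[K] V →ₗ[K] W) (u v : V)
    (hu : Function.Injective (T.flip u)) (bad : Finset K) :
    ∃ t : K, t ∉ bad ∧ Function.Injective (T.flip (u + t • v)) := by
  classical
  let bas := Module.finBasis K S
  have ha : LinearIndependent K (fun i => T.flip u (bas i)) :=
    bas.linearIndependent.map' (T.flip u) (LinearMap.ker_eq_bot.mpr hu)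
  obtain ⟨t, ht0, ht⟩ := exists_ne_zero_linearIndependent _ (fun i => T.flip v (bas i)) ha bad
  refine ⟨t, ht0, ?_⟩
  have ht' : LinearIndependent K (fun i => T.flip (u + t • v) (bas i)) := by
    convert ht using 2 with i
    simp
  rw [← LinearMap.ker_eq_bot, LinearMap.ker_eq_bot']
  intro m hm
  rw [← bas.sum_repr m, map_sum] at hm
  simp only [map_smul] at hm
  have := (Fintype.linearIndependent_iff.mp ht') _ hm
  rw [← bas.sum_repr m]
  exact Finset.sum_eq_zero fun i _ => by rw [this i, zero_smul]

/-- A separating vector outside of a given proper subspace. -/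
theorem exists_separating_notMem [Infinite K] [FiniteDimensional K W] (T : S →ₗ[K] V →ₗ[K] W)
    (hT : ∀ h : S, h ≠ 0 → finrank K S ≤ finrank K (LinearMap.range (T h)))
    (N : Submodule K V) (hN : N ≠ ⊤) :
    ∃ u : V, Function.Injective (T.flip u) ∧ u ∉ N := by
  classical
  obtain ⟨u, hu⟩ := exists_separating T hT
  by_cases huN : u ∈ N
  · obtain ⟨v, hv⟩ : ∃ v, v ∉ N := by
      by_contra hcon
      push Not at hcon
      exact hN (Submodule.eq_top_iff'.mpr hcon)
    obtain ⟨t, ht0, ht⟩ := separating_add_smul T u v hu {0}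
    rw [Finset.mem_singleton] at ht0
    refine ⟨u + t • v, ht, fun hmem => hv ?_⟩
    have : t • v ∈ N := by
      have := N.sub_mem hmem huN
      simpa using this
    exact (Submodule.smul_mem_iff N ht0).mp this
  · exact ⟨u, hu, huN⟩

end Sep

section Two

variable {H V : Type*} [AddCommGroup H] [Module K H] [FiniteDimensional K H]
  [AddCommGroup V] [Module K V] [FiniteDimensional K V]

/-- Codimension of the common kernel of a family of functionals. -/
theorem finrank_le_ker_add (f : V →ₗ[K] (Dual K H)) :
    finrank K V ≤ finrank K (LinearMap.ker f) + finrank K H := by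
  have h := f.finrank_range_add_finrank_ker
  have h2 : finrank K (LinearMap.range f) ≤ finrank K (Dual K H) := Submodule.finrank_le _
  rw [Subspace.dual_finrank_eq] at h2
  omega

/-- Rank after restricting to a subspace and passing to a quotient. -/
theorem finrank_range_restrict {W : Type*} [AddCommGroup W] [Module K W] [FiniteDimensional K W]
    (g : V →ₗ[K] W) (V₁ : Submodule K V) (P : Submodule K W) :
    finrank K (LinearMap.range g) + finrank K V₁ ≤
      finrank K (LinearMap.range (P.mkQ ∘ₗ g ∘ₗ V₁.subtype)) + finrank K P + finrank K V := by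
  -- kernel of the restricted map
  have h1 := (P.mkQ ∘ₗ g ∘ₗ V₁.subtype).finrank_range_add_finrank_ker
  have h2 := g.finrank_range_add_finrank_ker
  -- ker (restricted) maps by g into P with kernel inside ker g
  let k := LinearMap.ker (P.mkQ ∘ₗ g ∘ₗ V₁.subtype)
  let e : k →ₗ[K] W := g ∘ₗ V₁.subtype ∘ₗ k.subtype
  have h3 := e.finrank_range_add_finrank_ker
  have h4 : finrank K (LinearMap.range e) ≤ finrank K P := by
    apply Submodule.finrank_mono
    rintro _ ⟨⟨x, hx⟩, rfl⟩
    have : P.mkQ (g (V₁.subtype x)) = 0 := hx
    simpa [e] using this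
  have h5 : finrank K (LinearMap.ker e) ≤ finrank K (LinearMap.ker g) := by
    let j : LinearMap.ker e →ₗ[K] LinearMap.ker g :=
      LinearMap.codRestrict (LinearMap.ker g) (V₁.subtype ∘ₗ k.subtype ∘ₗ (LinearMap.ker e).subtype)
        (fun x => x.2)
    apply LinearMap.finrank_le_finrank_of_injective (f := j)
    intro x y hxy
    have h7 : ((j x : LinearMap.ker g) : V) = ((j y : LinearMap.ker g) : V) :=
      congrArg Subtype.val hxy
    apply Subtype.ext; apply Subtype.ext; apply Subtype.ext
    exact h7
  have h6 : finrank K (LinearMap.ker (P.mkQ ∘ₗ g ∘ₗ V₁.subtype)) = finrank K k := rfl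
  omega

/-- Choice of `u₁, u₂`: given a linear family `q` of bilinear forms with ranks `≥ 3 dim H`, and a
subspace `N` with `dim N + dim H + 2 ≤ dim V`, there are `u₁, u₂` with `q h u₁ u₂ = 0` for all `h`,
the `2 dim H` functionals `q h u₁`, `q h u₂` independent, and no nonzero combination of
`u₁, u₂` in `N`. -/
theorem exists_two_avoid [Infinite K] (q : H →ₗ[K] V →ₗ[K] V →ₗ[K] K)
    (hq : ∀ h : H, h ≠ 0 → 3 * finrank K H ≤ finrank K (LinearMap.range (q h)))
    (N : Submodule K V) (hN : finrank K N + finrank K H + 2 ≤ finrank K V) :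
    ∃ u₁ u₂ : V, (∀ h, q h u₁ u₂ = 0) ∧
      (∀ h h' : H, q h u₁ + q h' u₂ = 0 → h = 0 ∧ h' = 0) ∧
      (∀ a b : K, a • u₁ + b • u₂ ∈ N → a = 0 ∧ b = 0) := by
  classical
  have hNtop : N ≠ ⊤ := by
    intro h
    rw [h, finrank_top] at hN
    omega
  obtain ⟨u₁, hu₁, hu₁N⟩ := exists_separating_notMem q
    (fun h hh => by have := hq h hh; omega) N hNtop
  -- the common kernel
  let f : V →ₗ[K] Dual K H := (q.flip u₁).flip
  let V₁ : Submodule K V := LinearMap.ker f
  have hV₁ : finrank K V ≤ finrank K V₁ + finrank K H := finrank_le_ker_add f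
  let P : Submodule K (V →ₗ[K] K) := LinearMap.range (q.flip u₁)
  have hP : finrank K P ≤ finrank K H := LinearMap.finrank_range_le _
  let T : H →ₗ[K] V₁ →ₗ[K] ((V →ₗ[K] K) ⧸ P) :=
    { toFun := fun h => P.mkQ ∘ₗ (q h) ∘ₗ V₁.subtype
      map_add' := fun a b => by ext x; simp
      map_smul' := fun a b => by ext x; simp }
  have hTrank : ∀ h : H, h ≠ 0 → finrank K H ≤ finrank K (LinearMap.range (T h)) := by
    intro h hh
    have h1 := finrank_range_restrict (q h) V₁ P
    have h2 := hq h hh
    have h3 : finrank K (LinearMap.range (T h)) =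
      finrank K (LinearMap.range (P.mkQ ∘ₗ (q h) ∘ₗ V₁.subtype)) := rfl
    omega
  -- subspace to avoid inside V₁
  let N' : Submodule K V := N ⊔ Submodule.span K {u₁}
  have hN'dim : finrank K N' ≤ finrank K N + 1 := by
    have h1 := Submodule.finrank_add_le_finrank_add_finrank N (Submodule.span K {u₁})
    have h2 : finrank K (Submodule.span K {u₁}) ≤ 1 := by
      have := finrank_span_le_card (R := K) ({u₁} : Set V)
      simpa using this
    exact h1.trans (by omega)
  have hN'top : N'.comap V₁.subtype ≠ ⊤ := by
    intro h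
    have hle : V₁ ≤ N' := by
      intro x hx
      have : (⟨x, hx⟩ : V₁) ∈ N'.comap V₁.subtype := by rw [h]; trivial
      exact this
    have := Submodule.finrank_mono hle
    omega
  obtain ⟨u₂, hu₂, hu₂N⟩ := exists_separating_notMem T hTrank _ hN'top
  refine ⟨u₁, u₂, ?_, ?_, ?_⟩
  · intro h
    have : f (u₂ : V) = 0 := u₂.2
    exact LinearMap.congr_fun this h
  · intro h h' hsum
    have hh' : h' = 0 := by
      have h0 : T.flip u₂ h' = 0 := by
        change P.mkQ (q h' (u₂ : V)) = 0
        rw [Submodule.mkQ_apply, Submodule.Quotient.mk_eq_zero]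
        refine ⟨-h, ?_⟩
        rw [map_neg]
        exact neg_eq_of_add_eq_zero_right hsum
      exact hu₂ (by rw [h0, map_zero])
    refine ⟨?_, hh'⟩
    rw [hh', map_zero, LinearMap.zero_apply, add_zero] at hsum
    exact hu₁ (by rw [map_zero]; exact hsum)
  · intro a b hab
    have hb : b = 0 := by
      by_contra hb
      apply hu₂N
      change (u₂ : V) ∈ N'
      have h1 : b • (u₂ : V) ∈ N' := by
        have : b • (u₂ : V) = (a • u₁ + b • (u₂ : V)) - a • u₁ := by abel
        rw [this]
        refine N'.sub_mem (Submodule.mem_sup_left hab) (Submodule.mem_sup_right ?_)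
        exact Submodule.smul_mem _ _ (Submodule.mem_span_singleton_self _)
      exact (Submodule.smul_mem_iff N' hb).mp h1
    refine ⟨?_, hb⟩
    by_contra ha
    apply hu₁N
    rw [hb, zero_smul, add_zero] at hab
    exact (Submodule.smul_mem_iff N ha).mp hab

omit [FiniteDimensional K H] in
/-- The dual vectors: if the functionals `q (hb i) u₁`, `q (hb i) u₂` are independent then there
are dual vectors. -/
theorem exists_dual_vectors {s : ℕ} (q : H →ₗ[K] V →ₗ[K] V →ₗ[K] K) (hb : Basis (Fin s) K H)
    (u₁ u₂ : V) (hind : ∀ h h' : H, q h u₁ + q h' u₂ = 0 → h = 0 ∧ h' = 0) :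
    ∃ v₁ v₂ : Fin s → V, (∀ i j, q (hb i) u₁ (v₁ j) = if i = j then 1 else 0) ∧
      (∀ i j, q (hb i) u₂ (v₁ j) = 0) ∧ (∀ i j, q (hb i) u₁ (v₂ j) = 0) ∧
      (∀ i j, q (hb i) u₂ (v₂ j) = if i = j then 1 else 0) := by
  classical
  -- the map V → Dual (H × H)
  let g : (H × H) →ₗ[K] Dual K V := LinearMap.coprod (q.flip u₁) (q.flip u₂)
  have hg : Function.Injective g := by
    rw [← LinearMap.ker_eq_bot, LinearMap.ker_eq_bot']
    rintro ⟨h, h'⟩ hz
    have := hind h h' (by simpa [g] using hz)
    rw [this.1, this.2]; rfl
  have hsurj : Function.Surjective g.dualMap := LinearMap.dualMap_surjective_of_injective hg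
  have key : ∀ φ : Dual K (H × H), ∃ v : V, ∀ x : H × H, g x v = φ x := by
    intro φ
    obtain ⟨ψ, hψ⟩ := hsurj φ
    obtain ⟨v, hv⟩ := (Module.evalEquiv K V).surjective ψ
    refine ⟨v, fun x => ?_⟩
    have := LinearMap.congr_fun hψ x
    rw [← this, LinearMap.dualMap_apply, ← hv, Module.evalEquiv_apply]
    rfl
  have k1 : ∀ j : Fin s, ∃ v : V, ∀ x : H × H, g x v = hb.coord j x.1 := fun j => by
    obtain ⟨v, hv⟩ := key ((hb.coord j) ∘ₗ LinearMap.fst K H H)
    exact ⟨v, fun x => by rw [hv x]; rfl⟩
  have k2 : ∀ j : Fin s, ∃ v : V, ∀ x : H × H, g x v = hb.coord j x.2 := fun j => by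
    obtain ⟨v, hv⟩ := key ((hb.coord j) ∘ₗ LinearMap.snd K H H)
    exact ⟨v, fun x => by rw [hv x]; rfl⟩
  choose v₁ hv₁ using k1
  choose v₂ hv₂ using k2
  refine ⟨v₁, v₂, ?_, ?_, ?_, ?_⟩
  · intro i j
    have := hv₁ j (hb i, 0)
    simp only [g, LinearMap.coprod_apply, map_zero, LinearMap.flip_apply, add_zero,
      Basis.coord_apply, Basis.repr_self, LinearMap.add_apply] at this
    rw [this, Finsupp.single_apply]
  · intro i j
    have := hv₁ j (0, hb i)
    simp only [g, LinearMap.coprod_apply, map_zero, LinearMap.flip_apply, zero_add,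
      Basis.coord_apply, LinearMap.add_apply, Finsupp.coe_zero, Pi.zero_apply] at this
    exact this
  · intro i j
    have := hv₂ j (hb i, 0)
    simp only [g, LinearMap.coprod_apply, map_zero, LinearMap.flip_apply, add_zero,
      Basis.coord_apply, LinearMap.add_apply, Finsupp.coe_zero, Pi.zero_apply] at this
    exact this
  · intro i j
    have := hv₂ j (0, hb i)
    simp only [g, LinearMap.coprod_apply, map_zero, LinearMap.flip_apply, zero_add,
      Basis.coord_apply, Basis.repr_self, LinearMap.add_apply] at this
    rw [this, Finsupp.single_apply]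

end Two

end Crest.Agent.R180.LinSep
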