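import Crest.Agent.R180.MinPE
import Crest.Agent.R180.PolFun
import Crest.Agent.R180.Euler

set_option autoImplicit false
noncomputable section
namespace Crest.Agent.R180

open TensorProduct

/-! # Row 180, ROUTE M: generation by a small perturbation -/

theorem LD.ofPS_X_pow {K : Type} [Ring K] (n : ℕ) :
    (LD.ofPS (PowerSeries.X ^ n) : LD K) = LD.tp n := by
  apply LD.ext
  intro k
  rw [LD.co_tp]
  rcases lt_or_ge k 0 with hk | hk
  · rw [LD.co_ofPS_neg _ _ hk, if_neg (by omega)]
  · lift k to ℕ using hk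
    rw [LD.co_ofPS, PowerSeries.coeff_X_pow]
    by_cases h : k = n
    · rw [if_pos h, if_pos (by rw [h])]
    · rw [if_neg h, if_neg (by exact_mod_cast h)]

theorem LF.tp_injective {F : Type} [Field F] : Function.Injective fun n : ℤ => (LF.tp n : LF F) := by
  intro a b hab
  have h1 : (LF.tp a : LF F).co a = (LF.tp b : LF F).co a := by rw [show (LF.tp a : LF F) = LF.tp b from hab]
  have h2 : ∀ n m : ℤ, (LF.tp n : LF F).co m = if m = n then 1 else 0 := by
    intro n m
    have h := LF.co_tp_mul n m (1 : LF F)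
    rw [mul_one] at h
    rw [h]
    have h3 : (1 : LF F).co (m - n) = if m - n = 0 then 1 else 0 := by
      have h4 := HahnSeries.coeff_one (Γ := ℤ) (R := F) (a := m - n)
      refine Eq.trans h4 ?_
      congr
    rw [h3]
    by_cases hmn : m = n
    · rw [if_pos (by omega), if_pos hmn]
    · rw [if_neg (by omega), if_neg hmn]
  rw [h2, h2, if_pos rfl] at h1
  by_contra hne
  rw [if_neg hne] at h1
  exact one_ne_zero h1

section PE
variable {A : DA} {N : ℕ} (M : PE A N)

/-- generation by a small perturbation -/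
theorem exists_genPt {m : ℕ} (hm : 2 ≤ m)
    (z : Fin m → PowerSeries M.E) (hz : ∀ j, PowerSeries.constantCoeff (z j) = 0) (B : ℕ)
    (hB : 1 ≤ B) : ∃ h : Fin m → PowerSeries M.E, (∀ j, ∃ y, h j = PowerSeries.X ^ B * y) ∧
      GenPt M.toAdm (fun j => z j + h j) := by
  obtain ⟨l0, hl0⟩ := M.exists_gen
  -- generating constants
  set c : Fin m → M.E := fun j => if j.val = 0 then M.j l0 else M.u with hcdef
  have hc : Algebra.adjoin M.F1 (Set.range c) = ⊤ := by
    rw [eq_top_iff, ← M.adjoin_pair l0 hl0]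
    apply Algebra.adjoin_mono
    rintro x (rfl | hx)
    · exact ⟨⟨0, by omega⟩, by simp [hcdef]⟩
    · rw [Set.mem_singleton_iff.mp hx]
      exact ⟨⟨1, by omega⟩, by simp [hcdef]⟩
  have hc' : Algebra.adjoin (LF M.F1) (Set.range fun j => (LD.C (c j) : LD M.E)) = ⊤ := by
    have h1 := LD.adjoin_C_image_eq_top (F := M.F1) (Set.range c) hc
    rw [← Set.range_comp] at h1
    exact h1
  obtain ⟨f, hf, hf0, hfz⟩ := Pol.generate (K := LF M.F1) (fun j => (LD.C (c j) : LD M.E)) hc'
  obtain ⟨P, hP⟩ := hf (fun j => (LD.ofPS (z j) : LD M.E))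
    (fun j => (LD.C (c j) : LD M.E) - LD.ofPS (z j))
  have hP0 : P ≠ 0 := by
    rintro rfl
    have h1 := hP 1
    rw [one_smul, Polynomial.eval_zero] at h1
    apply hf0
    rw [← h1]
    congr 1
    funext j
    simp
  obtain ⟨n, hn, hroot⟩ : ∃ n : ℕ, B ≤ n ∧ P.eval (LF.tp (n : ℤ) : LF M.F1) ≠ 0 := by
    by_contra hcon
    push Not at hcon
    have hinj : Function.Injective fun n : ℕ => (LF.tp ((B + n : ℕ) : ℤ) : LF M.F1) := by
      intro a b hab
      have := LF.tp_injective hab
      omega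
    have hfin := Polynomial.finite_setOfPred_isRoot hP0
    exact Set.infinite_of_injective_forall_mem hinj (s := {x | P.IsRoot x})
      (fun n => hcon (B + n) (by omega)) hfin
  refine ⟨fun j => PowerSeries.X ^ n * (PowerSeries.C (c j) - z j), fun j =>
    ⟨PowerSeries.X ^ (n - B) * (PowerSeries.C (c j) - z j), ?_⟩, ?_, ?_⟩
  · rw [← mul_assoc, ← pow_add, Nat.add_sub_cancel' hn]
  · intro j
    rw [map_add, hz, map_mul, map_pow, PowerSeries.constantCoeff_X, zero_pow (by omega), zero_mul,
      add_zero]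
  · refine hfz _ ?_
    have h2 : (fun j => (LD.ofPS (z j + PowerSeries.X ^ n * (PowerSeries.C (c j) - z j)) : LD M.E)) =
        (fun j => (LD.ofPS (z j) : LD M.E)) + (LF.tp (n : ℤ) : LF M.F1) •
          (fun j => (LD.C (c j) : LD M.E) - LD.ofPS (z j)) := by
      funext j
      rw [Pi.add_apply, Pi.smul_apply, LD.smul_def, LD.toLD_tp, map_add, map_mul, map_sub,
        LD.ofPS_X_pow]
      rfl
    rw [h2, hP]
    exact hroot

end PE

end Crest.Agent.R180
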