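import Crest.Agent.R180.MinGen
import Crest.Agent.R180.MinGenPt

set_option autoImplicit false
noncomputable section
namespace Crest.Agent.R180

open TensorProduct

/-! # Row 180, ROUTE M: algebra of `E ⊗ D` for an extension `PE` -/

namespace MinI

section gen

variable {F D F1 E : Type} [Field F] [Ring D] [Algebra F D] [Field F1] [Algebra F F1]
  [Ring E] [Algebra F1 E] [Algebra F E] [IsScalarTower F F1 E]

theorem sum_ellE {ι : Type*} [Fintype ι] (b : Module.Basis ι F D) (y : E ⊗[F] D) :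
    ∑ i, ellE (F1 := F1) E (b.coord i) y ⊗ₜ[F] b i = y := by
  induction y using TensorProduct.induction_on with
  | zero => simp
  | tmul e d =>
    simp only [ellE_tmul]
    have h1 : ∀ i, (b.coord i d • e) ⊗ₜ[F] b i = e ⊗ₜ[F] (b.coord i d • b i) := fun i => by
      rw [TensorProduct.smul_tmul]
    rw [Finset.sum_congr rfl fun i _ => h1 i, ← TensorProduct.tmul_sum]
    congr 1
    simp only [Module.Basis.coord_apply]
    exact b.sum_repr d
  | add x y hx hy =>
    simp only [map_add, TensorProduct.add_tmul, Finset.sum_add_distrib, hx, hy]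

variable (F1 E) in
/-- `id ⊗ π` -/
def idT (π : D →ₗ[F] D) : E ⊗[F] D →ₗ[F1] E ⊗[F] D :=
  AlgebraTensorModule.map (LinearMap.id : E →ₗ[F1] E) π

@[simp] theorem idT_tmul (π : D →ₗ[F] D) (e : E) (d : D) :
    idT F1 E π (e ⊗ₜ[F] d) = e ⊗ₜ[F] π d := rfl

theorem ellE_idT (π : D →ₗ[F] D) (l : D →ₗ[F] F) (y : E ⊗[F] D) :
    ellE (F1 := F1) E l (idT F1 E π y) = ellE (F1 := F1) E (l ∘ₗ π) y := by
  induction y using TensorProduct.induction_on with
  | zero => simp
  | tmul e d => rw [idT_tmul, ellE_tmul, ellE_tmul]; rfl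
  | add x y hx hy => rw [map_add, map_add, map_add, hx, hy]

theorem idT_eq {ι : Type*} [Fintype ι] (b : Module.Basis ι F D) (π : D →ₗ[F] D) (y : E ⊗[F] D) :
    idT F1 E π y = ∑ i, ellE (F1 := F1) E (b.coord i) y ⊗ₜ[F] π (b i) := by
  conv_lhs => rw [← sum_ellE (F1 := F1) b y]
  rw [map_sum]
  rfl

theorem idT_sub (π π' : D →ₗ[F] D) (y : E ⊗[F] D) :
    idT F1 E (π - π') y = idT F1 E π y - idT F1 E π' y := by
  induction y using TensorProduct.induction_on with
  | zero => simp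
  | tmul e d => simp only [idT_tmul, LinearMap.sub_apply, TensorProduct.tmul_sub]
  | add x y hx hy => rw [map_add, map_add, map_add, hx, hy]; abel

theorem idT_comp (π π' : D →ₗ[F] D) (y : E ⊗[F] D) :
    idT F1 E (π ∘ₗ π') y = idT F1 E π (idT F1 E π' y) := by
  induction y using TensorProduct.induction_on with
  | zero => simp
  | tmul e d => rfl
  | add x y hx hy => rw [map_add, map_add, map_add, hx, hy]

theorem idT_id (y : E ⊗[F] D) : idT F1 E (LinearMap.id : D →ₗ[F] D) y = y := by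
  induction y using TensorProduct.induction_on with
  | zero => simp
  | tmul e d => rfl
  | add x y hx hy => rw [map_add, hx, hy]

/-- a linear projection onto a subspace -/
theorem exists_proj (V : Submodule F D) : ∃ π : D →ₗ[F] D, (∀ d, π d ∈ V) ∧ ∀ d ∈ V, π d = d := by
  obtain ⟨g, hg⟩ := V.subtype.exists_leftInverse_of_injective (Submodule.ker_subtype V)
  refine ⟨V.subtype ∘ₗ g, fun d => (g d).2, fun d hd => ?_⟩
  have h1 := congrArg (fun f : V →ₗ[F] V => f ⟨d, hd⟩) hg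
  exact congrArg Subtype.val h1

theorem ellE_eq_zero_idT [FiniteDimensional F D] (π : D →ₗ[F] D) (y : E ⊗[F] D)
    (h : ∀ l : D →ₗ[F] F, ellE (F1 := F1) E (l ∘ₗ π) y = 0) : idT F1 E π y = 0 := by
  rw [← sum_ellE (F1 := F1) (Module.finBasis F D) (idT F1 E π y)]
  refine Finset.sum_eq_zero fun i _ => ?_
  rw [ellE_idT, h, TensorProduct.zero_tmul]

/-- an element of `E ⊗ D` all of whose contractions vanish is zero -/
theorem eq_zero_of_ellE [FiniteDimensional F D] (y : E ⊗[F] D)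
    (h : ∀ l : D →ₗ[F] F, ellE (F1 := F1) E l y = 0) : y = 0 := by
  rw [← sum_ellE (F1 := F1) (Module.finBasis F D) y]
  refine Finset.sum_eq_zero fun i _ => ?_
  rw [h, TensorProduct.zero_tmul]

/-- adapted decomposition, general form: `P ⊆ E` a subset containing the contractions of `y`,
`Q` a subset containing those killing `V2` -/
theorem span_two [FiniteDimensional F D] (V1 V2 : Submodule F D) (hle : V2 ≤ V1)
    (P Q : Set E) (y : E ⊗[F] D)
    (h1 : ∀ l : D →ₗ[F] F, ellE (F1 := F1) E l y ∈ P)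
    (h2 : ∀ l : D →ₗ[F] F, (∀ h ∈ V1, l h = 0) → ellE (F1 := F1) E l y = 0)
    (h3 : ∀ l : D →ₗ[F] F, (∀ h ∈ V2, l h = 0) → ellE (F1 := F1) E l y ∈ Q) :
    y ∈ Submodule.span F1 {y : E ⊗[F] D | ∃ a ∈ P, ∃ h ∈ V2, y = a ⊗ₜ[F] h} ⊔
      Submodule.span F1 {y : E ⊗[F] D | ∃ a ∈ Q, ∃ h ∈ V1, y = a ⊗ₜ[F] h} := by
  obtain ⟨π1, hπ1, hπ1'⟩ := exists_proj V1
  obtain ⟨π2, hπ2, hπ2'⟩ := exists_proj V2
  set b := Module.finBasis F D
  set z := idT F1 E (LinearMap.id - π2) y with hz
  have e1 : y = idT F1 E π2 y + (idT F1 E π1 z + (z - idT F1 E π1 z)) := by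
    rw [hz, idT_sub, idT_id]; abel
  have e2 : z - idT F1 E π1 z = 0 := by
    have h4 : z - idT F1 E π1 z = idT F1 E ((LinearMap.id - π1) ∘ₗ (LinearMap.id - π2)) y := by
      rw [idT_comp, ← hz, idT_sub, idT_id]
    have h5 : (LinearMap.id - π1) ∘ₗ (LinearMap.id - π2) = LinearMap.id - π1 := by
      apply LinearMap.ext
      intro d
      have h6 := hπ1' _ (hle (hπ2 d))
      simp only [LinearMap.comp_apply, LinearMap.sub_apply, LinearMap.id_apply, map_sub, h6]
      abel
    rw [h4, h5]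
    apply ellE_eq_zero_idT
    intro l
    apply h2
    intro h hh
    rw [LinearMap.comp_apply, LinearMap.sub_apply, LinearMap.id_apply, hπ1' h hh, sub_self,
      map_zero]
  rw [e2, add_zero] at e1
  rw [e1]
  refine Submodule.add_mem_sup ?_ ?_
  · rw [idT_eq b]
    refine Submodule.sum_mem _ fun i _ => Submodule.subset_span ?_
    exact ⟨_, h1 _, _, hπ2 _, rfl⟩
  · rw [idT_eq b]
    refine Submodule.sum_mem _ fun i _ => Submodule.subset_span ?_
    refine ⟨_, ?_, _, hπ1 (b i), rfl⟩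
    rw [hz, ellE_idT]
    apply h3
    intro h hh
    rw [LinearMap.comp_apply, LinearMap.sub_apply, LinearMap.id_apply, hπ2' h hh, sub_self,
      map_zero]

end gen

end MinI

section PEalg
variable {A : DA} {N : ℕ} (M : PE A N)

theorem PE.finrankE : Module.finrank M.F1 M.E = N * N := M.finrank_E

/-- (a) -/
theorem PE.span_two (V1 V2 : Submodule A.F A.D) (hle : V2 ≤ V1) (y : M.D0)
    (h1 : ∀ l : A.D →ₗ[A.F] A.F, ∃ a : M.L, MinI.ellE (F1 := M.F1) M.E l y = M.j a)
    (h2 : ∀ l : A.D →ₗ[A.F] A.F, (∀ h ∈ V1, l h = 0) → MinI.ellE (F1 := M.F1) M.E l y = 0)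
    (h3 : ∀ l : A.D →ₗ[A.F] A.F, (∀ h ∈ V2, l h = 0) →
      ∃ c : M.F1, MinI.ellE (F1 := M.F1) M.E l y = algebraMap M.F1 M.E c) :
    y ∈ Submodule.span M.F1 {y : M.D0 | ∃ (a : M.L) (h : A.D), h ∈ V2 ∧
        y = M.j a ⊗ₜ[A.F] h} ⊔
      Submodule.span M.F1 {y : M.D0 | ∃ h ∈ V1, y = (1 : M.E) ⊗ₜ[A.F] h} := by
  have h := MinI.span_two V1 V2 hle (Set.range M.j) (Set.range (algebraMap M.F1 M.E)) y
    (fun l => by obtain ⟨a, ha⟩ := h1 l; exact ⟨a, ha.symm⟩) h2
    (fun l hl => by obtain ⟨a, ha⟩ := h3 l hl; exact ⟨a, ha.symm⟩)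
  revert h
  apply SetLike.le_def.mp
  refine sup_le_sup ?_ ?_
  · apply Submodule.span_mono
    rintro _ ⟨_, ⟨a, rfl⟩, h, hh, rfl⟩
    exact ⟨a, h, hh, rfl⟩
  · rw [Submodule.span_le]
    rintro _ ⟨_, ⟨c, rfl⟩, h, hh, rfl⟩
    have h4 : (algebraMap M.F1 M.E c) ⊗ₜ[A.F] h = c • ((1 : M.E) ⊗ₜ[A.F] h) := by
      rw [Algebra.algebraMap_eq_smul_one, TensorProduct.smul_tmul']
    rw [SetLike.mem_coe, h4]
    exact Submodule.smul_mem _ _ (Submodule.subset_span ⟨h, hh, rfl⟩)

/-- (b) -/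
theorem PE.fix_of_comm {r : ℕ} (hr : r < N) (a : Fin r → M.L)
    (h : ∑ i, M.j (a i) * M.u ^ (i.val + 1) = ∑ i, M.u ^ (i.val + 1) * M.j (a i)) (i : Fin r) :
    ∃ c : M.F1, algebraMap M.F1 M.L c = a i := by
  revert i
  have hN : 0 < N := M.pr.pos
  obtain ⟨n, rfl⟩ : ∃ n, N = n + 1 := ⟨N - 1, by omega⟩
  -- extension by zero
  set ext : (Fin r → M.L) → (Fin (n + 1) → M.L) := fun c k =>
    if hk : 1 ≤ k.val ∧ k.val - 1 < r then c ⟨k.val - 1, hk.2⟩ else 0 with hext
  have hsum : ∀ c : Fin r → M.L, ∑ i, M.j (c i) * M.u ^ (i.val + 1) = M.coefE (ext c) := by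
    intro c
    rw [M.coefE_apply]
    have hinj : Function.Injective fun i : Fin r => (⟨i.val + 1, by omega⟩ : Fin (n + 1)) := by
      intro i j hij
      have := congrArg Fin.val hij
      exact Fin.ext (by simpa using this)
    rw [← Finset.sum_subset (Finset.subset_univ (Finset.univ.image
      fun i : Fin r => (⟨i.val + 1, by omega⟩ : Fin (n + 1)))),
      Finset.sum_image (fun i _ j _ hij => hinj hij)]
    · refine Finset.sum_congr rfl fun i _ => ?_
      simp [hext]
    · intro k _ hk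
      have h0 : ext c k = 0 := by
        rw [hext]
        simp only
        rw [dif_neg]
        rintro ⟨h1, h2⟩
        apply hk
        rw [Finset.mem_image]
        exact ⟨⟨k.val - 1, h2⟩, Finset.mem_univ _, Fin.ext (by simp; omega)⟩
      rw [h0, map_zero, zero_mul]
  have h2 : ∑ i, M.u ^ (i.val + 1) * M.j (a i) =
      ∑ i : Fin r, M.j ((M.τ ^ (i.val + 1)) (a i)) * M.u ^ (i.val + 1) :=
    Finset.sum_congr rfl fun i _ => M.pow_conj _ _
  rw [h2, hsum, hsum fun i => (M.τ ^ (i.val + 1)) (a i)] at h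
  have h3 := M.coefE.injective h
  intro i
  have h4 := congrFun h3 ⟨i.val + 1, by omega⟩
  simp only [hext] at h4
  rw [dif_pos ⟨by omega, by simp⟩, dif_pos ⟨by omega, by simp⟩] at h4
  simp only [Nat.add_sub_cancel, Fin.eta] at h4
  exact M.fix (i.val + 1) (by omega) (by omega) (a i) h4.symm

/-- (c) -/
theorem PE.psiL_eq (Ξ : Subalgebra A.F A.D) (_hc : ∀ a ∈ Ξ, ∀ b ∈ Ξ, a * b = b * a) :
    Subalgebra.toSubmodule (M.psiL Ξ) =
      Submodule.span M.F1 {y : M.D0 | ∃ (a : M.L) (h : A.D), h ∈ Ξ ∧ y = M.j a ⊗ₜ[A.F] h} := by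
  set S := Submodule.span M.F1 {y : M.D0 | ∃ (a : M.L) (h : A.D), h ∈ Ξ ∧ y = M.j a ⊗ₜ[A.F] h}
    with hS
  have hone : (1 : M.D0) ∈ S := Submodule.subset_span
    ⟨1, 1, Ξ.one_mem, by rw [map_one]; rfl⟩
  have hmul : ∀ x ∈ S, ∀ y ∈ S, x * y ∈ S := by
    intro x hx y hy
    induction hx using Submodule.span_induction with
    | mem x hx =>
      obtain ⟨a, h, hh, rfl⟩ := hx
      induction hy using Submodule.span_induction with
      | mem y hy =>
        obtain ⟨a', h', hh', rfl⟩ := hy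
        rw [Algebra.TensorProduct.tmul_mul_tmul, ← map_mul]
        exact Submodule.subset_span ⟨a * a', h * h', Ξ.mul_mem hh hh', rfl⟩
      | zero => rw [mul_zero]; exact Submodule.zero_mem _
      | add x y _ _ hx hy => rw [mul_add]; exact Submodule.add_mem _ hx hy
      | smul c x _ hx => rw [mul_smul_comm]; exact Submodule.smul_mem _ _ hx
    | zero => rw [zero_mul]; exact Submodule.zero_mem _
    | add x y _ _ hx hy => rw [add_mul]; exact Submodule.add_mem _ hx hy
    | smul c x _ hx => rw [smul_mul_assoc]; exact Submodule.smul_mem _ _ hx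
  apply le_antisymm
  · intro x hx
    rw [Subalgebra.mem_toSubmodule, PE.psiL] at hx
    induction hx using Algebra.adjoin_induction with
    | mem x hx =>
      rcases hx with ⟨a, rfl⟩ | ⟨h, hh, rfl⟩
      · exact Submodule.subset_span ⟨a, 1, Ξ.one_mem, rfl⟩
      · exact Submodule.subset_span ⟨1, h, hh, by rw [map_one]; rfl⟩
    | algebraMap c =>
      rw [Algebra.algebraMap_eq_smul_one]
      exact Submodule.smul_mem _ _ hone
    | add x y _ _ hx hy => exact Submodule.add_mem _ hx hy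
    | mul x y _ _ hx hy => exact hmul x hx y hy
  · rw [hS, Submodule.span_le]
    rintro _ ⟨a, h, hh, rfl⟩
    have h1 : M.j a ⊗ₜ[A.F] h = M.jE (M.j a) * M.jD h := by
      change _ = (M.j a ⊗ₜ[A.F] (1 : A.D)) * ((1 : M.E) ⊗ₜ[A.F] h)
      rw [Algebra.TensorProduct.tmul_mul_tmul, mul_one, one_mul]
    rw [h1]
    exact (M.psiL Ξ).mul_mem (Algebra.subset_adjoin (Or.inl ⟨a, rfl⟩))
      (Algebra.subset_adjoin (Or.inr ⟨h, hh, rfl⟩))

theorem PE.finrank_psiL (Ξ : Subalgebra A.F A.D) (hc : ∀ a ∈ Ξ, ∀ b ∈ Ξ, a * b = b * a) :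
    Module.finrank M.F1 (M.psiL Ξ) = N * Module.finrank A.F Ξ := by
  have h1 : Module.finrank M.F1 (M.psiL Ξ) =
      Module.finrank M.F1 (Subalgebra.toSubmodule (M.psiL Ξ)) := rfl
  rw [h1, M.psiL_eq Ξ hc]
  let bL := Module.finBasis M.F1 M.L
  have hbL : LinearIndependent M.F1 (fun i => M.j (bL i)) := by
    have := bL.linearIndependent.map' M.j.toLinearMap
      (LinearMap.ker_eq_bot_of_injective M.j_injective)
    exact this
  let b := Module.finBasis A.F Ξ
  have hb : LinearIndependent A.F (fun j => ((b j : Ξ) : A.D)) := by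
    have := b.linearIndependent.map' Ξ.val.toLinearMap
      (LinearMap.ker_eq_bot_of_injective Subtype.val_injective)
    exact this
  have hind := MinI.indep_tensor (F1 := M.F1) (E := M.E) _ hbL _ hb
  have hspan : Submodule.span M.F1 {y : M.D0 | ∃ (a : M.L) (h : A.D), h ∈ Ξ ∧
      y = M.j a ⊗ₜ[A.F] h} =
      Submodule.span M.F1 (Set.range fun p : Fin (Module.finrank M.F1 M.L) ×
        Fin (Module.finrank A.F Ξ) => M.j (bL p.1) ⊗ₜ[A.F] ((b p.2 : Ξ) : A.D)) := by
    apply le_antisymm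
    · rw [Submodule.span_le]
      rintro _ ⟨a, h, hh, rfl⟩
      have ha : M.j a = ∑ i, bL.repr a i • M.j (bL i) := by
        conv_lhs => rw [← bL.sum_repr a]
        rw [map_sum]
        exact Finset.sum_congr rfl fun i _ => map_smul _ _ _
      have hh' : h = ∑ i, b.repr ⟨h, hh⟩ i • ((b i : Ξ) : A.D) := by
        have := congrArg Subtype.val (b.sum_repr ⟨h, hh⟩)
        simp only [AddSubmonoidClass.coe_finsetSum, Subalgebra.coe_smul] at this
        exact this.symm
      rw [SetLike.mem_coe, ha, hh', TensorProduct.sum_tmul]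
      refine Submodule.sum_mem _ fun i _ => ?_
      rw [TensorProduct.tmul_sum]
      refine Submodule.sum_mem _ fun k _ => ?_
      rw [← TensorProduct.smul_tmul', TensorProduct.tmul_smul]
      refine Submodule.smul_mem _ _ ?_
      rw [← algebraMap_smul M.F1]
      exact Submodule.smul_mem _ _ (Submodule.subset_span ⟨(i, k), rfl⟩)
    · apply Submodule.span_mono
      rintro _ ⟨p, rfl⟩
      exact ⟨bL p.1, b p.2, (b p.2).2, rfl⟩
  rw [hspan, finrank_span_eq_card hind, Fintype.card_prod, Fintype.card_fin, Fintype.card_fin,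
    M.finrankL]

theorem PE.W_eq (l0 : M.L) (hl0 : Algebra.adjoin M.F1 ({l0} : Set M.L) = ⊤)
    (Ξ : Subalgebra A.F A.D) (hc : ∀ a ∈ Ξ, ∀ b ∈ Ξ, a * b = b * a) :
    MinI.W (F1 := M.F1) (M.j l0) Ξ = Subalgebra.toSubmodule (M.psiL Ξ) := by
  rw [M.psiL_eq Ξ hc, MinI.W]
  apply le_antisymm
  · apply Submodule.span_mono
    rintro _ ⟨i, a, ha, rfl⟩
    exact ⟨l0 ^ i, a, ha, by rw [map_pow]⟩
  · rw [Submodule.span_le]
    rintro _ ⟨a, h, hh, rfl⟩
    have ha : a ∈ Algebra.adjoin M.F1 ({l0} : Set M.L) := by rw [hl0]; exact Algebra.mem_top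
    rw [Algebra.adjoin_singleton_eq_range_aeval] at ha
    obtain ⟨p, rfl⟩ := ha
    have h1 : M.j (Polynomial.aeval l0 p) = ∑ i ∈ Finset.range (p.natDegree + 1),
        p.coeff i • (M.j l0) ^ i := by
      rw [Polynomial.aeval_eq_sum_range, map_sum]
      exact Finset.sum_congr rfl fun i _ => by rw [map_smul, map_pow]
    change M.j (Polynomial.aeval l0 p) ⊗ₜ[A.F] h ∈ _
    rw [h1, TensorProduct.sum_tmul]
    refine Submodule.sum_mem _ fun i _ => ?_
    rw [← TensorProduct.smul_tmul']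
    exact Submodule.smul_mem _ _ (Submodule.subset_span ⟨i, h, hh, rfl⟩)

theorem PE.finrank_adjoin_j (l0 : M.L) (hl0 : Algebra.adjoin M.F1 ({l0} : Set M.L) = ⊤) :
    Module.finrank M.F1 (Algebra.adjoin M.F1 ({M.j l0} : Set M.E)) = N := by
  have h1 : Algebra.adjoin M.F1 ({M.j l0} : Set M.E) = (⊤ : Subalgebra M.F1 M.L).map M.j := by
    rw [← hl0, AlgHom.map_adjoin, Set.image_singleton]
  rw [h1, Algebra.map_top]
  exact ((AlgEquiv.ofInjective M.j M.j_injective).toLinearEquiv.finrank_eq).symm.trans M.finrankL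

/-- (e) -/
theorem PE.finrank_adjoin (s : M.E) (hs : s ∉ Set.range (algebraMap M.F1 M.E)) :
    Module.finrank M.F1 (Algebra.adjoin M.F1 ({s} : Set M.E)) = N :=
  MinI.finrank_adjoin_of_prime M.pr M.finrankE s hs

theorem PE.span_noncentral :
    Submodule.span M.F1 {s : M.E | s ∉ Set.range (algebraMap M.F1 M.E)} = ⊤ := by
  have hbot : ∃ a : M.E, a ∉ Set.range (algebraMap M.F1 M.E) := by
    by_contra hc
    push Not at hc
    have h1 : (⊥ : Subalgebra M.F1 M.E) = ⊤ := by
      rw [eq_top_iff]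
      intro x _
      exact Algebra.mem_bot.2 (hc x)
    have h2 : Module.finrank M.F1 (⊥ : Subalgebra M.F1 M.E) = 1 := Subalgebra.finrank_bot
    rw [h1] at h2
    have h3 : Module.finrank M.F1 (⊤ : Subalgebra M.F1 M.E) = Module.finrank M.F1 M.E :=
      finrank_top M.F1 M.E
    rw [h3, M.finrankE] at h2
    have h4 := M.pr.two_le
    nlinarith
  obtain ⟨a, ha⟩ := hbot
  rw [eq_top_iff]
  intro x _
  by_cases hx : x ∈ Set.range (algebraMap M.F1 M.E)
  · have h1 : a + x ∉ Set.range (algebraMap M.F1 M.E) := by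
      rintro ⟨c, hc⟩
      obtain ⟨d, rfl⟩ := hx
      exact ha ⟨c - d, by rw [map_sub, hc]; abel⟩
    have h2 : x = (a + x) - a := by abel
    rw [h2]
    exact Submodule.sub_mem _ (Submodule.subset_span h1) (Submodule.subset_span ha)
  · exact Submodule.subset_span hx

end PEalg

end Crest.Agent.R180
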