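import Crest.Agent.R180.MinDefs
import Crest.Agent.R180.CycConstr

set_option autoImplicit false

/-!
# Row 180, route M, block (G): existence of the extensions `PE A N` and of the trivial one
-/

noncomputable section
namespace Crest.Agent.R180

open TensorProduct

/-- prime degree: the fixed field of every nontrivial power of `τ` is `F1` -/
theorem Cyc.fix_pow {A : DA} {N : ℕ} {I : Type} (M : Cyc A N I) (hN : N.Prime) (k : ℕ)
    (hk0 : 0 < k) (hk : k < N) (y : M.L) (hy : (M.τ ^ k) y = y) :
    ∃ c : M.F1, algebraMap M.F1 M.L c = y := by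
  apply M.fix
  have h1 : ∀ a : ℕ, (M.τ ^ (k * a)) y = y := by
    intro a
    induction a with
    | zero => simp
    | succ a ih =>
      rw [Nat.mul_succ, pow_add]
      change (M.τ ^ (k * a)) ((M.τ ^ k) y) = y
      rw [hy, ih]
  have h2 : ∀ a : ℕ, (M.τ ^ (N * a)) y = y := by
    intro a
    induction a with
    | zero => simp
    | succ a ih =>
      rw [Nat.mul_succ, pow_add]
      change (M.τ ^ (N * a)) ((M.τ ^ N) y) = y
      rw [M.τN, ih]
  have hcop : Nat.Coprime k N := by
    rw [Nat.coprime_comm]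
    exact (Nat.Prime.coprime_iff_not_dvd hN).mpr (fun h => absurd (Nat.le_of_dvd hk0 h) (by omega))
  obtain ⟨a, ha⟩ := Nat.exists_mul_mod_eq_one_of_coprime hcop hN.one_lt
  have h3 := h1 a
  have h4 : k * a = 1 + N * (k * a / N) := by
    have := Nat.mod_add_div (k * a) N
    omega
  rw [h4, pow_add, pow_one] at h3
  change M.τ ((M.τ ^ (N * (k * a / N))) y) = y at h3
  rw [h2] at h3
  exact h3

theorem Cyc.u_ne_zero {A : DA} {N : ℕ} {I : Type} (M : Cyc A N I) : M.u ≠ 0 := by
  intro h
  have := M.uu'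
  rw [h, zero_mul] at this
  exact zero_ne_one this

/-- a cyclic extension of prime degree gives a `PE` -/
def Cyc.toPE {A : DA} {N : ℕ} {I : Type} (M : Cyc A N I) (hN : N.Prime) : PE A N where
  toAdm := M.toAdm
  pr := hN
  L := M.L
  finrankL := M.finrankL
  j := M.j
  τ := M.τ
  u := M.u
  u_ne := M.u_ne_zero
  conj := M.conj
  decomp := M.decomp
  fix := fun i hi0 hi y hy => M.fix_pow hN i hi0 hi y hy

theorem exists_PE (A : DA) (n : ℕ) : ∃ N, n < N ∧ Nonempty (PE A N) := by
  obtain ⟨N, hn, hN⟩ := Nat.exists_infinite_primes (n + 1)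
  obtain ⟨M⟩ := exists_cyc A N hN.one_lt.le Unit
  exact ⟨N, hn, ⟨M.toPE hN⟩⟩

theorem exists_trivialAdm (A : DA) : ∃ M : Adm A,
    Function.Bijective (algebraMap A.F M.F1) ∧ Function.Bijective (algebraMap M.F1 M.E) :=
  exists_trivial A

end Crest.Agent.R180
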