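import Crest.Agent.R180.MinLive
import Crest.Agent.R180.MinMuCore

set_option autoImplicit false
noncomputable section

/-!
# Row 180, ROUTE M: dimension bounds at minimal states
-/

namespace Crest.Agent.R180

variable {P : (A : DA) → (m : ℕ) → NC (Fin m) A.D → Prop}

theorem MinMu.finrank_toSt {S : St P} {M : Adm S.A} {N : ℕ}
    (hN : Module.finrank M.F1 M.E = N * N) {z : Fin S.m → PowerSeries M.E} (hz : GenPt M z)
    (st : Step P S.Λ S.γ M z) :
    Module.finrank (st.toSt hz).A.F (st.toSt hz).A.D =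
      N * N * Module.finrank S.A.F S.A.D := by
  rw [← hN]; exact MinA.finrank_mv M

theorem MinMu.N_pos {A : DA} {M : Adm A} {N : ℕ} (hN : Module.finrank M.F1 M.E = N * N) :
    0 < N := by
  rcases Nat.eq_zero_or_pos N with h0 | h0
  · rw [h0, zero_mul] at hN
    have : 0 < Module.finrank M.F1 M.E := Module.finrank_pos
    omega
  · exact h0

/-- dimension bounds at minimal states -/
theorem St.Good1.finrank_le {S : St P} (h : S.Good1) {M : Adm S.A} {N : ℕ}
    (hN : Module.finrank M.F1 M.E = N * N) {z : Fin S.m → PowerSeries M.E} (hz : GenPt M z)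
    (st : Step P S.Λ S.γ M z) :
    Module.finrank (LF M.F1) st.Lam ≤ N * Module.finrank S.A.F S.Λ :=
  MinMu.le_of_mu1 (MinMu.finrank_toSt hN hz st) (h (st.toSt hz))

theorem St.Good1.of_finrank {S : St P} (h : S.Good1) {M : Adm S.A} {N : ℕ}
    (hN : Module.finrank M.F1 M.E = N * N) {z : Fin S.m → PowerSeries M.E} (hz : GenPt M z)
    (st : Step P S.Λ S.γ M z)
    (h' : N * Module.finrank S.A.F S.Λ ≤
      Module.finrank (LF M.F1) st.Lam) : (st.toSt hz).Good1 :=
  fun S' => (MinMu.mu1_le (MinMu.finrank_toSt hN hz st) (MinMu.N_pos hN) h').trans (h S')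

theorem St.Good2.finrank_le {S : St P} (h : S.Good2) (hU : S.U ≤ Subalgebra.toSubmodule S.Λ)
    {M : Adm S.A} {N : ℕ}
    (hN : Module.finrank M.F1 M.E = N * N) {z : Fin S.m → PowerSeries M.E} (hz : GenPt M z)
    (st : Step P S.Λ S.γ M z) (h1 : (st.toSt hz).Good1)
    (hU' : (st.toSt hz).U ≤ Subalgebra.toSubmodule (st.toSt hz).Λ) :
    Module.finrank (LF M.F1) st.Psi ≤
      N * Module.finrank S.A.F S.Psi := by
  have hD := MinMu.finrank_toSt hN hz st
  have hΛ : Module.finrank (st.toSt hz).A.F (st.toSt hz).Λ = N * Module.finrank S.A.F S.Λ :=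
    le_antisymm (MinMu.le_of_mu1 hD (h.1 (st.toSt hz))) (MinMu.ge_of_mu1 hD (h1 S))
  exact MinMu.psi_le_of_mu2 hU hU' hΛ (h.2 _ h1)

theorem St.Good2.of_finrank {S : St P} (h : S.Good2) (hU : S.U ≤ Subalgebra.toSubmodule S.Λ)
    {M : Adm S.A} {N : ℕ}
    (hN : Module.finrank M.F1 M.E = N * N) {z : Fin S.m → PowerSeries M.E} (hz : GenPt M z)
    (st : Step P S.Λ S.γ M z) (h1 : (st.toSt hz).Good1)
    (hU' : (st.toSt hz).U ≤ Subalgebra.toSubmodule (st.toSt hz).Λ)
    (h' : N * Module.finrank S.A.F S.Psi ≤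
      Module.finrank (LF M.F1) st.Psi) : (st.toSt hz).Good2 := by
  have hD := MinMu.finrank_toSt hN hz st
  have hΛ : Module.finrank (st.toSt hz).A.F (st.toSt hz).Λ = N * Module.finrank S.A.F S.Λ :=
    le_antisymm (MinMu.le_of_mu1 hD (h.1 (st.toSt hz))) (MinMu.ge_of_mu1 hD (h1 S))
  exact ⟨h1, fun S' hS' => (MinMu.mu2_le hU hU' hΛ (MinMu.N_pos hN) h').trans (h.2 S' hS')⟩

end Crest.Agent.R180
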