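import Crest.Agent.R180.MinDefs

set_option autoImplicit false
set_option linter.unusedSectionVars false

/-!
# Row 180, route M: facts on extensions `M : PE A N` (prime degree cyclic, `E = ⊕_{i<N} L u^i`)

* `coefE`, `finrank_E`, `j_injective`, `pow_conj`, `comm_pow`, `u_pow_ne`
* `conj_ne` : `θ ∉ F1 ⇒ τ^k θ ≠ θ` (`0 < k < N`)
* `adjoin_simple` : `θ ∉ F1 ⇒ F1(θ) = L`; `ne_of_adjoin` : converse direction
* `adjoin_pair` : `E` is generated by `j θ`, `u`
* `mem_range_j_of_commute` : `C_E(j θ) = j L`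
* `indep_pow_L`, `span_pow_L`, `indep_pow`, `mem_span_of_commute`
-/

namespace Crest.Agent.R180

noncomputable section

open TensorProduct Finset

namespace PE

variable {A : DA} {N : ℕ} (M : PE A N)

include M in
theorem N_pos : 0 < N := M.pr.pos

include M in
theorem one_lt : 1 < N := M.pr.one_lt

/-- the coordinates of `E = ⊕ L u^i` -/
def coefE : (Fin N → M.L) ≃ₗ[M.F1] M.E :=
  LinearEquiv.ofBijective
    { toFun := fun c => ∑ i : Fin N, M.j (c i) * M.u ^ (i : ℕ)
      map_add' := fun a b => by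
        simp only [Pi.add_apply, map_add, add_mul, Finset.sum_add_distrib]
      map_smul' := fun r a => by
        simp only [Pi.smul_apply, map_smul, smul_mul_assoc, Finset.smul_sum, RingHom.id_apply] }
    ⟨fun a b hab => by
        obtain ⟨c, _, hu⟩ := M.decomp (∑ i : Fin N, M.j (a i) * M.u ^ (i : ℕ))
        exact (hu a rfl).trans (hu b hab).symm,
      fun e => by
        obtain ⟨c, hc, _⟩ := M.decomp e
        exact ⟨c, hc.symm⟩⟩

theorem coefE_apply (c : Fin N → M.L) :
    M.coefE c = ∑ i : Fin N, M.j (c i) * M.u ^ (i : ℕ) := rfl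

theorem coefE_symm_spec (e : M.E) : e = ∑ i : Fin N, M.j (M.coefE.symm e i) * M.u ^ (i : ℕ) := by
  rw [← coefE_apply, LinearEquiv.apply_symm_apply]

theorem finrank_E : Module.finrank M.F1 M.E = N * N := by
  rw [← M.coefE.finrank_eq, Module.finrank_pi_fintype, Finset.sum_const, M.finrankL]
  simp

theorem j_injective : Function.Injective M.j := RingHom.injective M.j.toRingHom

theorem pow_conj (n : ℕ) (y : M.L) : M.u ^ n * M.j y = M.j ((M.τ ^ n) y) * M.u ^ n := by
  induction n with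
  | zero => simp
  | succ n ih =>
    rw [pow_succ', mul_assoc, ih, ← mul_assoc, M.conj, pow_succ', mul_assoc]
    rfl

/-- `[j a, j b u^n] = j ((a - τ^n a) b) u^n` -/
theorem comm_pow (a b : M.L) (n : ℕ) : M.j a * (M.j b * M.u ^ n) - (M.j b * M.u ^ n) * M.j a =
    M.j ((a - (M.τ ^ n) a) * b) * M.u ^ n := by
  rw [mul_assoc (M.j b), M.pow_conj, ← mul_assoc, ← mul_assoc, ← map_mul, ← map_mul, ← sub_mul,
    ← map_sub]
  congr 2
  ring

theorem u_pow_ne (n : ℕ) : M.u ^ n ≠ 0 := pow_ne_zero n M.u_ne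

/-- every element of `L` outside `F1` has `N` distinct conjugates -/
theorem conj_ne (θ : M.L) (hθ : ∀ c : M.F1, algebraMap M.F1 M.L c ≠ θ)
    (k : ℕ) (hk0 : 0 < k) (hk : k < N) : (M.τ ^ k) θ ≠ θ := by
  intro h
  obtain ⟨c, hc⟩ := M.fix k hk0 hk θ h
  exact hθ c hc

/-- an element generating `L` is not in `F1` -/
theorem ne_of_adjoin (θ : M.L) (hθ : Algebra.adjoin M.F1 ({θ} : Set M.L) = ⊤) (c : M.F1) :
    algebraMap M.F1 M.L c ≠ θ := by
  rintro rfl
  have h1 : (⊥ : Subalgebra M.F1 M.L) = ⊤ := by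
    rw [← hθ, eq_comm, eq_bot_iff, Algebra.adjoin_le_iff]
    rintro _ rfl
    exact ⟨c, rfl⟩
  have h2 : Module.finrank M.F1 (⊤ : Subalgebra M.F1 M.L) = N :=
    (Subalgebra.topEquiv.toLinearEquiv.finrank_eq).trans M.finrankL
  rw [← h1, Subalgebra.finrank_bot] at h2
  have := M.one_lt
  omega

/-- `L` is bigger than `F1` -/
theorem exists_not_mem : ∃ θ : M.L, ∀ c : M.F1, algebraMap M.F1 M.L c ≠ θ := by
  by_contra hcon
  push Not at hcon
  have h1 : (⊥ : Subalgebra M.F1 M.L) = ⊤ := by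
    rw [eq_top_iff]
    intro θ _
    obtain ⟨c, hc⟩ := hcon θ
    exact ⟨c, hc⟩
  have h2 : Module.finrank M.F1 (⊤ : Subalgebra M.F1 M.L) = N :=
    (Subalgebra.topEquiv.toLinearEquiv.finrank_eq).trans M.finrankL
  rw [← h1, Subalgebra.finrank_bot] at h2
  have := M.one_lt
  omega

theorem natDegree_minpoly (θ : M.L) (hθ : ∀ c : M.F1, algebraMap M.F1 M.L c ≠ θ) :
    N ≤ (minpoly M.F1 θ).natDegree := by
  classical
  have hint : IsIntegral M.F1 θ := Algebra.IsIntegral.isIntegral θ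
  have hinj : Set.InjOn (fun k : ℕ => (M.τ ^ k) θ) (range N : Set ℕ) := by
    have key : ∀ a b : ℕ, a < b → b < N → (M.τ ^ a) θ ≠ (M.τ ^ b) θ := by
      intro a b hab hb h
      apply M.conj_ne θ hθ (b - a) (by omega) (by omega)
      apply (M.τ ^ a).injective
      have h2 : (M.τ ^ a) ((M.τ ^ (b - a)) θ) = (M.τ ^ b) θ := by
        have : b = a + (b - a) := by omega
        conv_rhs => rw [this, pow_add]
        rfl
      rw [h2, ← h]
    intro a ha b hb hab
    simp only [coe_range, Set.mem_Iio] at ha hb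
    rcases lt_trichotomy a b with h | h | h
    · exact absurd hab (key a b h hb)
    · exact h
    · exact absurd hab.symm (key b a h ha)
  have hmap := Polynomial.natDegree_map_eq_of_injective (algebraMap M.F1 M.L).injective
    (minpoly M.F1 θ)
  rw [← hmap]
  have hne : (minpoly M.F1 θ).map (algebraMap M.F1 M.L) ≠ 0 :=
    Polynomial.map_ne_zero (minpoly.ne_zero hint)
  have hsub : ((range N).image (fun k : ℕ => (M.τ ^ k) θ)).val ⊆
      ((minpoly M.F1 θ).map (algebraMap M.F1 M.L)).roots := by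
    intro y hy
    rw [Finset.mem_val, Finset.mem_image] at hy
    obtain ⟨k, _, rfl⟩ := hy
    rw [Polynomial.mem_roots hne, Polynomial.IsRoot, Polynomial.eval_map,
      ← Polynomial.aeval_def]
    have h1 : Polynomial.aeval ((M.τ ^ k) θ) (minpoly M.F1 θ) =
        (M.τ ^ k) (Polynomial.aeval θ (minpoly M.F1 θ)) := by
      rw [← Polynomial.aeval_algHom_apply (M.τ ^ k : M.L ≃ₐ[M.F1] M.L) θ]
    rw [h1, minpoly.aeval, map_zero]
  have h2 := Polynomial.card_le_degree_of_subset_roots hsub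
  rwa [Finset.card_image_of_injOn hinj, Finset.card_range] at h2

/-- an element of `L` outside `F1` generates `L` -/
theorem adjoin_simple (θ : M.L) (hθ : ∀ c : M.F1, algebraMap M.F1 M.L c ≠ θ) :
    Algebra.adjoin M.F1 ({θ} : Set M.L) = ⊤ := by
  have hint : IsIntegral M.F1 θ := Algebra.IsIntegral.isIntegral θ
  have hfr := IntermediateField.adjoin.finrank hint
  have htop : IntermediateField.adjoin M.F1 {θ} = ⊤ := by
    apply IntermediateField.eq_of_le_of_finrank_le le_top
    rw [IntermediateField.finrank_top', hfr, M.finrankL]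
    exact M.natDegree_minpoly θ hθ
  have h3 := IntermediateField.adjoin_simple_toSubalgebra_of_isAlgebraic hint.isAlgebraic
  rw [← h3, htop]
  rfl

/-- there is a generator of `L` -/
theorem exists_gen : ∃ l0 : M.L, Algebra.adjoin M.F1 ({l0} : Set M.L) = ⊤ := by
  obtain ⟨θ, hθ⟩ := M.exists_not_mem
  exact ⟨θ, M.adjoin_simple θ hθ⟩

theorem indep_pow_L (θ : M.L) (hθ : Algebra.adjoin M.F1 ({θ} : Set M.L) = ⊤) :
    LinearIndependent M.F1 (fun k : Fin N => θ ^ (k : ℕ)) := by
  have h1 := M.natDegree_minpoly θ (M.ne_of_adjoin θ hθ)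
  have h2 := linearIndependent_pow (K := M.F1) θ
  exact h2.comp (Fin.castLE h1) (Fin.castLE_injective h1)

theorem span_pow_L (θ : M.L) (hθ : Algebra.adjoin M.F1 ({θ} : Set M.L) = ⊤) :
    Submodule.span M.F1 (Set.range fun k : Fin N => θ ^ (k : ℕ)) = ⊤ := by
  apply LinearIndependent.span_eq_top_of_card_eq_finrank' (M.indep_pow_L θ hθ)
  rw [Fintype.card_fin, M.finrankL]

/-- `C_E(j θ) = j L` -/
theorem mem_range_j_of_commute (θ : M.L) (hθ : Algebra.adjoin M.F1 ({θ} : Set M.L) = ⊤)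
    (x : M.E) (hx : x * M.j θ = M.j θ * x) : ∃ y : M.L, x = M.j y := by
  classical
  obtain ⟨c, hc, _⟩ := M.decomp x
  have h1 : M.coefE (fun i => (θ - (M.τ ^ (i : ℕ)) θ) * c i) = 0 := by
    rw [coefE_apply]
    have h2 : M.j θ * x - x * M.j θ = 0 := by rw [hx, sub_self]
    rw [hc, Finset.mul_sum, Finset.sum_mul, ← Finset.sum_sub_distrib] at h2
    rw [← h2]
    exact Finset.sum_congr rfl fun i _ => (M.comm_pow θ (c i) i).symm
  rw [LinearEquiv.map_eq_zero_iff] at h1
  have hN := M.N_pos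
  refine ⟨c ⟨0, hN⟩, ?_⟩
  conv_lhs => rw [hc]
  rw [Finset.sum_eq_single ⟨0, hN⟩]
  · simp
  · intro i _ hi
    have h2 := congrFun h1 i
    simp only [Pi.zero_apply, mul_eq_zero] at h2
    rcases h2 with h2 | h2
    · exfalso
      refine M.conj_ne θ (M.ne_of_adjoin θ hθ) i ?_ i.2 (sub_eq_zero.mp h2).symm
      rcases Nat.eq_zero_or_pos (i : ℕ) with h3 | h3
      · exact absurd (Fin.ext h3) hi
      · exact h3
    · rw [h2, map_zero, zero_mul]
  · intro h; exact absurd (Finset.mem_univ _) h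

theorem commute_j (x y : M.L) : M.j x * M.j y = M.j y * M.j x := by
  rw [← map_mul, mul_comm, map_mul]

theorem indep_pow (θ : M.L) (hθ : Algebra.adjoin M.F1 ({θ} : Set M.L) = ⊤) :
    LinearIndependent M.F1 (fun k : Fin N => (M.j θ) ^ (k : ℕ)) := by
  have h1 := (M.indep_pow_L θ hθ).map' M.j.toLinearMap
    (LinearMap.ker_eq_bot.mpr M.j_injective)
  have h2 : (fun k : Fin N => (M.j θ) ^ (k : ℕ)) = M.j.toLinearMap ∘
      (fun k : Fin N => θ ^ (k : ℕ)) := by
    funext k; simp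
  rw [h2]; exact h1

theorem mem_span_of_commute (θ : M.L) (hθ : Algebra.adjoin M.F1 ({θ} : Set M.L) = ⊤)
    (x : M.E) (hx : x * M.j θ = M.j θ * x) :
    x ∈ Submodule.span M.F1 (Set.range fun k : Fin N => (M.j θ) ^ (k : ℕ)) := by
  obtain ⟨y, rfl⟩ := M.mem_range_j_of_commute θ hθ x hx
  have h1 : y ∈ Submodule.span M.F1 (Set.range fun k : Fin N => θ ^ (k : ℕ)) := by
    rw [M.span_pow_L θ hθ]; trivial
  have h2 : (Set.range fun k : Fin N => (M.j θ) ^ (k : ℕ)) = M.j.toLinearMap ''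
      (Set.range fun k : Fin N => θ ^ (k : ℕ)) := by
    rw [← Set.range_comp]
    congr 1
    funext k; simp
  rw [h2, Submodule.span_image]
  exact Submodule.mem_map_of_mem h1

/-- `E` is generated by `j θ` and `u` -/
theorem adjoin_pair (θ : M.L) (hθ : Algebra.adjoin M.F1 ({θ} : Set M.L) = ⊤) :
    Algebra.adjoin M.F1 ({M.j θ, M.u} : Set M.E) = ⊤ := by
  set S := Algebra.adjoin M.F1 ({M.j θ, M.u} : Set M.E) with hS
  have h1 : M.j θ ∈ S := Algebra.subset_adjoin (by simp)
  have h4 : M.u ∈ S := Algebra.subset_adjoin (by simp)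
  have h3 : ∀ z : M.L, M.j z ∈ S := by
    intro z
    have hz : z ∈ Algebra.adjoin M.F1 ({θ} : Set M.L) := by
      rw [hθ]; trivial
    have hle : (Algebra.adjoin M.F1 ({θ} : Set M.L)).map M.j ≤ S := by
      rw [AlgHom.map_adjoin, Set.image_singleton, Algebra.adjoin_le_iff]
      rintro _ rfl
      exact h1
    exact hle ⟨z, hz, rfl⟩
  rw [eq_top_iff]
  intro e _
  obtain ⟨c, hc, _⟩ := M.decomp e
  rw [hc]
  exact S.sum_mem fun k _ => S.mul_mem (h3 _) (S.pow_mem h4 _)

/-- two generators of `E` -/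
theorem exists_gen_pair : ∃ p : Fin 2 → M.E, Algebra.adjoin M.F1 (Set.range p) = ⊤ := by
  obtain ⟨θ, hθ⟩ := M.exists_gen
  refine ⟨![M.j θ, M.u], ?_⟩
  rw [← M.adjoin_pair θ hθ]
  congr 1
  ext x
  simp only [Matrix.range_cons, Matrix.range_empty, Set.union_empty, Set.mem_union,
    Set.mem_singleton_iff, Set.mem_insert_iff]

/-- the span of the off-diagonal part: an element of `E` is a commutator with `j θ` iff its
`0`-th coordinate vanishes -/
theorem exists_comm_iff (θ : M.L) (hθ : Algebra.adjoin M.F1 ({θ} : Set M.L) = ⊤) (x : M.E) :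
    (∃ y : M.E, x = M.j θ * y - y * M.j θ) ↔ M.coefE.symm x ⟨0, M.N_pos⟩ = 0 := by
  classical
  have hne := M.ne_of_adjoin θ hθ
  have key : ∀ y : M.E, M.j θ * y - y * M.j θ =
      M.coefE (fun i => (θ - (M.τ ^ (i : ℕ)) θ) * M.coefE.symm y i) := by
    intro y
    conv_lhs => rw [M.coefE_symm_spec y]
    rw [coefE_apply, Finset.mul_sum, Finset.sum_mul, ← Finset.sum_sub_distrib]
    exact Finset.sum_congr rfl fun i _ => M.comm_pow θ _ i
  constructor
  · rintro ⟨y, rfl⟩
    rw [key y, LinearEquiv.symm_apply_apply]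
    simp
  · intro h
    refine ⟨M.coefE (fun i => (θ - (M.τ ^ (i : ℕ)) θ)⁻¹ * M.coefE.symm x i), ?_⟩
    rw [key, LinearEquiv.symm_apply_apply]
    conv_lhs => rw [← M.coefE.apply_symm_apply x]
    congr 1
    funext i
    rcases Nat.eq_zero_or_pos (i : ℕ) with h3 | h3
    · have h4 : i = ⟨0, M.N_pos⟩ := Fin.ext h3
      rw [h4, h]; simp
    · have h5 : θ - (M.τ ^ (i : ℕ)) θ ≠ 0 :=
        sub_ne_zero.mpr (M.conj_ne θ hne i h3 i.2).symm
      rw [← mul_assoc, mul_inv_cancel₀ h5, one_mul]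

end PE

end

end Crest.Agent.R180
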