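import Crest.Agent.R180.MinDefs

set_option autoImplicit false
noncomputable section
namespace Crest.Agent.R180

open TensorProduct

/-! # Row 180, ROUTE M: the base points of types I/II and III (definitions) -/

/-- base points of type I/II: `γ(z) = t^{2k-1} (s⊗u + t ρ + O(t²))` -/
structure Pt12 {A : DA} {m : ℕ} (γ : NC (Fin m) A.D) (M : Adm A) (k : ℕ) (s : M.E) (u : A.D)
    (ρ : M.D0) (z : Fin m → PowerSeries M.E) : Prop where
  gp : GenPt M z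
  c0 : ∃ y, M.ev z γ = PowerSeries.X ^ (2 * k - 1) * (PowerSeries.C (s ⊗ₜ[A.F] u) +
    PowerSeries.X * PowerSeries.C ρ + PowerSeries.X ^ 2 * y)
  d1 : ∀ v, ∃ y, M.dv z v γ = M.l1 v γ + PowerSeries.X ^ 2 * y
  eu : ∃ v y, M.dv z v γ = PowerSeries.X ^ (2 * k - 1) *
    ((2 * k - 1) • PowerSeries.C (s ⊗ₜ[A.F] u) + (2 * k) • (PowerSeries.X * PowerSeries.C ρ) +
      PowerSeries.X ^ 2 * y)

/-- base points of type III: `γ(z) = t^{3k-2} (j l₀ ⊗ u + t ∑ Y^{i+1} ⊗ b_i + t² ρ + O(t³))` -/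
structure Pt3 {A : DA} {m N : ℕ} (γ : NC (Fin m) A.D) (M : PE A N) (k : ℕ) (l0 : M.L) {r : ℕ}
    (u : A.D) (b : Fin r → A.D) (ρ : M.D0) (z : Fin m → PowerSeries M.E) : Prop where
  gp : GenPt M.toAdm z
  c0 : ∃ y, M.ev z γ = PowerSeries.X ^ (3 * k - 2) * (PowerSeries.C (M.j l0 ⊗ₜ[A.F] u) +
    PowerSeries.X * PowerSeries.C (∑ i : Fin r, (M.u ^ (i.val + 1)) ⊗ₜ[A.F] b i) +
    PowerSeries.X ^ 2 * PowerSeries.C ρ + PowerSeries.X ^ 3 * y)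
  d1 : ∀ v, ∃ y, M.dv z v γ = M.l1 v γ + PowerSeries.X ^ 3 * y
  eu : ∃ v y, M.dv z v γ = PowerSeries.X ^ (3 * k) * (PowerSeries.C (k • ρ) + PowerSeries.X * y)

end Crest.Agent.R180
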