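import Crest.Agent.R180.MinLive
import Crest.Agent.R180.MinDefs2

set_option autoImplicit false
noncomputable section
namespace Crest.Agent.R180

open TensorProduct

/-! # Row 180, ROUTE M: conclusions of (III) -/

variable {P : (A : DA) → (m : ℕ) → NC (Fin m) A.D → Prop}

/-- conclusions of the move lemma -/
structure C3 {S : St P} {N : ℕ} (M : PE S.A N) {z : Fin S.m → PowerSeries M.E}
    (hz : GenPt M.toAdm z) (st : Step P S.Λ S.γ M.toAdm z) (t : S.A.D →ₗ[S.A.F] S.A.F)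
    (tE : M.E →ₗ[M.F1] M.F1) (u' : S.A.D) (ρ : M.D0) : Prop where
  g2 : (st.toSt hz).Good2
  resLam : LD.resSp (Subalgebra.toSubmodule st.Lam) = Subalgebra.toSubmodule (M.psiL S.Λ)
  resPsi : LD.resSp (Subalgebra.toSubmodule st.Psi) = Subalgebra.toSubmodule (M.psiL S.Psi)
  resH : ∀ x ∈ st.H t tE, LD.IsInt x →
    x.co 0 ∈ Submodule.span M.F1 {y : M.D0 | ∃ (a : M.L) (h : S.A.D), h ∈ HH2 t S.U u' ∧
        y = M.j a ⊗ₜ[S.A.F] h} ⊔
      Submodule.span M.F1 {y : M.D0 | ∃ h ∈ HH t S.U, y = (1 : M.E) ⊗ₜ[S.A.F] h}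
  rho : ∀ x ∈ st.H t tE, LD.IsInt x → M.tt tE t (x.co 0 * ρ) = 0
  /-- the residues of `U'` contain `L ⊗ U` -/
  resU : ∀ a ∈ S.U, ∀ l : M.L, (M.j l) ⊗ₜ[S.A.F] a ∈ LD.resSp st.U

end Crest.Agent.R180
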