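import Crest.Agent.R180.MinDefs

set_option autoImplicit false
noncomputable section
namespace Crest.Agent.R180

open TensorProduct

/-! # Row 180, ROUTE M: trace functionals -/

namespace MinTr

/-- the trace of left multiplication -/
def trL (F D : Type) [Field F] [Ring D] [Algebra F D] : D →ₗ[F] F :=
  (LinearMap.trace F D) ∘ₗ (LinearMap.mul F D)

theorem trL_apply (F D : Type) [Field F] [Ring D] [Algebra F D] (x : D) :
    trL F D x = LinearMap.trace F D (LinearMap.mul F D x) := rfl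

theorem trL_comm (F D : Type) [Field F] [Ring D] [Algebra F D] (x y : D) :
    trL F D (x * y) = trL F D (y * x) := by
  rw [trL_apply, trL_apply]
  have h : ∀ a b : D, LinearMap.mul F D (a * b) = LinearMap.mul F D a * LinearMap.mul F D b := by
    intro a b
    ext z
    simp [mul_assoc]
  rw [h, h, LinearMap.trace_mul_comm]

theorem trL_one (F D : Type) [Field F] [CharZero F] [Ring D] [Nontrivial D] [Algebra F D]
    [FiniteDimensional F D] : trL F D 1 ≠ 0 := by
  rw [trL_apply]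
  have h : LinearMap.mul F D 1 = 1 := by
    ext z
    simp
  rw [h, LinearMap.trace_one]
  exact Nat.cast_ne_zero.mpr (Module.finrank_pos.ne')

end MinTr

theorem exists_isTr (A : DA) : ∃ t : A.D →ₗ[A.F] A.F, IsTr t :=
  ⟨MinTr.trL A.F A.D, MinTr.trL_comm A.F A.D, MinTr.trL_one A.F A.D⟩

theorem exists_isTrE {A : DA} (M : Adm A) : ∃ tE : M.E →ₗ[M.F1] M.F1,
    (∀ x y, tE (x * y) = tE (y * x)) ∧ tE 1 ≠ 0 :=
  ⟨MinTr.trL M.F1 M.E, MinTr.trL_comm M.F1 M.E, MinTr.trL_one M.F1 M.E⟩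

namespace MinTr

theorem tt_tmul {A : DA} (M : Adm A) (t : A.D →ₗ[A.F] A.F) (tE : M.E →ₗ[M.F1] M.F1) (e : M.E)
    (d : A.D) : M.tt tE t (e ⊗ₜ[A.F] d) = algebraMap A.F M.F1 (t d) * tE e := by
  change tE (M.con t (e ⊗ₜ[A.F] d)) = _
  have h : M.con t (e ⊗ₜ[A.F] d) = t d • e := MinI.ellE_tmul t e d
  rw [h, ← algebraMap_smul M.F1 (t d) e, map_smul, smul_eq_mul]

theorem tt_comm {A : DA} (M : Adm A) {t : A.D →ₗ[A.F] A.F} (ht : ∀ x y, t (x * y) = t (y * x))
    {tE : M.E →ₗ[M.F1] M.F1} (htE : ∀ x y, tE (x * y) = tE (y * x)) (x y : M.D0) :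
    M.tt tE t (x * y) = M.tt tE t (y * x) := by
  induction x using TensorProduct.induction_on with
  | zero => simp
  | tmul a b =>
    induction y using TensorProduct.induction_on with
    | zero => simp
    | tmul a' b' =>
      rw [Algebra.TensorProduct.tmul_mul_tmul, Algebra.TensorProduct.tmul_mul_tmul, tt_tmul,
        tt_tmul, ht, htE]
    | add a' b' ha hb => rw [mul_add, add_mul, map_add, map_add, ha, hb]
  | add a b ha hb => rw [mul_add, add_mul, map_add, map_add, ha, hb]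

theorem mapL_comm {F K : Type} [Field F] [Ring K] [Algebra F K] (t : K →ₗ[F] F)
    (ht : ∀ x y, t (x * y) = t (y * x)) (x y : LD K) :
    LD.mapL t (x * y) = LD.mapL t (y * x) := by
  apply LF.ext; intro n
  rw [LD.co_mapL, LD.co_mapL]
  have h1 : (x * y).co n = ∑ ij ∈ Finset.antidiagonal
      (HahnSeries.isPWO_support (x : HahnSeries ℤ K))
      (HahnSeries.isPWO_support (y : HahnSeries ℤ K)) n, x.co ij.1 * y.co ij.2 :=
    HahnSeries.coeff_mul (x := (x : HahnSeries ℤ K)) (y := (y : HahnSeries ℤ K)) (a := n)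
  have h2 : (y * x).co n = ∑ ij ∈ Finset.antidiagonal
      (HahnSeries.isPWO_support (y : HahnSeries ℤ K))
      (HahnSeries.isPWO_support (x : HahnSeries ℤ K)) n, y.co ij.1 * x.co ij.2 :=
    HahnSeries.coeff_mul (x := (y : HahnSeries ℤ K)) (y := (x : HahnSeries ℤ K)) (a := n)
  rw [h1, h2, map_sum, map_sum]
  refine Finset.sum_nbij' (fun p => (p.2, p.1)) (fun p => (p.2, p.1)) ?_ ?_ ?_ ?_ ?_
  · intro p hp
    rw [Finset.mem_antidiagonal] at hp ⊢
    exact ⟨hp.2.1, hp.1, by rw [← hp.2.2, add_comm]⟩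
  · intro p hp
    rw [Finset.mem_antidiagonal] at hp ⊢
    exact ⟨hp.2.1, hp.1, by rw [← hp.2.2, add_comm]⟩
  · intro p _; rfl
  · intro p _; rfl
  · intro p _
    exact ht _ _

end MinTr

/-- the trace functional after a move -/
theorem isTr_mv {A : DA} (M : Adm A) {t : A.D →ₗ[A.F] A.F} (ht : IsTr t)
    {tE : M.E →ₗ[M.F1] M.F1} (htE : (∀ x y, tE (x * y) = tE (y * x)) ∧ tE 1 ≠ 0) :
    IsTr (F := (A.mv M).F) (D := (A.mv M).D) (LD.mapL (M.tt tE t)) := by
  refine ⟨fun x y => MinTr.mapL_comm _ (fun x y => MinTr.tt_comm M ht.1 htE.1 x y) x y, ?_⟩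
  intro h
  have h0 : (LD.mapL (M.tt tE t) (1 : LD M.D0)).co 0 = 0 := by
    have : LD.mapL (M.tt tE t) (1 : LD M.D0) = 0 := h
    rw [this]; rfl
  rw [LD.co_mapL, LD.co_one, if_pos rfl, Algebra.TensorProduct.one_def, MinTr.tt_tmul] at h0
  rcases mul_eq_zero.mp h0 with h1 | h1
  · exact ht.2 ((map_eq_zero _).mp h1)
  · exact htE.2 h1

end Crest.Agent.R180
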