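import Crest.Agent.R180.MinStart
import Crest.Agent.R180.MinMu
import Crest.Agent.R180.MinState
import Crest.Agent.R180.MinAlg
import Crest.Agent.R180.MinSt
import Crest.Agent.R180.MinTr
import Crest.Agent.R180.MinRes

set_option autoImplicit false

/-!
# Row 180, ROUTE M: (III), the move lemma
-/

noncomputable section
namespace Crest.Agent.R180

open TensorProduct

variable {P : (A : DA) → (m : ℕ) → NC (Fin m) A.D → Prop}

/-! ### elementary facts about steps -/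

namespace Step
section
variable {A : DA} {m : ℕ} {Λ : Subalgebra A.F A.D} {γ : NC (Fin m) A.D} {M : Adm A}
  {z : Fin m → PowerSeries M.E}

theorem lam_comm (st : Step P Λ γ M z) : ∀ a ∈ st.Lam, ∀ b ∈ st.Lam, a * b = b * a := st.rs.comm

theorem c0_mem (st : Step P Λ γ M z) : (LD.ofPS (M.ev z γ) : LD M.D0) ∈ st.Lam :=
  Algebra.subset_adjoin (Or.inr rfl)

theorem inc_mem (st : Step P Λ γ M z) {a : A.D} (ha : a ∈ Λ) :
    (LD.C (M.jD a) : LD M.D0) ∈ st.Lam :=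
  Algebra.subset_adjoin (Or.inl ⟨a, ha, rfl⟩)

/-- the pairing of `U'` with `Λ'` -/
theorem exists_pair (hz : GenPt M z) (st : Step P Λ γ M z) (t0 : M.D0 →ₗ[M.F1] M.F1)
    (ht : ∀ x y : LD M.D0, LD.mapL t0 (x * y) = LD.mapL t0 (y * x))
    (v : Fin m → PowerSeries M.E) : ∃ T ∈ st.U, ∀ l ∈ st.Lam,
      LD.mapL t0 (l * T) = LD.mapL t0 (l * LD.ofPS (M.dv z v γ)) := by
  obtain ⟨T, hT, x, hx⟩ := st.exists_T hz v
  refine ⟨T, hT, fun l hl => ?_⟩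
  have hc := st.lam_comm l hl _ st.c0_mem
  rw [hx, mul_sub, map_sub, mul_sub, map_sub]
  have h1 : LD.mapL t0 (l * (LD.ofPS (M.ev z γ) * x)) =
      LD.mapL t0 (l * (x * LD.ofPS (M.ev z γ))) := by
    rw [← mul_assoc, hc, mul_assoc, ht, mul_assoc]
  rw [h1, sub_self, sub_zero]

/-- with integral directions whose derivative has residue in `res Λ'` -/
theorem exists_int (hz : GenPt M z) (st : Step P Λ γ M z) (t0 : M.D0 →ₗ[M.F1] M.F1)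
    (ht : ∀ x y : LD M.D0, LD.mapL t0 (x * y) = LD.mapL t0 (y * x)) (ht1 : t0 1 ≠ 0)
    (hU : st.U ≤ Subalgebra.toSubmodule st.Lam)
    (v : Fin m → PowerSeries M.E)
    (hv : PowerSeries.coeff 0 (M.dv z v γ) ∈ LD.resSp (Subalgebra.toSubmodule st.Lam)) :
    ∃ T ∈ st.U, LD.IsInt T ∧ T.co 0 = PowerSeries.coeff 0 (M.dv z v γ) := by
  obtain ⟨T, hT, h⟩ := st.exists_pair hz t0 ht v
  have h0 : (LD.ofPS (M.dv z v γ) : LD M.D0).co 0 = PowerSeries.coeff 0 (M.dv z v γ) :=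
    LD.co_ofPS _ 0
  obtain ⟨h1, h2⟩ := LD.co_zero_of_pairing t0 ht1 st.Lam (hU hT) h (LD.isInt_ofPS _)
    (by rw [h0]; exact hv)
  exact ⟨T, hT, h1, by rw [h2, h0]⟩

/-- elements of `𝓗'` kill the derivatives -/
theorem H_pair (hz : GenPt M z) (st : Step P Λ γ M z) {t : A.D →ₗ[A.F] A.F}
    {tE : M.E →ₗ[M.F1] M.F1}
    (ht : ∀ x y : LD M.D0, LD.mapL (M.tt tE t) (x * y) = LD.mapL (M.tt tE t) (y * x))
    {x : LD M.D0} (hx : x ∈ st.H t tE) (hxΛ : x ∈ st.Lam) (v : Fin m → PowerSeries M.E) :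
    LD.mapL (M.tt tE t) (x * LD.ofPS (M.dv z v γ)) = 0 := by
  obtain ⟨T, hT, h⟩ := st.exists_pair hz _ ht v
  rw [← h x hxΛ]
  exact (hx T hT).2

end
end Step

/-! ### constant directions -/

section
variable {A : DA} {m : ℕ} (M : Adm A)

theorem Adm.l1_const (γ : NC (Fin m) A.D) (w : Fin m → A.F) (ξ : M.E) :
    M.l1 (fun j => PowerSeries.C (w j • ξ)) γ = PowerSeries.C (ξ ⊗ₜ[A.F] (lin γ w)) := by
  unfold Adm.l1
  have h1 : ∀ j, PowerSeries.map M.jE (PowerSeries.C (w j • ξ)) *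
      PowerSeries.C (M.jD (γ [j])) = PowerSeries.C (R := M.D0) (ξ ⊗ₜ[A.F] (w j • γ [j])) := by
    intro j
    rw [PowerSeries.map_C, ← map_mul]
    congr 1
    change ((w j • ξ) ⊗ₜ[A.F] (1 : A.D)) * ((1 : M.E) ⊗ₜ[A.F] γ [j]) = _
    rw [Algebra.TensorProduct.tmul_mul_tmul, mul_one, one_mul, TensorProduct.smul_tmul]
  rw [Finset.sum_congr rfl fun j _ => h1 j, ← map_sum, lin_apply, TensorProduct.tmul_sum]

end

/-! ### power series as Laurent series -/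

namespace LD
variable {K : Type} [Ring K]

theorem ofPS_X_pow_mul (m : ℕ) (f : PowerSeries K) :
    (ofPS (PowerSeries.X ^ m * f) : LD K) = tp (m : ℤ) * ofPS f := by
  apply LD.ext; intro n
  rw [co_tp_mul]
  rcases lt_or_ge n 0 with hn | hn
  · rw [co_ofPS_neg _ _ hn, co_ofPS_neg _ _ (by omega)]
  · obtain ⟨k, rfl⟩ := Int.eq_ofNat_of_zero_le hn
    rw [co_ofPS, PowerSeries.coeff_X_pow_mul']
    split_ifs with h
    · rw [show ((k : ℤ) - (m : ℤ)) = ((k - m : ℕ) : ℤ) by omega, co_ofPS]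
    · rw [co_ofPS_neg _ _ (by omega)]

theorem ofPS_C (a : K) : (ofPS (PowerSeries.C a) : LD K) = C a := rfl

theorem ofPS_ordGe (m : ℕ) (f : PowerSeries K) :
    OrdGe (m : ℤ) (ofPS (PowerSeries.X ^ m * f) : LD K) := by
  rw [ofPS_X_pow_mul]
  have := ordGe_tp_mul (a := 0) (b := (m : ℤ)) (x := (ofPS f : LD K)) (isInt_ofPS f)
  rwa [add_zero] at this

theorem tp_neg_mul_mul_tp (n : ℤ) (a x : LD K) : tp (-n) * (a * (tp n * x)) = a * x := by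
  rw [← mul_assoc a, ← tp_commute, ← mul_assoc, ← mul_assoc, tp_mul_tp, neg_add_cancel, tp_zero,
    one_mul]

theorem ofPS_co_zero (f : PowerSeries K) : (ofPS f : LD K).co 0 = PowerSeries.coeff 0 f :=
  co_ofPS f 0

theorem tp_mul_mem {F K : Type} [Field F] [Ring K] [Algebra F K] (S : Subalgebra (LF F) (LD K))
    {x : LD K} (hx : x ∈ S) (n : ℤ) : tp n * x ∈ S := by
  rw [← toLD_tp (F := F), ← smul_def]
  exact S.smul_mem hx _

end LD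

/-! ### the setting of (III) -/

section III
variable {S : St P} {N : ℕ} {M : PE S.A N} {k : ℕ} {l0 : M.L} {u : S.A.D} {r : ℕ}
  {b : Fin r → S.A.D} {ρ : M.D0} {z : Fin S.m → PowerSeries M.E}

theorem Pt3.dv_const (hz : Pt3 S.γ M k l0 u b ρ z) (w : Fin S.m → S.A.F) (ξ : M.E) :
    ∃ y, M.dv z (fun j => PowerSeries.C (w j • ξ)) S.γ =
      PowerSeries.C (ξ ⊗ₜ[S.A.F] (lin S.γ w)) + PowerSeries.X ^ 3 * y := by
  obtain ⟨y, hy⟩ := hz.d1 (fun j => PowerSeries.C (w j • ξ))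
  exact ⟨y, by rw [hy, M.toAdm.l1_const]⟩

theorem Pt3.dv_const_co0 (hz : Pt3 S.γ M k l0 u b ρ z) (w : Fin S.m → S.A.F) (ξ : M.E) :
    PowerSeries.coeff 0 (M.dv z (fun j => PowerSeries.C (w j • ξ)) S.γ) =
      ξ ⊗ₜ[S.A.F] (lin S.γ w) := by
  obtain ⟨y, hy⟩ := hz.dv_const w ξ
  rw [hy]
  simp

/-- `C(1 ⊗ u') c₀ = t^{3k-2} (j l₀ ⊗ 1 + …)` -/
theorem Pt3.jl0_mem (hz : Pt3 S.γ M k l0 u b ρ z) (st : Step P S.Λ S.γ M.toAdm z)
    {u' : S.A.D} (hu' : u' ∈ S.Λ) (hu'u : u' * u = 1) :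
    (M.j l0 ⊗ₜ[S.A.F] (1 : S.A.D)) ∈ LD.resSp (Subalgebra.toSubmodule st.Lam) := by
  obtain ⟨y, hy⟩ := hz.c0
  refine ⟨LD.tp (-((3 * k - 2 : ℕ) : ℤ)) * (LD.C (M.jD u') * LD.ofPS (M.ev z S.γ)), ?_, ?_, ?_⟩
  · exact LD.tp_mul_mem st.Lam (st.Lam.mul_mem (st.inc_mem hu') st.c0_mem) _
  · rw [hy, LD.ofPS_X_pow_mul, LD.tp_neg_mul_mul_tp]
    exact (LD.isInt_C _).mul (LD.isInt_ofPS _)
  · rw [hy, LD.ofPS_X_pow_mul, LD.tp_neg_mul_mul_tp,
      (LD.isInt_C _).co_mul_zero (LD.isInt_ofPS _), LD.co_C_zero, LD.ofPS_co_zero]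
    simp only [map_add, PowerSeries.coeff_zero_eq_constantCoeff_apply, PowerSeries.constantCoeff_C,
      map_mul, PowerSeries.constantCoeff_X, map_pow]
    change ((1 : M.E) ⊗ₜ[S.A.F] u') * _ = _
    simp only [zero_mul, ne_eq, OfNat.ofNat_ne_zero, not_false_eq_true, zero_pow, add_zero]
    rw [Algebra.TensorProduct.tmul_mul_tmul, one_mul, hu'u]

theorem Step.inc_res (st : Step P S.Λ S.γ M.toAdm z) {a : S.A.D} (ha : a ∈ S.Λ) :
    ((1 : M.E) ⊗ₜ[S.A.F] a) ∈ LD.resSp (Subalgebra.toSubmodule st.Lam) :=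
  ⟨LD.C (M.jD a), st.inc_mem ha, LD.isInt_C _, LD.co_C_zero _⟩

theorem St.lam_comm (S : St P) : ∀ a ∈ S.Λ, ∀ b ∈ S.Λ, a * b = b * a := S.rs.comm

/-- (1) the residues of `Λ'` -/
theorem III_resLam (h : S.Good1) (hl0 : Algebra.adjoin M.F1 ({l0} : Set M.L) = ⊤)
    (hz : Pt3 S.γ M k l0 u b ρ z) (st : Step P S.Λ S.γ M.toAdm z)
    {u' : S.A.D} (hu' : u' ∈ S.Λ) (hu'u : u' * u = 1) :
    LD.resSp (Subalgebra.toSubmodule st.Lam) = Subalgebra.toSubmodule (M.psiL S.Λ) := by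
  have h1 := h.finrank_le M.finrank_E hz.gp st
  rw [← M.W_eq l0 hl0 S.Λ S.lam_comm]
  refine MinI.res_eq_W (M.j l0) S.Λ st.Lam (fun a ha => st.inc_res ha)
    (hz.jl0_mem st hu' hu'u) ?_
  rw [M.finrank_adjoin_j l0 hl0]
  exact h1

theorem III_good1 (h : S.Good1) (hl0 : Algebra.adjoin M.F1 ({l0} : Set M.L) = ⊤)
    (hz : Pt3 S.γ M k l0 u b ρ z) (st : Step P S.Λ S.γ M.toAdm z)
    {u' : S.A.D} (hu' : u' ∈ S.Λ) (hu'u : u' * u = 1) : (st.toSt hz.gp).Good1 := by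
  refine h.of_finrank M.finrank_E hz.gp st ?_
  have h1 := LD.finrank_resSp (Subalgebra.toSubmodule st.Lam)
  rw [III_resLam h hl0 hz st hu' hu'u] at h1
  have h2 := M.finrank_psiL S.Λ S.lam_comm
  have h3 : Module.finrank (LF M.F1) st.Lam = N * Module.finrank S.A.F S.Λ := by
    rw [← h2]; exact h1.symm
  exact h3.ge

theorem III_U_le (hP : MoveClosed P) (h : S.Good1)
    (hl0 : Algebra.adjoin M.F1 ({l0} : Set M.L) = ⊤)
    (hz : Pt3 S.γ M k l0 u b ρ z) (st : Step P S.Λ S.γ M.toAdm z)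
    {u' : S.A.D} (hu' : u' ∈ S.Λ) (hu'u : u' * u = 1) :
    st.U ≤ Subalgebra.toSubmodule st.Lam :=
  (III_good1 h hl0 hz st hu' hu'u).lin_mem hP

/-- the trace functional of `D0` -/
theorem tt_one {t : S.A.D →ₗ[S.A.F] S.A.F} (ht : IsTr t) {tE : M.E →ₗ[M.F1] M.F1}
    (htE : tE 1 ≠ 0) : M.tt tE t 1 ≠ 0 := by
  change tE (MinI.ellE (F1 := M.F1) M.E t ((1 : M.E) ⊗ₜ[S.A.F] (1 : S.A.D))) ≠ 0
  rw [MinI.ellE_tmul, ← algebraMap_smul M.F1 (t 1) (1 : M.E), map_smul, smul_eq_mul]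
  refine mul_ne_zero ?_ htE
  intro h
  exact ht.2 ((map_eq_zero_iff _ (algebraMap S.A.F M.F1).injective).mp h)

/-- (4) elements of `U'` with residue `j l ⊗ a` -/
theorem III_T (hP : MoveClosed P) (h : S.Good1) (hl0 : Algebra.adjoin M.F1 ({l0} : Set M.L) = ⊤)
    (hz : Pt3 S.γ M k l0 u b ρ z) (st : Step P S.Λ S.γ M.toAdm z)
    {u' : S.A.D} (hu' : u' ∈ S.Λ) (hu'u : u' * u = 1)
    {t : S.A.D →ₗ[S.A.F] S.A.F} (ht : IsTr t) {tE : M.E →ₗ[M.F1] M.F1}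
    (htE : (∀ x y, tE (x * y) = tE (y * x)) ∧ tE 1 ≠ 0) (a : S.A.D) (ha : a ∈ S.U) (l : M.L) :
    ∃ T ∈ st.U, LD.IsInt T ∧ T.co 0 = (M.j l) ⊗ₜ[S.A.F] a := by
  obtain ⟨w, hw⟩ := ha
  have h0 := hz.dv_const_co0 w (M.j l)
  have hmem : (M.j l) ⊗ₜ[S.A.F] a ∈ LD.resSp (Subalgebra.toSubmodule st.Lam) := by
    rw [III_resLam h hl0 hz st hu' hu'u, M.psiL_eq S.Λ S.lam_comm]
    exact Submodule.subset_span ⟨l, a, h.lin_mem hP ⟨w, hw⟩, rfl⟩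
  obtain ⟨T, hT, hTi, hT0⟩ := st.exists_int hz.gp (M.tt tE t) (isTr_mv M.toAdm ht htE).1
    (tt_one ht htE.2) (III_U_le hP h hl0 hz st hu' hu'u)
    (fun j => PowerSeries.C (w j • M.j l)) (by rw [h0, hw]; exact hmem)
  exact ⟨T, hT, hTi, by rw [hT0, h0, hw]⟩

/-- quotients of elements of `U'` are in `Ψ'` -/
theorem Step.div_mem (st : Step P S.Λ S.γ M.toAdm z) (hU : st.U ≤ Subalgebra.toSubmodule st.Lam)
    {T1 T2 : LD M.D0} (h1 : T1 ∈ st.U) (h2 : T2 ∈ st.U) (hi1 : LD.IsInt T1) (hi2 : LD.IsInt T2)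
    (h0 : T2.co 0 ≠ 0) : ∃ y ∈ st.Psi, LD.IsInt y ∧ y * T2 = T1 ∧ y.co 0 * T2.co 0 = T1.co 0 := by
  obtain ⟨y, hy, hyi, hy1, hy2⟩ := LD.exists_div hi1 hi2 h0 st.Lam (hU h1) (hU h2)
  refine ⟨y, Algebra.subset_adjoin ⟨T2, h2, ?_, ?_⟩, hyi, hy1, hy2⟩
  · rintro rfl; exact h0 rfl
  · rw [hy1]; exact h1

theorem one_tmul_ne {a : S.A.D} (ha : a ≠ 0) : ((1 : M.E) ⊗ₜ[S.A.F] a) ≠ 0 := by
  intro h
  have hinj : Function.Injective M.jD :=
    Algebra.TensorProduct.includeRight_injective (algebraMap S.A.F M.E).injective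
  exact ha (hinj (a₁ := a) (a₂ := 0) (by rw [map_zero]; exact h))

theorem III_psi_res (hP : MoveClosed P) (h : S.Good1)
    (hl0 : Algebra.adjoin M.F1 ({l0} : Set M.L) = ⊤)
    (hz : Pt3 S.γ M k l0 u b ρ z) (st : Step P S.Λ S.γ M.toAdm z)
    {u' : S.A.D} (hu' : u' ∈ S.Λ) (hu'u : u' * u = 1)
    {t : S.A.D →ₗ[S.A.F] S.A.F} (ht : IsTr t) {tE : M.E →ₗ[M.F1] M.F1}
    (htE : (∀ x y, tE (x * y) = tE (y * x)) ∧ tE 1 ≠ 0) (a : S.A.D) (ha : a ∈ S.Psi) :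
    ((1 : M.E) ⊗ₜ[S.A.F] a) ∈ LD.resSp (Subalgebra.toSubmodule st.Psi) := by
  have hU := III_U_le hP h hl0 hz st hu' hu'u
  induction ha using Algebra.adjoin_induction with
  | mem x hx =>
    obtain ⟨c, hc, hc0, hxc⟩ := hx
    obtain ⟨T1, hT1, hi1, h1⟩ := III_T hP h hl0 hz st hu' hu'u ht htE (x * c) hxc 1
    obtain ⟨T2, hT2, hi2, h2⟩ := III_T hP h hl0 hz st hu' hu'u ht htE c hc 1
    rw [map_one] at h1 h2
    have h20 : T2.co 0 ≠ 0 := by rw [h2]; exact one_tmul_ne hc0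
    obtain ⟨y, hy, hyi, -, hy0⟩ := st.div_mem hU hT1 hT2 hi1 hi2 h20
    refine ⟨y, hy, hyi, ?_⟩
    rw [h1, h2] at hy0
    have h3 : ((1 : M.E) ⊗ₜ[S.A.F] (x * c)) = ((1 : M.E) ⊗ₜ[S.A.F] x) * ((1 : M.E) ⊗ₜ[S.A.F] c) := by
      rw [Algebra.TensorProduct.tmul_mul_tmul, one_mul]
    rw [h3] at hy0
    exact mul_right_cancel₀ (one_tmul_ne hc0) hy0
  | algebraMap c =>
    have h1 : ((1 : M.E) ⊗ₜ[S.A.F] (algebraMap S.A.F S.A.D c)) =
        (algebraMap S.A.F M.F1 c) • (1 : M.D0) := by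
      rw [Algebra.algebraMap_eq_smul_one, TensorProduct.tmul_smul, algebraMap_smul]
      rfl
    rw [h1]
    exact Submodule.smul_mem _ _ (MinI.res_one_mem _)
  | add x y _ _ hx hy =>
    rw [TensorProduct.tmul_add]
    exact Submodule.add_mem _ hx hy
  | mul x y _ _ hx hy =>
    have h1 : ((1 : M.E) ⊗ₜ[S.A.F] (x * y)) = ((1 : M.E) ⊗ₜ[S.A.F] x) * ((1 : M.E) ⊗ₜ[S.A.F] y) := by
      rw [Algebra.TensorProduct.tmul_mul_tmul, one_mul]
    rw [h1]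
    exact MinI.res_mul_mem _ hx hy

/-- (5) the residues of `Ψ'` -/
theorem III_resPsi (hP : MoveClosed P) (h : S.Good2)
    (hl0 : Algebra.adjoin M.F1 ({l0} : Set M.L) = ⊤)
    (hz : Pt3 S.γ M k l0 u b ρ z) (st : Step P S.Λ S.γ M.toAdm z) (hu : u ∈ S.U)
    {u' : S.A.D} (hu' : u' ∈ S.Λ) (hu'u : u' * u = 1)
    {t : S.A.D →ₗ[S.A.F] S.A.F} (ht : IsTr t) {tE : M.E →ₗ[M.F1] M.F1}
    (htE : (∀ x y, tE (x * y) = tE (y * x)) ∧ tE 1 ≠ 0) :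
    LD.resSp (Subalgebra.toSubmodule st.Psi) = Subalgebra.toSubmodule (M.psiL S.Psi) := by
  have hUS : S.U ≤ Subalgebra.toSubmodule S.Λ := h.1.lin_mem hP
  have hU := III_U_le hP h.1 hl0 hz st hu' hu'u
  have hg1 := III_good1 h.1 hl0 hz st hu' hu'u
  have hle := h.finrank_le hUS M.finrank_E hz.gp st hg1 hU
  have hc : ∀ a ∈ S.Psi, ∀ b ∈ S.Psi, a * b = b * a := fun a ha b hb =>
    S.lam_comm a (S.psi_le hUS ha) b (S.psi_le hUS hb)
  rw [← M.W_eq l0 hl0 S.Psi hc]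
  refine MinI.res_eq_W (M.j l0) S.Psi st.Psi
    (fun a ha => III_psi_res hP h.1 hl0 hz st hu' hu'u ht htE a ha) ?_ ?_
  · have hu0 : u ≠ 0 := by
      rintro rfl
      rw [mul_zero] at hu'u
      exact zero_ne_one hu'u
    obtain ⟨T1, hT1, hi1, h1⟩ := III_T hP h.1 hl0 hz st hu' hu'u ht htE u hu l0
    obtain ⟨T2, hT2, hi2, h2⟩ := III_T hP h.1 hl0 hz st hu' hu'u ht htE u hu 1
    rw [map_one] at h2
    have h20 : T2.co 0 ≠ 0 := by rw [h2]; exact one_tmul_ne hu0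
    obtain ⟨y, hy, hyi, -, hy0⟩ := st.div_mem hU hT1 hT2 hi1 hi2 h20
    refine ⟨y, hy, hyi, ?_⟩
    rw [h1, h2] at hy0
    have h3 : (M.j l0 ⊗ₜ[S.A.F] u) = (M.j l0 ⊗ₜ[S.A.F] (1 : S.A.D)) * ((1 : M.E) ⊗ₜ[S.A.F] u) := by
      rw [Algebra.TensorProduct.tmul_mul_tmul, one_mul, mul_one]
    rw [h3] at hy0
    exact mul_right_cancel₀ (one_tmul_ne hu0) hy0
  · rw [M.finrank_adjoin_j l0 hl0]
    exact hle

theorem III_good2 (hP : MoveClosed P) (h : S.Good2)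
    (hl0 : Algebra.adjoin M.F1 ({l0} : Set M.L) = ⊤)
    (hz : Pt3 S.γ M k l0 u b ρ z) (st : Step P S.Λ S.γ M.toAdm z) (hu : u ∈ S.U)
    {u' : S.A.D} (hu' : u' ∈ S.Λ) (hu'u : u' * u = 1)
    {t : S.A.D →ₗ[S.A.F] S.A.F} (ht : IsTr t) {tE : M.E →ₗ[M.F1] M.F1}
    (htE : (∀ x y, tE (x * y) = tE (y * x)) ∧ tE 1 ≠ 0) : (st.toSt hz.gp).Good2 := by
  have hUS : S.U ≤ Subalgebra.toSubmodule S.Λ := h.1.lin_mem hP
  have hc : ∀ a ∈ S.Psi, ∀ b ∈ S.Psi, a * b = b * a := fun a ha b hb =>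
    S.lam_comm a (S.psi_le hUS ha) b (S.psi_le hUS hb)
  refine h.of_finrank hUS M.finrank_E hz.gp st (III_good1 h.1 hl0 hz st hu' hu'u)
    (III_U_le hP h.1 hl0 hz st hu' hu'u) ?_
  have h1 := LD.finrank_resSp (Subalgebra.toSubmodule st.Psi)
  rw [III_resPsi hP h hl0 hz st hu hu' hu'u ht htE] at h1
  have h2 := M.finrank_psiL S.Psi hc
  have h3 : Module.finrank (LF M.F1) st.Psi = N * Module.finrank S.A.F S.Psi := by
    rw [← h2]; exact h1.symm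
  exact h3.ge

/-! ### the annihilator `𝓗'` -/

theorem psi_le_lam (hP : MoveClosed P) (h : S.Good1)
    (hl0 : Algebra.adjoin M.F1 ({l0} : Set M.L) = ⊤)
    (hz : Pt3 S.γ M k l0 u b ρ z) (st : Step P S.Λ S.γ M.toAdm z)
    {u' : S.A.D} (hu' : u' ∈ S.Λ) (hu'u : u' * u = 1) : st.Psi ≤ st.Lam :=
  (st.toSt hz.gp).psi_le (III_U_le hP h hl0 hz st hu' hu'u)

/-- `𝓗' ⊆ Λ'`, and the residues of `𝓗'` are in `(Ψ ⊗ L) u⁻¹` -/
theorem III_H_mem (hP : MoveClosed P) (h : S.Good2)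
    (hl0 : Algebra.adjoin M.F1 ({l0} : Set M.L) = ⊤)
    (hz : Pt3 S.γ M k l0 u b ρ z) (st : Step P S.Λ S.γ M.toAdm z) (hu : u ∈ S.U)
    {u' : S.A.D} (hu' : u' ∈ S.Λ) (hu'u : u' * u = 1)
    {t : S.A.D →ₗ[S.A.F] S.A.F} (ht : IsTr t) {tE : M.E →ₗ[M.F1] M.F1}
    (htE : (∀ x y, tE (x * y) = tE (y * x)) ∧ tE 1 ≠ 0) {x : LD M.D0} (hx : x ∈ st.H t tE) :
    x ∈ st.Lam ∧ (LD.IsInt x →
      x.co 0 * ((1 : M.E) ⊗ₜ[S.A.F] u) ∈ M.psiL S.Psi) := by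
  have hu0 : u ≠ 0 := by
    rintro rfl
    rw [mul_zero] at hu'u
    exact zero_ne_one hu'u
  have hU := III_U_le hP h.1 hl0 hz st hu' hu'u
  obtain ⟨T, hT, hi, h0⟩ := III_T hP h.1 hl0 hz st hu' hu'u ht htE u hu 1
  rw [map_one] at h0
  have h00 : T.co 0 ≠ 0 := by rw [h0]; exact one_tmul_ne hu0
  have hxT := (hx T hT).1
  constructor
  · obtain ⟨T', hT', -, h1, -⟩ := hi.exists_inv h00 st.Lam (hU hT)
    have h2 : x = (x * T) * T' := by rw [mul_assoc, h1, mul_one]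
    rw [h2]
    exact st.Lam.mul_mem (psi_le_lam hP h.1 hl0 hz st hu' hu'u hxT) hT'
  · intro hxi
    have h3 : x.co 0 * ((1 : M.E) ⊗ₜ[S.A.F] u) ∈ LD.resSp (Subalgebra.toSubmodule st.Psi) :=
      ⟨x * T, hxT, hxi.mul hi, by rw [hxi.co_mul_zero hi, h0]⟩
    rw [III_resPsi hP h hl0 hz st hu hu' hu'u ht htE] at h3
    exact h3

theorem tE_nondeg {tE : M.E →ₗ[M.F1] M.F1} (h1 : tE 1 ≠ 0) {e : M.E}
    (h : ∀ ξ : M.E, tE (e * ξ) = 0) : e = 0 := by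
  by_contra he
  obtain ⟨e', -, he', -⟩ := exists_inv_sub (F := M.F1) (B := M.E) ⊤ (x := e) trivial he
  apply h1
  rw [← he']
  exact h e'

theorem ellE_mul_right (ℓ : S.A.D →ₗ[S.A.F] S.A.F) (x : M.D0) (e : M.E) :
    MinI.ellE (F1 := M.F1) M.E ℓ (x * (e ⊗ₜ[S.A.F] (1 : S.A.D))) =
      MinI.ellE (F1 := M.F1) M.E ℓ x * e := by
  have h := MinI.ellE_mul (F1 := M.F1) ℓ (1 : M.E) e x
  rw [one_mul] at h
  rw [← h]
  congr 1
  rw [← Algebra.TensorProduct.one_def, one_mul]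

theorem ellE_mul_left (ℓ : S.A.D →ₗ[S.A.F] S.A.F) (x : M.D0) (e : M.E) :
    MinI.ellE (F1 := M.F1) M.E ℓ ((e ⊗ₜ[S.A.F] (1 : S.A.D)) * x) =
      e * MinI.ellE (F1 := M.F1) M.E ℓ x := by
  have h := MinI.ellE_mul (F1 := M.F1) ℓ e (1 : M.E) x
  rw [mul_one] at h
  rw [← h]
  congr 1
  rw [← Algebra.TensorProduct.one_def, mul_one]

theorem ellE_zero (x : M.D0) : MinI.ellE (F1 := M.F1) M.E (0 : S.A.D →ₗ[S.A.F] S.A.F) x = 0 := by
  induction x using TensorProduct.induction_on with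
  | zero => simp
  | tmul e d => rw [MinI.ellE_tmul, LinearMap.zero_apply, zero_smul]
  | add x y hx hy => rw [map_add, hx, hy, add_zero]

theorem ellE_add (ℓ ℓ' : S.A.D →ₗ[S.A.F] S.A.F) (x : M.D0) :
    MinI.ellE (F1 := M.F1) M.E (ℓ + ℓ') x =
      MinI.ellE (F1 := M.F1) M.E ℓ x + MinI.ellE (F1 := M.F1) M.E ℓ' x := by
  induction x using TensorProduct.induction_on with
  | zero => simp
  | tmul e d => rw [MinI.ellE_tmul, MinI.ellE_tmul, MinI.ellE_tmul, LinearMap.add_apply, add_smul]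
  | add x y hx hy => rw [map_add, map_add, map_add, hx, hy]; abel

theorem ellE_smul (c : S.A.F) (ℓ : S.A.D →ₗ[S.A.F] S.A.F) (x : M.D0) :
    MinI.ellE (F1 := M.F1) M.E (c • ℓ) x = c • MinI.ellE (F1 := M.F1) M.E ℓ x := by
  induction x using TensorProduct.induction_on with
  | zero => simp
  | tmul e d =>
    rw [MinI.ellE_tmul, MinI.ellE_tmul, LinearMap.smul_apply, smul_eq_mul, mul_smul]
  | add x y hx hy => rw [map_add, map_add, hx, hy, smul_add]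

theorem ellE_comp (ℓ : S.A.D →ₗ[S.A.F] S.A.F) (c : S.A.D) (x : M.D0) :
    MinI.ellE (F1 := M.F1) M.E (ℓ ∘ₗ LinearMap.mulRight S.A.F c) x =
      MinI.ellE (F1 := M.F1) M.E ℓ (x * ((1 : M.E) ⊗ₜ[S.A.F] c)) := by
  induction x using TensorProduct.induction_on with
  | zero => simp
  | tmul e d =>
    rw [MinI.ellE_tmul, Algebra.TensorProduct.tmul_mul_tmul, mul_one, MinI.ellE_tmul]
    rfl
  | add x y hx hy => rw [map_add, add_mul, map_add, hx, hy]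

/-- residues of `𝓗'` (and the next two coefficients) are orthogonal to `E ⊗ U` -/
theorem III_H_orth (hP : MoveClosed P) (h : S.Good2)
    (hl0 : Algebra.adjoin M.F1 ({l0} : Set M.L) = ⊤)
    (hz : Pt3 S.γ M k l0 u b ρ z) (st : Step P S.Λ S.γ M.toAdm z) (hu : u ∈ S.U)
    {u' : S.A.D} (hu' : u' ∈ S.Λ) (hu'u : u' * u = 1)
    {t : S.A.D →ₗ[S.A.F] S.A.F} (ht : IsTr t) {tE : M.E →ₗ[M.F1] M.F1}
    (htE : (∀ x y, tE (x * y) = tE (y * x)) ∧ tE 1 ≠ 0) {x : LD M.D0} (hx : x ∈ st.H t tE)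
    (hxi : LD.IsInt x) (n : ℤ) (hn : n < 3) (a : S.A.D) (ha : a ∈ S.U) :
    MinI.ellE (F1 := M.F1) M.E t (x.co n * ((1 : M.E) ⊗ₜ[S.A.F] a)) = 0 := by
  apply tE_nondeg htE.2
  intro ξ
  obtain ⟨w, rfl⟩ := ha
  obtain ⟨y, hy⟩ := hz.dv_const w ξ
  have h1 := st.H_pair hz.gp (isTr_mv M.toAdm ht htE).1 hx
    (III_H_mem hP h hl0 hz st hu hu' hu'u ht htE hx).1 (fun j => PowerSeries.C (w j • ξ))
  have h2 := congrArg (fun f : LF M.F1 => f.co n) h1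
  simp only [LD.co_mapL] at h2
  rw [hy, map_add, LD.ofPS_C, mul_add, LD.co_add, LD.mul_C_co] at h2
  have h3 : (x * LD.ofPS (PowerSeries.X ^ 3 * y) : LD M.D0).co n = 0 := by
    have := LD.OrdGe.mul (a := 0) (b := 3) hxi (LD.ofPS_ordGe 3 y)
    exact this n (by omega)
  rw [h3, add_zero] at h2
  have h4 : x.co n * (ξ ⊗ₜ[S.A.F] (lin S.γ w)) =
      (x.co n * ((1 : M.E) ⊗ₜ[S.A.F] (lin S.γ w))) * (ξ ⊗ₜ[S.A.F] (1 : S.A.D)) := by
    rw [mul_assoc, Algebra.TensorProduct.tmul_mul_tmul, one_mul, mul_one]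
  rw [h4] at h2
  change tE (MinI.ellE (F1 := M.F1) M.E t _) = 0 at h2
  rwa [ellE_mul_right] at h2

/-- (8) -/
theorem III_rho (hP : MoveClosed P) (h : S.Good2)
    (hl0 : Algebra.adjoin M.F1 ({l0} : Set M.L) = ⊤) (hk : 2 ≤ k)
    (hz : Pt3 S.γ M k l0 u b ρ z) (st : Step P S.Λ S.γ M.toAdm z) (hu : u ∈ S.U)
    {u' : S.A.D} (hu' : u' ∈ S.Λ) (hu'u : u' * u = 1)
    {t : S.A.D →ₗ[S.A.F] S.A.F} (ht : IsTr t) {tE : M.E →ₗ[M.F1] M.F1}
    (htE : (∀ x y, tE (x * y) = tE (y * x)) ∧ tE 1 ≠ 0) {x : LD M.D0} (hx : x ∈ st.H t tE)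
    (hxi : LD.IsInt x) : M.tt tE t (x.co 0 * ρ) = 0 := by
  obtain ⟨v, y, hy⟩ := hz.eu
  have h1 := st.H_pair hz.gp (isTr_mv M.toAdm ht htE).1 hx
    (III_H_mem hP h hl0 hz st hu hu' hu'u ht htE hx).1 v
  have h2 := congrArg (fun f : LF M.F1 => f.co ((3 * k : ℕ) : ℤ)) h1
  simp only [LD.co_mapL] at h2
  rw [hy, LD.ofPS_X_pow_mul, ← mul_assoc, ← LD.tp_commute, mul_assoc, LD.co_tp_mul, sub_self,
    hxi.co_mul_zero (LD.isInt_ofPS _), LD.ofPS_co_zero] at h2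
  simp only [map_add, PowerSeries.coeff_zero_eq_constantCoeff_apply, PowerSeries.constantCoeff_C,
    map_mul, PowerSeries.constantCoeff_X, zero_mul, add_zero] at h2
  rw [mul_smul_comm, map_nsmul] at h2
  have h3 : M.tt tE t (x.co 0 * ρ) = 0 ∨ k = 0 := by
    rcases smul_eq_zero.mp (show k • M.tt tE t (x.co 0 * ρ) = 0 from h2) with h | h
    · exact Or.inr h
    · exact Or.inl h
  rcases h3 with h3 | h3
  · exact h3
  · omega

theorem IsInt_co_mul_one {K : Type} [Ring K] {x y : LD K} (hx : LD.IsInt x) (hy : LD.IsInt y) :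
    (x * y).co 1 = x.co 0 * y.co 1 + x.co 1 * y.co 0 := hx.co_mul_one hy

/-- the first-order commutator equation -/
theorem III_comm_eq (hP : MoveClosed P) (h : S.Good2)
    (hl0 : Algebra.adjoin M.F1 ({l0} : Set M.L) = ⊤)
    (hz : Pt3 S.γ M k l0 u b ρ z) (st : Step P S.Λ S.γ M.toAdm z) (hu : u ∈ S.U)
    {u' : S.A.D} (hu' : u' ∈ S.Λ) (hu'u : u' * u = 1)
    {t : S.A.D →ₗ[S.A.F] S.A.F} (ht : IsTr t) {tE : M.E →ₗ[M.F1] M.F1}
    (htE : (∀ x y, tE (x * y) = tE (y * x)) ∧ tE 1 ≠ 0) {x : LD M.D0} (hx : x ∈ st.H t tE)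
    (hxi : LD.IsInt x) :
    x.co 0 * (∑ i : Fin r, (M.u ^ (i.val + 1)) ⊗ₜ[S.A.F] b i) + x.co 1 * (M.j l0 ⊗ₜ[S.A.F] u) =
      (M.j l0 ⊗ₜ[S.A.F] u) * x.co 1 +
        (∑ i : Fin r, (M.u ^ (i.val + 1)) ⊗ₜ[S.A.F] b i) * x.co 0 := by
  have hxΛ := (III_H_mem hP h hl0 hz st hu hu' hu'u ht htE hx).1
  obtain ⟨y, hy⟩ := hz.c0
  set g : PowerSeries M.D0 := PowerSeries.C (M.j l0 ⊗ₜ[S.A.F] u) +
    PowerSeries.X * PowerSeries.C (∑ i : Fin r, (M.u ^ (i.val + 1)) ⊗ₜ[S.A.F] b i) +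
    PowerSeries.X ^ 2 * PowerSeries.C ρ + PowerSeries.X ^ 3 * y with hg
  have hgΛ : (LD.ofPS g : LD M.D0) ∈ st.Lam := by
    have h1 : (LD.ofPS g : LD M.D0) =
        LD.tp (-((3 * k - 2 : ℕ) : ℤ)) * LD.ofPS (M.ev z S.γ) := by
      rw [hy, LD.ofPS_X_pow_mul, ← mul_assoc, LD.tp_mul_tp, neg_add_cancel, LD.tp_zero, one_mul]
    rw [h1]
    exact LD.tp_mul_mem st.Lam st.c0_mem _
  have hcomm := st.lam_comm x hxΛ _ hgΛ
  have hco0 : (LD.ofPS g : LD M.D0).co 0 = M.j l0 ⊗ₜ[S.A.F] u := by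
    rw [LD.ofPS_co_zero, hg]
    simp only [map_add, PowerSeries.coeff_zero_eq_constantCoeff_apply, PowerSeries.constantCoeff_C,
      map_mul, PowerSeries.constantCoeff_X, map_pow]
    simp
  have hco1 : (LD.ofPS g : LD M.D0).co 1 =
      ∑ i : Fin r, (M.u ^ (i.val + 1)) ⊗ₜ[S.A.F] b i := by
    have h1 := LD.co_ofPS g 1
    rw [Nat.cast_one] at h1
    rw [h1, hg]
    have e1 : PowerSeries.coeff 1 (PowerSeries.C (R := M.D0) (M.j l0 ⊗ₜ[S.A.F] u)) = 0 := by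
      rw [PowerSeries.coeff_C, if_neg one_ne_zero]
    have e2 : ∀ B : M.D0, PowerSeries.coeff 1 (PowerSeries.X * PowerSeries.C B) = B := by
      intro B
      rw [PowerSeries.coeff_mul_C]
      simp
    have e3 : ∀ f : PowerSeries M.D0, PowerSeries.coeff 1 (PowerSeries.X ^ 2 * f) = 0 := by
      intro f
      rw [PowerSeries.coeff_X_pow_mul', if_neg (by norm_num)]
    have e4 : ∀ f : PowerSeries M.D0, PowerSeries.coeff 1 (PowerSeries.X ^ 3 * f) = 0 := by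
      intro f
      rw [PowerSeries.coeff_X_pow_mul', if_neg (by norm_num)]
    rw [map_add, map_add, map_add, e1, e2, e3, e4, zero_add, add_zero, add_zero]
  have h2 : (x * LD.ofPS g : LD M.D0).co 1 = (LD.ofPS g * x : LD M.D0).co 1 := by rw [hcomm]
  rw [hxi.co_mul_one (LD.isInt_ofPS _), (LD.isInt_ofPS _).co_mul_one hxi, hco0, hco1] at h2
  exact h2

/-- coefficientwise commutation with constants in `Λ` -/
theorem III_co_comm (st : Step P S.Λ S.γ M.toAdm z) {x : LD M.D0} (hx : x ∈ st.Lam) {a : S.A.D}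
    (ha : a ∈ S.Λ) (n : ℤ) :
    ((1 : M.E) ⊗ₜ[S.A.F] a) * x.co n = x.co n * ((1 : M.E) ⊗ₜ[S.A.F] a) := by
  have h := st.lam_comm _ (st.inc_mem ha) x hx
  have h1 : (LD.C (M.jD a) * x : LD M.D0).co n = (x * LD.C (M.jD a) : LD M.D0).co n := by rw [h]
  rw [LD.C_mul_co, LD.mul_C_co] at h1
  exact h1

/-- key computation: `(id ⊗ t) (x₀ (b_i u' a)) ∈ F1` -/
theorem III_fix (hP : MoveClosed P) (h : S.Good2)
    (hl0 : Algebra.adjoin M.F1 ({l0} : Set M.L) = ⊤)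
    (hz : Pt3 S.γ M k l0 u b ρ z) (st : Step P S.Λ S.γ M.toAdm z) (hu : u ∈ S.U)
    {u' : S.A.D} (hu' : u' ∈ S.Λ) (hu'u : u' * u = 1) (hrN : r < N) (hb : ∀ i, b i ∈ S.U)
    {t : S.A.D →ₗ[S.A.F] S.A.F} (ht : IsTr t) {tE : M.E →ₗ[M.F1] M.F1}
    (htE : (∀ x y, tE (x * y) = tE (y * x)) ∧ tE 1 ≠ 0) {x : LD M.D0} (hx : x ∈ st.H t tE)
    (hxi : LD.IsInt x) (a : S.A.D) (ha : a ∈ S.U)
    (hL : ∀ ℓ : S.A.D →ₗ[S.A.F] S.A.F, ∃ α : M.L,
      MinI.ellE (F1 := M.F1) M.E ℓ (x.co 0) = M.j α) (i : Fin r) :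
    ∃ c : M.F1, MinI.ellE (F1 := M.F1) M.E t (x.co 0 * ((1 : M.E) ⊗ₜ[S.A.F] (b i * (u' * a)))) =
      algebraMap M.F1 M.E c := by
  have hUS : S.U ≤ Subalgebra.toSubmodule S.Λ := h.1.lin_mem hP
  have hxΛ := (III_H_mem hP h hl0 hz st hu hu' hu'u ht htE hx).1
  have haΛ : a ∈ S.Λ := hUS ha
  have huΛ : u ∈ S.Λ := hUS hu
  have huu' : u * u' = 1 := by rw [S.lam_comm u huΛ u' hu', hu'u]
  choose α hα using fun i : Fin r => hL (t ∘ₗ LinearMap.mulRight S.A.F (b i * (u' * a)))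
  have hα' : ∀ i, MinI.ellE (F1 := M.F1) M.E t
      (x.co 0 * ((1 : M.E) ⊗ₜ[S.A.F] (b i * (u' * a)))) = M.j (α i) := by
    intro i
    rw [← hα i, ellE_comp]
  have heq := III_comm_eq hP h hl0 hz st hu hu' hu'u ht htE hx hxi
  have horth : ∀ a ∈ S.U, MinI.ellE (F1 := M.F1) M.E t (x.co 1 * ((1 : M.E) ⊗ₜ[S.A.F] a)) = 0 :=
    fun a ha => III_H_orth hP h hl0 hz st hu hu' hu'u ht htE hx hxi 1 (by norm_num) a ha
  -- multiply by `1 ⊗ u' a` on the right and contract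
  have h1 := congrArg (fun y : M.D0 => MinI.ellE (F1 := M.F1) M.E t
    (y * ((1 : M.E) ⊗ₜ[S.A.F] (u' * a)))) heq
  simp only [add_mul, map_add] at h1
  -- the two terms with `x.co 1` vanish
  have e1 : MinI.ellE (F1 := M.F1) M.E t
      (x.co 1 * (M.j l0 ⊗ₜ[S.A.F] u) * ((1 : M.E) ⊗ₜ[S.A.F] (u' * a))) = 0 := by
    have : x.co 1 * (M.j l0 ⊗ₜ[S.A.F] u) * ((1 : M.E) ⊗ₜ[S.A.F] (u' * a)) =
        x.co 1 * ((1 : M.E) ⊗ₜ[S.A.F] a) * (M.j l0 ⊗ₜ[S.A.F] (1 : S.A.D)) := by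
      rw [mul_assoc, mul_assoc, Algebra.TensorProduct.tmul_mul_tmul,
        Algebra.TensorProduct.tmul_mul_tmul, one_mul, mul_one, mul_one, ← mul_assoc, huu', one_mul]
    rw [this, ellE_mul_right, horth a ha, zero_mul]
  have e2 : MinI.ellE (F1 := M.F1) M.E t
      ((M.j l0 ⊗ₜ[S.A.F] u) * x.co 1 * ((1 : M.E) ⊗ₜ[S.A.F] (u' * a))) = 0 := by
    have h3 : (M.j l0 ⊗ₜ[S.A.F] u) = (M.j l0 ⊗ₜ[S.A.F] (1 : S.A.D)) * ((1 : M.E) ⊗ₜ[S.A.F] u) := by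
      rw [Algebra.TensorProduct.tmul_mul_tmul, one_mul, mul_one]
    rw [h3, mul_assoc (M.j l0 ⊗ₜ[S.A.F] (1 : S.A.D)), III_co_comm st hxΛ huΛ, mul_assoc, mul_assoc,
      Algebra.TensorProduct.tmul_mul_tmul, mul_one, ← mul_assoc u, huu', one_mul, ellE_mul_left,
      horth a ha, mul_zero]
  rw [e1, e2, add_zero, zero_add] at h1
  -- expand the sums
  have e3 : MinI.ellE (F1 := M.F1) M.E t
      (x.co 0 * (∑ i : Fin r, (M.u ^ (i.val + 1)) ⊗ₜ[S.A.F] b i) *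
        ((1 : M.E) ⊗ₜ[S.A.F] (u' * a))) = ∑ i, M.j (α i) * M.u ^ (i.val + 1) := by
    rw [Finset.mul_sum, Finset.sum_mul, map_sum]
    refine Finset.sum_congr rfl fun i _ => ?_
    rw [← hα' i, ← ellE_mul_right, mul_assoc, mul_assoc, Algebra.TensorProduct.tmul_mul_tmul,
      Algebra.TensorProduct.tmul_mul_tmul, one_mul, mul_one, mul_one]
  have e4 : MinI.ellE (F1 := M.F1) M.E t
      ((∑ i : Fin r, (M.u ^ (i.val + 1)) ⊗ₜ[S.A.F] b i) * x.co 0 *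
        ((1 : M.E) ⊗ₜ[S.A.F] (u' * a))) = ∑ i, M.u ^ (i.val + 1) * M.j (α i) := by
    rw [Finset.sum_mul, Finset.sum_mul, map_sum]
    refine Finset.sum_congr rfl fun i _ => ?_
    have h3 : (M.u ^ (i.val + 1)) ⊗ₜ[S.A.F] b i =
        ((M.u ^ (i.val + 1)) ⊗ₜ[S.A.F] (1 : S.A.D)) * ((1 : M.E) ⊗ₜ[S.A.F] b i) := by
      rw [Algebra.TensorProduct.tmul_mul_tmul, one_mul, mul_one]
    rw [h3, mul_assoc ((M.u ^ (i.val + 1)) ⊗ₜ[S.A.F] (1 : S.A.D)),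
      III_co_comm st hxΛ (hUS (hb i)),
      mul_assoc, mul_assoc, Algebra.TensorProduct.tmul_mul_tmul, mul_one, ellE_mul_left, hα' i]
  rw [e3, e4] at h1
  obtain ⟨c, hc⟩ := M.fix_of_comm hrN α h1 i
  exact ⟨c, by rw [hα' i, ← hc, AlgHom.commutes]⟩

/-- membership by functionals -/
theorem mem_of_dual {F V : Type} [Field F] [AddCommGroup V] [Module F V] [FiniteDimensional F V]
    (𝒮 : Submodule F (Module.Dual F V)) (W : Submodule F V)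
    (h : ∀ x : V, (∀ ℓ ∈ 𝒮, ℓ x = 0) → x ∈ W) (ℓ : Module.Dual F V) (hℓ : ∀ w ∈ W, ℓ w = 0) :
    ℓ ∈ 𝒮 := by
  have h1 : 𝒮.dualCoannihilator ≤ W := fun x hx => h x fun ℓ hℓ => by
    rw [Submodule.mem_dualCoannihilator] at hx
    exact hx ℓ hℓ
  rw [← Subspace.dualCoannihilator_dualAnnihilator_eq (W := 𝒮), Submodule.mem_dualAnnihilator]
  exact fun w hw => hℓ w (h1 hw)

/-- (7) -/
theorem III_resH (hP : MoveClosed P) (h : S.Good2)
    (hl0 : Algebra.adjoin M.F1 ({l0} : Set M.L) = ⊤)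
    (hz : Pt3 S.γ M k l0 u b ρ z) (st : Step P S.Λ S.γ M.toAdm z) (hu : u ∈ S.U)
    {u' : S.A.D} (hu' : u' ∈ S.Λ) (hu'u : u' * u = 1) (hrN : r < N)
    (hb : Submodule.span S.A.F (Set.range b) = S.U)
    {t : S.A.D →ₗ[S.A.F] S.A.F} (ht : IsTr t) {tE : M.E →ₗ[M.F1] M.F1}
    (htE : (∀ x y, tE (x * y) = tE (y * x)) ∧ tE 1 ≠ 0) {x : LD M.D0} (hx : x ∈ st.H t tE)
    (hxi : LD.IsInt x) :
    x.co 0 ∈ Submodule.span M.F1 {y : M.D0 | ∃ (a : M.L) (h : S.A.D), h ∈ HH2 t S.U u' ∧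
        y = M.j a ⊗ₜ[S.A.F] h} ⊔
      Submodule.span M.F1 {y : M.D0 | ∃ h ∈ HH t S.U, y = (1 : M.E) ⊗ₜ[S.A.F] h} := by
  have hUS : S.U ≤ Subalgebra.toSubmodule S.Λ := h.1.lin_mem hP
  have huΛ : u ∈ S.Λ := hUS hu
  have huu' : u * u' = 1 := by rw [S.lam_comm u huΛ u' hu', hu'u]
  have hPΛ := S.psi_le hUS
  have hc : ∀ a ∈ S.Psi, ∀ b ∈ S.Psi, a * b = b * a := fun a ha b hb =>
    S.lam_comm a (hPΛ ha) b (hPΛ hb)
  have hbU : ∀ i, b i ∈ S.U := fun i => by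
    rw [← hb]; exact Submodule.subset_span ⟨i, rfl⟩
  -- x₀ = y₀ (1 ⊗ u'), y₀ ∈ Ψ ⊗ L
  have hmem := (III_H_mem hP h hl0 hz st hu hu' hu'u ht htE hx).2 hxi
  obtain ⟨y0, hy0⟩ : ∃ y0 : M.D0, y0 = x.co 0 * ((1 : M.E) ⊗ₜ[S.A.F] u) := ⟨_, rfl⟩
  rw [← hy0] at hmem
  have hx0 : x.co 0 = y0 * ((1 : M.E) ⊗ₜ[S.A.F] u') := by
    rw [hy0, mul_assoc, Algebra.TensorProduct.tmul_mul_tmul, one_mul, huu',
      ← Algebra.TensorProduct.one_def, mul_one]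
  have hy0' : y0 ∈ Submodule.span M.F1 {y : M.D0 | ∃ (a : M.L) (h : S.A.D), h ∈ S.Psi ∧
      y = M.j a ⊗ₜ[S.A.F] h} := by
    rw [← M.psiL_eq S.Psi hc]; exact hmem
  have hL : ∀ ℓ : S.A.D →ₗ[S.A.F] S.A.F, ∃ α : M.L,
      MinI.ellE (F1 := M.F1) M.E ℓ (x.co 0) = M.j α := by
    intro ℓ
    rw [hx0, ← ellE_comp]
    clear hmem hy0 hx0
    induction hy0' using Submodule.span_induction with
    | mem y hy =>
      obtain ⟨a, g, hg, rfl⟩ := hy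
      refine ⟨(algebraMap S.A.F M.F1 ((ℓ ∘ₗ LinearMap.mulRight S.A.F u') g)) • a, ?_⟩
      rw [MinI.ellE_tmul, map_smul, algebraMap_smul]
    | zero => exact ⟨0, by rw [map_zero, map_zero]⟩
    | add y y' _ _ h1 h2 =>
      obtain ⟨a, ha⟩ := h1
      obtain ⟨a', ha'⟩ := h2
      exact ⟨a + a', by rw [map_add, map_add, ha, ha']⟩
    | smul c y _ h1 =>
      obtain ⟨a, ha⟩ := h1
      exact ⟨c • a, by rw [map_smul, map_smul, ha]⟩
  have hkill : ∀ ℓ : S.A.D →ₗ[S.A.F] S.A.F, (∀ ψ ∈ S.Psi, ℓ (ψ * u') = 0) →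
      MinI.ellE (F1 := M.F1) M.E ℓ (x.co 0) = 0 := by
    intro ℓ hℓ
    rw [hx0, ← ellE_comp]
    clear hmem hy0 hx0 hL
    induction hy0' using Submodule.span_induction with
    | mem y hy =>
      obtain ⟨a, g, hg, rfl⟩ := hy
      rw [MinI.ellE_tmul]
      change ℓ (g * u') • _ = _
      rw [hℓ g hg, zero_smul]
    | zero => rw [map_zero]
    | add y y' _ _ h1 h2 => rw [map_add, h1, h2, add_zero]
    | smul c y _ h1 => rw [map_smul, h1, smul_zero]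
  -- membership in `Ψ u'` by functionals
  have hPsiu : ∀ v : S.A.D, (∀ ℓ : S.A.D →ₗ[S.A.F] S.A.F, (∀ ψ ∈ S.Psi, ℓ (ψ * u') = 0) → ℓ v = 0) →
      ∃ ψ ∈ S.Psi, v = ψ * u' := by
    intro v hv
    let V : Submodule S.A.F S.A.D := (Subalgebra.toSubmodule S.Psi).map (LinearMap.mulRight S.A.F u')
    by_contra hcon
    have hvV : v ∉ V := by
      rintro ⟨ψ, hψ, hψv⟩
      exact hcon ⟨ψ, hψ, hψv.symm⟩
    obtain ⟨ℓ, hℓ1, hℓ2⟩ := Submodule.exists_le_ker_of_notMem hvV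
    exact hℓ1 (hv ℓ fun ψ hψ => hℓ2 ⟨ψ, hψ, rfl⟩)
  have hPsi_a : ∀ v : S.A.D, (∃ ψ ∈ S.Psi, v = ψ * u') → ∀ a ∈ S.U, v * a ∈ S.Psi := by
    rintro v ⟨ψ, hψ, rfl⟩ a ha
    have hu0 : u ≠ 0 := by
      rintro rfl
      rw [mul_zero] at hu'u
      exact zero_ne_one hu'u
    obtain ⟨φ, hφ, hφa⟩ := S.mem_U_mul hUS hu hu0 ha
    rw [hφa, mul_assoc, ← mul_assoc u', hu'u, one_mul]
    exact S.Psi.mul_mem hψ hφ
  -- the two spaces of functionals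
  let 𝒮0 : Submodule S.A.F (Module.Dual S.A.F S.A.D) :=
    { carrier := {ℓ | MinI.ellE (F1 := M.F1) M.E ℓ (x.co 0) = 0}
      add_mem' := fun {a b} ha hb => by
        change MinI.ellE (F1 := M.F1) M.E (a + b) (x.co 0) = 0
        rw [ellE_add]
        exact (congrArg₂ (· + ·) ha hb).trans (add_zero 0)
      zero_mem' := by
        change MinI.ellE (F1 := M.F1) M.E 0 (x.co 0) = 0
        rw [ellE_zero]
      smul_mem' := fun c a ha => by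
        change MinI.ellE (F1 := M.F1) M.E (c • a) (x.co 0) = 0
        rw [ellE_smul]
        exact (congrArg (c • ·) ha).trans (smul_zero c) }
  let 𝒮1 : Submodule S.A.F (Module.Dual S.A.F S.A.D) :=
    { carrier := {ℓ | ∃ c : M.F1, MinI.ellE (F1 := M.F1) M.E ℓ (x.co 0) = algebraMap M.F1 M.E c}
      add_mem' := fun {a b} ⟨c, hc⟩ ⟨c', hc'⟩ => ⟨c + c', by rw [ellE_add, hc, hc', map_add]⟩
      zero_mem' := ⟨0, by rw [ellE_zero, map_zero]⟩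
      smul_mem' := fun c a ⟨c', hc'⟩ => ⟨algebraMap S.A.F M.F1 c * c', by
        rw [ellE_smul, hc', map_mul, ← IsScalarTower.algebraMap_apply, Algebra.smul_def]⟩ }
  refine M.span_two (HH t S.U) (HH2 t S.U u') ?_ (x.co 0) hL ?_ ?_
  · intro v hv a ha
    refine ⟨hv.1 a ha, ?_⟩
    have := hv.2 a ha u hu
    rwa [mul_assoc (v * a), huu', mul_one] at this
  · intro ℓ hℓ
    refine mem_of_dual 𝒮0 (HH t S.U) (fun v hv => ?_) ℓ hℓ
    have hv1 := hPsiu v fun ℓ hℓ => hv ℓ (hkill ℓ hℓ)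
    intro a ha
    refine ⟨hPsi_a v hv1 a ha, ?_⟩
    refine hv (t ∘ₗ LinearMap.mulRight S.A.F a) ?_
    change MinI.ellE (F1 := M.F1) M.E (t ∘ₗ LinearMap.mulRight S.A.F a) (x.co 0) = 0
    rw [ellE_comp]
    exact III_H_orth hP h hl0 hz st hu hu' hu'u ht htE hx hxi 0 (by norm_num) a ha
  · intro ℓ hℓ
    refine mem_of_dual 𝒮1 (HH2 t S.U u') (fun v hv => ?_) ℓ hℓ
    have hv1 := hPsiu v fun ℓ hℓ => hv ℓ ⟨0, by rw [hkill ℓ hℓ, map_zero]⟩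
    refine ⟨hPsi_a v hv1, fun a ha c hcU => ?_⟩
    have hkey : ∀ c ∈ S.U, (t ∘ₗ LinearMap.mulRight S.A.F (c * (u' * a))) ∈ 𝒮1 := by
      intro c hc
      rw [← hb] at hc
      induction hc using Submodule.span_induction with
      | mem c hc =>
        obtain ⟨i, rfl⟩ := hc
        obtain ⟨c, hc⟩ := III_fix hP h hl0 hz st hu hu' hu'u hrN hbU ht htE hx hxi a ha hL i
        exact ⟨c, by rw [ellE_comp, hc]⟩
      | zero =>
        have : (t ∘ₗ LinearMap.mulRight S.A.F ((0 : S.A.D) * (u' * a))) = 0 := by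
          ext v; simp
        rw [this]; exact 𝒮1.zero_mem
      | add c c' _ _ h1 h2 =>
        have : (t ∘ₗ LinearMap.mulRight S.A.F ((c + c') * (u' * a))) =
            (t ∘ₗ LinearMap.mulRight S.A.F (c * (u' * a))) +
            (t ∘ₗ LinearMap.mulRight S.A.F (c' * (u' * a))) := by
          ext v
          simp only [LinearMap.comp_apply, LinearMap.mulRight_apply, LinearMap.add_apply, add_mul,
            mul_add, map_add]
        rw [this]; exact 𝒮1.add_mem h1 h2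
      | smul d c _ h1 =>
        have : (t ∘ₗ LinearMap.mulRight S.A.F ((d • c) * (u' * a))) =
            d • (t ∘ₗ LinearMap.mulRight S.A.F (c * (u' * a))) := by
          ext v
          simp only [LinearMap.comp_apply, LinearMap.mulRight_apply, LinearMap.smul_apply,
            smul_mul_assoc, mul_smul_comm, map_smul]
        rw [this]; exact 𝒮1.smul_mem d h1
    have h1 := hv _ (hkey c hcU)
    change t (v * (c * (u' * a))) = 0 at h1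
    rw [← h1]
    congr 1
    have e1 : c * (u' * a) = a * c * u' := by
      rw [S.lam_comm u' hu' a (hUS ha), ← mul_assoc, S.lam_comm c (hUS hcU) a (hUS ha)]
    rw [e1, ← mul_assoc, ← mul_assoc]

theorem minIII_aux (hP : MoveClosed P) (h : S.Good2)
    (hl0 : Algebra.adjoin M.F1 ({l0} : Set M.L) = ⊤) (hk : 2 ≤ k)
    (u' : S.A.D) (hu : u ∈ S.U) (huu' : u * u' = 1) (hrN : r < N)
    (hb : Submodule.span S.A.F (Set.range b) = S.U)
    (hz : Pt3 S.γ M k l0 u b ρ z)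
    (st : Step P S.Λ S.γ M.toAdm z) (t : S.A.D →ₗ[S.A.F] S.A.F) (ht : IsTr t)
    (tE : M.E →ₗ[M.F1] M.F1) (htE : (∀ x y, tE (x * y) = tE (y * x)) ∧ tE 1 ≠ 0) :
    C3 M hz.gp st t tE u' ρ := by
  have hUS : S.U ≤ Subalgebra.toSubmodule S.Λ := h.1.lin_mem hP
  have hu0 : u ≠ 0 := by
    rintro rfl
    rw [zero_mul] at huu'
    exact zero_ne_one huu'
  obtain ⟨v, hv, h1, h2⟩ := S.exists_inv (hUS hu) hu0
  have hv' : v = u' := by
    calc v = v * (u * u') := by rw [huu', mul_one]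
      _ = u' := by rw [← mul_assoc, h2, one_mul]
  subst hv'
  exact
    { g2 := III_good2 hP h hl0 hz st hu hv h2 ht htE
      resLam := III_resLam h.1 hl0 hz st hv h2
      resPsi := III_resPsi hP h hl0 hz st hu hv h2 ht htE
      resH := fun x hx hxi => III_resH hP h hl0 hz st hu hv h2 hrN hb ht htE hx hxi
      rho := fun x hx hxi => III_rho hP h hl0 hk hz st hu hv h2 ht htE hx hxi
      resU := fun a ha l => by
        obtain ⟨T, hT, hi, h0⟩ := III_T hP h.1 hl0 hz st hv h2 ht htE a ha l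
        exact ⟨T, hT, hi, h0⟩ }

end III

/-- (III) -/
theorem minIII (hP : MoveClosed P) {S : St P} (h : S.Good2) {N : ℕ} (M : PE S.A N)
    (l0 : M.L) (hl0 : Algebra.adjoin M.F1 ({l0} : Set M.L) = ⊤) (k : ℕ) (hk : 2 ≤ k)
    (u u' : S.A.D) (hu : u ∈ S.U) (huu' : u * u' = 1) {r : ℕ} (hrN : r < N)
    (b : Fin r → S.A.D) (hb : Submodule.span S.A.F (Set.range b) = S.U)
    (ρ : M.D0) {z : Fin S.m → PowerSeries M.E} (hz : Pt3 S.γ M k l0 u b ρ z)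
    (st : Step P S.Λ S.γ M.toAdm z) (t : S.A.D →ₗ[S.A.F] S.A.F) (ht : IsTr t)
    (tE : M.E →ₗ[M.F1] M.F1) (htE : (∀ x y, tE (x * y) = tE (y * x)) ∧ tE 1 ≠ 0) :
    C3 M hz.gp st t tE u' ρ :=
  minIII_aux hP h hl0 hk u' hu huu' hrN hb hz st t ht tE htE

end Crest.Agent.R180
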