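import Crest.Agent.R180.MinTaylor2
import Crest.Agent.R180.MinGenPt
import Crest.Agent.R180.MinDefs2

set_option autoImplicit false
noncomputable section
namespace Crest.Agent.R180

open TensorProduct

/-! # Row 180, ROUTE M, block (P): the base points of types I/II and III -/

section EulOrd
variable {K : Type} [Ring K]

theorem Ord.eul {n : ℕ} {y : PowerSeries K} (h : Ord n y) : Ord n (eul y) := fun j hj => by
  rw [coeff_eul, h j hj, smul_zero]

theorem eul_X_pow_mul_C (n : ℕ) (c : K) :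
    eul (PowerSeries.X ^ n * PowerSeries.C c : PowerSeries K) =
      n • (PowerSeries.X ^ n * PowerSeries.C c) := by
  ext k
  rw [coeff_eul, map_nsmul, PowerSeries.coeff_mul_C, PowerSeries.coeff_X_pow]
  by_cases h : k = n
  · subst h; simp
  · simp [h]

theorem ord_X_pow_mul (n : ℕ) (y : PowerSeries K) : Ord n (PowerSeries.X ^ n * y) :=
  ord_of_eq rfl

end EulOrd

section Point
variable {A : DA} (M : Adm A) {m : ℕ}

theorem l1_add (v v' : Fin m → PowerSeries M.E) (f : NC (Fin m) A.D) :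
    M.l1 (fun j => v j + v' j) f = M.l1 v f + M.l1 v' f := by
  simp only [Adm.l1, map_add, add_mul, Finset.sum_add_distrib]

theorem l1_ord {v : Fin m → PowerSeries M.E} {b : ℕ} (hv : ∀ j, Ord b (v j))
    (f : NC (Fin m) A.D) : Ord b (M.l1 v f) :=
  Ord.sum fun j _ => ((hv j).map _).mul_right

theorem jE_mul_jD (e : M.E) (d : A.D) : M.jE e * M.jD d = e ⊗ₜ[A.F] d := by
  change (e ⊗ₜ[A.F] (1 : A.D)) * ((1 : M.E) ⊗ₜ[A.F] d) = _
  rw [Algebra.TensorProduct.tmul_mul_tmul, mul_one, one_mul]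

/-- the linear part in a direction with constant entries -/
theorem l1_const (n : ℕ) (x : Fin m → A.F) (e : M.E) (f : NC (Fin m) A.D) :
    M.l1 (fun j => PowerSeries.X ^ n * PowerSeries.C (x j • e)) f =
      PowerSeries.X ^ n * PowerSeries.C (e ⊗ₜ[A.F] lin f x) := by
  rw [Adm.l1, lin_apply, TensorProduct.tmul_sum, map_sum, Finset.mul_sum]
  refine Finset.sum_congr rfl fun j _ => ?_
  rw [map_mul, map_pow, PowerSeries.map_X, PowerSeries.map_C, mul_assoc, ← map_mul, jE_mul_jD,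
    TensorProduct.smul_tmul]

theorem dv_csmul (z v : Fin m → PowerSeries M.E)
    (hz : ∀ j, PowerSeries.constantCoeff (z j) = 0) (c : A.F) (f : NC (Fin m) A.D) :
    M.dv z (fun j => PowerSeries.C (algebraMap A.F M.E c) * v j) f =
      PowerSeries.C (algebraMap A.F M.D0 c) * M.dv z v f := by
  have hj : M.jE (algebraMap A.F M.E c) = algebraMap A.F M.D0 c := by
    change (algebraMap A.F M.E c) ⊗ₜ[A.F] (1 : A.D) = _
    rw [Algebra.TensorProduct.algebraMap_apply]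
  rw [← sub_eq_zero]
  refine Ord.eq_zero fun n => ?_
  induction n generalizing f with
  | zero => exact Ord.zero _
  | succ n ih =>
    have e : M.dv z (fun j => PowerSeries.C (algebraMap A.F M.E c) * v j) f -
        PowerSeries.C (algebraMap A.F M.D0 c) * M.dv z v f =
        ∑ j, PowerSeries.map M.jE (z j) *
          (M.dv z (fun j => PowerSeries.C (algebraMap A.F M.E c) * v j) (NC.ld j f) -
          PowerSeries.C (algebraMap A.F M.D0 c) * M.dv z v (NC.ld j f)) := by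
      rw [dv_rec M z _ hz f, dv_rec M z _ hz f, Finset.mul_sum, ← Finset.sum_sub_distrib]
      refine Finset.sum_congr rfl fun j _ => ?_
      have hc : PowerSeries.C (algebraMap A.F M.D0 c) * PowerSeries.map M.jE (z j) =
          PowerSeries.map M.jE (z j) * PowerSeries.C (algebraMap A.F M.D0 c) := by
        ext k
        rw [PowerSeries.coeff_C_mul, PowerSeries.coeff_mul_C]
        exact Algebra.commutes _ _
      rw [map_mul, PowerSeries.map_C, hj, mul_add, mul_sub, ← mul_assoc, ← mul_assoc, hc,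
        mul_assoc, mul_assoc]
      abel
    rw [e]
    refine Ord.sum fun j _ => ?_
    rw [add_comm n 1]
    exact ((Ord.of_const (hz j)).map _).mul (ih _)

end Point

section Pts
variable {A : DA} {N m : ℕ}

theorem exists_pt12 (hm : 2 ≤ m) (γ : NC (Fin m) A.D) (hγ : γ [] = 0)
    (M : PE A N) (X : Fin m → NC (Fin 2) A.F) (hX : ∀ j, X j [] = 0) (k : ℕ) (hk : 2 ≤ k)
    (hr : ∀ w : List (Fin 2), w.length < k → compD X γ w = 0) (p : Fin 2 → M.E)
    (s : M.E) (u : A.D) (hu : u ∈ UU γ) :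
    ∃ z, Pt12 γ M.toAdm k s u (M.homv k p (compD X γ)) z := by
  obtain ⟨x, hx⟩ := hu
  set q : Fin 2 → PowerSeries M.E := fun i => PowerSeries.X ^ 2 * PowerSeries.C (p i) with hq
  have hq1 : ∀ i, Ord 2 (q i) := fun i => ord_X_pow_mul 2 _
  have hq0 : ∀ i, PowerSeries.constantCoeff (q i) = 0 := fun i => const_of_ord (by omega) (hq1 i)
  set z0 : Fin m → PowerSeries M.E := fun j => M.evE q (X j) with hz0
  have hz0o : ∀ j, Ord 2 (z0 j) := fun j => ord_iff.2 (evE_ord M.toAdm (X j) (hX j) 2 (by omega) p)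
  set z1 : Fin m → PowerSeries M.E := fun j =>
    PowerSeries.X ^ (2 * k - 1) * PowerSeries.C (x j • s) with hz1
  have hz1o : ∀ j, Ord (2 * k - 1) (z1 j) := fun j => ord_X_pow_mul _ _
  have hs0 : ∀ j, PowerSeries.constantCoeff (z0 j + z1 j) = 0 := fun j =>
    const_of_ord (by omega : 1 ≤ 2) ((hz0o j).add ((hz1o j).mono (by omega)))
  obtain ⟨h, hh, hgp⟩ := exists_genPt M hm (fun j => z0 j + z1 j) hs0 (2 * k + 1) (by omega)
  have hho : ∀ j, Ord (2 * k + 1) (h j) := fun j => ord_iff.2 (hh j)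
  set z : Fin m → PowerSeries M.E := fun j => z0 j + z1 j + h j with hz
  have hzo : ∀ j, Ord 2 (z j) := fun j =>
    ((hz0o j).add ((hz1o j).mono (by omega))).add ((hho j).mono (by omega))
  have hzz : z = fun j => z0 j + (z1 j + h j) := by
    funext j; simp only [hz, add_assoc]
  have hb : ∀ j, Ord (2 * k - 1) (z1 j + h j) := fun j => (hz1o j).add ((hho j).mono (by omega))
  -- the value
  obtain ⟨y0, hy0⟩ := ev_hom M.toAdm (compD X γ) k 2 (by omega) hr p
  have hval0 : M.ev z0 γ = M.ev q (compD X γ) := ev_comp M.toAdm X hX q hq0 γ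
  obtain ⟨y1, hy1⟩ := ev_add M.toAdm z0 (fun j => z1 j + h j) 2 (2 * k - 1) (by omega) (by omega)
    (fun j => ord_iff.1 (hz0o j)) (fun j => ord_iff.1 (hb j)) γ
  have hl1 : M.l1 z1 γ = PowerSeries.X ^ (2 * k - 1) * PowerSeries.C (s ⊗ₜ[A.F] u) := by
    rw [hz1, l1_const, hx]
  obtain ⟨y2, hy2⟩ := ord_iff.1 (l1_ord M.toAdm hho γ)
  have hpow : ∀ y : PowerSeries M.D0, PowerSeries.X ^ (2 * k + 1) * y =
      PowerSeries.X ^ (2 * k - 1) * (PowerSeries.X ^ 2 * y) := fun y => by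
    rw [← mul_assoc, ← pow_add]; congr 2; omega
  have hpow' : ∀ y : PowerSeries M.D0, PowerSeries.X ^ (2 * k) * y =
      PowerSeries.X ^ (2 * k - 1) * (PowerSeries.X * y) := fun y => by
    rw [← mul_assoc, ← pow_succ]; congr 2; omega
  have hval : M.ev z γ = PowerSeries.X ^ (2 * k - 1) * (PowerSeries.C (s ⊗ₜ[A.F] u) +
      PowerSeries.X * PowerSeries.C (M.homv k p (compD X γ)) +
      PowerSeries.X ^ 2 * (PowerSeries.X * y0 + y2 + y1)) := by
    rw [hzz, hy1, l1_add, hl1, hy2, hval0, hy0]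
    rw [show 2 + (2 * k - 1) = 2 * k + 1 by omega, hpow, hpow, hpow']
    have hX3 : (PowerSeries.X : PowerSeries M.D0) * (PowerSeries.X ^ 2 * y0) =
        PowerSeries.X ^ 2 * (PowerSeries.X * y0) := by
      rw [← mul_assoc, ← mul_assoc, ← pow_succ', ← pow_succ]
    simp only [mul_add]
    rw [hX3]
    abel
  refine ⟨z, hgp, ⟨_, hval⟩, fun v => ?_, ?_⟩
  · obtain ⟨y, hy⟩ := dv_lead M.toAdm z v 2 0 (by omega) (fun j => ord_iff.1 (hzo j))
      (fun j => ⟨v j, by rw [pow_zero, one_mul]⟩) γ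
    exact ⟨y, hy⟩
  · refine ⟨fun j => eul (z j), ?_⟩
    rw [dv_eul M.toAdm z (fun j => const_of_ord (by omega) (hzo j)) γ, hval]
    rw [mul_add, mul_add, eul_add, eul_add, eul_X_pow_mul_C, ← hpow', eul_X_pow_mul_C, ← hpow]
    obtain ⟨y3, hy3⟩ := ord_iff.1 (ord_X_pow_mul (2 * k + 1)
      (PowerSeries.X * y0 + y2 + y1 : PowerSeries M.D0)).eul
    refine ⟨y3, ?_⟩
    rw [hy3, hpow, hpow', mul_add, mul_add, mul_smul_comm, mul_smul_comm]

theorem exists_pt3 (hm : 2 ≤ m) (γ : NC (Fin m) A.D) (hγ : γ [] = 0)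
    (M : PE A N) (X : Fin m → NC (Fin 2) A.F) (hX : ∀ j, X j [] = 0) (k : ℕ) (hk : 2 ≤ k)
    (hr : ∀ w : List (Fin 2), w.length < k → compD X γ w = 0) (p : Fin 2 → M.E)
    (l0 : M.L) {r : ℕ} (u : A.D) (hu : u ∈ UU γ) (b : Fin r → A.D) (hb : ∀ i, b i ∈ UU γ) :
    ∃ z, Pt3 γ M k l0 u b (M.homv k p (compD X γ)) z := by
  obtain ⟨x, hx⟩ := hu
  choose xb hxb using hb
  set q : Fin 2 → PowerSeries M.E := fun i => PowerSeries.X ^ 3 * PowerSeries.C (p i) with hq
  have hq1 : ∀ i, Ord 3 (q i) := fun i => ord_X_pow_mul 3 _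
  have hq0 : ∀ i, PowerSeries.constantCoeff (q i) = 0 := fun i => const_of_ord (by omega) (hq1 i)
  set z0 : Fin m → PowerSeries M.E := fun j => M.evE q (X j) with hz0
  have hz0o : ∀ j, Ord 3 (z0 j) := fun j => ord_iff.2 (evE_ord M.toAdm (X j) (hX j) 3 (by omega) p)
  set z1 : Fin m → PowerSeries M.E := fun j =>
    PowerSeries.X ^ (3 * k - 2) * PowerSeries.C (x j • M.j l0) with hz1
  have hz1o : ∀ j, Ord (3 * k - 2) (z1 j) := fun j => ord_X_pow_mul _ _
  set z2 : Fin m → PowerSeries M.E := fun j =>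
    ∑ i, PowerSeries.X ^ (3 * k - 1) * PowerSeries.C (xb i j • M.u ^ (i.val + 1)) with hz2
  have hz2o : ∀ j, Ord (3 * k - 1) (z2 j) := fun j => Ord.sum fun i _ => ord_X_pow_mul _ _
  have h12 : ∀ j, Ord (3 * k - 2) (z1 j + z2 j) := fun j =>
    (hz1o j).add ((hz2o j).mono (by omega))
  have hs0 : ∀ j, PowerSeries.constantCoeff (z0 j + (z1 j + z2 j)) = 0 := fun j =>
    const_of_ord (by omega : 1 ≤ 2) (((hz0o j).mono (by omega)).add ((h12 j).mono (by omega)))
  obtain ⟨h, hh, hgp⟩ := exists_genPt M hm (fun j => z0 j + (z1 j + z2 j)) hs0 (3 * k + 1)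
    (by omega)
  have hho : ∀ j, Ord (3 * k + 1) (h j) := fun j => ord_iff.2 (hh j)
  set z : Fin m → PowerSeries M.E := fun j => z0 j + (z1 j + z2 j) + h j with hz
  have hzo : ∀ j, Ord 3 (z j) := fun j =>
    ((hz0o j).add ((h12 j).mono (by omega))).add ((hho j).mono (by omega))
  have hzz : z = fun j => z0 j + ((z1 j + z2 j) + h j) := by
    funext j; simp only [hz, add_assoc]
  have hbb : ∀ j, Ord (3 * k - 2) ((z1 j + z2 j) + h j) := fun j =>
    (h12 j).add ((hho j).mono (by omega))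
  have hz0c : ∀ j, PowerSeries.constantCoeff (z0 j) = 0 := fun j =>
    const_of_ord (by omega) (hz0o j)
  have hzc : ∀ j, PowerSeries.constantCoeff (z j) = 0 := fun j =>
    const_of_ord (by omega) (hzo j)
  -- the value
  obtain ⟨y0, hy0⟩ := ev_hom M.toAdm (compD X γ) k 3 (by omega) hr p
  have hval0 : M.ev z0 γ = M.ev q (compD X γ) := ev_comp M.toAdm X hX q hq0 γ
  obtain ⟨y1, hy1⟩ := ev_add M.toAdm z0 (fun j => (z1 j + z2 j) + h j) 3 (3 * k - 2) (by omega)
    (by omega) (fun j => ord_iff.1 (hz0o j)) (fun j => ord_iff.1 (hbb j)) γ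
  have hl1 : M.l1 z1 γ = PowerSeries.X ^ (3 * k - 2) * PowerSeries.C (M.j l0 ⊗ₜ[A.F] u) := by
    rw [hz1, l1_const, hx]
  have hl2 : M.l1 z2 γ = PowerSeries.X ^ (3 * k - 1) *
      PowerSeries.C (∑ i : Fin r, (M.u ^ (i.val + 1)) ⊗ₜ[A.F] b i) := by
    have : M.l1 z2 γ = ∑ i, M.l1 (fun j => PowerSeries.X ^ (3 * k - 1) *
        PowerSeries.C (xb i j • M.u ^ (i.val + 1))) γ := by
      simp only [Adm.l1, hz2, map_sum, Finset.sum_mul]
      exact Finset.sum_comm
    rw [this, map_sum, Finset.mul_sum]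
    refine Finset.sum_congr rfl fun i _ => ?_
    rw [l1_const, hxb]
  obtain ⟨y2, hy2⟩ := ord_iff.1 (l1_ord M.toAdm hho γ)
  have hpow3 : ∀ y : PowerSeries M.D0, PowerSeries.X ^ (3 * k + 1) * y =
      PowerSeries.X ^ (3 * k - 2) * (PowerSeries.X ^ 3 * y) := fun y => by
    rw [← mul_assoc, ← pow_add]; congr 2; omega
  have hpow2 : ∀ y : PowerSeries M.D0, PowerSeries.X ^ (3 * k) * y =
      PowerSeries.X ^ (3 * k - 2) * (PowerSeries.X ^ 2 * y) := fun y => by
    rw [← mul_assoc, ← pow_add]; congr 2; omega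
  have hpow1 : ∀ y : PowerSeries M.D0, PowerSeries.X ^ (3 * k - 1) * y =
      PowerSeries.X ^ (3 * k - 2) * (PowerSeries.X * y) := fun y => by
    rw [← mul_assoc, ← pow_succ]; congr 2; omega
  have hval : M.ev z γ = PowerSeries.X ^ (3 * k - 2) * (PowerSeries.C (M.j l0 ⊗ₜ[A.F] u) +
      PowerSeries.X * PowerSeries.C (∑ i : Fin r, (M.u ^ (i.val + 1)) ⊗ₜ[A.F] b i) +
      PowerSeries.X ^ 2 * PowerSeries.C (M.homv k p (compD X γ)) +
      PowerSeries.X ^ 3 * (PowerSeries.X ^ 2 * y0 + y2 + y1)) := by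
    rw [hzz, hy1, l1_add, l1_add, hl1, hl2, hy2, hval0, hy0]
    rw [show 3 + (3 * k - 2) = 3 * k + 1 by omega, hpow3, hpow3, hpow2, hpow1]
    have hX3 : (PowerSeries.X : PowerSeries M.D0) ^ 2 * (PowerSeries.X ^ 3 * y0) =
        PowerSeries.X ^ 3 * (PowerSeries.X ^ 2 * y0) := by
      rw [← mul_assoc, ← mul_assoc, ← pow_add, ← pow_add]
    simp only [mul_add]
    rw [hX3]
    abel
  refine ⟨z, hgp, ⟨_, hval⟩, fun v => ?_, ?_⟩
  · obtain ⟨y, hy⟩ := dv_lead M.toAdm z v 3 0 (by omega) (fun j => ord_iff.1 (hzo j))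
      (fun j => ⟨v j, by rw [pow_zero, one_mul]⟩) γ
    exact ⟨y, hy⟩
  · -- direction `(1/3) t d/dt z0`
    have h3 : (3 : A.F) ≠ 0 := by exact_mod_cast (three_ne_zero : (3 : A.F) ≠ 0)
    refine ⟨fun j => PowerSeries.C (algebraMap A.F M.E (3 : A.F)⁻¹) * eul (z0 j), ?_⟩
    rw [dv_csmul M.toAdm z _ hzc]
    obtain ⟨y4, hy4⟩ := dv_congr M.toAdm z0 (fun j => (z1 j + z2 j) + h j) (fun j => eul (z0 j))
      3 (3 * k - 2) (by omega) hz0c (fun j => ord_iff.1 (hbb j))
      (fun j => ord_iff.1 (hz0o j).eul) γ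
    rw [← hzz] at hy4
    obtain ⟨y5, hy5⟩ := ord_iff.1 (ord_X_pow_mul (3 * k + 3) (y0 : PowerSeries M.D0)).eul
    have e1 : eul (M.ev z0 γ) = (3 * k) • (PowerSeries.X ^ (3 * k) *
        PowerSeries.C (M.homv k p (compD X γ))) + PowerSeries.X ^ (3 * k + 3) * y5 := by
      rw [hval0, hy0, mul_add, eul_add, eul_X_pow_mul_C, ← mul_assoc, ← pow_add, hy5]
    rw [hy4, dv_eul M.toAdm z0 hz0c γ, e1]
    refine ⟨PowerSeries.C (algebraMap A.F M.D0 (3 : A.F)⁻¹) * (PowerSeries.X ^ 2 * y5 + y4), ?_⟩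
    have hcc : ∀ (n : ℕ) (y : PowerSeries M.D0),
        PowerSeries.C (algebraMap A.F M.D0 (3 : A.F)⁻¹) * (PowerSeries.X ^ n * y) =
        PowerSeries.X ^ n * (PowerSeries.C (algebraMap A.F M.D0 (3 : A.F)⁻¹) * y) := fun n y => by
      rw [← mul_assoc, (PowerSeries.commute_X_pow _ _).eq, mul_assoc]
    have e3 : PowerSeries.C (algebraMap A.F M.D0 (3 : A.F)⁻¹) * ((3 * k) •
        (PowerSeries.X ^ (3 * k) * PowerSeries.C (M.homv k p (compD X γ)))) =
        PowerSeries.X ^ (3 * k) * PowerSeries.C (k • M.homv k p (compD X γ)) := by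
      rw [mul_smul_comm, hcc, ← map_mul, ← mul_smul_comm, ← map_nsmul]
      congr 2
      rw [← Algebra.smul_def, mul_comm 3 k, mul_smul, ← Nat.cast_smul_eq_nsmul A.F 3, smul_smul,
        Nat.cast_ofNat, mul_inv_cancel₀ h3, one_smul]
    rw [mul_add, mul_add, e3, hcc, hcc, show 3 + (3 * k - 2) = 3 * k + 1 by omega]
    rw [mul_add (PowerSeries.X ^ (3 * k)), add_assoc]
    congr 1
    simp only [mul_add]
    rw [hcc]
    simp only [← mul_assoc]
    rw [← pow_succ, ← pow_add, show 3 * k + 1 + 2 = 3 * k + 3 by omega]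

theorem homv_of_zero (M : Adm A) (k : ℕ) {n : ℕ} (p : Fin n → M.E) :
    M.homv k p (0 : NC (Fin n) A.D) = 0 := by
  rw [Adm.homv]
  exact Finset.sum_eq_zero fun w _ => by rw [NC.zero_apply, TensorProduct.tmul_zero]

theorem compD_zero {n : ℕ} (γ : NC (Fin m) A.D) (hγ : γ [] = 0) :
    compD (fun _ => (0 : NC (Fin n) A.F)) γ = 0 := by
  rw [compD_rec _ (fun _ => rfl) γ, hγ, map_zero, zero_add]
  exact Finset.sum_eq_zero fun j _ => by rw [map_zero, zero_mul]

/-- type III point with `ρ = 0`, `k = 2` (used to start (III), (IV), (VI)) -/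
theorem exists_pt3_zero (hm : 2 ≤ m) (γ : NC (Fin m) A.D) (hγ : γ [] = 0)
    (M : PE A N) (l0 : M.L) {r : ℕ} (u : A.D) (hu : u ∈ UU γ) (b : Fin r → A.D)
    (hb : ∀ i, b i ∈ UU γ) : ∃ z, Pt3 γ M 2 l0 u b 0 z := by
  obtain ⟨z, hz⟩ := exists_pt3 hm γ hγ M (fun _ => 0) (fun _ => rfl) 2 le_rfl
    (fun w _ => by rw [compD_zero γ hγ, NC.zero_apply]) (fun _ => 0) l0 u hu b hb
  rw [compD_zero γ hγ, homv_of_zero] at hz
  exact ⟨z, hz⟩

end Pts

end Crest.Agent.R180
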