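import Crest.Agent.R180.DCT

set_option autoImplicit false
set_option linter.unusedSectionVars false
noncomputable section

/-!
# Row 180, ROUTE M: dimension facts for commutative subalgebras of division algebras
-/

namespace Crest.Agent.R180

namespace MinF

open Module

section

variable {F B : Type*} [Field F] [Ring B] [IsDomain B] [Algebra F B] [FiniteDimensional F B]

/-- subalgebras are closed under inverses -/
theorem exists_inv_mem (L : Subalgebra F B) {u : B} (hu : u ∈ L) (h0 : u ≠ 0) :
    ∃ u' ∈ L, u * u' = 1 ∧ u' * u = 1 := by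
  have h1 : (⟨u, hu⟩ : L) ≠ 0 := fun h => h0 (congrArg Subtype.val h)
  obtain ⟨a, ha⟩ := FiniteDimensional.exists_mul_eq_one F h1
  have ha' : u * (a : B) = 1 := congrArg Subtype.val ha
  refine ⟨a, a.2, ha', ?_⟩
  have h2 : u * ((a : B) * u - 1) = 0 := by
    rw [mul_sub, ← mul_assoc, ha', one_mul, mul_one, sub_self]
  exact sub_eq_zero.mp ((mul_eq_zero.mp h2).resolve_left h0)

/-- `[S : F]` divides `[T : F]` for subalgebras `S ≤ T` of a division algebra -/
theorem finrank_dvd (S T : Subalgebra F B) (h : S ≤ T) : finrank F S ∣ finrank F T := by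
  let _ : DivisionRing S := divisionRingOfFiniteDimensional F S
  have : Module.Finite S B := Module.Finite.of_restrictScalars_finite F S B
  let T' : Submodule S B :=
    { carrier := T
      add_mem' := fun ha hb => T.add_mem ha hb
      zero_mem' := T.zero_mem
      smul_mem' := fun z x hx => T.mul_mem (h z.2) hx }
  have hT' : finrank F T' = finrank F T := rfl
  have h1 : finrank F S * finrank S T' = finrank F T' := Module.finrank_mul_finrank F S T'
  exact ⟨_, by rw [← hT', ← h1]⟩

theorem le_centralizer (L : Subalgebra F B) (hc : ∀ a ∈ L, ∀ b ∈ L, a * b = b * a) :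
    L ≤ Subalgebra.centralizer F (L : Set B) := by
  intro x hx
  rw [Subalgebra.mem_centralizer_iff]
  intro y hy
  exact hc y hy x hx

/-- `[Λ : F]²` divides `[D : F]` -/
theorem finrank_sq_dvd [Algebra.IsCentral F B] (L : Subalgebra F B)
    (hc : ∀ a ∈ L, ∀ b ∈ L, a * b = b * a) : (finrank F L) ^ 2 ∣ finrank F B := by
  have hcen : Subalgebra.center F B = ⊥ := Algebra.IsCentral.center_eq_bot F B
  have h1 := DCT.finrank_mul_centralizer (F := F) L (by rw [hcen]; exact bot_le)
  rw [hcen, Subalgebra.finrank_bot, mul_one] at h1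
  obtain ⟨k, hk⟩ := finrank_dvd L _ (le_centralizer L hc)
  rw [hk] at h1
  exact ⟨k, by rw [← h1]; ring⟩

end

end MinF

end Crest.Agent.R180
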