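import Crest.Agent.R180.RegPoint

set_option autoImplicit false
set_option linter.unusedSectionVars false

/-!
# Row 180: nonvanishing points of noncommutative polynomials

`E` central division algebra over `K₁ ⊇ K` of large degree, `p` a nonzero homogeneous
noncommutative polynomial with coefficients in a vector space / algebra `Γ` over `K`: there are
generating tuples `z` of `E` with `p(z) ≠ 0` in `E ⊗[K] Γ`.
-/

open scoped TensorProduct

namespace Crest.Agent.R180

namespace NV

open RegPt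

section Sep

variable {K K₁ E ι : Type} [Field K] [Field K₁] [CharZero K₁] [Algebra K K₁]
  [Ring E] [IsDomain E] [Algebra K₁ E] [Algebra K E] [IsScalarTower K K₁ E]
  [FiniteDimensional K₁ E] [Algebra.IsCentral K₁ E] [Fintype ι]

/-- nonvanishing, scalar coefficients -/
theorem exists_sum_ne_zero (n : ℕ) (r : (Fin n → ι) → K) (hr : r ≠ 0)
    (hnE : (n + 1) ^ 2 ≤ Module.finrank K₁ E) :
    ∃ z : ι → E, ∑ w, r w • (List.ofFn (fun j => z (w j))).prod ≠ 0 := by
  classical
  obtain ⟨w0, hw0⟩ := Function.ne_iff.mp hr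
  obtain ⟨τ, hτ0, hτ⟩ := exists_tracial K₁ E
  let emb : (Fin n → ι) → (Fin (n + 1) → Option ι) := fun u => Fin.snoc (fun j => some (u j)) none
  have hemb : Function.Injective emb := by
    intro u v huv
    funext j
    have h1 := congrFun huv j.castSucc
    simp only [emb, Fin.snoc_castSucc] at h1
    exact Option.some_injective _ h1
  let P : (Fin (n + 1) → Option ι) → K := fun w => ∑ u, if emb u = w then r u else 0
  have hP1 : ∀ u, P (emb u) = r u := by
    intro u
    change ∑ u', (if emb u' = emb u then r u' else 0) = r u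
    simp only [hemb.eq_iff]
    simp
  have hP2 : ∀ w : Fin (n + 1) → Option ι, w (Fin.last n) ≠ none → P w = 0 := by
    intro w hw
    refine Finset.sum_eq_zero fun u _ => ?_
    rw [if_neg]
    rintro rfl
    apply hw
    simp [emb]
  obtain ⟨z, hz⟩ := exists_trace_ne_zero (K := K₁) (E := E) (K₀ := K) (n := n + 1) hnE τ hτ hτ0 P
    (emb w0) (by
      rw [Finset.sum_eq_single 0]
      · simp only [add_zero]
        rw [hP1]
        exact hw0
      · intro i _ hi
        apply hP2
        intro h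
        have h1 : ∀ k : Fin (n + 1), emb w0 k = none → k = Fin.last n := by
          intro k
          refine Fin.lastCases ?_ (fun j => ?_) k
          · intro _; rfl
          · simp [emb]
        have h2 := h1 _ h
        exact hi (by simpa using h2)
      · simp)
  refine ⟨fun i => z (some i), fun h => hz ?_⟩
  have h3 : ∑ w, P w • (List.ofFn (fun j => z (w j))).prod =
      (∑ w, r w • (List.ofFn (fun j => z (some (w j)))).prod) * z none := by
    have h4 : ∀ w : Fin (n + 1) → Option ι, P w • (List.ofFn (fun j => z (w j))).prod =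
        ∑ u, if emb u = w then r u • (List.ofFn (fun j => z (w j))).prod else 0 := by
      intro w
      change (∑ u, if emb u = w then r u else 0) • _ = _
      rw [Finset.sum_smul]
      refine Finset.sum_congr rfl fun u _ => ?_
      split_ifs
      · rfl
      · rw [zero_smul]
    rw [Finset.sum_congr rfl fun w _ => h4 w, Finset.sum_comm, Finset.sum_mul]
    refine Finset.sum_congr rfl fun u _ => ?_
    rw [Finset.sum_ite_eq Finset.univ (emb u), if_pos (Finset.mem_univ _), smul_mul_assoc]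
    congr 1
    rw [List.ofFn_succ', List.concat_eq_append, List.prod_append]
    simp [emb]
  rw [h3, h, zero_mul, map_zero]

end Sep

section Mod

variable {K K₁ E Γ ι : Type} [Field K] [Field K₁] [CharZero K₁] [Algebra K K₁]
  [Ring E] [IsDomain E] [Algebra K₁ E] [Algebra K E] [IsScalarTower K K₁ E]
  [FiniteDimensional K₁ E] [Algebra.IsCentral K₁ E] [Ring Γ] [Algebra K Γ] [Fintype ι]

/-- nonvanishing, coefficients in an algebra -/
theorem exists_pv_ne_zero (n : ℕ) (p : (Fin n → ι) → Γ) (hp : p ≠ 0)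
    (hnE : (n + 1) ^ 2 ≤ Module.finrank K₁ E) :
    ∃ z : ι → E, pv (K := K) n p z ≠ 0 := by
  obtain ⟨w0, hw0⟩ := Function.ne_iff.mp hp
  obtain ⟨ξ, hξ⟩ : ∃ ξ : Γ →ₗ[K] K, ξ (p w0) ≠ 0 := by
    by_contra hcon
    push Not at hcon
    exact hw0 ((Module.forall_dual_apply_eq_zero_iff K (p w0)).mp hcon)
  obtain ⟨z, hz⟩ := exists_sum_ne_zero (K := K) (K₁ := K₁) (E := E) n (fun w => ξ (p w))
    (fun h => hξ (congrFun h w0)) hnE
  refine ⟨z, fun h => hz ?_⟩
  let L : E ⊗[K] Γ →ₗ[K] E := (TensorProduct.rid K E).toLinearMap ∘ₗ (LinearMap.lTensor E ξ)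
  have h1 := congrArg L h
  rw [map_zero] at h1
  rw [← h1]
  unfold pv
  rw [map_sum]
  refine Finset.sum_congr rfl fun w _ => ?_
  simp [L]

/-- polynomiality of evaluations -/
theorem polV_pv [FiniteDimensional K Γ] (n : ℕ) (p : (Fin n → ι) → Γ) :
    PolV (K := K₁) (fun z : ι → E => pv (K := K) n p z) := by
  unfold pv
  refine PolV.sum _ _ fun w _ => ?_
  have h2 : PolV (K := K₁) (V := ι → E) (fun z : ι → E => (List.ofFn fun j => z (w j)).prod) :=
    PolV.ofFn_prod (V := ι → E) (fun j (z : ι → E) => z (w j))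
      (fun j => PolV.linear (LinearMap.proj (w j) : (ι → E) →ₗ[K₁] E))
  exact PolV.comp_linear ((TensorProduct.AlgebraTensorModule.mk K K₁ E Γ).flip (p w)) h2

/-- nonvanishing at a generating tuple -/
theorem exists_pv_ne_zero_gen [FiniteDimensional K Γ] (n : ℕ) (p : (Fin n → ι) → Γ) (hp : p ≠ 0)
    (hnE : (n + 1) ^ 2 ≤ Module.finrank K₁ E) (z₀ : ι → E)
    (hz₀ : Algebra.adjoin K₁ (Set.range z₀) = ⊤) :
    ∃ z : ι → E, pv (K := K) n p z ≠ 0 ∧ Algebra.adjoin K₁ (Set.range z) = ⊤ := by
  obtain ⟨z₁, hz₁⟩ := exists_pv_ne_zero (K := K) (K₁ := K₁) (E := E) n p hp hnE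
  have hinf : Infinite K₁ := CharZero.infinite K₁
  obtain ⟨ℓ, hℓ⟩ : ∃ ℓ : E ⊗[K] Γ →ₗ[K₁] K₁, ℓ (pv (K := K) n p z₁) ≠ 0 := by
    by_contra hcon
    push Not at hcon
    exact hz₁ ((Module.forall_dual_apply_eq_zero_iff K₁ _).mp hcon)
  obtain ⟨f, hf, hf0, hf1⟩ := Pol.generate (K := K₁) z₀ hz₀
  obtain ⟨z, hz1, hz2⟩ := Pol.exists_both (polV_pv (K := K) (K₁ := K₁) (E := E) n p ℓ) hf hℓ hf0
  exact ⟨z, fun h => hz1 (by change ℓ (pv (K := K) n p z) = 0; rw [h, map_zero]), hf1 z hz2⟩

/-- generating tuples from two generators -/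
theorem exists_gen_tuple [DecidableEq ι] (hι : 2 ≤ Fintype.card ι) (P Q : E)
    (hgen : Algebra.adjoin K₁ ({P, Q} : Set E) = ⊤) :
    ∃ z₀ : ι → E, Algebra.adjoin K₁ (Set.range z₀) = ⊤ := by
  have : Nontrivial ι := Fintype.one_lt_card_iff_nontrivial.mp (by omega)
  obtain ⟨i₀, i₁, hi⟩ := exists_pair_ne ι
  refine ⟨Function.update (Pi.single i₀ P) i₁ Q, ?_⟩
  rw [eq_top_iff, ← hgen]
  apply Algebra.adjoin_mono
  intro x hx
  rcases hx with rfl | rfl
  · exact ⟨i₀, by simp [Function.update_of_ne hi]⟩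
  · exact ⟨i₁, by simp⟩

end Mod

end NV

end Crest.Agent.R180
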