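import Crest.Agent.R180.MinDefs
import Crest.Agent.R180.MinG
import Crest.Agent.R180.MinAPrep
import Crest.Agent.R180.MinFacts0
import Crest.Agent.R180.NV

set_option autoImplicit false
noncomputable section

/-!
# Row 180, ROUTE M: (A) existence of live states, (0); versions with the STEP lemma and the Taylor
lemma `dv_eul` as hypotheses
-/

namespace Crest.Agent.R180

open TensorProduct RegPt

variable {P : (A : DA) → (m : ℕ) → NC (Fin m) A.D → Prop}

namespace MinA

theorem rt_one_ne_zero {F K : Type} [Field F] [CharZero F] [Ring K] [Nontrivial K] [Algebra F K]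
    [Module.Finite F K] : rt F (1 : K) ≠ 0 := by
  rw [rt_apply]
  have h1 : LinearMap.mulLeft F (1 : K) = LinearMap.id := by ext; simp
  rw [h1, LinearMap.trace_id]
  exact Nat.cast_ne_zero.mpr (Module.finrank_pos).ne'

/-- a step is live as soon as the value `γ(z)` has a nonzero leading coefficient -/
theorem live_of_lead {A : DA} {m : ℕ} {Λ : Subalgebra A.F A.D} {γ : NC (Fin m) A.D}
    {M : Adm A} {z : Fin m → PowerSeries M.E} (st : Step P Λ γ M z)
    (hE : ∃ T ∈ st.U, ∃ x : LD M.D0, T = LD.ofPS (Crest.Agent.R180.eul (M.ev z γ)) -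
      (LD.ofPS (M.ev z γ) * x - x * LD.ofPS (M.ev z γ))) (k : ℕ)
    (hk : 1 ≤ k) (hlow : ∀ n < k, PowerSeries.coeff n (M.ev z γ) = 0)
    (hkk : PowerSeries.coeff k (M.ev z γ) ≠ 0) :
    Live (A := A.mv M) (M.adj Λ (M.ev z γ)) st.γ' := by
  set c : PowerSeries M.D0 := M.ev z γ with hc
  set V : LD M.D0 := LD.ofPS c with hV
  have hVmem : V ∈ M.adj Λ c := Algebra.subset_adjoin (Or.inr rfl)
  have hV0 : V ≠ 0 := by
    intro h0
    apply hkk
    have := congrArg (fun x : LD M.D0 => x.co (k : ℤ)) h0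
    rw [← LD.co_ofPS]
    exact this
  obtain ⟨c', hc', h1, h2⟩ := MinF.exists_inv_mem (M.adj Λ c) hVmem hV0
  obtain ⟨T, hT, x, hTx⟩ := hE
  change ∃ t : LD M.D0 →ₗ[LF M.F1] LF M.F1, IsTr t ∧ ∃ l ∈ M.adj Λ c, ∃ a ∈ st.U, t (l * a) ≠ 0
  refine ⟨rt (LF M.F1), ⟨fun x y => rt_comm x y, rt_one_ne_zero⟩, c', hc', T, hT, ?_⟩
  have h3 : rt (LF M.F1) (c' * (V * x - x * V)) = 0 := by
    rw [mul_sub, map_sub, ← mul_assoc, h2, one_mul, rt_comm c', mul_assoc, h1, mul_one, sub_self]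
  have h4 : rt (LF M.F1) (c' * T) =
      rt (LF M.F1) (c' * LD.ofPS (Crest.Agent.R180.eul (M.ev z γ))) := by
    rw [hTx, mul_sub, map_sub, h3, sub_zero]
  have hce : ∀ n, PowerSeries.coeff n (Crest.Agent.R180.eul (M.ev z γ)) =
      n • PowerSeries.coeff n (M.ev z γ) := fun n => PowerSeries.coeff_mk _ _
  intro h5
  have h5' : rt (LF M.F1) (c' * T) = 0 := h5
  rw [h4] at h5'
  refine trace_logder_ne_zero (F := M.F1) V (c' * LD.ofPS (Crest.Agent.R180.eul (M.ev z γ)))
    (LD.ofPS (Crest.Agent.R180.eul (M.ev z γ))) (k : ℤ) (by omega) ?_ ?_ ?_ ?_ ?_ h5'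
  · intro n hn
    rcases lt_or_ge n 0 with h | h
    · exact LD.co_ofPS_neg _ _ h
    · obtain ⟨n', rfl⟩ := Int.eq_ofNat_of_zero_le h
      rw [hV, LD.co_ofPS]
      exact hlow n' (by omega)
  · rw [hV, LD.co_ofPS]
    exact hkk
  · intro n hn
    rcases lt_or_ge n 0 with h | h
    · exact LD.co_ofPS_neg _ _ h
    · obtain ⟨n', rfl⟩ := Int.eq_ofNat_of_zero_le h
      rw [LD.co_ofPS, hce, hlow n' (by omega), smul_zero]
  · rw [hV, LD.co_ofPS, LD.co_ofPS, hce, nsmul_eq_mul]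
    norm_cast
  · rw [← mul_assoc, h1, one_mul]

theorem two_le_mu {A : DA} {m : ℕ} (hm : 2 ≤ m) {Λ : Subalgebra A.F A.D} {γ : NC (Fin m) A.D}
    {M : Adm A} {z : Fin m → PowerSeries M.E} (st : Step P Λ γ M z) : 2 ≤ st.μ := by
  have h1 := st.hμ
  have h2 : 0 < Module.finrank M.F1 M.E := Module.finrank_pos
  have h4 : 1 * 1 ≤ (m - 1) * Module.finrank M.F1 M.E :=
    Nat.mul_le_mul (by omega) h2
  omega

/-- the value at a homogeneous point -/
theorem coeff_ev {A : DA} (M : Adm A) {m : ℕ} (z : Fin m → M.E) (n : ℕ) (f : NC (Fin m) A.D) :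
    PowerSeries.coeff n (M.ev (fun j => PowerSeries.X * PowerSeries.C (z j)) f) =
      pv (K := A.F) n (fun w => f (List.ofFn w)) z := by
  have hX : ∀ j : Fin m, PowerSeries.constantCoeff
      ((fun j => NC.C (PowerSeries.X * PowerSeries.C (z j)) :
        Fin m → NC (Fin 0) (PowerSeries M.E)) j []) = 0 := by
    intro j
    simp
  rw [Adm.ev, Adm.hT_eq M _ hX]
  exact M.coeff_hX0_nil _ hX z (fun j => rfl) n f

theorem genPt_hom {A : DA} (M : Adm A) {m : ℕ} (z : Fin m → M.E)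
    (hz : Algebra.adjoin M.F1 (Set.range z) = ⊤) :
    GenPt M (fun j => PowerSeries.X * PowerSeries.C (z j)) where
  z0 j := by simp
  gen := by
    have h := LD.adjoin_tp_C_eq_top (F := M.F1) z 1 hz
    rw [← h]
    congr 2
    funext j
    rw [map_mul]
    congr 1
    have := ofPS_X_pow (R := M.E) 1
    rw [pow_one] at this
    exact_mod_cast this

/-- an algebra of type `PE` is generated by two elements -/
theorem exists_gen_pair {A : DA} {N : ℕ} (M : PE A N) :
    ∃ a b : M.E, Algebra.adjoin M.F1 ({a, b} : Set M.E) = ⊤ := by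
  have hcz : CharZero M.F1 := inferInstance
  obtain ⟨θ, hθ⟩ := Field.exists_primitive_element M.F1 M.L
  have hθ' : Algebra.adjoin M.F1 ({θ} : Set M.L) = ⊤ := by
    rw [← IntermediateField.adjoin_simple_toSubalgebra_of_isAlgebraic
      (Algebra.IsAlgebraic.isAlgebraic θ), hθ, IntermediateField.top_toSubalgebra]
  refine ⟨M.j θ, M.u, ?_⟩
  rw [eq_top_iff]
  intro e _
  obtain ⟨c, hc, -⟩ := M.decomp e
  rw [hc]
  refine sum_mem fun i _ => mul_mem ?_ (pow_mem (Algebra.subset_adjoin (by simp)) _)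
  have h1 : c i ∈ Algebra.adjoin M.F1 ({θ} : Set M.L) := by rw [hθ']; exact Algebra.mem_top
  have h2 : M.j (c i) ∈ (Algebra.adjoin M.F1 ({θ} : Set M.L)).map M.j := ⟨_, h1, rfl⟩
  rw [AlgHom.map_adjoin, Set.image_singleton] at h2
  exact Algebra.adjoin_mono (by simp) h2

end MinA

/-- (A) -/
theorem MinA.exists_live_core {A : DA} {m : ℕ} (hm : 2 ≤ m) {Λ : Subalgebra A.F A.D}
    {γ : NC (Fin m) A.D} (h : RS P A m Λ γ) (hγ : γ ≠ 0)
    (hfin : ∀ (N : ℕ) (M : PE A N), Module.finrank M.F1 M.E = N * N)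
    (hstep : ∀ (M : Adm A) (z : Fin m → PowerSeries M.E), GenPt M z →
      ∃ st : Step P Λ γ M z, ∃ T ∈ st.U, ∃ x : LD M.D0,
        T = LD.ofPS (Crest.Agent.R180.eul (M.ev z γ)) -
          (LD.ofPS (M.ev z γ) * x - x * LD.ofPS (M.ev z γ))) : Nonempty (St P) := by
  classical
  have hex : ∃ k : ℕ, ∃ w : List (Fin m), w.length = k ∧ γ w ≠ 0 := by
    by_contra hcon
    push Not at hcon
    exact hγ (NC.ext' fun w => hcon _ w rfl)
  obtain ⟨w0, hw0, hw0'⟩ := Nat.find_spec hex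
  have hmin : ∀ w : List (Fin m), w.length < Nat.find hex → γ w = 0 := by
    intro w hw
    by_contra hne
    exact Nat.find_min hex hw ⟨w, rfl, hne⟩
  set k := Nat.find hex with hk
  have hk1 : 1 ≤ k := by
    by_contra hlt
    have h0 : k = 0 := by omega
    rw [h0] at hw0
    rw [List.length_eq_zero_iff] at hw0
    rw [hw0] at hw0'
    exact hw0' h.zero
  obtain ⟨N, hN, ⟨M⟩⟩ := exists_PE A k
  obtain ⟨a, b, hab⟩ := MinA.exists_gen_pair M
  obtain ⟨z₀, hz₀⟩ := NV.exists_gen_tuple (K₁ := M.F1) (ι := Fin m)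
    (by rw [Fintype.card_fin]; exact hm) a b hab
  let p : (Fin k → Fin m) → A.D := fun w => γ (List.ofFn w)
  have hp : p ≠ 0 := by
    intro h0
    apply hw0'
    have h1 := congrFun h0 (fun i => w0.get (Fin.cast hw0.symm i))
    have h2 : List.ofFn (fun i => w0.get (Fin.cast hw0.symm i)) = w0 := by
      apply List.ext_get
      · simp [hw0]
      · intro n h1 h2
        simp
    change γ (List.ofFn _) = 0 at h1
    rw [h2] at h1
    exact h1
  obtain ⟨z, hz1, hz2⟩ := NV.exists_pv_ne_zero_gen (K := A.F) (K₁ := M.F1) (E := M.E) k p hp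
    (by rw [hfin N M]; nlinarith) z₀ hz₀
  have hgp := MinA.genPt_hom M.toAdm z hz2
  obtain ⟨st, hE⟩ := hstep M.toAdm _ hgp
  refine ⟨⟨A.mv M.toAdm, st.μ, MinA.two_le_mu hm st, _, st.γ', st.rs,
    MinA.live_of_lead st hE k hk1 ?_ ?_⟩⟩
  · intro n hn
    rw [MinA.coeff_ev]
    unfold pv
    refine Finset.sum_eq_zero fun w _ => ?_
    change _ ⊗ₜ[A.F] γ (List.ofFn w) = 0
    rw [hmin (List.ofFn w) (by rw [List.length_ofFn]; exact hn), TensorProduct.tmul_zero]
  · rw [MinA.coeff_ev]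
    exact hz1

namespace MinA

theorem finrank_D0 {A : DA} (M : Adm A) :
    Module.finrank M.F1 M.D0 = Module.finrank M.F1 M.E * Module.finrank A.F A.D := by
  have h := Module.finrank_eq_card_basis
    ((Module.finBasis M.F1 M.E).tensorProduct (Module.finBasis A.F A.D) :
      Module.Basis _ M.F1 (M.E ⊗[A.F] A.D))
  rw [Fintype.card_prod, Fintype.card_fin, Fintype.card_fin] at h
  exact h

theorem finrank_mv {A : DA} (M : Adm A) :
    Module.finrank (LF M.F1) (LD M.D0) = Module.finrank M.F1 M.E * Module.finrank A.F A.D := by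
  rw [LD.finrank_eq, finrank_D0]

/-- `mu1` is an exact division -/
theorem mu1_mul (S : St P) : S.mu1 * (Module.finrank S.A.F S.Λ) ^ 2 = Module.finrank S.A.F S.A.D :=
  Nat.div_mul_cancel (MinF.finrank_sq_dvd S.Λ S.rs.comm)

theorem pv_one_alg {A : DA} (M : Adm A) {m : ℕ} (v : Fin m → A.F) (f : NC (Fin m) A.D) :
    pv (K := A.F) 1 (fun w => f (List.ofFn w)) (fun j => algebraMap A.F M.E (v j)) =
      M.jD (lin f v) := by
  rw [pv_succ_eq, lin_apply, map_sum]
  refine Finset.sum_congr rfl fun i _ => ?_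
  rw [pv_zero_eq, NC.ld_apply]
  change (algebraMap A.F M.E (v i) ⊗ₜ[A.F] (1 : A.D)) * ((1 : M.E) ⊗ₜ[A.F] f [i]) =
    (1 : M.E) ⊗ₜ[A.F] (v i • f [i])
  rw [Algebra.TensorProduct.tmul_mul_tmul, mul_one, one_mul, TensorProduct.tmul_smul,
    TensorProduct.smul_tmul', Algebra.algebraMap_eq_smul_one]

end MinA

/-- (0) -/
theorem MinA.lin_mem_core {S : St P} (h : S.Good1)
    (hstep : ∀ (M : Adm S.A) (z : Fin S.m → PowerSeries M.E), GenPt M z →
      ∃ st : Step P S.Λ S.γ M z, ∃ T ∈ st.U, ∃ x : LD M.D0,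
        T = LD.ofPS (Crest.Agent.R180.eul (M.ev z S.γ)) -
          (LD.ofPS (M.ev z S.γ) * x - x * LD.ofPS (M.ev z S.γ))) :
    S.U ≤ Subalgebra.toSubmodule S.Λ := by
  intro a ha
  by_contra hna
  rw [Subalgebra.mem_toSubmodule] at hna
  obtain ⟨v, rfl⟩ := ha
  obtain ⟨M, hM1, hM2⟩ := exists_trivialAdm S.A
  let z : Fin S.m → M.E := fun j => algebraMap S.A.F M.E (v j)
  have hgen : Algebra.adjoin M.F1 (Set.range z) = ⊤ := by
    rw [eq_top_iff]
    intro e _
    obtain ⟨c, rfl⟩ := hM2.2 e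
    exact Subalgebra.algebraMap_mem _ _
  have hgp := MinA.genPt_hom M z hgen
  obtain ⟨st, hE⟩ := hstep M _ hgp
  have h0 : PowerSeries.coeff 0 (M.ev (fun j => PowerSeries.X * PowerSeries.C (z j)) S.γ) = 0 := by
    rw [MinA.coeff_ev, pv_zero_eq, S.rs.zero, map_zero]
  have h1 : PowerSeries.coeff 1 (M.ev (fun j => PowerSeries.X * PowerSeries.C (z j)) S.γ) =
      M.jD (lin S.γ v) := by
    rw [MinA.coeff_ev]
    exact MinA.pv_one_alg M v S.γ
  have hv0 : lin S.γ v ≠ 0 := by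
    intro h0
    rw [h0] at hna
    exact hna S.Λ.zero_mem
  have hjD : Function.Injective M.jD :=
    Algebra.TensorProduct.includeRight_injective (algebraMap S.A.F M.E).injective
  let S' : St P := ⟨S.A.mv M, st.μ, MinA.two_le_mu S.hm st, _, st.γ', st.rs,
    MinA.live_of_lead st hE 1 le_rfl
      (by intro n hn; have : n = 0 := by omega
          subst this; exact h0)
      (by rw [h1]; exact fun h2 => hv0 (hjD (by rw [h2, map_zero])))⟩
  have hmu := h S'
  -- dimensions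
  have hd1 : Module.finrank M.F1 M.E = 1 := by
    rw [finrank_eq_one_iff']
    refine ⟨1, one_ne_zero, fun e => ?_⟩
    obtain ⟨c, rfl⟩ := hM2.2 e
    exact ⟨c, by rw [Algebra.algebraMap_eq_smul_one]⟩
  have e1 : S.mu1 * (Module.finrank S.A.F S.Λ) ^ 2 = Module.finrank S.A.F S.A.D := MinA.mu1_mul S
  have e2 : S'.mu1 * (Module.finrank (LF M.F1)
      (M.adj S.Λ (M.ev (fun j => PowerSeries.X * PowerSeries.C (z j)) S.γ))) ^ 2 =
        Module.finrank S.A.F S.A.D := by
    have := MinA.mu1_mul S'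
    refine this.trans ?_
    have h2 := MinA.finrank_mv M
    rw [hd1, one_mul] at h2
    exact h2
  have e3 : Module.finrank S.A.F (Algebra.adjoin S.A.F ((S.Λ : Set S.A.D) ∪ {lin S.γ v})) ≤
      Module.finrank (LF M.F1)
        (M.adj S.Λ (M.ev (fun j => PowerSeries.X * PowerSeries.C (z j)) S.γ)) := by
    refine MinA.finrank_adjoin_le M S.Λ (lin S.γ v) _ ?_ _ ?_ h0 h1
    · intro a ha
      exact Algebra.subset_adjoin (Or.inl ⟨a, ha, rfl⟩)
    · exact Algebra.subset_adjoin (Or.inr rfl)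
  have e4 : Module.finrank S.A.F S.Λ <
      Module.finrank S.A.F (Algebra.adjoin S.A.F ((S.Λ : Set S.A.D) ∪ {lin S.γ v})) := by
    apply Submodule.finrank_lt_finrank_of_lt (s := Subalgebra.toSubmodule S.Λ)
      (t := Subalgebra.toSubmodule (Algebra.adjoin S.A.F ((S.Λ : Set S.A.D) ∪ {lin S.γ v})))
    rw [SetLike.lt_iff_le_and_exists]
    refine ⟨fun x hx => Algebra.subset_adjoin (Or.inl hx), lin S.γ v,
      Algebra.subset_adjoin (Or.inr rfl), hna⟩
  have hpos : 0 < Module.finrank S.A.F S.A.D := Module.finrank_pos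
  have hmpos : 0 < S.mu1 := by
    rcases Nat.eq_zero_or_pos S.mu1 with h2 | h2
    · rw [h2, zero_mul] at e1; omega
    · exact h2
  have h5 := lt_of_lt_of_le e4 e3
  have h6 : (Module.finrank S.A.F S.Λ) ^ 2 < (Module.finrank (LF M.F1)
      (M.adj S.Λ (M.ev (fun j => PowerSeries.X * PowerSeries.C (z j)) S.γ))) ^ 2 :=
    Nat.pow_lt_pow_left h5 two_ne_zero
  have h7 : S.mu1 * (Module.finrank S.A.F S.Λ) ^ 2 < S'.mu1 * (Module.finrank (LF M.F1)
      (M.adj S.Λ (M.ev (fun j => PowerSeries.X * PowerSeries.C (z j)) S.γ))) ^ 2 :=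
    lt_of_lt_of_le (Nat.mul_lt_mul_of_pos_left h6 hmpos) (Nat.mul_le_mul_right _ hmu)
  rw [e1, e2] at h7
  exact lt_irrefl _ h7

end Crest.Agent.R180
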