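import Crest.Agent.R180.MinLive
import Crest.Agent.R180.MinPE
import Crest.Agent.R180.MinStartCore

set_option autoImplicit false
noncomputable section

/-!
# Row 180, ROUTE M: (A) existence of live states and (0)
-/

namespace Crest.Agent.R180

variable {P : (A : DA) → (m : ℕ) → NC (Fin m) A.D → Prop}

/-- (A) -/
theorem exists_live (hP : MoveClosed P) {A : DA} {m : ℕ} (hm : 2 ≤ m) {Λ : Subalgebra A.F A.D}
    {γ : NC (Fin m) A.D} (h : RS P A m Λ γ) (hγ : γ ≠ 0) : Nonempty (St P) := by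
  refine MinA.exists_live_core hm h hγ (fun N M => PE.finrank_E M) fun M z hz => ?_
  obtain ⟨st⟩ := exists_step hP hm h M z hz
  obtain ⟨T, hT, x, hx⟩ := st.exists_T hz (fun j => eul (z j))
  rw [dv_eul M z hz.z0 γ] at hx
  exact ⟨st, T, hT, x, hx⟩

/-- (0) -/
theorem St.Good1.lin_mem (hP : MoveClosed P) {S : St P} (h : S.Good1) :
    S.U ≤ Subalgebra.toSubmodule S.Λ := by
  refine MinA.lin_mem_core h fun M z hz => ?_
  obtain ⟨st⟩ := exists_step hP S.hm S.rs M z hz
  obtain ⟨T, hT, x, hx⟩ := st.exists_T hz (fun j => eul (z j))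
  rw [dv_eul M z hz.z0 S.γ] at hx
  exact ⟨st, T, hT, x, hx⟩

end Crest.Agent.R180
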