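import Crest.Agent.R180.MinDefs

set_option autoImplicit false
noncomputable section
namespace Crest.Agent.R180

open TensorProduct

/-! # Row 180, ROUTE M, block (T): expansions of evaluations -/

section Ord
variable {K : Type} [Ring K]

/-- `t`-order `≥ n` -/
def Ord (n : ℕ) (y : PowerSeries K) : Prop := ∀ j < n, PowerSeries.coeff j y = 0

theorem ord_iff {n : ℕ} {y : PowerSeries K} :
    Ord n y ↔ ∃ a, y = PowerSeries.X ^ n * a := by
  rw [Ord]
  exact PowerSeries.X_pow_dvd_iff.symm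

theorem ord_iff_mem {n : ℕ} {y : PowerSeries K} : Ord n y ↔ y ∈ (CFilt.powerSeries K).I n :=
  Iff.rfl

theorem Ord.zero_mem (n : ℕ) : Ord n (0 : PowerSeries K) := fun j _ => by simp

theorem Ord.zero (y : PowerSeries K) : Ord 0 y := fun j hj => absurd hj (Nat.not_lt_zero j)

theorem Ord.add {n : ℕ} {a b : PowerSeries K} (ha : Ord n a) (hb : Ord n b) : Ord n (a + b) :=
  fun j hj => by simp [ha j hj, hb j hj]

theorem Ord.neg {n : ℕ} {a : PowerSeries K} (ha : Ord n a) : Ord n (-a) :=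
  fun j hj => by simp [ha j hj]

theorem Ord.sub {n : ℕ} {a b : PowerSeries K} (ha : Ord n a) (hb : Ord n b) : Ord n (a - b) :=
  fun j hj => by simp [ha j hj, hb j hj]

theorem Ord.mono {m n : ℕ} (h : m ≤ n) {a : PowerSeries K} (ha : Ord n a) : Ord m a :=
  fun j hj => ha j (lt_of_lt_of_le hj h)

theorem Ord.mul {m n : ℕ} {a b : PowerSeries K} (ha : Ord m a) (hb : Ord n b) :
    Ord (m + n) (a * b) := (CFilt.powerSeries K).mul ha hb

theorem Ord.mul_left {n : ℕ} {a b : PowerSeries K} (hb : Ord n b) : Ord n (a * b) :=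
  (CFilt.powerSeries K).mul_left hb

theorem Ord.mul_right {n : ℕ} {a b : PowerSeries K} (ha : Ord n a) : Ord n (a * b) :=
  (CFilt.powerSeries K).mul_right ha

theorem Ord.sum {ι : Type*} {s : Finset ι} {n : ℕ} {f : ι → PowerSeries K}
    (h : ∀ i ∈ s, Ord n (f i)) : Ord n (∑ i ∈ s, f i) := fun j hj => by
  rw [map_sum]
  exact Finset.sum_eq_zero fun i hi => h i hi j hj

theorem Ord.eq_zero {a : PowerSeries K} (h : ∀ n, Ord n a) : a = 0 :=
  (CFilt.powerSeries K).sep a h

theorem Ord.of_const {a : PowerSeries K} (h : PowerSeries.constantCoeff a = 0) : Ord 1 a := by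
  intro j hj
  have : j = 0 := by omega
  subst this
  rwa [PowerSeries.coeff_zero_eq_constantCoeff_apply]

theorem Ord.map {K' : Type} [Ring K'] (φ : K →+* K') {n : ℕ} {a : PowerSeries K} (ha : Ord n a) :
    Ord n (PowerSeries.map φ a) := fun j hj => by rw [PowerSeries.coeff_map, ha j hj, map_zero]

theorem ord_sub_iff {n : ℕ} {x y : PowerSeries K} :
    Ord n (x - y) ↔ ∃ a, x = y + PowerSeries.X ^ n * a := by
  rw [ord_iff]
  constructor
  · rintro ⟨a, ha⟩
    exact ⟨a, by rw [← ha]; abel⟩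
  · rintro ⟨a, ha⟩
    exact ⟨a, by rw [ha]; abel⟩

theorem ord_of_eq {n : ℕ} {x a : PowerSeries K} (h : x = PowerSeries.X ^ n * a) : Ord n x :=
  ord_iff.2 ⟨a, h⟩

end Ord

section Taylor
variable {A : DA} (M : Adm A) {m : ℕ}

/-- the functional equation of the total evaluation -/
theorem hT_rec {μ : ℕ} (X : Fin m → NC (Fin μ) (PowerSeries M.E))
    (hX : ∀ j, PowerSeries.constantCoeff (X j []) = 0) (f : NC (Fin m) A.D) :
    M.hT X f = M.phi0 μ (f []) + ∑ j, M.let0 X j * M.hT X (NC.ld j f) := by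
  rw [M.hT_eq X hX]
  exact NC.subst_eq _ _ _ _ _ f

theorem hT_rec_nil {μ : ℕ} (X : Fin m → NC (Fin μ) (PowerSeries M.E))
    (hX : ∀ j, PowerSeries.constantCoeff (X j []) = 0) (f : NC (Fin m) A.D) :
    M.hT X f [] = PowerSeries.C (M.jD (f [])) +
      ∑ j, PowerSeries.map M.jE (X j []) * M.hT X (NC.ld j f) [] := by
  rw [hT_rec M X hX f, NC.add_apply, NC.sum_apply]
  rfl

theorem phi0_cons {μ : ℕ} (d : A.D) (i : Fin μ) (w : List (Fin μ)) :
    M.phi0 μ d (i :: w) = 0 := rfl

theorem hT_rec_single {μ : ℕ} (X : Fin m → NC (Fin μ) (PowerSeries M.E))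
    (hX : ∀ j, PowerSeries.constantCoeff (X j []) = 0) (f : NC (Fin m) A.D) (i : Fin μ) :
    M.hT X f [i] =
      ∑ j, (PowerSeries.map M.jE (X j [i]) * M.hT X (NC.ld j f) [] +
        PowerSeries.map M.jE (X j []) * M.hT X (NC.ld j f) [i]) := by
  rw [hT_rec M X hX f, NC.add_apply, NC.sum_apply, phi0_cons, zero_add]
  refine Finset.sum_congr rfl fun j _ => ?_
  rw [NC.mul_cons, NC.mul_nil]
  rfl

theorem hT_rec_pair {μ : ℕ} (X : Fin m → NC (Fin μ) (PowerSeries M.E))
    (hX : ∀ j, PowerSeries.constantCoeff (X j []) = 0) (f : NC (Fin m) A.D) (i k : Fin μ) :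
    M.hT X f [i, k] =
      ∑ j, (PowerSeries.map M.jE (X j [i, k]) * M.hT X (NC.ld j f) [] +
        PowerSeries.map M.jE (X j [i]) * M.hT X (NC.ld j f) [k] +
        PowerSeries.map M.jE (X j []) * M.hT X (NC.ld j f) [i, k]) := by
  rw [hT_rec M X hX f, NC.add_apply, NC.sum_apply, phi0_cons, zero_add]
  refine Finset.sum_congr rfl fun j _ => ?_
  rw [NC.mul_cons, NC.mul_cons, NC.mul_nil]
  rfl

theorem ev_rec (z : Fin m → PowerSeries M.E) (hz : ∀ j, PowerSeries.constantCoeff (z j) = 0)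
    (f : NC (Fin m) A.D) : M.ev z f = PowerSeries.C (M.jD (f [])) +
      ∑ j, PowerSeries.map M.jE (z j) * M.ev z (NC.ld j f) := by
  unfold Adm.ev
  rw [hT_rec_nil M _ (fun j => by simpa using hz j) f]
  simp only [NC.C_nil]

theorem ev_eq_of {μ : ℕ} (X : Fin m → NC (Fin μ) (PowerSeries M.E))
    (hX : ∀ j, PowerSeries.constantCoeff (X j []) = 0) (f : NC (Fin m) A.D) :
    M.hT X f [] = M.ev (fun j => X j []) f := by
  rw [← sub_eq_zero]
  refine Ord.eq_zero fun n => ?_
  induction n generalizing f with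
  | zero => exact Ord.zero _
  | succ n ih =>
    rw [hT_rec_nil M X hX f, ev_rec M _ hX f, add_sub_add_left_eq_sub, ← Finset.sum_sub_distrib]
    refine Ord.sum fun j _ => ?_
    rw [← mul_sub, add_comm n 1]
    exact ((Ord.of_const (hX j)).map _).mul (ih _)

theorem hT_nil {μ : ℕ} (X : Fin m → NC (Fin μ) (PowerSeries M.E))
    (hX : ∀ j, PowerSeries.constantCoeff (X j []) = 0) (f : NC (Fin m) A.D) :
    M.hT X f [] = M.ev (fun j => X j []) f := ev_eq_of M X hX f

theorem X_zero_single {K : Type} [Ring K] (a b : K) :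
    (NC.C a + NC.C b * NC.X 0 : NC (Fin 1) K) [] = a ∧
    (NC.C a + NC.C b * NC.X 0 : NC (Fin 1) K) [0] = b := by
  constructor <;> simp

theorem dv_rec (z v : Fin m → PowerSeries M.E) (hz : ∀ j, PowerSeries.constantCoeff (z j) = 0)
    (f : NC (Fin m) A.D) : M.dv z v f =
      ∑ j, (PowerSeries.map M.jE (v j) * M.ev z (NC.ld j f) +
        PowerSeries.map M.jE (z j) * M.dv z v (NC.ld j f)) := by
  unfold Adm.dv
  have hX : ∀ j, PowerSeries.constantCoeff
      ((NC.C (z j) + NC.C (v j) * NC.X 0 : NC (Fin 1) (PowerSeries M.E)) []) = 0 := fun j => by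
    rw [(X_zero_single (z j) (v j)).1]; exact hz j
  rw [hT_rec_single M _ hX f 0]
  refine Finset.sum_congr rfl fun j _ => ?_
  rw [hT_nil M _ hX]
  simp only [(X_zero_single _ _).1, (X_zero_single _ _).2]

theorem hT_single {μ : ℕ} (X : Fin m → NC (Fin μ) (PowerSeries M.E))
    (hX : ∀ j, PowerSeries.constantCoeff (X j []) = 0) (f : NC (Fin m) A.D) (i : Fin μ) :
    M.hT X f [i] = M.dv (fun j => X j []) (fun j => X j [i]) f := by
  rw [← sub_eq_zero]
  refine Ord.eq_zero fun n => ?_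
  induction n generalizing f with
  | zero => exact Ord.zero _
  | succ n ih =>
    rw [hT_rec_single M X hX f, dv_rec M _ _ hX f, ← Finset.sum_sub_distrib]
    refine Ord.sum fun j _ => ?_
    rw [hT_nil M X hX, add_sub_add_left_eq_sub, ← mul_sub, add_comm n 1]
    exact ((Ord.of_const (hX j)).map _).mul (ih _)

theorem X_pair {K : Type} [Ring K] (a b c : K) :
    (NC.C a + NC.C b * NC.X 0 + NC.C c * NC.X 1 : NC (Fin 2) K) [] = a ∧
    (NC.C a + NC.C b * NC.X 0 + NC.C c * NC.X 1 : NC (Fin 2) K) [0] = b ∧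
    (NC.C a + NC.C b * NC.X 0 + NC.C c * NC.X 1 : NC (Fin 2) K) [1] = c ∧
    (NC.C a + NC.C b * NC.X 0 + NC.C c * NC.X 1 : NC (Fin 2) K) [0, 1] = 0 := by
  refine ⟨?_, ?_, ?_, ?_⟩ <;> simp

theorem d2_rec (z v v' : Fin m → PowerSeries M.E) (hz : ∀ j, PowerSeries.constantCoeff (z j) = 0)
    (f : NC (Fin m) A.D) : M.d2 z v v' f =
      ∑ j, (PowerSeries.map M.jE (v j) * M.dv z v' (NC.ld j f) +
        PowerSeries.map M.jE (z j) * M.d2 z v v' (NC.ld j f)) := by
  unfold Adm.d2
  have hX : ∀ j, PowerSeries.constantCoeff ((NC.C (z j) + NC.C (v j) * NC.X 0 +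
      NC.C (v' j) * NC.X 1 : NC (Fin 2) (PowerSeries M.E)) []) = 0 := fun j => by
    rw [(X_pair (z j) (v j) (v' j)).1]; exact hz j
  rw [hT_rec_pair M _ hX f 0 1]
  refine Finset.sum_congr rfl fun j _ => ?_
  rw [hT_single M _ hX]
  simp only [(X_pair _ _ _).1, (X_pair _ _ _).2.1, (X_pair _ _ _).2.2.1, (X_pair _ _ _).2.2.2,
    map_zero, zero_mul, zero_add]

theorem hT_pair {μ : ℕ} (X : Fin m → NC (Fin μ) (PowerSeries M.E))
    (hX : ∀ j, PowerSeries.constantCoeff (X j []) = 0) (f : NC (Fin m) A.D) (i k : Fin μ)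
    (h2 : ∀ j, X j [i, k] = 0) : M.hT X f [i, k] =
      M.d2 (fun j => X j []) (fun j => X j [i]) (fun j => X j [k]) f := by
  rw [← sub_eq_zero]
  refine Ord.eq_zero fun n => ?_
  induction n generalizing f with
  | zero => exact Ord.zero _
  | succ n ih =>
    rw [hT_rec_pair M X hX f, d2_rec M _ _ _ hX f, ← Finset.sum_sub_distrib]
    refine Ord.sum fun j _ => ?_
    rw [h2 j, map_zero, zero_mul, zero_add, hT_single M X hX, add_sub_add_left_eq_sub, ← mul_sub,
      add_comm n 1]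
    exact ((Ord.of_const (hX j)).map _).mul (ih _)

/-! ### order estimates -/

theorem const_of_ord {K : Type} [Ring K] {a : ℕ} (ha : 1 ≤ a) {z : PowerSeries K} (h : Ord a z) :
    PowerSeries.constantCoeff z = 0 := by
  rw [← PowerSeries.coeff_zero_eq_constantCoeff_apply]
  exact h 0 (by omega)

theorem ev_sub_ord {z : Fin m → PowerSeries M.E} {a : ℕ} (ha : 1 ≤ a) (hz : ∀ j, Ord a (z j))
    (f : NC (Fin m) A.D) : Ord a (M.ev z f - PowerSeries.C (M.jD (f []))) := by
  rw [ev_rec M z (fun j => const_of_ord ha (hz j)) f, add_sub_cancel_left]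
  exact Ord.sum fun j _ => ((hz j).map _).mul_right

theorem dv_ord {z v : Fin m → PowerSeries M.E} (hz : ∀ j, PowerSeries.constantCoeff (z j) = 0)
    {b : ℕ} (hv : ∀ j, Ord b (v j)) (f : NC (Fin m) A.D) : Ord b (M.dv z v f) := by
  have key : ∀ n ≤ b, ∀ f : NC (Fin m) A.D, Ord n (M.dv z v f) := by
    intro n
    induction n with
    | zero => exact fun _ f => Ord.zero _
    | succ n ih =>
      intro hn f
      rw [dv_rec M z v hz f]
      refine Ord.sum fun j _ => Ord.add ?_ ?_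
      · exact ((hv j).map _).mul_right.mono hn
      · rw [add_comm n 1]
        exact ((Ord.of_const (hz j)).map _).mul (ih (by omega) _)
  exact key b le_rfl f

theorem ev_add_ord {z h : Fin m → PowerSeries M.E} (hz : ∀ j, PowerSeries.constantCoeff (z j) = 0)
    {b : ℕ} (hb : 1 ≤ b) (hh : ∀ j, Ord b (h j)) (f : NC (Fin m) A.D) :
    Ord b (M.ev (fun j => z j + h j) f - M.ev z f) := by
  have hz' : ∀ j, PowerSeries.constantCoeff (z j + h j) = 0 := fun j => by
    rw [map_add, hz j, const_of_ord hb (hh j), add_zero]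
  have key : ∀ n ≤ b, ∀ f : NC (Fin m) A.D, Ord n (M.ev (fun j => z j + h j) f - M.ev z f) := by
    intro n
    induction n with
    | zero => exact fun _ f => Ord.zero _
    | succ n ih =>
      intro hn f
      rw [ev_rec M _ hz' f, ev_rec M z hz f, add_sub_add_left_eq_sub, ← Finset.sum_sub_distrib]
      refine Ord.sum fun j _ => ?_
      rw [map_add, add_mul, add_sub_right_comm, ← mul_sub]
      refine Ord.add ?_ ?_
      · rw [add_comm n 1]
        exact ((Ord.of_const (hz j)).map _).mul (ih (by omega) _)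
      · exact ((hh j).map _).mul_right.mono hn
  exact key b le_rfl f

/-- leading term at a point of order `≥ a` -/
theorem ev_lead (z : Fin m → PowerSeries M.E) (a : ℕ) (ha : 1 ≤ a)
    (hz : ∀ j, ∃ y, z j = PowerSeries.X ^ a * y) (f : NC (Fin m) A.D) (hf : f [] = 0) :
    ∃ y, M.ev z f = M.l1 z f + PowerSeries.X ^ (2 * a) * y := by
  have hz' : ∀ j, Ord a (z j) := fun j => ord_iff.2 (hz j)
  rw [← ord_sub_iff, ev_rec M z (fun j => const_of_ord ha (hz' j)) f, hf, map_zero, map_zero,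
    zero_add, Adm.l1, ← Finset.sum_sub_distrib]
  refine Ord.sum fun j _ => ?_
  rw [← mul_sub, two_mul]
  refine ((hz' j).map _).mul ?_
  exact ev_sub_ord M ha hz' (NC.ld j f)

theorem ev_add (z h : Fin m → PowerSeries M.E) (a b : ℕ) (ha : 1 ≤ a) (hab : a ≤ b)
    (hz : ∀ j, ∃ y, z j = PowerSeries.X ^ a * y) (hh : ∀ j, ∃ y, h j = PowerSeries.X ^ b * y)
    (f : NC (Fin m) A.D) :
    ∃ y, M.ev (fun j => z j + h j) f = M.ev z f + M.l1 h f + PowerSeries.X ^ (a + b) * y := by
  have hz1 : ∀ j, Ord a (z j) := fun j => ord_iff.2 (hz j)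
  have hh1 : ∀ j, Ord b (h j) := fun j => ord_iff.2 (hh j)
  have hz0 : ∀ j, PowerSeries.constantCoeff (z j) = 0 := fun j => const_of_ord ha (hz1 j)
  have hs1 : ∀ j, Ord a (z j + h j) := fun j => (hz1 j).add ((hh1 j).mono hab)
  have hs0 : ∀ j, PowerSeries.constantCoeff (z j + h j) = 0 := fun j => const_of_ord ha (hs1 j)
  rw [← ord_sub_iff, ev_rec M _ hs0 f, ev_rec M z hz0 f, Adm.l1]
  have e : ∀ x y w c : PowerSeries M.D0, c + x - (c + y + w) = x - y - w := fun x y w c => by abel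
  rw [e, ← Finset.sum_sub_distrib, ← Finset.sum_sub_distrib]
  refine Ord.sum fun j _ => ?_
  have e2 : PowerSeries.map M.jE (z j + h j) * M.ev (fun j => z j + h j) (NC.ld j f) -
      PowerSeries.map M.jE (z j) * M.ev z (NC.ld j f) -
      PowerSeries.map M.jE (h j) * PowerSeries.C (M.jD (f [j])) =
      PowerSeries.map M.jE (z j) * (M.ev (fun j => z j + h j) (NC.ld j f) - M.ev z (NC.ld j f)) +
      PowerSeries.map M.jE (h j) * (M.ev (fun j => z j + h j) (NC.ld j f) -
        PowerSeries.C (M.jD (f [j]))) := by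
    rw [map_add, add_mul, mul_sub, mul_sub]; abel
  rw [e2]
  refine Ord.add ?_ ?_
  · exact ((hz1 j).map _).mul (ev_add_ord M hz0 (le_trans ha hab) hh1 _)
  · rw [add_comm a b]
    exact ((hh1 j).map _).mul (ev_sub_ord M ha hs1 (NC.ld j f))

theorem dv_lead (z v : Fin m → PowerSeries M.E) (a b : ℕ) (ha : 1 ≤ a)
    (hz : ∀ j, ∃ y, z j = PowerSeries.X ^ a * y) (hv : ∀ j, ∃ y, v j = PowerSeries.X ^ b * y)
    (f : NC (Fin m) A.D) : ∃ y, M.dv z v f = M.l1 v f + PowerSeries.X ^ (a + b) * y := by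
  have hz1 : ∀ j, Ord a (z j) := fun j => ord_iff.2 (hz j)
  have hv1 : ∀ j, Ord b (v j) := fun j => ord_iff.2 (hv j)
  have hz0 : ∀ j, PowerSeries.constantCoeff (z j) = 0 := fun j => const_of_ord ha (hz1 j)
  rw [← ord_sub_iff, dv_rec M z v hz0 f, Adm.l1, ← Finset.sum_sub_distrib]
  refine Ord.sum fun j _ => ?_
  rw [add_sub_right_comm, ← mul_sub]
  refine Ord.add ?_ ?_
  · rw [add_comm a b]
    exact ((hv1 j).map _).mul (ev_sub_ord M ha hz1 (NC.ld j f))
  · exact ((hz1 j).map _).mul (dv_ord M hz0 hv1 _)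

theorem dv_congr (z h v : Fin m → PowerSeries M.E) (b c : ℕ) (hc : 1 ≤ c)
    (hz : ∀ j, PowerSeries.constantCoeff (z j) = 0)
    (hh : ∀ j, ∃ y, h j = PowerSeries.X ^ c * y) (hv : ∀ j, ∃ y, v j = PowerSeries.X ^ b * y)
    (f : NC (Fin m) A.D) :
    ∃ y, M.dv (fun j => z j + h j) v f = M.dv z v f + PowerSeries.X ^ (b + c) * y := by
  have hh1 : ∀ j, Ord c (h j) := fun j => ord_iff.2 (hh j)
  have hv1 : ∀ j, Ord b (v j) := fun j => ord_iff.2 (hv j)
  have hs0 : ∀ j, PowerSeries.constantCoeff (z j + h j) = 0 := fun j => by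
    rw [map_add, hz j, const_of_ord hc (hh1 j), add_zero]
  rw [← ord_sub_iff]
  have key : ∀ n ≤ b + c, ∀ f : NC (Fin m) A.D,
      Ord n (M.dv (fun j => z j + h j) v f - M.dv z v f) := by
    intro n
    induction n with
    | zero => exact fun _ f => Ord.zero _
    | succ n ih =>
      intro hn f
      rw [dv_rec M _ v hs0 f, dv_rec M z v hz f, ← Finset.sum_sub_distrib]
      refine Ord.sum fun j _ => ?_
      have e2 : PowerSeries.map M.jE (v j) * M.ev (fun j => z j + h j) (NC.ld j f) +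
          PowerSeries.map M.jE (z j + h j) * M.dv (fun j => z j + h j) v (NC.ld j f) -
          (PowerSeries.map M.jE (v j) * M.ev z (NC.ld j f) +
          PowerSeries.map M.jE (z j) * M.dv z v (NC.ld j f)) =
          PowerSeries.map M.jE (v j) * (M.ev (fun j => z j + h j) (NC.ld j f) -
            M.ev z (NC.ld j f)) +
          (PowerSeries.map M.jE (h j) * M.dv (fun j => z j + h j) v (NC.ld j f) +
          PowerSeries.map M.jE (z j) * (M.dv (fun j => z j + h j) v (NC.ld j f) -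
            M.dv z v (NC.ld j f))) := by
        rw [map_add, add_mul, mul_sub, mul_sub]; abel
      rw [e2]
      refine Ord.add ?_ (Ord.add ?_ ?_)
      · exact (((hv1 j).map _).mul (ev_add_ord M hz hc hh1 _)).mono hn
      · refine Ord.mono hn ?_
        rw [add_comm b c]
        exact ((hh1 j).map _).mul (dv_ord M hs0 hv1 _)
      · rw [add_comm n 1]
        exact ((Ord.of_const (hz j)).map _).mul (ih (by omega) _)
  exact key _ le_rfl f

theorem dv_add (z v v' : Fin m → PowerSeries M.E) (hz : ∀ j, PowerSeries.constantCoeff (z j) = 0)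
    (f : NC (Fin m) A.D) : M.dv z (fun j => v j + v' j) f = M.dv z v f + M.dv z v' f := by
  rw [← sub_eq_zero]
  refine Ord.eq_zero fun n => ?_
  induction n generalizing f with
  | zero => exact Ord.zero _
  | succ n ih =>
    rw [dv_rec M z _ hz f, dv_rec M z v hz f, dv_rec M z v' hz f, ← Finset.sum_add_distrib,
      ← Finset.sum_sub_distrib]
    refine Ord.sum fun j _ => ?_
    have e : PowerSeries.map M.jE (v j + v' j) * M.ev z (NC.ld j f) +
        PowerSeries.map M.jE (z j) * M.dv z (fun j => v j + v' j) (NC.ld j f) -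
        (PowerSeries.map M.jE (v j) * M.ev z (NC.ld j f) +
          PowerSeries.map M.jE (z j) * M.dv z v (NC.ld j f) +
        (PowerSeries.map M.jE (v' j) * M.ev z (NC.ld j f) +
          PowerSeries.map M.jE (z j) * M.dv z v' (NC.ld j f))) =
        PowerSeries.map M.jE (z j) * (M.dv z (fun j => v j + v' j) (NC.ld j f) -
          (M.dv z v (NC.ld j f) + M.dv z v' (NC.ld j f))) := by
      rw [map_add, add_mul, mul_sub, mul_add]; abel
    rw [e, add_comm n 1]
    exact ((Ord.of_const (hz j)).map _).mul (ih _)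

end Taylor

end Crest.Agent.R180
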