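import Crest.Agent.R180.FullMove
import Crest.Agent.R180.ModR
import Crest.Agent.R180.MinTaylor

set_option autoImplicit false

/-!
# Row 180, ROUTE M: STEP (full move followed by the conjugation to the centralizer of `γ(z)`)
-/

noncomputable section
namespace Crest.Agent.R180

open TensorProduct

namespace ConjNF

variable {σ F A : Type} [Field F] [Ring A] [Algebra F A]

/-- the splitting data commute with elements commuting with `α` -/
theorem SplitData.comm_π_κ {α : A} (S : SplitData F α) {a r : A} (ha : α * a = a * α)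
    (h : a * r = r * a) : a * S.π r = S.π r * a ∧ a * S.κ r = S.κ r * a := by
  have h1 := S.π_mul_left ha r
  have h2 := S.π_mul_right ha r
  exact ⟨by rw [← h1.1, h, h2.1], by rw [← h1.2, h, h2.2]⟩

/-- the conjugating series and the conjugated series commute with everything which commutes with the
series and its constant term -/
theorem cUG_comm_step {α : A} (S : SplitData F α) (f : NC σ A) {a : A} (ha : α * a = a * α)
    (h : ∀ w, a * f w = f w * a) (w : List σ) :
    a * cU α S.π S.κ f w = cU α S.π S.κ f w * a ∧ a * cG α S.π S.κ f w = cG α S.π S.κ f w * a := by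
  induction hn : w.length using Nat.strong_induction_on generalizing w with
  | _ n ih =>
    cases w with
    | nil => rw [cU_nil, cG_nil, mul_one, one_mul]; exact ⟨rfl, ha.symm⟩
    | cons s w =>
      rw [List.length_cons] at hn
      have hr : a * rest α S.π S.κ f s w = rest α S.π S.κ f s w * a := by
        rw [rest_eq, mul_add, add_mul, h, Finset.mul_sum, Finset.sum_mul]
        congr 1
        refine Finset.sum_congr rfl fun i hi => ?_
        rw [Finset.mem_range] at hi
        have h1 := ih ((s :: w).take (i + 1)).length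
          (by rw [List.length_take, List.length_cons]; omega) ((s :: w).take (i + 1)) rfl
        have h2 := ih ((s :: w).drop (i + 1)).length
          (by rw [List.length_drop, List.length_cons]; omega) ((s :: w).drop (i + 1)) rfl
        rw [mul_sub, sub_mul, ← mul_assoc, h1.1, mul_assoc, h, ← mul_assoc, ← mul_assoc a, h1.2,
          mul_assoc _ a, h2.1, ← mul_assoc]
      rw [cU_cons, cG_cons]
      exact ⟨(S.comm_π_κ ha hr).2, (S.comm_π_κ ha hr).1⟩

/-- conjugation of a series into the centralizer of its constant term -/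
theorem exists_conj_step [CharZero F] [IsDomain A] [FiniteDimensional F A] (f : NC σ A)
    (s : Set A) (hs : ∀ a ∈ s, ∀ w, a * f w = f w * a) :
    ∃ (U V G : NC σ A) (κ : A →ₗ[F] A), U * V = 1 ∧ V * U = 1 ∧ U * f * V = NC.C (f []) + G ∧
      G [] = 0 ∧ (∀ w, f [] * G w = G w * f []) ∧
      (∀ a ∈ s, ∀ w, a * U w = U w * a) ∧ (∀ a ∈ s, ∀ w, a * G w = G w * a) ∧
      (∀ a ∈ s, ∀ w, a * κ (f w) = κ (f w) * a) ∧
      (∀ i, G [i] = f [i] - (f [] * κ (f [i]) - κ (f [i]) * f [])) ∧
      (∀ i k, ∃ y, G [i, k] = f [i, k] + κ (f [i]) * f [k] - G [i] * κ (f [k]) -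
        (f [] * y - y * f [])) := by
  obtain ⟨S⟩ := exists_splitData (F := F) (A := A) (f [])
  obtain ⟨V, hV1, hV2, hV3⟩ := exists_inv (cU (f []) S.π S.κ f) (cU_nil (f []) S.π S.κ f)
  set U := cU (f []) S.π S.κ f with hU
  set G := cG (f []) S.π S.κ f with hG
  have hUG : U * f * V = G := by
    rw [hU, cU_mul (f []) S.π S.κ S.split f rfl, mul_assoc, ← hU, hV1, mul_one]
  have hc0 : ∀ a ∈ s, f [] * a = a * f [] := fun a ha => (hs a ha []).symm
  have hGc : ∀ w, f [] * G w = G w * f [] := by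
    intro w
    cases w with
    | nil => rw [hG, cG_nil]
    | cons s w => rw [hG, cG_cons]; exact S.comm _
  have hγ'0 : (G - NC.C (f []) : NC σ A) [] = 0 := by
    rw [NC.sub_apply, NC.C_nil, hG, cG_nil, sub_self]
  have hγ'c : ∀ (i : σ) (w : List σ), (G - NC.C (f []) : NC σ A) (i :: w) = G (i :: w) := by
    intro i w
    rw [NC.sub_apply, NC.C_cons, sub_zero]
  have h1 : ∀ i, (G - NC.C (f []) : NC σ A) [i] = S.π (f [i]) := by
    intro i
    rw [hγ'c, hG, cG_single]
  refine ⟨U, V, G - NC.C (f []), S.κ, hV1, hV2, ?_, hγ'0, ?_, ?_, ?_, ?_, ?_, ?_⟩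
  · rw [add_sub_cancel]; exact hUG
  · intro v
    cases v with
    | nil => rw [hγ'0, mul_zero, zero_mul]
    | cons i v => rw [hγ'c]; exact hGc _
  · exact fun a ha w => (cUG_comm_step S f (hc0 a ha) (hs a ha) w).1
  · intro a ha v
    cases v with
    | nil => rw [hγ'0, mul_zero, zero_mul]
    | cons i v => rw [hγ'c]; exact (cUG_comm_step S f (hc0 a ha) (hs a ha) _).2
  · exact fun a ha w => (S.comm_π_κ (hc0 a ha) (hs a ha w)).2
  · intro i
    rw [h1, eq_sub_iff_add_eq]
    exact (S.split (f [i])).symm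
  · intro i k
    have h2 : (G - NC.C (f []) : NC σ A) [i, k] =
        S.π (f [i, k] + (S.κ (f [i]) * f [k] - S.π (f [i]) * S.κ (f [k]))) := by
      rw [hγ'c, hG, cG_pair]
    refine ⟨S.κ (f [i, k] + (S.κ (f [i]) * f [k] - S.π (f [i]) * S.κ (f [k]))), ?_⟩
    rw [h2, h1, eq_sub_iff_add_eq]
    refine (S.split _).symm.trans ?_
    rw [add_sub_assoc]

end ConjNF

variable {P : (A : DA) → (m : ℕ) → NC (Fin m) A.D → Prop}

theorem lin_congr {R : Type} [Ring R] {a a' c c' g y : R} (h : g = a - (c * y - y * c))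
    (ha : a = a') (hc : c = c') : g = a' - (c' * y - y * c') := by
  subst ha hc; exact h

theorem quad_congr {R : Type} [Ring R] {a a' b b' c c' g x k y : R}
    (h : g = a + x * b - k - (c * y - y * c))
    (ha : a = a') (hb : b = b') (hc : c = c') : g = a' + x * b' - k - (c' * y - y * c') := by
  subst ha hb hc; exact h

/-- the letters of a full move -/
def fullX {A : DA} (M : Adm A) {m μ : ℕ} (z : Fin m → PowerSeries M.E)
    (dir : Fin μ → Fin m → PowerSeries M.E) (j : Fin m) : NC (Fin μ) (PowerSeries M.E) :=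
  ⟨fun w => match w with
    | [] => z j
    | [i] => dir i j
    | _ => 0⟩

theorem exists_step (hP : MoveClosed P) {A : DA} {m : ℕ} (hm : 2 ≤ m) {Λ : Subalgebra A.F A.D}
    {γ : NC (Fin m) A.D} (h : RS P A m Λ γ) (M : Adm A) (z : Fin m → PowerSeries M.E)
    (hz : GenPt M z) : Nonempty (Step P Λ γ M z) := by
  have : Nontrivial M.E := M.domE.toNontrivial
  have key := exists_dirs (F1 := M.F1) (E := M.E) (m := m) (by omega)
    (fun j => (LD.ofPS (z j) : LD M.E)) hz.gen
  obtain ⟨μ, hμ⟩ : ∃ μ, μ = (m - 1) * Module.finrank M.F1 M.E + 1 := ⟨_, rfl⟩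
  rw [← hμ] at key
  obtain ⟨dir, hfull, hind⟩ := key
  set X := fullX M z dir with hXdef
  have hX0 : ∀ j, PowerSeries.constantCoeff (X j []) = 0 := hz.z0
  have hX : Good' M X := ⟨hX0, hz.gen, hind⟩
  -- the image of `γ`
  set f : NC (Fin μ) (A.mv M).D := M.hX X hX0 γ with hf
  have hTf : ∀ w, f w = (LD.ofPS (M.hT X γ w) : LD M.D0) := by
    intro w
    rw [M.hT_eq X hX0]
    rfl
  have f0 : f [] = (LD.ofPS (M.ev z γ) : LD M.D0) := by
    rw [hTf, hT_nil M X hX0]
    rfl
  have f1 : ∀ i, f [i] = (LD.ofPS (M.dv z (dir i) γ) : LD M.D0) := by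
    intro i
    rw [hTf, hT_single M X hX0]
    rfl
  have f2 : ∀ i k, f [i, k] = (LD.ofPS (M.d2 z (dir i) (dir k) γ) : LD M.D0) := by
    intro i k
    rw [hTf, hT_pair M X hX0 γ i k (fun j => rfl)]
    rfl
  have hcΛ : ∀ a ∈ M.inc '' (Λ : Set A.D), ∀ w, a * f w = f w * a := by
    rintro _ ⟨a, ha, rfl⟩ w
    have h1 : (NC.C a : NC (Fin m) A.D) * γ = γ * NC.C a := by
      apply NC.ext'; intro v
      rw [NC.C_mul_apply, NC.mul_C_apply, h.cent v a ha]
    have h2 := congrArg (M.hX X hX0) h1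
    rw [map_mul, map_mul, M.hX_C] at h2
    have h3 := congrArg (fun g : NC (Fin μ) (A.mv M).D => g w) h2
    simp only [NC.C_mul_apply, NC.mul_C_apply] at h3
    exact h3
  obtain ⟨U, V, γ', κ, hV1, hV2, hUG, hγ'0, hγ'c, hUΛ, hγΛ, hκΛ, hlin, hquad⟩ :=
    ConjNF.exists_conj_step (F := (A.mv M).F) f (M.inc '' (Λ : Set A.D)) hcΛ
  have hRS := RS.move hP h M X hX U V γ' hV1 hV2
    (fun v a ha => hUΛ _ ⟨a, ha, rfl⟩ v) (f []) hUG hγ'0
    (fun v a ha => hγΛ _ ⟨a, ha, rfl⟩ v) hγ'c
    (fun a ha => hcΛ _ ⟨a, ha, rfl⟩ [])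
  rw [f0] at hRS
  exact ⟨{
    μ := μ
    hμ := hμ
    γ' := γ'
    dir := dir
    κ := fun i => κ (f [i])
    rs := hRS
    full := hfull
    indep := hind
    lin := fun i => lin_congr (hlin i) (f1 i) f0
    κΛ := fun a ha i => hκΛ _ ⟨a, ha, rfl⟩ [i]
    quad := fun i k => by
      obtain ⟨y, hy⟩ := hquad i k
      exact ⟨y, quad_congr hy (f2 i k) (f1 k) f0⟩ }⟩

end Crest.Agent.R180
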