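import Crest.Agent.R180.MinIVcore
import Crest.Agent.R180.MinIII
import Crest.Agent.R180.MinStart
import Crest.Agent.R180.MinG
import Crest.Agent.R180.MinPoint
import Crest.Agent.R180.MinStep
import Crest.Agent.R180.MinTr

set_option autoImplicit false
set_option linter.unusedSectionVars false

/-!
# Row 180, route M, step (IV) (helper164)
-/

noncomputable section
namespace Crest.Agent.R180

open TensorProduct

variable {P : (A : DA) → (m : ℕ) → NC (Fin m) A.D → Prop}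

namespace MinIV

/-- `U` is not zero at a live state -/
theorem U_ne (S : St P) : ∃ u ∈ S.U, u ≠ 0 := by
  obtain ⟨t, _, l, _, a, ha, h⟩ := S.live
  refine ⟨a, ha, ?_⟩
  rintro rfl
  apply h
  rw [mul_zero, map_zero]

end MinIV

open MinIV in
/-- the index drops by one -/
theorem minIV (hP : MoveClosed P) {S : St P} (h : S.Good2) {N : ℕ} (M : PE S.A N) (hN : 2 ≤ N)
    {z : Fin S.m → PowerSeries M.E} (hz : GenPt M.toAdm z) (st : Step P S.Λ S.γ M.toAdm z)
    (t : S.A.D →ₗ[S.A.F] S.A.F) (ht : IsTr t) (tE : M.E →ₗ[M.F1] M.F1)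
    (_htE : (∀ x y, tE (x * y) = tE (y * x)) ∧ tE 1 ≠ 0) (u u' : S.A.D) (hu : u ∈ S.U)
    (huu' : u * u' = 1) (ρ : M.D0) (hC : C3 M hz st t tE u' ρ) (q p : ℕ) (hq : S.Full q)
    (hqp : q ≤ p + 1) (hp : 2 ≤ p) : (st.toSt hz).Full p :=
  core M hN st t ht tE u u' hu huu' S.rs.comm (St.Good1.lin_mem hP h.1) st.rs.comm
    (St.Good1.lin_mem hP hC.g2.1) (U_ne (st.toSt hz)) hC.resPsi hC.resH hC.resU q p hq hqp hp

namespace MinIV

/-- some power of `U` is full -/
theorem exists_full (hP : MoveClosed P) {S : St P} (h : S.Good2) : ∃ q, 2 ≤ q ∧ S.Full q := by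
  have hU := St.Good1.lin_mem hP h.1
  have hc := S.rs.comm
  obtain ⟨u, hu, hu0⟩ := U_ne S
  obtain ⟨w, hwΛ, huw, hwu⟩ := P2Dim.exists_inv_mem S.Λ u (hU hu) hu0
  -- `U1 = U w`
  set U1 : Submodule S.A.F S.A.D := S.U.map (LinearMap.mulRight S.A.F w) with hU1
  have h1 : (1 : S.A.D) ∈ U1 := ⟨u, hu, huw⟩
  obtain ⟨q, hq2, hq⟩ := exists_pow_eq_adjoin U1 h1
  have hcommw : ∀ a ∈ S.Λ, a * w = w * a := fun a ha => hc a ha w hwΛ
  -- `U1 ^ n = U ^ n w ^ n`
  have hpow : ∀ n : ℕ, ∀ y ∈ U1 ^ n, y * u ^ n ∈ S.U ^ n := by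
    intro n
    induction n with
    | zero =>
      intro y hy
      rw [pow_zero] at hy
      rw [pow_zero, pow_zero, mul_one]
      exact hy
    | succ n ih =>
      intro y hy
      rw [pow_succ] at hy
      refine Submodule.mul_induction_on hy ?_ ?_
      · rintro a ha _ ⟨b, hb, rfl⟩
        have haΛ : a ∈ S.Λ := by
          have h3 : U1 ≤ Subalgebra.toSubmodule S.Λ := by
            rintro _ ⟨b, hb, rfl⟩
            exact S.Λ.mul_mem (hU hb) hwΛ
          exact pow_le h3 n ha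
        have h2 : a * (b * w) * u ^ (n + 1) = a * u ^ n * b := by
          have e1 : b * w * u ^ (n + 1) = u ^ n * b := by
            rw [pow_succ', mul_assoc, ← mul_assoc w, hwu, one_mul]
            exact hc _ (hU hb) _ (S.Λ.pow_mem (hU hu) n)
          rw [mul_assoc, e1, mul_assoc]
        change a * (b * w) * u ^ (n + 1) ∈ S.U ^ (n + 1)
        rw [h2, pow_succ]
        exact Submodule.mul_mem_mul (ih a ha) hb
      · intro a b ha hb
        rw [add_mul]
        exact Submodule.add_mem _ ha hb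
  have hadj : S.Psi ≤ Algebra.adjoin S.A.F (U1 : Set S.A.D) := by
    apply Algebra.adjoin_le
    rintro x ⟨b, hb, hb0, hxb⟩
    -- `x = (x b w) (b w)⁻¹`
    set A1 := Algebra.adjoin S.A.F (U1 : Set S.A.D) with hA1
    have hbw : b * w ∈ A1 := Algebra.subset_adjoin ⟨b, hb, rfl⟩
    have hw0 : w ≠ 0 := by
      rintro rfl
      rw [zero_mul] at hwu
      exact zero_ne_one hwu
    obtain ⟨c, hcA, hc1, _⟩ := P2Dim.exists_inv_mem A1 (b * w) hbw (mul_ne_zero hb0 hw0)
    have h2 : x = (x * b * w) * c := by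
      rw [mul_assoc x b w, mul_assoc, hc1, mul_one]
    rw [h2]
    exact A1.mul_mem (Algebra.subset_adjoin ⟨x * b, hxb, rfl⟩) hcA
  refine ⟨q, hq2, le_antisymm (finrank_pow_le hc hU hu hu0 hwu hwΛ q) ?_⟩
  have hne : u ^ q ≠ 0 := pow_ne_zero _ hu0
  have hinj : Function.Injective (LinearMap.mulRight S.A.F (u ^ q)) := by
    intro a b hab
    exact mul_right_cancel₀ hne hab
  have h3 : (Subalgebra.toSubmodule S.Psi).map (LinearMap.mulRight S.A.F (u ^ q)) ≤ S.U ^ q := by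
    rintro _ ⟨y, hy, rfl⟩
    apply hpow
    rw [hq]
    exact hadj hy
  have h4 : Module.finrank S.A.F ((Subalgebra.toSubmodule S.Psi).map
      (LinearMap.mulRight S.A.F (u ^ q))) = Module.finrank S.A.F S.Psi :=
    (Submodule.equivMapOfInjective _ hinj (Subalgebra.toSubmodule S.Psi)).finrank_eq.symm
  rw [← h4]
  exact Submodule.finrank_mono h3

/-- a generator of a field extension of characteristic zero -/
theorem exists_generator {F1 L : Type} [Field F1] [CharZero F1] [Field L] [Algebra F1 L]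
    [FiniteDimensional F1 L] : ∃ l0 : L, Algebra.adjoin F1 ({l0} : Set L) = ⊤ := by
  obtain ⟨a, ha⟩ := Field.exists_primitive_element F1 L
  refine ⟨a, ?_⟩
  have h1 : (IntermediateField.adjoin F1 ({a} : Set L)).toSubalgebra = Algebra.adjoin F1 {a} :=
    IntermediateField.adjoin_simple_toSubalgebra_of_isAlgebraic (IsAlgebraic.of_finite F1 a)
  rw [← h1, ha]
  rfl

/-- a move of type III from a `(m₁, m₂)`-minimal state -/
theorem exists_move (hP : MoveClosed P) {S : St P} (h : S.Good2) (n : ℕ) :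
    ∃ (N : ℕ) (M : PE S.A N) (z : Fin S.m → PowerSeries M.E) (hz : GenPt M.toAdm z)
      (st : Step P S.Λ S.γ M.toAdm z) (t : S.A.D →ₗ[S.A.F] S.A.F) (tE : M.E →ₗ[M.F1] M.F1)
      (u u' : S.A.D), n < N ∧ IsTr t ∧ ((∀ x y, tE (x * y) = tE (y * x)) ∧ tE 1 ≠ 0) ∧
        u ∈ S.U ∧ u * u' = 1 ∧ C3 M hz st t tE u' 0 := by
  have hU := St.Good1.lin_mem hP h.1
  obtain ⟨u, hu, hu0⟩ := U_ne S
  obtain ⟨u', _, huu', _⟩ := P2Dim.exists_inv_mem S.Λ u (hU hu) hu0
  set r := Module.finrank S.A.F S.U with hr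
  let b := Module.finBasis S.A.F S.U
  obtain ⟨N, hN, ⟨M⟩⟩ := exists_PE S.A (max n r)
  obtain ⟨l0, hl0⟩ := exists_generator (F1 := M.F1) (L := M.L)
  obtain ⟨z, hz⟩ := exists_pt3_zero S.hm S.γ S.rs.zero M l0 u hu (fun i => (b i : S.A.D))
    (fun i => (b i).2)
  obtain ⟨st⟩ := exists_step hP S.hm S.rs M.toAdm z hz.gp
  obtain ⟨t, ht⟩ := exists_isTr S.A
  obtain ⟨tE, htE⟩ := exists_isTrE M.toAdm
  refine ⟨N, M, z, hz.gp, st, t, tE, u, u', by omega, ht, htE, hu, huu', ?_⟩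
  refine minIII hP h M l0 hl0 2 le_rfl u u' hu huu' (lt_of_le_of_lt (le_max_right n r) hN) _ ?_ 0
    hz st t ht tE htE
  have h1 : Set.range (fun i => (b i : S.A.D)) = S.U.subtype '' (Set.range b) := by
    rw [← Set.range_comp]; rfl
  rw [h1, ← Submodule.map_span, b.span_eq, Submodule.map_top, Submodule.range_subtype]

theorem exists_good3 (hP : MoveClosed P) (h : ∃ S : St P, S.Good2) : ∃ S : St P, S.Good3 := by
  classical
  have hex : ∃ q, 2 ≤ q ∧ ∃ S : St P, S.Good2 ∧ S.Full q := by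
    obtain ⟨S, hS⟩ := h
    obtain ⟨q, hq, hf⟩ := exists_full hP hS
    exact ⟨q, hq, S, hS, hf⟩
  obtain ⟨hq2, S, hS, hf⟩ := Nat.find_spec hex
  have hmin : ∀ q', 2 ≤ q' → (∃ S : St P, S.Good2 ∧ S.Full q') → Nat.find hex ≤ q' :=
    fun q' h1 h2 => Nat.find_min' hex ⟨h1, h2⟩
  set q := Nat.find hex with hqdef
  rcases Nat.lt_or_ge q 3 with h3 | h3
  · have : q = 2 := by omega
    rw [this] at hf
    exact ⟨S, hS, hf⟩
  · exfalso
    obtain ⟨N, M, z, hz, st, t, tE, u, u', hN, ht, htE, hu, huu', hC⟩ := exists_move hP hS 2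
    have h4 := minIV hP hS M (by omega) hz st t ht tE htE u u' hu huu' 0 hC q (q - 1) hf
      (by omega) (by omega)
    have h5 := hmin (q - 1) (by omega) ⟨st.toSt hz, hC.g2, h4⟩
    omega

/-- minimal elements for natural number valued functions -/
theorem exists_min {α : Type 1} (p : α → Prop) (f : α → ℕ) (h : ∃ a, p a) :
    ∃ a, p a ∧ ∀ b, p b → f a ≤ f b := by
  classical
  have hex : ∃ n, ∃ a, p a ∧ f a = n := by
    obtain ⟨a, ha⟩ := h
    exact ⟨f a, a, ha, rfl⟩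
  obtain ⟨a, ha, hfa⟩ := Nat.find_spec hex
  refine ⟨a, ha, fun b hb => ?_⟩
  rw [hfa]
  exact Nat.find_min' hex ⟨b, hb, rfl⟩

end MinIV

theorem exists_good4 (hP : MoveClosed P) (h : Nonempty (St P)) : ∃ S : St P, S.Good4 := by
  obtain ⟨S0⟩ := h
  obtain ⟨S1, _, h1⟩ := MinIV.exists_min (fun _ : St P => True) St.mu1 ⟨S0, trivial⟩
  have g1 : S1.Good1 := fun S' => h1 S' trivial
  obtain ⟨S2, g2, h2⟩ := MinIV.exists_min (fun S : St P => S.Good1) St.mu2 ⟨S1, g1⟩
  obtain ⟨S3, g3⟩ := MinIV.exists_good3 hP ⟨S2, g2, h2⟩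
  obtain ⟨S4, g4, h4⟩ := MinIV.exists_min (fun S : St P => S.Good3) St.sd ⟨S3, g3⟩
  exact ⟨S4, g4, h4⟩

end Crest.Agent.R180
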