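import Crest.Agent.R180.MinBigCore
import Crest.Agent.R180.MinState
import Crest.Agent.R180.MinPoint
import Crest.Agent.R180.MinStep
import Crest.Agent.R180.MinSt
import Crest.Agent.R180.MinG
import Crest.Agent.R180.MinPE
import Crest.Agent.R180.MinTr
import Crest.Agent.R180.MinStart
import Crest.Agent.R180.MinMu
import Crest.Agent.R180.MinIII
import Crest.Agent.R180.MinIV
import Crest.Agent.R180.MinAlg

set_option autoImplicit false
noncomputable section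
namespace Crest.Agent.R180

open TensorProduct

variable {P : (A : DA) → (m : ℕ) → NC (Fin m) A.D → Prop}

/-- one move of type III (`k = 2`, `X = 0`) from a `Good4` state -/
theorem exists_mv6 (hP : MoveClosed P) {S : St P} (h : S.Good4) (n : ℕ) :
    ∃ (N : ℕ) (M : PE S.A N) (l0 : M.L) (u u' : S.A.D) (z : Fin S.m → PowerSeries M.E) (r : ℕ)
      (b : Fin r → S.A.D) (hz : Pt3 S.γ M 2 l0 u b 0 z) (st : Step P S.Λ S.γ M.toAdm z)
      (t : S.A.D →ₗ[S.A.F] S.A.F) (tE : M.E →ₗ[M.F1] M.F1),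
      n < N ∧ Algebra.adjoin M.F1 ({l0} : Set M.L) = ⊤ ∧ u ∈ S.U ∧ u * u' = 1 ∧ u' * u = 1 ∧
      IsTr t ∧ ((∀ x y, tE (x * y) = tE (y * x)) ∧ tE 1 ≠ 0) ∧ C3 M hz.gp st t tE u' 0 ∧
      (st.toSt hz.gp).Good4 ∧ (st.toSt hz.gp).sd = S.sd ∧
      Module.finrank (LF M.F1) st.Psi = N * Module.finrank S.A.F S.Psi ∧
      (∀ x ∈ st.H t tE, LD.IsInt x →
        x.co 0 ∈ Submodule.span M.F1 {y : M.D0 | ∃ h ∈ HH t S.U, y = (1 : M.E) ⊗ₜ[S.A.F] h}) := by
  classical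
  have h2 : S.Good2 := h.1.1
  have h1 : S.Good1 := h2.1
  have hU := h1.lin_mem hP
  obtain ⟨u, hu, hu0⟩ := S.U_ne
  obtain ⟨u', hu'Λ, huu', hu'u⟩ := S.exists_inv (hU hu) hu0
  obtain ⟨N, hN, ⟨M⟩⟩ := exists_PE S.A (max (max n (Module.finrank S.A.F S.U)) 3)
  have hNn : n < N := lt_of_le_of_lt ((le_max_left _ _).trans (le_max_left _ _)) hN
  have hNr : Module.finrank S.A.F S.U < N :=
    lt_of_le_of_lt ((le_max_right _ _).trans (le_max_left _ _)) hN
  have hN3 : 3 ≤ N := ((le_max_right _ _).trans_lt hN).le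
  obtain ⟨l0, hl0⟩ := M.exists_gen
  let bU := Module.finBasis S.A.F S.U
  let b : Fin (Module.finrank S.A.F S.U) → S.A.D := fun i => ((bU i : S.U) : S.A.D)
  have hbU : ∀ i, b i ∈ UU S.γ := fun i => (bU i).2
  have hb : Submodule.span S.A.F (Set.range b) = S.U := by
    have h3 : Set.range b = S.U.subtype '' (Set.range bU) := by
      rw [← Set.range_comp]; rfl
    rw [h3, ← Submodule.map_span, bU.span_eq, Submodule.map_top, Submodule.range_subtype]
  obtain ⟨z, hz⟩ := exists_pt3_zero S.hm S.γ S.rs.zero M l0 u hu b hbU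
  obtain ⟨st⟩ := exists_step hP S.hm S.rs M.toAdm z hz.gp
  obtain ⟨t, ht⟩ := exists_isTr S.A
  obtain ⟨tE, htE⟩ := exists_isTrE M.toAdm
  have hC := minIII hP h2 M l0 hl0 2 le_rfl u u' hu huu' hNr b hb 0 hz st t ht tE htE
  have hF : (st.toSt hz.gp).Full 2 :=
    minIV hP h2 M (by omega) hz.gp st t ht tE htE u u' hu huu' 0 hC 2 2 h.1.2 (by norm_num) le_rfl
  have hG3 : (st.toSt hz.gp).Good3 := ⟨hC.g2, hF⟩
  have hU' := hC.g2.1.lin_mem hP
  have hΨ := S.psi_le hU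
  have hbot : HH2 t S.U u' = ⊥ := MinBig.HH2_eq_bot t ht.2 S.U S.Λ S.rs.comm hU hΨ hu hu'Λ huu' hu'u
    h.1.2
  have hres : ∀ x ∈ st.H t tE, LD.IsInt x →
      x.co 0 ∈ Submodule.span M.F1 {y : M.D0 | ∃ h ∈ HH t S.U, y = (1 : M.E) ⊗ₜ[S.A.F] h} := by
    intro x hx hxi
    have h3 := hC.resH x hx hxi
    have h4 : Submodule.span M.F1 {y : M.D0 | ∃ (a : M.L) (h : S.A.D), h ∈ HH2 t S.U u' ∧
        y = M.j a ⊗ₜ[S.A.F] h} = ⊥ := by
      rw [Submodule.span_eq_bot]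
      rintro _ ⟨a, h, hh, rfl⟩
      rw [hbot, Submodule.mem_bot] at hh
      rw [hh, TensorProduct.tmul_zero]
    rwa [h4, bot_sup_eq] at h3
  have hHH := (st.toSt hz.gp).finrank_HH hU' (isTr_mv M.toAdm ht htE)
  have hle : (st.toSt hz.gp).sd ≤ S.sd := by
    rw [← hHH.1, ← (S.finrank_HH hU ht).1]
    have h3 : Module.finrank M.F1 (LD.resSp (st.H t tE)) =
        Module.finrank (LF M.F1) (st.H t tE) := LD.finrank_resSp _
    have h4 : Module.finrank M.F1 (LD.resSp (st.H t tE)) ≤ Module.finrank S.A.F (HH t S.U) := by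
      refine le_trans (Submodule.finrank_mono ?_) (MinBig.finrank_span_one M.toAdm (HH t S.U))
      rintro _ ⟨x, hx, hxi, rfl⟩
      exact hres x hx hxi
    rw [h3] at h4
    exact h4
  have hsd : (st.toSt hz.gp).sd = S.sd := le_antisymm hle (h.2 _ hG3)
  refine ⟨N, M, l0, u, u', z, _, b, hz, st, t, tE, hNn, hl0, hu, huu', hu'u, ht, htE, hC,
    ⟨hG3, fun S' hS' => by rw [hsd]; exact h.2 S' hS'⟩, hsd, ?_, hres⟩
  have h5 : Module.finrank M.F1 (LD.resSp (Subalgebra.toSubmodule st.Psi)) =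
      Module.finrank (LF M.F1) st.Psi := LD.finrank_resSp _
  rw [← h5, hC.resPsi]
  exact PE.finrank_psiL M S.Psi (fun a ha b hb => S.rs.comm a (hΨ ha) b (hΨ hb))

/-- first move: make `dim Ψ` large -/
theorem exists_big (hP : MoveClosed P) {S : St P} (h : S.Good4) (n : ℕ) :
    ∃ S' : St P, S'.Good4 ∧ S'.sd = S.sd ∧ n ≤ Module.finrank S'.A.F S'.Psi := by
  obtain ⟨N, M, l0, u, u', z, r, b, hz, st, t, tE, hN, -, -, -, -, -, -, -, h4, hsd, hΨ, -⟩ :=
    exists_mv6 hP h n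
  refine ⟨st.toSt hz.gp, h4, hsd, ?_⟩
  have h5 : Module.finrank (st.toSt hz.gp).A.F (st.toSt hz.gp).Psi =
      N * Module.finrank S.A.F S.Psi := hΨ
  rw [h5]
  have h6 : 0 < Module.finrank S.A.F S.Psi := Module.finrank_pos
  calc n ≤ N := hN.le
    _ = N * 1 := (mul_one N).symm
    _ ≤ _ := Nat.mul_le_mul_left N h6

end Crest.Agent.R180
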