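import Crest.Agent.R180.MinII
import Crest.Agent.R180.NV
import Crest.Agent.R180.DCT

set_option autoImplicit false

/-!
# Row 180, ROUTE M: from trace identities to coefficients
-/

noncomputable section
namespace Crest.Agent.R180

open TensorProduct Polynomial RegPt

namespace MinI

section deg

variable {F1 E : Type} [Field F1] [Ring E] [IsDomain E] [Algebra F1 E] [FiniteDimensional F1 E]
  [Algebra.IsCentral F1 E]

/-- in a central division algebra of prime degree, every noncentral element generates a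
maximal subfield -/
theorem finrank_adjoin_of_prime {N : ℕ} (hN : N.Prime) (hE : Module.finrank F1 E = N * N)
    (s : E) (hs : s ∉ Set.range (algebraMap F1 E)) :
    Module.finrank F1 (Algebra.adjoin F1 ({s} : Set E)) = N := by
  set L := Algebra.adjoin F1 ({s} : Set E) with hL
  have hcen : Subalgebra.center F1 E = ⊥ := Algebra.IsCentral.center_eq_bot F1 E
  have h1 := DCT.finrank_mul_centralizer (F := F1) (B := E) L (by rw [hcen]; exact bot_le)
  rw [hcen, Subalgebra.finrank_bot, mul_one, hE] at h1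
  have hle : L ≤ Subalgebra.centralizer F1 (L : Set E) := by
    intro a ha
    rw [Subalgebra.mem_centralizer_iff]
    intro b hb
    have hc : ∀ x ∈ ({s} : Set E), ∀ y ∈ ({s} : Set E), x * y = y * x := by
      intro x hx y hy
      rw [Set.mem_singleton_iff.1 hx, Set.mem_singleton_iff.1 hy]
    have h := (Algebra.isMulCommutative_adjoin F1 hc).is_comm.comm ⟨b, hb⟩ ⟨a, ha⟩
    exact congrArg Subtype.val h
  have h2 : Module.finrank F1 L ≤ Module.finrank F1 (Subalgebra.centralizer F1 (L : Set E)) := by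
    have h := Submodule.finrank_mono
      (show Subalgebra.toSubmodule L ≤ Subalgebra.toSubmodule
        (Subalgebra.centralizer F1 (L : Set E)) from hle)
    exact h
  have h3 : Module.finrank F1 L ≠ 1 := by
    intro h
    have hbot : L = ⊥ := Subalgebra.eq_bot_of_finrank_one h
    apply hs
    have : s ∈ L := Algebra.subset_adjoin rfl
    rw [hbot] at this
    exact Algebra.mem_bot.1 this
  have h4 : Module.finrank F1 L ∣ N ^ 2 := by rw [pow_two, ← h1]; exact Dvd.intro _ rfl
  obtain ⟨i, hi, hi'⟩ := (Nat.dvd_prime_pow hN).1 h4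
  have hi0 : i ≠ 0 := by rintro rfl; exact h3 (by rw [hi', pow_zero])
  have hi2 : i ≠ 2 := by
    rintro rfl
    rw [hi'] at h1 h2
    have hN2 := hN.two_le
    have : N ^ 2 * N ^ 2 ≤ N * N := by rw [← h1]; exact Nat.mul_le_mul_left _ h2
    have h4 : 4 ≤ N * N := Nat.mul_le_mul hN2 hN2
    rw [pow_two] at this
    nlinarith
  have hi1 : i = 1 := by omega
  rw [hi', hi1, pow_one]

/-- a functional vanishing outside a proper subspace vanishes -/
theorem eq_zero_of_compl {V : Type} [AddCommGroup V] [Module F1 V] (W : Submodule F1 V)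
    (hW : W ≠ ⊤) (φ : V →ₗ[F1] F1) (h : ∀ v, v ∉ W → φ v = 0) : φ = 0 := by
  obtain ⟨a, ha⟩ : ∃ a, a ∉ W := by
    by_contra hc
    push Not at hc
    exact hW (eq_top_iff.2 fun v _ => hc v)
  apply LinearMap.ext
  intro v
  by_cases hv : v ∈ W
  · have h1 : a + v ∉ W := fun hh => ha (by simpa using W.sub_mem hh hv)
    have h2 := h _ h1
    rw [map_add, h a ha, zero_add] at h2
    rw [h2, LinearMap.zero_apply]
  · rw [h v hv, LinearMap.zero_apply]

omit [Algebra.IsCentral F1 E] in
/-- the trace form against noncentral elements determines an element -/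
theorem eq_zero_of_tr (tr : E →ₗ[F1] F1) (h1 : tr 1 ≠ 0) (hE : 1 < Module.finrank F1 E)
    (x : E) (h : ∀ s : E, s ∉ Set.range (algebraMap F1 E) → tr (s * x) = 0) : x = 0 := by
  have hb' : Subalgebra.toSubmodule (⊥ : Subalgebra F1 E) ≠ ⊤ := by
    intro hb
    have h2 : Module.finrank F1 (Subalgebra.toSubmodule (⊥ : Subalgebra F1 E)) = 1 :=
      Subalgebra.finrank_bot (F := F1) (E := E)
    rw [hb, finrank_top] at h2
    omega
  have hz := eq_zero_of_compl (Subalgebra.toSubmodule (⊥ : Subalgebra F1 E)) hb'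
    (tr ∘ₗ LinearMap.mulRight F1 x) (fun v hv => h v (fun hh => hv (Algebra.mem_bot.2 hh)))
  by_contra hx
  obtain ⟨y, hy⟩ : ∃ y, y * x = 1 := by
    let _ := divisionRingOfFiniteDimensional F1 E
    exact ⟨x⁻¹, inv_mul_cancel₀ hx⟩
  have := congrArg (fun f : E →ₗ[F1] F1 => f y) hz
  simp only [LinearMap.comp_apply, LinearMap.mulRight_apply, hy, LinearMap.zero_apply] at this
  exact h1 this

end deg

section concl

variable {F D F1 E ι : Type} [Field F] [Ring D] [Algebra F D] [Field F1] [CharZero F1]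
  [Algebra F F1] [Ring E] [IsDomain E] [Algebra F1 E] [Algebra F E] [IsScalarTower F F1 E]
  [FiniteDimensional F1 E] [Algebra.IsCentral F1 E] [Fintype ι]

theorem mem_of_functionals {V : Type} [AddCommGroup V] [Module F V] (W : Submodule F V) (d : V)
    (h : ∀ ℓ : V →ₗ[F] F, (∀ a ∈ W, ℓ a = 0) → ℓ d = 0) : d ∈ W := by
  by_contra hd
  obtain ⟨f, hf, hfW⟩ := Submodule.exists_le_ker_of_notMem hd
  exact hf (h f fun a ha => hfW ha)

omit [CharZero F1] [IsDomain E] [FiniteDimensional F1 E] [Algebra.IsCentral F1 E] in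
theorem ellE_pv (ℓ : D →ₗ[F] F) (k : ℕ) (r : (Fin k → ι) → D) (a : D) (z : ι → E) :
    ellE (F1 := F1) E ℓ (pv (K := F) k r z * ((1 : E) ⊗ₜ[F] a)) =
      ∑ w, ℓ (r w * a) • (List.ofFn (fun j => z (w j))).prod := by
  unfold pv
  rw [Finset.sum_mul, map_sum]
  refine Finset.sum_congr rfl fun w _ => ?_
  rw [Algebra.TensorProduct.tmul_mul_tmul, mul_one, ellE_tmul]

/-- **from trace identities to coefficients** -/
theorem coeff_mem (W : Submodule F D) (k : ℕ) (r : (Fin k → ι) → D) (uinv : D)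
    (tr : E →ₗ[F1] F1) (h1 : tr 1 ≠ 0) (hN : (k + 1) ^ 2 ≤ Module.finrank F1 E)
    (hE : 1 < Module.finrank F1 E)
    (h : ∀ ℓ : D →ₗ[F] F, (∀ a ∈ W, ℓ a = 0) → ∀ (p : ι → E) (s : E),
      s ∉ Set.range (algebraMap F1 E) →
      tr (s * ellE (F1 := F1) E ℓ (pv (K := F) k r p * ((1 : E) ⊗ₜ[F] uinv))) = 0) (w : Fin k → ι) :
    r w * uinv ∈ W := by
  apply mem_of_functionals
  intro ℓ hℓ
  by_contra hne
  have hr : (fun w => ℓ (r w * uinv)) ≠ 0 := fun hh => hne (congrFun hh w)
  obtain ⟨z, hz⟩ := NV.exists_sum_ne_zero (K := F) (K₁ := F1) (E := E) k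
    (fun w => ℓ (r w * uinv)) hr hN
  apply hz
  have := eq_zero_of_tr tr h1 hE _ (h ℓ hℓ z)
  rwa [ellE_pv] at this

end concl

end MinI

end Crest.Agent.R180
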