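import Crest.Agent.R180.MinDefs
import Crest.Agent.R180.MinGen

set_option autoImplicit false

/-!
# Row 180, ROUTE M: pure algebra for (VI), first move
-/

noncomputable section
namespace Crest.Agent.R180

open TensorProduct

namespace MinBig

/-- if `U₁² = Ψ` then `𝓗₂ = 0` -/
theorem HH2_eq_bot {F D : Type} [Field F] [Ring D] [IsDomain D] [Algebra F D]
    [FiniteDimensional F D] (t : D →ₗ[F] F) (ht : t 1 ≠ 0) (U : Submodule F D)
    (Λ : Subalgebra F D) (hc : ∀ a ∈ Λ, ∀ b ∈ Λ, a * b = b * a)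
    (hU : U ≤ Subalgebra.toSubmodule Λ) (hΨ : PsiOf U ≤ Λ) {u u' : D} (hu : u ∈ U)
    (hu' : u' ∈ Λ) (huu' : u * u' = 1) (hu'u : u' * u = 1)
    (hfull : Module.finrank F (U ^ 2 : Submodule F D) = Module.finrank F (PsiOf U)) :
    HH2 t U u' = ⊥ := by
  have hu0 : u ≠ 0 := fun h => by rw [h, zero_mul] at huu'; exact zero_ne_one huu'
  have hu'0 : u' ≠ 0 := fun h => by rw [h, mul_zero] at huu'; exact zero_ne_one huu'
  have hUΨ : ∀ b ∈ U, b * u' ∈ PsiOf U := fun b hb =>
    Algebra.subset_adjoin ⟨u, hu, hu0, by rw [mul_assoc, hu'u, mul_one]; exact hb⟩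
  let φ : D →ₗ[F] D := LinearMap.mulRight F (u' * u')
  have hφ : Function.Injective φ := by
    intro a b hab
    exact mul_right_cancel₀ (mul_ne_zero hu'0 hu'0) hab
  have hmap : (U ^ 2).map φ = Subalgebra.toSubmodule (PsiOf U) := by
    apply Submodule.eq_of_le_of_finrank_le
    · rw [Submodule.map_le_iff_le_comap, pow_two, Submodule.mul_le]
      intro a ha b hb
      change a * b * (u' * u') ∈ PsiOf U
      have h1 : a * b * (u' * u') = (a * u') * (b * u') := by
        rw [mul_assoc, ← mul_assoc b u' u', mul_assoc a u' (b * u'), hc u' hu' (b * u')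
          (Λ.mul_mem (hU hb) hu')]
      rw [h1]
      exact (PsiOf U).mul_mem (hUΨ a ha) (hUΨ b hb)
    · have h1 : Module.finrank F ((U ^ 2).map φ) = Module.finrank F (U ^ 2 : Submodule F D) :=
        (Submodule.equivMapOfInjective φ hφ (U ^ 2)).finrank_eq.symm
      rw [h1, hfull]
      exact le_rfl
  rw [eq_bot_iff]
  intro x hx
  rw [mem_HH2] at hx
  obtain ⟨hx1, hx2⟩ := hx
  have hxu := hx1 u hu
  have hkill : ∀ w ∈ U ^ 2, t (x * w * u') = 0 := by
    have hle : U ^ 2 ≤ LinearMap.ker (t ∘ₗ (LinearMap.mulRight F u' ∘ₗ LinearMap.mulLeft F x)) := by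
      rw [pow_two, Submodule.mul_le]
      intro a ha b hb
      rw [LinearMap.mem_ker]
      change t (x * (a * b) * u') = 0
      rw [← mul_assoc x a b]
      exact hx2 a ha b hb
    intro w hw
    exact LinearMap.mem_ker.1 (hle hw)
  have hxΛ : x ∈ Λ := by
    have : x = x * u * u' := by rw [mul_assoc, huu', mul_one]
    rw [this]; exact Λ.mul_mem (hΨ hxu) hu'
  have huΛ : u ∈ Λ := hU hu
  have hkill2 : ∀ ψ ∈ PsiOf U, t (x * u * ψ) = 0 := by
    intro ψ hψ
    have h1 : ψ ∈ (U ^ 2).map φ := by rw [hmap]; exact hψ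
    obtain ⟨w, hw, hwψ⟩ := h1
    have hwψ' : w * (u' * u') = ψ := hwψ
    have hw2 : w = ψ * (u * u) := by
      rw [← hwψ', mul_assoc, mul_assoc, ← mul_assoc u' u u, hu'u, one_mul, hu'u, mul_one]
    have h3 := hkill w hw
    have h4 : x * w * u' = x * u * ψ := by
      rw [hw2, mul_assoc x, mul_assoc ψ, mul_assoc u u u', huu', mul_one, hc ψ (hΨ hψ) u huΛ,
        mul_assoc]
    rwa [h4] at h3
  rw [Submodule.mem_bot]
  by_contra hx0
  have hy0 : x * u ≠ 0 := mul_ne_zero hx0 hu0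
  obtain ⟨y, hy, hyx⟩ := MinI.exists_inv_mem (Subalgebra.toSubmodule (PsiOf U))
    (fun a ha b hb => (PsiOf U).mul_mem ha hb) (PsiOf U).one_mem (x * u) hxu hy0
  have h5 := hkill2 y hy
  rw [hc _ (hΨ hxu) y (hΨ hy), hyx] at h5
  exact ht h5

/-- the `F1`-span of `1 ⊗ V` -/
theorem finrank_span_one {A : DA} (M : Adm A) (V : Submodule A.F A.D) :
    Module.finrank M.F1 (Submodule.span M.F1 {y : M.D0 | ∃ h ∈ V, y = (1 : M.E) ⊗ₜ[A.F] h}) ≤
      Module.finrank A.F V := by
  classical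
  let b := Module.finBasis A.F V
  have hle : Submodule.span M.F1 {y : M.D0 | ∃ h ∈ V, y = (1 : M.E) ⊗ₜ[A.F] h} ≤
      Submodule.span M.F1 (Set.range fun i => (1 : M.E) ⊗ₜ[A.F] ((b i : V) : A.D)) := by
    rw [Submodule.span_le]
    rintro _ ⟨h, hh, rfl⟩
    have h1 : h = ∑ i, b.repr ⟨h, hh⟩ i • ((b i : V) : A.D) := by
      have := congrArg Subtype.val (b.sum_repr ⟨h, hh⟩)
      rw [Submodule.coe_sum] at this
      exact this.symm
    have h2 : (1 : M.E) ⊗ₜ[A.F] h = ∑ i, (algebraMap A.F M.F1 (b.repr ⟨h, hh⟩ i)) •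
        ((1 : M.E) ⊗ₜ[A.F] ((b i : V) : A.D)) := by
      conv_lhs => rw [h1]
      rw [TensorProduct.tmul_sum]
      refine Finset.sum_congr rfl fun i _ => ?_
      rw [TensorProduct.smul_tmul', algebraMap_smul, TensorProduct.smul_tmul]
    rw [SetLike.mem_coe, h2]
    exact Submodule.sum_mem _ fun i _ => Submodule.smul_mem _ _ (Submodule.subset_span ⟨i, rfl⟩)
  refine (Submodule.finrank_mono hle).trans ?_
  have h3 := finrank_range_le_card (R := M.F1)
    (fun i : Fin (Module.finrank A.F V) => (1 : M.E) ⊗ₜ[A.F] ((b i : V) : A.D))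
  rwa [Set.finrank, Fintype.card_fin] at h3

end MinBig

end Crest.Agent.R180
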