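import Crest.Agent.R180.MinDefs
import Crest.Agent.R180.MinTaylor
import Crest.Agent.R180.ModR

set_option autoImplicit false
noncomputable section
namespace Crest.Agent.R180

open TensorProduct

/-! # Row 180, ROUTE M: the conjugation half of (STEP) (helper216) -/

namespace ConjNF

variable {F A σ : Type} [Field F] [Ring A] [Algebra F A]

/-- both series of the recursion commute with `c` -/
theorem cUG_comm {α : A} (S : SplitData F α) (f : NC σ A) (c : A) (hα : α * c = c * α)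
    (hc : ∀ w, c * f w = f w * c) :
    ∀ (n : ℕ) (w : List σ), w.length ≤ n → c * cU α S.π S.κ f w = cU α S.π S.κ f w * c ∧
      c * cG α S.π S.κ f w = cG α S.π S.κ f w * c := by
  intro n
  induction n with
  | zero =>
    intro w hw
    have : w = [] := by
      rw [← List.length_eq_zero_iff]; omega
    subst this
    rw [cU_nil, cG_nil, mul_one, one_mul]
    exact ⟨rfl, hα.symm⟩
  | succ n ih =>
    intro w hw
    cases w with
    | nil =>
      rw [cU_nil, cG_nil, mul_one, one_mul]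
      exact ⟨rfl, hα.symm⟩
    | cons s w =>
      rw [cU_cons, cG_cons]
      have hr : c * rest α S.π S.κ f s w = rest α S.π S.κ f s w * c := by
        rw [rest_eq, mul_add, add_mul, hc, Finset.mul_sum, Finset.sum_mul]
        congr 1
        refine Finset.sum_congr rfl fun i hi => ?_
        rw [Finset.mem_range] at hi
        have hl : ((s :: w).take (i + 1)).length ≤ n := by
          rw [List.length_take, List.length_cons]; rw [List.length_cons] at hw; omega
        have hl' : ((s :: w).drop (i + 1)).length ≤ n := by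
          rw [List.length_drop, List.length_cons]; rw [List.length_cons] at hw; omega
        obtain ⟨h1, h2⟩ := ih _ hl
        obtain ⟨h3, _⟩ := ih _ hl'
        rw [mul_sub, sub_mul, ← mul_assoc c (cU α S.π S.κ f _) (f _), h1,
          mul_assoc (cU α S.π S.κ f _) c (f _), hc,
          ← mul_assoc (cU α S.π S.κ f _) (f _) c,
          ← mul_assoc c (cG α S.π S.κ f _), h2,
          mul_assoc (cG α S.π S.κ f _) c, h3, ← mul_assoc]
      constructor
      · rw [← (S.π_mul_left hα _).2, hr, (S.π_mul_right hα _).2]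
      · rw [← (S.π_mul_left hα _).1, hr, (S.π_mul_right hα _).1]

/-- conjugation into the centralizer of `α`, with all data -/
theorem conj_data [CharZero F] [FiniteDimensional F A] [IsDomain A] (α : A) (f : NC σ A)
    (hf : f [] = α) (Λ : Set A) (hΛ : ∀ c ∈ Λ, ∀ w, c * f w = f w * c) :
    ∃ (U V γ' : NC σ A) (κ : σ → A), U * V = 1 ∧ V * U = 1 ∧
      (∀ w, ∀ c ∈ Λ, c * U w = U w * c) ∧ U * f * V = NC.C α + γ' ∧ γ' [] = 0 ∧
      (∀ w, ∀ c ∈ Λ, c * γ' w = γ' w * c) ∧ (∀ w, α * γ' w = γ' w * α) ∧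
      (∀ i, γ' [i] = f [i] - (α * κ i - κ i * α)) ∧
      (∀ c ∈ Λ, ∀ i, c * κ i = κ i * c) ∧
      ∀ i k, ∃ y, γ' [i, k] = f [i, k] + κ i * f [k] - γ' [i] * κ k - (α * y - y * α) := by
  obtain ⟨S⟩ := exists_splitData (F := F) (A := A) α
  obtain ⟨V, hV1, hV2, hV3⟩ := exists_inv (cU α S.π S.κ f) (cU_nil α S.π S.κ f)
  have e : cU α S.π S.κ f * f * V = cG α S.π S.κ f := by
    rw [cU_mul α S.π S.κ S.split f hf, mul_assoc, hV1, mul_one]
  have hαc : ∀ c ∈ Λ, c * α = α * c := by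
    intro c hc
    rw [← hf]; exact hΛ c hc []
  have hUG := fun (c : A) (hc : c ∈ Λ) (w : List σ) =>
    cUG_comm S f c (hαc c hc).symm (hΛ c hc) w.length w le_rfl
  have hcons : ∀ s w, (cG α S.π S.κ f - NC.C α : NC σ A) (s :: w) = cG α S.π S.κ f (s :: w) := by
    intro s w
    rw [NC.sub_apply, NC.C_cons, sub_zero]
  have hnil : (cG α S.π S.κ f - NC.C α : NC σ A) [] = 0 := by
    rw [NC.sub_apply, cG_nil, NC.C_nil, sub_self]
  refine ⟨cU α S.π S.κ f, V, cG α S.π S.κ f - NC.C α, fun i => S.κ (f [i]), hV1, hV2,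
    fun w c hc => (hUG c hc w).1, ?_, hnil, ?_, ?_, ?_, ?_, ?_⟩
  · rw [e]; abel
  · intro v a ha
    cases v with
    | nil => rw [hnil, mul_zero, zero_mul]
    | cons s w => rw [hcons]; exact (hUG a ha _).2
  · intro v
    cases v with
    | nil => rw [hnil, mul_zero, zero_mul]
    | cons s w => rw [hcons, cG_cons]; exact S.comm _
  · intro i
    have h2 := S.split (f [i])
    rw [hcons, cG_single]
    exact eq_sub_of_add_eq h2.symm
  · intro a ha i
    have h1 := (hUG a ha [i]).1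
    rw [cU_single] at h1
    exact h1
  · intro i k
    refine ⟨S.κ (f [i, k] + (S.κ (f [i]) * f [k] - S.π (f [i]) * S.κ (f [k]))), ?_⟩
    have h3 := S.split (f [i, k] + (S.κ (f [i]) * f [k] - S.π (f [i]) * S.κ (f [k])))
    rw [hcons, cG_pair, hcons, cG_single]
    refine (eq_sub_of_add_eq h3.symm).trans ?_
    congr 1
    exact (add_sub_assoc _ _ _).symm

end ConjNF

/-- the letters of a move with base point `z` and directions `dir` -/
def stepX {A : DA} (M : Adm A) {m μ : ℕ} (z : Fin m → PowerSeries M.E)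
    (dir : Fin μ → Fin m → PowerSeries M.E) (j : Fin m) : NC (Fin μ) (PowerSeries M.E) :=
  ⟨fun w => match w with
    | [] => z j
    | [i] => dir i j
    | _ :: _ :: _ => 0⟩

section stepX
variable {A : DA} (M : Adm A) {m μ : ℕ} (z : Fin m → PowerSeries M.E)
  (dir : Fin μ → Fin m → PowerSeries M.E)

theorem stepX_nil (j : Fin m) : stepX M z dir j [] = z j := rfl
theorem stepX_single (j : Fin m) (i : Fin μ) : stepX M z dir j [i] = dir i j := rfl
theorem stepX_pair (j : Fin m) (i k : Fin μ) : stepX M z dir j [i, k] = 0 := rfl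

theorem stepX_good {z : Fin m → PowerSeries M.E} (hz : GenPt M z)
    (indep : ∀ (l : Fin μ → LF M.F1) (g : LD M.E),
      (∀ j, ∑ i, l i • (LD.ofPS (dir i j) : LD M.E) =
        g * LD.ofPS (z j) - LD.ofPS (z j) * g) → l = 0) :
    Good' M (stepX M z dir) := ⟨hz.z0, hz.gen, indep⟩

end stepX

/-- the conjugation half of (STEP) -/
theorem conj_step {P : (A : DA) → (m : ℕ) → NC (Fin m) A.D → Prop} (hP : MoveClosed P)
    {A : DA} {m : ℕ} {Λ : Subalgebra A.F A.D}
    {γ : NC (Fin m) A.D} (h : RS P A m Λ γ) (M : Adm A) {z : Fin m → PowerSeries M.E}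
    (hz : GenPt M z) {μ : ℕ} (dir : Fin μ → Fin m → PowerSeries M.E)
    (indep : ∀ (l : Fin μ → LF M.F1) (g : LD M.E),
      (∀ j, ∑ i, l i • (LD.ofPS (dir i j) : LD M.E) =
        g * LD.ofPS (z j) - LD.ofPS (z j) * g) → l = 0) :
    ∃ (γ' : NC (Fin μ) (LD M.D0)) (κ : Fin μ → LD M.D0),
      RS P (A.mv M) μ (M.adj Λ (M.ev z γ)) γ' ∧
      (∀ i, γ' [i] = LD.ofPS (M.dv z (dir i) γ) -
        (LD.ofPS (M.ev z γ) * κ i - κ i * LD.ofPS (M.ev z γ))) ∧
      (∀ a ∈ Λ, ∀ i, (LD.C (M.jD a) : LD M.D0) * κ i = κ i * LD.C (M.jD a)) ∧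
      (∀ i k, ∃ y : LD M.D0, γ' [i, k] = LD.ofPS (M.d2 z (dir i) (dir k) γ) +
        κ i * LD.ofPS (M.dv z (dir k) γ) - γ' [i] * κ k -
        (LD.ofPS (M.ev z γ) * y - y * LD.ofPS (M.ev z γ))) := by
  have hG := stepX_good M dir hz indep
  set X := stepX M z dir with hXdef
  set α : LD M.D0 := LD.ofPS (M.ev z γ) with hα
  set f : NC (Fin μ) (A.mv M).D := M.hX X hG.x0 γ with hf
  have e0 : f [] = α := by
    change LD.ofPS (M.hX0 X hG.x0 γ []) = _
    rw [← M.hT_eq X hG.x0, hT_nil M X hG.x0]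
    rfl
  have e1 : ∀ i, f [i] = LD.ofPS (M.dv z (dir i) γ) := by
    intro i
    change LD.ofPS (M.hX0 X hG.x0 γ [i]) = _
    rw [← M.hT_eq X hG.x0, hT_single M X hG.x0]
    rfl
  have e2 : ∀ i k, f [i, k] = LD.ofPS (M.d2 z (dir i) (dir k) γ) := by
    intro i k
    change LD.ofPS (M.hX0 X hG.x0 γ [i, k]) = _
    rw [← M.hT_eq X hG.x0, hT_pair M X hG.x0 γ i k (fun j => rfl)]
    rfl
  have hcomm : ∀ a ∈ Λ, ∀ w, M.inc a * f w = f w * M.inc a := by
    intro a ha w
    have h1 : (NC.C a : NC (Fin m) A.D) * γ = γ * NC.C a := by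
      apply NC.ext'; intro v
      rw [NC.C_mul_apply, NC.mul_C_apply, h.cent v a ha]
    have h2 := congrArg (fun g => (M.hX X hG.x0 g) w) h1
    simp only [map_mul] at h2
    rw [M.hX_C, NC.C_mul_apply, NC.mul_C_apply] at h2
    exact h2
  obtain ⟨U, V, γ', κ, h1, h2, h3, h4, h5, h6, h7, h8, h9, h10⟩ :=
    ConjNF.conj_data (F := (A.mv M).F) (A := (A.mv M).D) α f e0 (M.inc '' (Λ : Set A.D)) (by
      rintro _ ⟨a, ha, rfl⟩ w
      exact hcomm a ha w)
  refine ⟨γ', κ, ?_, ?_, ?_, ?_⟩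
  · refine RS.move hP h M X hG U V γ' h1 h2
      (fun v a ha => h3 v _ ⟨a, ha, rfl⟩) α h4 h5 (fun v a ha => h6 v _ ⟨a, ha, rfl⟩) h7 ?_
    intro a ha
    rw [← e0]
    exact hcomm a ha []
  · intro i
    rw [← e1 i]
    exact h8 i
  · intro a ha i
    exact h9 _ ⟨a, ha, rfl⟩ i
  · intro i k
    obtain ⟨y, hy⟩ := h10 i k
    refine ⟨y, ?_⟩
    rw [← e2 i k, ← e1 k]
    exact hy

end Crest.Agent.R180
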