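import Crest.Agent.R180.LaurentLemmas
import Crest.Agent.R180.DCT

set_option autoImplicit false

/-!
# Row 180, ROUTE M: pure algebra for steps (I) and (II)

Main result `MinI.core`: let `E/F1` be a central division algebra, `B = E ⊗[F] D`, `Λ' ⊆ B((t))` a
commutative subalgebra over `F1((t))` whose residues contain `Ξ ⊆ D` and which contains
`x = s + t τ + ⋯` with `s ∈ E`, and suppose `[Λ' : F1((t))] ≤ [F1(s):F1] [Ξ:F]`.  Then
`tr_E (s * ℓ_E τ) = 0` for every `F`-linear `ℓ : D → F` killing `Ξ`.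
-/

noncomputable section
namespace Crest.Agent.R180

open TensorProduct Polynomial

namespace LD

variable {K : Type} [Ring K]

theorem isInt_one : IsInt (1 : LD K) := by
  intro n hn
  rw [co_one, if_neg (by omega)]

theorem IsInt.pow {x : LD K} (hx : IsInt x) (n : ℕ) : IsInt (x ^ n) := by
  induction n with
  | zero => rw [pow_zero]; exact isInt_one
  | succ n ih => rw [pow_succ]; exact ih.mul hx

theorem IsInt.co_pow_zero {x : LD K} (hx : IsInt x) (n : ℕ) : (x ^ n).co 0 = (x.co 0) ^ n := by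
  induction n with
  | zero => rw [pow_zero, pow_zero, co_one, if_pos rfl]
  | succ n ih => rw [pow_succ, (hx.pow n).co_mul_zero hx, ih, pow_succ]

theorem IsInt.co_mul_one {x y : LD K} (hx : IsInt x) (hy : IsInt y) :
    (x * y).co 1 = x.co 0 * y.co 1 + x.co 1 * y.co 0 := by
  obtain ⟨a, rfl⟩ := (isInt_iff x).mp hx
  obtain ⟨b, rfl⟩ := (isInt_iff y).mp hy
  rw [← map_mul]
  have h1 : ∀ z : PowerSeries K, (ofPS z).co 1 = PowerSeries.coeff 1 z := fun z => co_ofPS z 1
  have h0 : ∀ z : PowerSeries K, (ofPS z).co 0 = PowerSeries.coeff 0 z := fun z => co_ofPS z 0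
  rw [h1, h1, h1, h0, h0, PowerSeries.coeff_mul, Finset.Nat.antidiagonal_succ]
  simp

theorem IsInt.co_pow_one {x : LD K} (hx : IsInt x) (n : ℕ) :
    (x ^ n).co 1 = ∑ a ∈ Finset.range n, x.co 0 ^ a * x.co 1 * x.co 0 ^ (n - 1 - a) := by
  induction n with
  | zero => rw [pow_zero, co_one, if_neg one_ne_zero]; simp
  | succ n ih =>
    rw [pow_succ, (hx.pow n).co_mul_one hx, hx.co_pow_zero, ih, Finset.sum_range_succ,
      Finset.sum_mul, add_comm]
    congr 1
    · refine Finset.sum_congr rfl fun a ha => ?_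
      rw [Finset.mem_range] at ha
      rw [mul_assoc, mul_assoc, mul_assoc, ← pow_succ]
      congr 4
      omega
    · simp

end LD

namespace MinI

section res

variable {F1 B : Type} [Field F1] [Ring B] [Algebra F1 B]

/-- derivative of a polynomial at `s` in the (noncommuting) direction `τ` -/
def Dpol (f : F1[X]) (s τ : B) : B :=
  ∑ i ∈ Finset.range (f.natDegree + 1),
    f.coeff i • ∑ a ∈ Finset.range i, s ^ a * τ * s ^ (i - 1 - a)

theorem Dpol_mem_res (Λ' : Subalgebra (LF F1) (LD B)) (x : LD B) (hx : x ∈ Λ')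
    (hxi : LD.IsInt x) (f : F1[X]) (hf : aeval (x.co 0) f = 0) :
    Dpol f (x.co 0) (x.co 1) ∈ LD.resSp (Subalgebra.toSubmodule Λ') := by
  set y : LD B := ∑ i ∈ Finset.range (f.natDegree + 1), (LF.C (f.coeff i) : LF F1) • x ^ i with hy
  have hyΛ : y ∈ Λ' := Subalgebra.sum_mem _ fun i _ => Subalgebra.smul_mem _ (pow_mem hx i) _
  have hyco : ∀ n, y.co n = ∑ i ∈ Finset.range (f.natDegree + 1), f.coeff i • (x ^ i).co n := by
    intro n
    rw [hy, LD.co_sum]
    exact Finset.sum_congr rfl fun i _ => LD.co_C_smul _ _ _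
  have hy0 : y.co 0 = 0 := by
    rw [hyco, ← hf, aeval_eq_sum_range]
    exact Finset.sum_congr rfl fun i _ => by rw [hxi.co_pow_zero]
  refine ⟨(LF.tp (-1) : LF F1) • y, Subalgebra.smul_mem _ hyΛ _, ?_, ?_⟩
  · intro n hn
    rw [LD.co_tp_smul]
    by_cases h : n = -1
    · subst h; simpa using hy0
    · rw [hyco]
      refine Finset.sum_eq_zero fun i _ => ?_
      rw [(hxi.pow i) (n - -1) (by omega), smul_zero]
  · rw [LD.co_tp_smul]
    have : (0 : ℤ) - -1 = 1 := rfl
    rw [this, hyco, Dpol]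
    exact Finset.sum_congr rfl fun i _ => by rw [hxi.co_pow_one]

theorem res_mul_mem (Λ' : Subalgebra (LF F1) (LD B)) {a b : B}
    (ha : a ∈ LD.resSp (Subalgebra.toSubmodule Λ')) (hb : b ∈ LD.resSp (Subalgebra.toSubmodule Λ')) :
    a * b ∈ LD.resSp (Subalgebra.toSubmodule Λ') := by
  obtain ⟨x, hx, hxi, rfl⟩ := ha
  obtain ⟨y, hy, hyi, rfl⟩ := hb
  exact ⟨x * y, Λ'.mul_mem hx hy, hxi.mul hyi, hxi.co_mul_zero hyi⟩

theorem res_one_mem (Λ' : Subalgebra (LF F1) (LD B)) :
    (1 : B) ∈ LD.resSp (Subalgebra.toSubmodule Λ') :=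
  ⟨1, Λ'.one_mem, LD.isInt_one, by rw [LD.co_one, if_pos rfl]⟩

theorem res_pow_mem (Λ' : Subalgebra (LF F1) (LD B)) {a : B}
    (ha : a ∈ LD.resSp (Subalgebra.toSubmodule Λ')) (n : ℕ) :
    a ^ n ∈ LD.resSp (Subalgebra.toSubmodule Λ') := by
  induction n with
  | zero => rw [pow_zero]; exact res_one_mem Λ'
  | succ n ih => rw [pow_succ]; exact res_mul_mem Λ' ih ha

end res

section tensor

variable {F D F1 E : Type} [Field F] [Ring D] [Algebra F D] [Field F1] [Algebra F F1]
  [Ring E] [Algebra F1 E] [Algebra F E] [IsScalarTower F F1 E]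

/-- `ℓ_E : E ⊗ D → E`, `e ⊗ d ↦ ℓ(d) e` -/
def ellE (E : Type) [Ring E] [Algebra F1 E] [Algebra F E] [IsScalarTower F F1 E]
    (ℓ : D →ₗ[F] F) : E ⊗[F] D →ₗ[F1] E :=
  (AlgebraTensorModule.rid F F1 E).toLinearMap ∘ₗ
    AlgebraTensorModule.map (LinearMap.id : E →ₗ[F1] E) ℓ

@[simp] theorem ellE_tmul (ℓ : D →ₗ[F] F) (e : E) (d : D) :
    ellE (F1 := F1) E ℓ (e ⊗ₜ[F] d) = ℓ d • e := by
  simp [ellE]

theorem ellE_mul (ℓ : D →ₗ[F] F) (e e' : E) (x : E ⊗[F] D) :
    ellE (F1 := F1) E ℓ ((e ⊗ₜ[F] (1 : D)) * x * (e' ⊗ₜ[F] (1 : D))) =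
      e * ellE (F1 := F1) E ℓ x * e' := by
  induction x using TensorProduct.induction_on with
  | zero => simp
  | tmul a b =>
    rw [Algebra.TensorProduct.tmul_mul_tmul, Algebra.TensorProduct.tmul_mul_tmul, one_mul, mul_one,
      ellE_tmul, ellE_tmul, mul_smul_comm, smul_mul_assoc]
  | add a b ha hb => rw [mul_add, add_mul, map_add, ha, hb, map_add, mul_add, add_mul]

theorem ellE_Dpol (ℓ : D →ₗ[F] F) (f : F1[X]) (s : E) (τ : E ⊗[F] D) :
    ellE (F1 := F1) E ℓ (Dpol f (s ⊗ₜ[F] (1 : D)) τ) = Dpol f s (ellE (F1 := F1) E ℓ τ) := by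
  rw [Dpol, Dpol, map_sum]
  refine Finset.sum_congr rfl fun i _ => ?_
  rw [map_smul, map_sum]
  congr 1
  refine Finset.sum_congr rfl fun a _ => ?_
  rw [Algebra.TensorProduct.tmul_pow, Algebra.TensorProduct.tmul_pow, one_pow, one_pow, ellE_mul]

/-- pure tensors of independent families are independent -/
theorem indep_tensor {κ lam : Type} [Finite κ] [Finite lam] (e : κ → E)
    (he : LinearIndependent F1 e) (d : lam → D) (hd : LinearIndependent F d) :
    LinearIndependent F1 (fun p : κ × lam => e p.1 ⊗ₜ[F] d p.2) := by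
  classical
  have := Fintype.ofFinite κ
  have := Fintype.ofFinite lam
  have hdual : ∀ j : lam, ∃ ℓ : D →ₗ[F] F, ∀ j', ℓ (d j') = if j' = j then 1 else 0 := by
    intro j
    obtain ⟨ℓ, hℓ⟩ := LinearMap.exists_extend
      ((Finsupp.lapply j : (lam →₀ F) →ₗ[F] F) ∘ₗ hd.repr)
    refine ⟨ℓ, fun j' => ?_⟩
    have hmem : d j' ∈ Submodule.span F (Set.range d) := Submodule.subset_span ⟨j', rfl⟩
    have h1 : ℓ (d j') = (ℓ ∘ₗ (Submodule.span F (Set.range d)).subtype) ⟨d j', hmem⟩ := rfl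
    rw [h1, hℓ]
    change (hd.repr ⟨d j', hmem⟩) j = _
    rw [hd.repr_eq_single j' ⟨d j', hmem⟩ rfl, Finsupp.single_apply]
  rw [Fintype.linearIndependent_iff]
  intro c hc
  rintro ⟨i, j⟩
  obtain ⟨ℓ, hℓ⟩ := hdual j
  have h1 := congrArg (ellE (F1 := F1) E ℓ) hc
  rw [map_sum, map_zero, Fintype.sum_prod_type] at h1
  simp only [map_smul, ellE_tmul, hℓ] at h1
  have h2 : ∑ i, c (i, j) • e i = 0 := by
    rw [← h1]
    refine Finset.sum_congr rfl fun i _ => ?_
    rw [Finset.sum_eq_single j]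
    · simp
    · intro j' _ hj'
      simp [hj']
    · simp
  exact Fintype.linearIndependent_iff.1 he (fun i => c (i, j)) h2 i

/-- the subspace `F1[s] ⊗ Ξ` of `E ⊗ D` -/
def W (s : E) (Ξ : Subalgebra F D) : Submodule F1 (E ⊗[F] D) :=
  Submodule.span F1 {y | ∃ (i : ℕ) (a : D), a ∈ Ξ ∧ y = (s ^ i) ⊗ₜ[F] a}

theorem ellE_W (ℓ : D →ₗ[F] F) (s : E) (Ξ : Subalgebra F D) (hℓ : ∀ a ∈ Ξ, ℓ a = 0)
    {y : E ⊗[F] D} (hy : y ∈ W (F1 := F1) s Ξ) : ellE (F1 := F1) E ℓ y = 0 := by
  induction hy using Submodule.span_induction with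
  | mem y hy =>
    obtain ⟨i, a, ha, rfl⟩ := hy
    rw [ellE_tmul, hℓ a ha, zero_smul]
  | zero => exact map_zero _
  | add a b _ _ ha hb => rw [map_add, ha, hb, add_zero]
  | smul c a _ ha => rw [map_smul, ha, smul_zero]

variable [FiniteDimensional F D] [FiniteDimensional F1 E]

theorem finrank_W_ge [IsDomain E] (s : E) (Ξ : Subalgebra F D) :
    Module.finrank F1 (Algebra.adjoin F1 ({s} : Set E)) * Module.finrank F Ξ ≤
      Module.finrank F1 (W (F1 := F1) s Ξ) := by
  classical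
  have hint : IsIntegral F1 s := Algebra.IsIntegral.isIntegral s
  have hfin : FiniteDimensional F1 (E ⊗[F] D) := by
    have : Module.Finite E (E ⊗[F] D) := inferInstance
    exact Module.Finite.trans E (E ⊗[F] D)
  set n := (minpoly F1 s).natDegree with hn
  have hdeg : Module.finrank F1 (Algebra.adjoin F1 ({s} : Set E)) ≤ n := by
    have hle : Subalgebra.toSubmodule (Algebra.adjoin F1 ({s} : Set E)) ≤
        Submodule.span F1 (Set.range fun i : Fin n => s ^ (i : ℕ)) := by
      intro y hy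
      rw [Subalgebra.mem_toSubmodule, Algebra.adjoin_singleton_eq_range_aeval] at hy
      obtain ⟨p, rfl⟩ := hy
      have hmon := minpoly.monic hint
      have h1 : aeval s p = aeval s (p %ₘ minpoly F1 s) := by
        conv_lhs => rw [← modByMonic_add_div p (minpoly F1 s)]
        rw [map_add, map_mul, minpoly.aeval, zero_mul, add_zero]
      change aeval s p ∈ _
      rw [h1, aeval_eq_sum_range' (natDegree_modByMonic_lt p hmon (minpoly.ne_one F1 s))]
      refine Submodule.sum_mem _ fun i hi => Submodule.smul_mem _ _ (Submodule.subset_span ?_)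
      exact ⟨⟨i, Finset.mem_range.1 hi⟩, rfl⟩
    have h2 := Submodule.finrank_mono hle
    have h3 := finrank_range_le_card (R := F1) (fun i : Fin n => s ^ (i : ℕ))
    rw [Set.finrank, Fintype.card_fin] at h3
    exact h2.trans h3
  have hpow : LinearIndependent F1 (fun i : Fin n => s ^ (i : ℕ)) := by
    exact linearIndependent_pow s
  let b := Module.finBasis F Ξ
  have hb : LinearIndependent F (fun j => ((b j : Ξ) : D)) := by
    have := b.linearIndependent.map' Ξ.val.toLinearMap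
      (LinearMap.ker_eq_bot_of_injective Subtype.val_injective)
    exact this
  have hind := indep_tensor (F1 := F1) (E := E) _ hpow _ hb
  refine (Nat.mul_le_mul_right _ hdeg).trans ?_
  have hle : Submodule.span F1 (Set.range fun p : Fin n × Fin (Module.finrank F Ξ) =>
      (s ^ (p.1 : ℕ)) ⊗ₜ[F] ((b p.2 : Ξ) : D)) ≤ W (F1 := F1) s Ξ := by
    rw [Submodule.span_le]
    rintro _ ⟨p, rfl⟩
    exact Submodule.subset_span ⟨p.1, b p.2, (b p.2).2, rfl⟩
  have h1 := Submodule.finrank_mono hle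
  rw [finrank_span_eq_card hind, Fintype.card_prod, Fintype.card_fin, Fintype.card_fin] at h1
  exact h1

/-- the residue space is exactly `F1[s] ⊗ Ξ` -/
theorem res_eq_W [IsDomain E] (s : E) (Ξ : Subalgebra F D)
    (Λ' : Subalgebra (LF F1) (LD (E ⊗[F] D)))
    (hΞ : ∀ a ∈ Ξ, (1 : E) ⊗ₜ[F] a ∈ LD.resSp (Subalgebra.toSubmodule Λ'))
    (hs : s ⊗ₜ[F] (1 : D) ∈ LD.resSp (Subalgebra.toSubmodule Λ'))
    (hrank : Module.finrank (LF F1) Λ' ≤
      Module.finrank F1 (Algebra.adjoin F1 ({s} : Set E)) * Module.finrank F Ξ) :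
    LD.resSp (Subalgebra.toSubmodule Λ') = W (F1 := F1) s Ξ := by
  have hfin : FiniteDimensional F1 (E ⊗[F] D) := by
    have : Module.Finite E (E ⊗[F] D) := inferInstance
    exact Module.Finite.trans E (E ⊗[F] D)
  symm
  apply Submodule.eq_of_le_of_finrank_le
  · rw [W, Submodule.span_le]
    rintro _ ⟨i, a, ha, rfl⟩
    have h1 : (s ^ i) ⊗ₜ[F] a = (s ⊗ₜ[F] (1 : D)) ^ i * ((1 : E) ⊗ₜ[F] a) := by
      rw [Algebra.TensorProduct.tmul_pow, one_pow, Algebra.TensorProduct.tmul_mul_tmul, mul_one,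
        one_mul]
    rw [h1]
    exact res_mul_mem Λ' (res_pow_mem Λ' hs i) (hΞ a ha)
  · have h1 : Module.finrank F1 (LD.resSp (Subalgebra.toSubmodule Λ')) =
        Module.finrank (LF F1) Λ' := LD.finrank_resSp _
    rw [h1]
    exact hrank.trans (finrank_W_ge s Ξ)

/-- if `Dpol f s y = 0` for the minimal polynomial `f` of `s` then `tr (s * y) = 0`. -/
theorem tr_of_Dpol [CharZero F1] [IsDomain E] (s y : E) (tr : E →ₗ[F1] F1)
    (htr : ∀ a b, tr (a * b) = tr (b * a)) (h : Dpol (minpoly F1 s) s y = 0) :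
    tr (s * y) = 0 := by
  have hint : IsIntegral F1 s := Algebra.IsIntegral.isIntegral s
  set f := minpoly F1 s with hf
  have hirr : Irreducible f := minpoly.irreducible hint
  have hsep : f.Separable := hirr.separable
  have hne : aeval s (derivative f) ≠ 0 := by
    intro h0
    obtain ⟨a, b, hab⟩ := hsep
    have := congrArg (aeval s) hab
    rw [map_add, map_mul, map_mul, minpoly.aeval, h0, mul_zero, mul_zero, add_zero, map_one] at this
    exact zero_ne_one this
  set d := aeval s (derivative f) with hd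
  obtain ⟨v, hv⟩ : ∃ v : E, d * v = s := by
    have hinj : Function.Injective (LinearMap.mulLeft F1 d) := by
      intro a b hab
      exact mul_left_cancel₀ hne hab
    exact (LinearMap.injective_iff_surjective.1 hinj) s
  have hds : d * s = s * d := by
    have := congrArg (aeval s) (mul_comm (derivative f) X)
    rwa [map_mul, map_mul, aeval_X] at this
  have hvs : v * s = s * v := by
    apply mul_left_cancel₀ hne
    rw [← mul_assoc, hv, ← mul_assoc, hds, mul_assoc, hv]
  have key : tr (v * Dpol f s y) = tr (s * y) := by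
    rw [Dpol, Finset.mul_sum, map_sum]
    have h1 : ∀ i ∈ Finset.range (f.natDegree + 1),
        tr (v * (f.coeff i • ∑ a ∈ Finset.range i, s ^ a * y * s ^ (i - 1 - a))) =
          f.coeff i * (i * tr (s ^ (i - 1) * v * y)) := by
      intro i _
      rw [mul_smul_comm, map_smul, smul_eq_mul, Finset.mul_sum, map_sum]
      congr 1
      rw [Finset.sum_congr rfl (g := fun _ => tr (s ^ (i - 1) * v * y)), Finset.sum_const,
        Finset.card_range, nsmul_eq_mul]
      intro a ha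
      rw [Finset.mem_range] at ha
      have hc : v * s ^ a = s ^ a * v := (Commute.pow_right (hvs) a)
      calc tr (v * (s ^ a * y * s ^ (i - 1 - a)))
          = tr (s ^ (i - 1 - a) * (v * (s ^ a * y))) := by
            rw [← mul_assoc v (s ^ a * y), htr]
        _ = tr (s ^ (i - 1) * v * y) := by
            rw [← mul_assoc v, hc, mul_assoc (s ^ a), ← mul_assoc, ← pow_add]
            have : i - 1 - a + a = i - 1 := by omega
            rw [this, mul_assoc]
    rw [Finset.sum_congr rfl h1]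
    have h2 : d = ∑ i ∈ Finset.range (f.natDegree + 1), (f.coeff i * i) • s ^ (i - 1) := by
      rw [hd, derivative_apply, Polynomial.sum_over_range _ (by simp), map_sum]
      refine Finset.sum_congr rfl fun i _ => ?_
      rw [map_mul, aeval_C, map_pow, aeval_X, Algebra.smul_def]
    have h3 : s * y = ∑ i ∈ Finset.range (f.natDegree + 1), (f.coeff i * i) • (s ^ (i - 1) * v * y) := by
      conv_lhs => rw [← hv, h2]
      rw [Finset.sum_mul, Finset.sum_mul]
      exact Finset.sum_congr rfl fun i _ => by rw [smul_mul_assoc, smul_mul_assoc]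
    rw [h3, map_sum]
    exact Finset.sum_congr rfl fun i _ => by rw [map_smul, smul_eq_mul]; ring
  rw [← key, h, mul_zero, map_zero]

/-- **core lemma for (I) and (II)** -/
theorem core [CharZero F1] [IsDomain E] (s : E) (Ξ : Subalgebra F D)
    (Λ' : Subalgebra (LF F1) (LD (E ⊗[F] D)))
    (hΞ : ∀ a ∈ Ξ, (1 : E) ⊗ₜ[F] a ∈ LD.resSp (Subalgebra.toSubmodule Λ'))
    (hrank : Module.finrank (LF F1) Λ' ≤
      Module.finrank F1 (Algebra.adjoin F1 ({s} : Set E)) * Module.finrank F Ξ)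
    (x : LD (E ⊗[F] D)) (hx : x ∈ Λ') (hxi : LD.IsInt x) (hx0 : x.co 0 = s ⊗ₜ[F] (1 : D))
    (tr : E →ₗ[F1] F1) (htr : ∀ a b, tr (a * b) = tr (b * a))
    (ℓ : D →ₗ[F] F) (hℓ : ∀ a ∈ Ξ, ℓ a = 0) :
    tr (s * ellE (F1 := F1) E ℓ (x.co 1)) = 0 := by
  apply tr_of_Dpol s _ tr htr
  rw [← ellE_Dpol, ← hx0]
  have hmem : Dpol (minpoly F1 s) (x.co 0) (x.co 1) ∈ LD.resSp (Subalgebra.toSubmodule Λ') := by
    apply Dpol_mem_res Λ' x hx hxi
    rw [hx0]
    have h1 : (s ⊗ₜ[F] (1 : D)) = (Algebra.TensorProduct.includeLeft : E →ₐ[F1] E ⊗[F] D) s := rfl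
    rw [h1, aeval_algHom_apply, minpoly.aeval, map_zero]
  rw [res_eq_W s Ξ Λ' hΞ ⟨x, hx, hxi, hx0⟩ hrank] at hmem
  exact ellE_W ℓ s Ξ hℓ hmem

end tensor

end MinI

end Crest.Agent.R180
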