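import Crest.Agent.R180.Move
import Crest.Agent.R180.MinI

set_option autoImplicit false
noncomputable section
namespace Crest.Agent.R180

open TensorProduct

/-! # Row 180, ROUTE M (note 4871): definitions (FROZEN) -/

/-! ### trace functionals, the space `U`, the field `Ψ`, the annihilator `𝓗` -/

section Alg
variable {F D : Type} [Field F] [Ring D] [Algebra F D]

/-- tracial functional with `t 1 ≠ 0` -/
def IsTr (t : D →ₗ[F] F) : Prop := (∀ x y, t (x * y) = t (y * x)) ∧ t 1 ≠ 0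

/-- `Ψ = F(b / a : a, b ∈ U)` -/
def PsiOf (U : Submodule F D) : Subalgebra F D :=
  Algebra.adjoin F {x | ∃ b ∈ U, b ≠ 0 ∧ x * b ∈ U}

/-- `𝓗 = {x : x U ⊆ Ψ, t (x U) = 0}`  (`= u⁻¹ · U₁^⊥`) -/
def HH (t : D →ₗ[F] F) (U : Submodule F D) : Submodule F D where
  carrier := {x | ∀ a ∈ U, x * a ∈ PsiOf U ∧ t (x * a) = 0}
  add_mem' := by
    intro x y hx hy a ha
    rw [add_mul, map_add, (hx a ha).2, (hy a ha).2, add_zero]
    exact ⟨(PsiOf U).add_mem (hx a ha).1 (hy a ha).1, rfl⟩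
  zero_mem' := by
    intro a ha
    rw [zero_mul, map_zero]
    exact ⟨(PsiOf U).zero_mem, rfl⟩
  smul_mem' := by
    intro c x hx a ha
    rw [smul_mul_assoc, map_smul, (hx a ha).2, smul_zero]
    exact ⟨(PsiOf U).smul_mem (hx a ha).1 c, rfl⟩

theorem mem_HH {t : D →ₗ[F] F} {U : Submodule F D} {x : D} :
    x ∈ HH t U ↔ ∀ a ∈ U, x * a ∈ PsiOf U ∧ t (x * a) = 0 := Iff.rfl

/-- `𝓗₂ = {x ∈ 𝓗 : t (x a b u⁻¹) = 0 for a, b ∈ U}` (`= u⁻¹ · (U₁²)^⊥`); `u'` is an inverse of some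
`u ∈ U`. -/
def HH2 (t : D →ₗ[F] F) (U : Submodule F D) (u' : D) : Submodule F D where
  carrier := {x | (∀ a ∈ U, x * a ∈ PsiOf U) ∧ ∀ a ∈ U, ∀ b ∈ U, t (x * a * b * u') = 0}
  add_mem' := by
    intro x y hx hy
    refine ⟨fun a ha => ?_, fun a ha b hb => ?_⟩
    · rw [add_mul]; exact (PsiOf U).add_mem (hx.1 a ha) (hy.1 a ha)
    · rw [add_mul, add_mul, add_mul, map_add, hx.2 a ha b hb, hy.2 a ha b hb, add_zero]
  zero_mem' := by
    refine ⟨fun a ha => ?_, fun a ha b hb => ?_⟩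
    · rw [zero_mul]; exact (PsiOf U).zero_mem
    · simp
  smul_mem' := by
    intro c x hx
    refine ⟨fun a ha => ?_, fun a ha b hb => ?_⟩
    · rw [smul_mul_assoc]; exact (PsiOf U).smul_mem (hx.1 a ha) c
    · rw [smul_mul_assoc, smul_mul_assoc, smul_mul_assoc, map_smul, hx.2 a ha b hb, smul_zero]

theorem mem_HH2 {t : D →ₗ[F] F} {U : Submodule F D} {u' x : D} :
    x ∈ HH2 t U u' ↔
      (∀ a ∈ U, x * a ∈ PsiOf U) ∧ ∀ a ∈ U, ∀ b ∈ U, t (x * a * b * u') = 0 := Iff.rfl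

end Alg

/-- the image `U` of the linear part -/
def UU {A : DA} {m : ℕ} (γ : NC (Fin m) A.D) : Submodule A.F A.D := LinearMap.range (lin γ)

/-- the quadratic part of `γ` paired with the functional `t (h · )` -/
def qH {A : DA} {m : ℕ} (γ : NC (Fin m) A.D) (t : A.D →ₗ[A.F] A.F) (h : A.D) :
    Matrix (Fin m) (Fin m) A.F := fun i j => t (h * γ [i, j])

/-! ### States -/

/-- live: the trace projection of the linear part to `Λ` is not zero -/
def Live {A : DA} {m : ℕ} (Λ : Subalgebra A.F A.D) (γ : NC (Fin m) A.D) : Prop :=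
  ∃ t : A.D →ₗ[A.F] A.F, IsTr t ∧ ∃ l ∈ Λ, ∃ a ∈ UU γ, t (l * a) ≠ 0

/-- States: live representations in at least two letters. -/
structure St (P : (A : DA) → (m : ℕ) → NC (Fin m) A.D → Prop) : Type 1 where
  A : DA
  m : ℕ
  hm : 2 ≤ m
  Λ : Subalgebra A.F A.D
  γ : NC (Fin m) A.D
  rs : RS P A m Λ γ
  live : Live Λ γ

namespace St
variable {P : (A : DA) → (m : ℕ) → NC (Fin m) A.D → Prop} (S : St P)

/-- `U` -/
abbrev U : Submodule S.A.F S.A.D := UU S.γ
/-- `Ψ` -/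
abbrev Psi : Subalgebra S.A.F S.A.D := PsiOf S.U
/-- `dim_Λ C(Λ)` (exact division, by the double centralizer theorem) -/
def mu1 : ℕ := Module.finrank S.A.F S.A.D / (Module.finrank S.A.F S.Λ) ^ 2
/-- `[Λ : Ψ]` (exact division as soon as `Ψ ≤ Λ`) -/
def mu2 : ℕ := Module.finrank S.A.F S.Λ / Module.finrank S.A.F S.Psi
/-- `s = dim Ψ - dim U` -/
def sd : ℕ := Module.finrank S.A.F S.Psi - Module.finrank S.A.F S.U
/-- `U₁^q = Ψ`, in terms of dimensions -/
def Full (q : ℕ) : Prop :=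
  Module.finrank S.A.F (S.U ^ q : Submodule S.A.F S.A.D) = Module.finrank S.A.F S.Psi

/-- `m1`-minimal -/
def Good1 : Prop := ∀ S' : St P, S.mu1 ≤ S'.mu1
/-- `(m1, m2)`-minimal -/
def Good2 : Prop := S.Good1 ∧ ∀ S' : St P, S'.Good1 → S.mu2 ≤ S'.mu2
/-- `(m1, m2)`-minimal with `U₁² = Ψ` -/
def Good3 : Prop := S.Good2 ∧ S.Full 2
/-- minimal `s` among these -/
def Good4 : Prop := S.Good3 ∧ ∀ S' : St P, S'.Good3 → S.sd ≤ S'.sd

end St

/-! ### Evaluation at points of `E⟦t⟧`: total versions -/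

section Ev
variable {A : DA} (M : Adm A)

/-- force the constant coefficients to vanish -/
def tX {m μ : ℕ} (X : Fin m → NC (Fin μ) (PowerSeries M.E)) (j : Fin m) :
    NC (Fin μ) (PowerSeries M.E) :=
  X j - NC.C (PowerSeries.C (PowerSeries.constantCoeff (X j [])))

theorem tX_spec {m μ : ℕ} (X : Fin m → NC (Fin μ) (PowerSeries M.E)) (j : Fin m) :
    PowerSeries.constantCoeff (tX M X j []) = 0 := by
  simp [tX]

theorem tX_eq {m μ : ℕ} {X : Fin m → NC (Fin μ) (PowerSeries M.E)}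
    (hX : ∀ j, PowerSeries.constantCoeff (X j []) = 0) : tX M X = X := by
  funext j
  simp [tX, hX j]

/-- total version of `hX0` -/
def Adm.hT {m μ : ℕ} (X : Fin m → NC (Fin μ) (PowerSeries M.E)) :
    NC (Fin m) A.D →+* NC (Fin μ) (PowerSeries M.D0) := M.hX0 (tX M X) (tX_spec M X)

theorem Adm.hT_eq {m μ : ℕ} (X : Fin m → NC (Fin μ) (PowerSeries M.E))
    (hX : ∀ j, PowerSeries.constantCoeff (X j []) = 0) : M.hT X = M.hX0 X hX := by
  unfold Adm.hT
  congr 1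
  exact tX_eq M hX

/-- `g ↦ g(z)`, `z ∈ (t E⟦t⟧)^m` -/
def Adm.ev {m : ℕ} (z : Fin m → PowerSeries M.E) (f : NC (Fin m) A.D) : PowerSeries M.D0 :=
  M.hT (μ := 0) (fun j => NC.C (z j)) f []

/-- `g ↦ Dg(z) v` -/
def Adm.dv {m : ℕ} (z v : Fin m → PowerSeries M.E) (f : NC (Fin m) A.D) : PowerSeries M.D0 :=
  M.hT (μ := 1) (fun j => NC.C (z j) + NC.C (v j) * NC.X 0) f [0]

/-- second derivative in the directions `v` (left) and `v'` (right) -/
def Adm.d2 {m : ℕ} (z v v' : Fin m → PowerSeries M.E) (f : NC (Fin m) A.D) :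
    PowerSeries M.D0 :=
  M.hT (μ := 2) (fun j => NC.C (z j) + NC.C (v j) * NC.X 0 + NC.C (v' j) * NC.X 1) f [0, 1]

/-- the linear part of `f` applied to the vector `v` -/
def Adm.l1 {m : ℕ} (v : Fin m → PowerSeries M.E) (f : NC (Fin m) A.D) : PowerSeries M.D0 :=
  ∑ j, PowerSeries.map M.jE (v j) * PowerSeries.C (M.jD (f [j]))

/-- evaluation of a series with scalar coefficients at a point of `E⟦t⟧` -/
def Adm.evE {n : ℕ} (z : Fin n → PowerSeries M.E) : NC (Fin n) A.F →+* PowerSeries M.E :=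
  NC.subst (CFilt.powerSeries M.E) ((PowerSeries.C (R := M.E)).comp (algebraMap A.F M.E))
    (fun i => z i - PowerSeries.C (PowerSeries.constantCoeff (z i)))
    (fun i => by
      rw [CFilt.mem_powerSeries]
      intro k hk
      have : k = 0 := by omega
      subst this
      simp)
    (fun k i => by
      ext n
      simp only [RingHom.comp_apply, PowerSeries.coeff_C_mul, PowerSeries.coeff_mul_C]
      exact Algebra.commutes k _)

/-- composition `f ∘ X` for `X` with scalar coefficients -/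
def compD {A : DA} {m n : ℕ} (X : Fin m → NC (Fin n) A.F) :
    NC (Fin m) A.D →+* NC (Fin n) A.D :=
  NC.subst (CFilt.nc (CFilt.discrete A.D)) (NC.C : A.D →+* NC (Fin n) A.D)
    (fun j => NC.map (algebraMap A.F A.D) (X j - NC.C (X j [])))
    (fun j => by
      rw [CFilt.mem_nc_one, CFilt.mem_discrete]
      right
      simp [NC.map_apply])
    (fun k j => by
      apply NC.ext'; intro w
      rw [NC.C_mul_apply, NC.mul_C_apply, NC.map_apply]
      exact (Algebra.commutes _ _).symm)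

/-- `t d/dt` -/
def eul {K : Type} [Ring K] (y : PowerSeries K) : PowerSeries K :=
  PowerSeries.mk fun n => n • PowerSeries.coeff n y

/-- value at `p` of the homogeneous part of degree `k`: `∑_{|w| = k} w(p) ⊗ f_w` -/
def Adm.homv (k : ℕ) {n : ℕ} (p : Fin n → M.E) (f : NC (Fin n) A.D) : M.D0 :=
  ∑ w : Fin k → Fin n, ((List.ofFn fun i => p (w i)).prod) ⊗ₜ[A.F] f (List.ofFn w)

/-- `Λ' = F'(Λ, c₀)` -/
def Adm.adj (Λ : Subalgebra A.F A.D) (c0 : PowerSeries M.D0) :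
    Subalgebra (LF M.F1) (LD M.D0) :=
  Algebra.adjoin (LF M.F1) ((fun a => (LD.C (M.jD a) : LD M.D0)) '' (Λ : Set A.D) ∪ {LD.ofPS c0})

/-- admissible base points: no constant coefficient, and generating `E((t))` -/
structure GenPt {m : ℕ} (z : Fin m → PowerSeries M.E) : Prop where
  z0 : ∀ j, PowerSeries.constantCoeff (z j) = 0
  gen : Algebra.adjoin (LF M.F1) (Set.range fun j => (LD.ofPS (z j) : LD M.E)) = ⊤

/-- `x ⊗ a ↦ t(a) x`, as an `F1`-linear map `E ⊗ D → E` (the map `MinI.ellE`) -/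
abbrev Adm.con (t : A.D →ₗ[A.F] A.F) : M.D0 →ₗ[M.F1] M.E := MinI.ellE (F1 := M.F1) M.E t

/-- `t_E ⊗ t_D : E ⊗ D → F1` -/
def Adm.tt (tE : M.E →ₗ[M.F1] M.F1) (t : A.D →ₗ[A.F] A.F) : M.D0 →ₗ[M.F1] M.F1 := tE ∘ₗ M.con t

end Ev

/-- coefficientwise functional -/
def LD.mapL {F K : Type} [Field F] [Ring K] [Algebra F K] (t : K →ₗ[F] F) : LD K →ₗ[LF F] LF F where
  toFun x := (HahnSeries.map (x : HahnSeries ℤ K) (t : K →+ F) : HahnSeries ℤ F)
  map_add' x y := by
    apply LF.ext; intro n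
    exact map_add t _ _
  map_smul' c x := by
    apply LF.ext; intro n
    have h3 : (c • x : LD K) = LF.toLD c * x := LD.smul_def c x
    have hs1 : ∀ k, (LF.toLD c : LD K).co k = c.co k • (1 : K) := fun k => by
      rw [LF.co_toLD, Algebra.algebraMap_eq_smul_one]
    have hsup : HahnSeries.support (LF.toLD c : HahnSeries ℤ K) ⊆
        HahnSeries.support (c : HahnSeries ℤ F) := by
      intro k hk hc
      apply hk
      change (LF.toLD c : LD K).co k = 0
      rw [hs1]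
      change c.co k = 0 at hc
      rw [hc, zero_smul]
    have hsup2 : HahnSeries.support (HahnSeries.map (x : HahnSeries ℤ K) (t : K →+ F)) ⊆
        HahnSeries.support (x : HahnSeries ℤ K) := by
      intro k hk hc
      apply hk
      change t (HahnSeries.coeff (x : HahnSeries ℤ K) k) = 0
      change HahnSeries.coeff (x : HahnSeries ℤ K) k = 0 at hc
      rw [hc, map_zero]
    have h2 := HahnSeries.coeff_mul_left' (x := (LF.toLD c : HahnSeries ℤ K))
      (y := (x : HahnSeries ℤ K)) (a := n) (HahnSeries.isPWO_support (c : HahnSeries ℤ F)) hsup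
    have h1 := HahnSeries.coeff_mul_right' (x := (c : HahnSeries ℤ F))
      (y := (HahnSeries.map (x : HahnSeries ℤ K) (t : K →+ F))) (a := n)
      (HahnSeries.isPWO_support (x : HahnSeries ℤ K)) hsup2
    refine Eq.trans (b := t ((LF.toLD c * x : LD K).co n)) (by rw [← h3]; rfl) ?_
    refine Eq.trans ?_ h1.symm
    refine Eq.trans (congrArg t h2) ?_
    rw [map_sum]
    refine Finset.sum_congr rfl fun p _ => ?_
    have : HahnSeries.coeff (LF.toLD c : HahnSeries ℤ K) p.1 = c.co p.1 • (1 : K) := hs1 p.1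
    rw [this, smul_mul_assoc, one_mul, map_smul, smul_eq_mul]
    rfl

theorem LD.co_mapL {F K : Type} [Field F] [Ring K] [Algebra F K] (t : K →ₗ[F] F) (x : LD K)
    (n : ℤ) : (LD.mapL t x).co n = t (x.co n) := rfl

/-! ### STEP: a full move followed by conjugation into `C(c₀)` -/

/-- Result of a full move with base point `z` followed by the conjugation to `C(c₀)`,
`c₀ = γ(z)`. -/
structure Step (P : (A : DA) → (m : ℕ) → NC (Fin m) A.D → Prop) {A : DA} {m : ℕ}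
    (Λ : Subalgebra A.F A.D) (γ : NC (Fin m) A.D) (M : Adm A)
    (z : Fin m → PowerSeries M.E) : Type where
  μ : ℕ
  hμ : μ = (m - 1) * Module.finrank M.F1 M.E + 1
  γ' : NC (Fin μ) (LD M.D0)
  dir : Fin μ → Fin m → PowerSeries M.E
  κ : Fin μ → LD M.D0
  rs : RS P (A.mv M) μ (M.adj Λ (M.ev z γ)) γ'
  full : ∀ v : Fin m → LD M.E, ∃ (l : Fin μ → LF M.F1) (g : LD M.E),
    ∀ j, v j = ∑ i, l i • (LD.ofPS (dir i j) : LD M.E) + (g * LD.ofPS (z j) - LD.ofPS (z j) * g)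
  indep : ∀ (l : Fin μ → LF M.F1) (g : LD M.E),
    (∀ j, ∑ i, l i • (LD.ofPS (dir i j) : LD M.E) = g * LD.ofPS (z j) - LD.ofPS (z j) * g) → l = 0
  /-- `γ'₁ = Dγ(z) dir - [c₀, κ]` -/
  lin : ∀ i, γ' [i] = LD.ofPS (M.dv z (dir i) γ) -
    (LD.ofPS (M.ev z γ) * κ i - κ i * LD.ofPS (M.ev z γ))
  κΛ : ∀ a ∈ Λ, ∀ i, (LD.C (M.jD a) : LD M.D0) * κ i = κ i * LD.C (M.jD a)
  quad : ∀ i k, ∃ y : LD M.D0, γ' [i, k] = LD.ofPS (M.d2 z (dir i) (dir k) γ) +
    κ i * LD.ofPS (M.dv z (dir k) γ) - γ' [i] * κ k -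
    (LD.ofPS (M.ev z γ) * y - y * LD.ofPS (M.ev z γ))

namespace Step
variable {P : (A : DA) → (m : ℕ) → NC (Fin m) A.D → Prop} {A : DA} {m : ℕ}
  {Λ : Subalgebra A.F A.D} {γ : NC (Fin m) A.D} {M : Adm A} {z : Fin m → PowerSeries M.E}

/-- `U'` -/
def U (st : Step P Λ γ M z) : Submodule (LF M.F1) (LD M.D0) := UU (A := A.mv M) st.γ'
/-- `Ψ'` -/
def Psi (st : Step P Λ γ M z) : Subalgebra (LF M.F1) (LD M.D0) := PsiOf st.U
/-- `Λ'` -/
def Lam (_ : Step P Λ γ M z) : Subalgebra (LF M.F1) (LD M.D0) := M.adj Λ (M.ev z γ)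
/-- `𝓗'` for the functional `t_E ⊗ t` -/
def H (st : Step P Λ γ M z) (t : A.D →ₗ[A.F] A.F) (tE : M.E →ₗ[M.F1] M.F1) :
    Submodule (LF M.F1) (LD M.D0) := HH (LD.mapL (M.tt tE t)) st.U

end Step

/-! ### Prime-degree extensions -/

/-- Admissible extension of prime degree `N` with a cyclic maximal subfield `L` (`= M` in the
note), automorphism `τ` and `u` (`= Y` in the note) with `u y = τ(y) u`. -/
structure PE (A : DA) (N : ℕ) extends Adm A where
  pr : N.Prime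
  L : Type
  [fL : Field L]
  [aL : Algebra F1 L]
  [fdL : FiniteDimensional F1 L]
  finrankL : Module.finrank F1 L = N
  j : L →ₐ[F1] E
  τ : L ≃ₐ[F1] L
  u : E
  u_ne : u ≠ 0
  conj : ∀ y : L, u * j y = j (τ y) * u
  /-- `E = ⊕_{i<N} L u^i` -/
  decomp : ∀ e : E, ∃! c : Fin N → L, e = ∑ i, j (c i) * u ^ (i : ℕ)
  fix : ∀ i : ℕ, 0 < i → i < N → ∀ y : L, (τ ^ i) y = y → ∃ c : F1, algebraMap F1 L c = y

attribute [instance] PE.fL PE.aL PE.fdL

/-- `Ψ ⊗ L` inside `E ⊗ D`, for a subalgebra `Ψ` of `D`. -/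
def PE.psiL {A : DA} {N : ℕ} (M : PE A N) (Ψ : Subalgebra A.F A.D) : Subalgebra M.F1 M.D0 :=
  Algebra.adjoin M.F1 (Set.range (fun y : M.L => M.jE (M.j y)) ∪ M.jD '' (Ψ : Set A.D))

end Crest.Agent.R180
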