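import Crest.Agent.R180.MinDefs
import Crest.Agent.R180.MinRes
import Crest.Agent.R180.DCT

set_option autoImplicit false

/-!
# Row 180, ROUTE M, (VI): the KAP lemma
-/

noncomputable section
namespace Crest.Agent.R180

open TensorProduct

namespace MinKAP

section central
variable {F B : Type} [Field F] [Ring B] [IsDomain B] [Algebra F B] [FiniteDimensional F B]
  [Algebra.IsCentral F B]

theorem finrank_centralizer (L : Subalgebra F B) :
    Module.finrank F L * Module.finrank F (Subalgebra.centralizer F (L : Set B)) =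
      Module.finrank F B := by
  have hcen : Subalgebra.center F B = ⊥ := Algebra.IsCentral.center_eq_bot F B
  have h := DCT.finrank_mul_centralizer (F := F) (B := B) L (by rw [hcen]; exact bot_le)
  rw [hcen, Subalgebra.finrank_bot, mul_one] at h
  exact h

end central

section res
variable {F K : Type} [Field F] [Ring K] [IsDomain K] [Algebra F K] [Module.Finite F K]
  [Algebra.IsCentral F K]

/-- the residues of a centraliser -/
theorem resSp_centralizer (S : Subalgebra (LF F) (LD K)) (R : Subalgebra F K)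
    (hR : LD.resSp (Subalgebra.toSubmodule S) = Subalgebra.toSubmodule R) :
    LD.resSp (Subalgebra.toSubmodule (Subalgebra.centralizer (LF F) (S : Set (LD K)))) =
      Subalgebra.toSubmodule (Subalgebra.centralizer F (R : Set K)) := by
  apply Submodule.eq_of_le_of_finrank_le
  · rintro k ⟨w, hw, hwi, rfl⟩
    change w.co 0 ∈ Subalgebra.centralizer F (R : Set K)
    rw [Subalgebra.mem_centralizer_iff]
    intro a ha
    have ha' : a ∈ LD.resSp (Subalgebra.toSubmodule S) := by rw [hR]; exact ha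
    obtain ⟨y, hy, hyi, rfl⟩ := ha'
    have h1 := (Subalgebra.mem_centralizer_iff (LF F)).mp hw y hy
    rw [← hyi.co_mul_zero hwi, ← hwi.co_mul_zero hyi, h1]
  · have h1 := LD.finrank_resSp (Subalgebra.toSubmodule
      (Subalgebra.centralizer (LF F) (S : Set (LD K))))
    have h2 := LD.finrank_resSp (Subalgebra.toSubmodule S)
    rw [hR] at h2
    have h3 := finrank_centralizer (F := LF F) (B := LD K) S
    have h4 := finrank_centralizer (F := F) (B := K) R
    have h5 : Module.finrank (LF F) (LD K) = Module.finrank F K := LD.finrank_eq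
    have h2' : Module.finrank F R = Module.finrank (LF F) S := h2
    have hpos : 0 < Module.finrank F R := Module.finrank_pos
    have h1' : Module.finrank F (LD.resSp (Subalgebra.toSubmodule
      (Subalgebra.centralizer (LF F) (S : Set (LD K))))) = Module.finrank (LF F)
      (Subalgebra.centralizer (LF F) (S : Set (LD K))) := h1
    rw [h1']
    change Module.finrank F (Subalgebra.centralizer F (R : Set K)) ≤ _
    rw [← h2', h5, ← h4] at h3
    exact (Nat.eq_of_mul_eq_mul_left hpos h3).symm.le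

end res

end MinKAP

theorem kap {A : DA} {N : ℕ} (M : PE A N) (l0 : M.L)
    (hl0 : Algebra.adjoin M.F1 ({l0} : Set M.L) = ⊤) (Λ : Subalgebra A.F A.D)
    (hΛ : ∀ a ∈ Λ, ∀ b ∈ Λ, a * b = b * a) (c0 : PowerSeries M.D0)
    (hres : LD.resSp (Subalgebra.toSubmodule (M.toAdm.adj Λ c0)) =
      Subalgebra.toSubmodule (M.psiL Λ)) (n : ℕ) (c : LD M.D0) (hc : LD.IsInt c)
    (hc0 : LD.ofPS c0 = LD.tp n * c) (u : A.D) (hu : u ∈ Λ) (hu0 : u ≠ 0)
    (hcu : c.co 0 = M.j l0 ⊗ₜ[A.F] u) (κ : LD M.D0)
    (hκ : ∀ a ∈ Λ, (LD.C (M.toAdm.jD a) : LD M.D0) * κ = κ * LD.C (M.toAdm.jD a))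
    (hy : LD.IsInt (c * κ - κ * c)) :
    ∃ κ' : LD M.D0, LD.IsInt κ' ∧
      (∀ a ∈ Λ, (LD.C (M.toAdm.jD a) : LD M.D0) * κ' = κ' * LD.C (M.toAdm.jD a)) ∧
      c * κ' - κ' * c = c * κ - κ * c := by
  have hC' := MinKAP.resSp_centralizer (M.toAdm.adj Λ c0) (M.psiL Λ) hres
  have hΛmem : ∀ a ∈ Λ, (LD.C (M.toAdm.jD a) : LD M.D0) ∈ M.toAdm.adj Λ c0 := fun a ha =>
    Algebra.subset_adjoin (Or.inl ⟨a, ha, rfl⟩)
  have hc0mem : (LD.ofPS c0 : LD M.D0) ∈ M.toAdm.adj Λ c0 := Algebra.subset_adjoin (Or.inr rfl)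
  have hc_eq : c = LD.tp (-(n : ℤ)) * LD.ofPS c0 := by
    rw [hc0, ← mul_assoc, LD.tp_mul_tp, neg_add_cancel, LD.tp_zero, one_mul]
  -- elements of the centraliser commute with `c`
  have hcw : ∀ w ∈ Subalgebra.centralizer (LF M.F1) (M.toAdm.adj Λ c0 : Set (LD M.D0)),
      c * w = w * c := by
    intro w hw
    have h1 := (Subalgebra.mem_centralizer_iff (LF M.F1)).mp hw _ hc0mem
    rw [hc_eq, mul_assoc, h1, ← mul_assoc, LD.tp_commute, mul_assoc]
  -- key: a lowest coefficient is a residue of the centraliser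
  have key : ∀ k : M.D0, (M.j l0 ⊗ₜ[A.F] u) * k = k * (M.j l0 ⊗ₜ[A.F] u) →
      (∀ a ∈ Λ, (M.toAdm.jD a) * k = k * M.toAdm.jD a) →
      k ∈ Subalgebra.centralizer M.F1 (M.psiL Λ : Set M.D0) := by
    intro k h1 h2
    have hu1 : (M.toAdm.jD u : M.D0) ≠ 0 := by
      intro h0
      apply hu0
      have hinj : Function.Injective (Algebra.TensorProduct.includeRight :
          A.D →ₐ[A.F] M.E ⊗[A.F] A.D) :=
        Algebra.TensorProduct.includeRight_injective (algebraMap A.F M.E).injective
      exact hinj (h0.trans (map_zero _).symm)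
    have h3 : (M.j l0 ⊗ₜ[A.F] u : M.D0) = M.toAdm.jE (M.j l0) * M.toAdm.jD u := by
      change _ = (M.j l0 ⊗ₜ[A.F] (1 : A.D)) * ((1 : M.E) ⊗ₜ[A.F] u)
      rw [Algebra.TensorProduct.tmul_mul_tmul, mul_one, one_mul]
    have h4 : M.toAdm.jE (M.j l0) * k = k * M.toAdm.jE (M.j l0) := by
      rw [h3, mul_assoc, h2 u hu, ← mul_assoc, ← mul_assoc] at h1
      exact mul_right_cancel₀ hu1 h1
    -- commutes with all of `L`
    have h5 : ∀ y : M.L, M.toAdm.jE (M.j y) * k = k * M.toAdm.jE (M.j y) := by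
      intro y
      have hy : y ∈ Algebra.adjoin M.F1 ({l0} : Set M.L) := by rw [hl0]; exact Algebra.mem_top
      induction hy using Algebra.adjoin_induction with
      | mem x hx => rw [Set.mem_singleton_iff.mp hx]; exact h4
      | algebraMap r =>
        have h6 : M.toAdm.jE (M.j (algebraMap M.F1 M.L r)) = algebraMap M.F1 M.D0 r := by
          rw [AlgHom.commutes]; rfl
        rw [h6]
        exact Algebra.commutes r k
      | add x y _ _ hx hy => rw [map_add, map_add, add_mul, mul_add, hx, hy]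
      | mul x y _ _ hx hy => rw [map_mul, map_mul, mul_assoc, hy, ← mul_assoc, hx, mul_assoc]
    rw [Subalgebra.mem_centralizer_iff]
    intro a ha
    change a ∈ M.psiL Λ at ha
    rw [PE.psiL] at ha
    induction ha using Algebra.adjoin_induction with
    | mem x hx =>
      rcases hx with ⟨y, rfl⟩ | ⟨a, ha, rfl⟩
      · exact h5 y
      · exact h2 a ha
    | algebraMap r => exact Algebra.commutes r k
    | add x y _ _ hx hy => rw [add_mul, mul_add, hx, hy]
    | mul x y _ _ hx hy => rw [mul_assoc, hy, ← mul_assoc, hx, mul_assoc]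
  -- induction on the order of the pole
  have main : ∀ (r : ℕ) (κ : LD M.D0), LD.OrdGe (-(r : ℤ)) κ →
      (∀ a ∈ Λ, (LD.C (M.toAdm.jD a) : LD M.D0) * κ = κ * LD.C (M.toAdm.jD a)) →
      LD.IsInt (c * κ - κ * c) →
      ∃ κ' : LD M.D0, LD.IsInt κ' ∧
        (∀ a ∈ Λ, (LD.C (M.toAdm.jD a) : LD M.D0) * κ' = κ' * LD.C (M.toAdm.jD a)) ∧
        c * κ' - κ' * c = c * κ - κ * c := by
    intro r
    induction r with
    | zero =>
      intro κ h0 hκ _
      exact ⟨κ, (LD.ordGe_zero_iff κ).mp (by simpa using h0), hκ, rfl⟩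
    | succ r ih =>
      intro κ h0 hκ hy
      obtain ⟨κ1, hκ1, hκ1'⟩ := h0.exists_tp
      set e : ℤ := -((r + 1 : ℕ) : ℤ) with he
      have he' : e < 0 := by rw [he]; push_cast; omega
      -- the lowest coefficient
      have hcomm1 : (c * κ1 - κ1 * c).co 0 = 0 := by
        have h1 : c * κ - κ * c = LD.tp e * (c * κ1 - κ1 * c) := by
          rw [hκ1', mul_sub, ← mul_assoc c, ← LD.tp_commute, mul_assoc, mul_assoc]
        have h2 := hy e he'
        rw [h1, LD.co_tp_mul, sub_self] at h2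
        exact h2
      rw [LD.co_sub, hc.co_mul_zero hκ1, hκ1.co_mul_zero hc, sub_eq_zero, hcu] at hcomm1
      have hcomm2 : ∀ a ∈ Λ, (M.toAdm.jD a) * κ1.co 0 = κ1.co 0 * M.toAdm.jD a := by
        intro a ha
        have h1 := congrArg (fun x => LD.co x e) (hκ a ha)
        simp only [LD.C_mul_co, LD.mul_C_co] at h1
        rw [hκ1', LD.co_tp_mul, sub_self] at h1
        exact h1
      have h2 := key _ hcomm1 hcomm2
      have h3 : κ1.co 0 ∈ LD.resSp (Subalgebra.toSubmodule
          (Subalgebra.centralizer (LF M.F1) (M.toAdm.adj Λ c0 : Set (LD M.D0)))) := by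
        rw [hC']; exact h2
      obtain ⟨w, hw, hwi, hw0⟩ := h3
      have hwc := hcw w hw
      have hwΛ : ∀ a ∈ Λ, (LD.C (M.toAdm.jD a) : LD M.D0) * w = w * LD.C (M.toAdm.jD a) :=
        fun a ha => (Subalgebra.mem_centralizer_iff (LF M.F1)).mp hw _ (hΛmem a ha)
      -- subtract
      have hdiff : c * (κ - LD.tp e * w) - (κ - LD.tp e * w) * c = c * κ - κ * c := by
        have h4 : c * (LD.tp e * w) = LD.tp e * w * c := by
          rw [← mul_assoc, ← LD.tp_commute, mul_assoc, hwc, mul_assoc]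
        rw [mul_sub, sub_mul, h4]
        abel
      have hord : LD.OrdGe (-(r : ℤ)) (κ - LD.tp e * w) := by
        intro k hk
        rw [LD.co_sub, hκ1', LD.co_tp_mul, LD.co_tp_mul]
        rcases lt_trichotomy k e with h | h | h
        · rw [hκ1 _ (by omega), hwi _ (by omega), sub_self]
        · rw [h, sub_self, hw0, sub_self]
        · exfalso
          rw [he] at h
          push_cast at h
          omega
      obtain ⟨κ', h5, h6, h7⟩ := ih (κ - LD.tp e * w) hord (by
        intro a ha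
        rw [mul_sub, sub_mul, hκ a ha, ← mul_assoc, ← LD.tp_commute, mul_assoc, hwΛ a ha,
          mul_assoc]) (by rw [hdiff]; exact hy)
      exact ⟨κ', h5, h6, h7.trans hdiff⟩
  obtain ⟨b, hb⟩ := LD.exists_bound κ
  refine main b.natAbs κ (fun k hk => hb k ?_) hκ hy
  omega

end Crest.Agent.R180
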