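import Crest.Agent.R180.ModR
import Crest.Agent.R180.PRSDef

set_option autoImplicit false

/-!
# Row 180, MODULE S: behaviour of plain representations (`PRS`)

* `PRS.move`   : behaviour under good moves
* `PRS.final`  : end of Theorem S
* `RS.toPRS`   : from a representation to a plain one
-/

noncomputable section
namespace Crest.Agent.R180

open TensorProduct

variable {P : (A : DA) → (m : ℕ) → NC (Fin m) A.D → Prop}

/-! ### the `E`-level evaluation -/

theorem hEv_eq_step {K E : Type} [CommRing K] [Ring E] [Algebra K E] {m μ : ℕ}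
    (X : Fin m → NC (Fin μ) (PowerSeries E))
    (hX : ∀ j, PowerSeries.constantCoeff (X j []) = 0) (f : NC (Fin m) K) :
    hEv X hX f = NC.C (PowerSeries.C (algebraMap K E (f []))) +
      ∑ s, X s * hEv X hX (NC.ld s f) :=
  NC.subst_eq _ _ _ _ _ f

theorem Adm.jE_algebraMap {A : DA} (M : Adm A) (c : A.F) :
    M.jE (algebraMap A.F M.E c) = M.jD (algebraMap A.F A.D c) := by
  change (algebraMap A.F M.E c) ⊗ₜ[A.F] (1 : A.D) = (1 : M.E) ⊗ₜ[A.F] (algebraMap A.F A.D c)
  rw [Algebra.algebraMap_eq_smul_one, Algebra.algebraMap_eq_smul_one, TensorProduct.smul_tmul]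

/-- compatibility of the `E`-level evaluation with the evaluation of a move -/
theorem Adm.hX0_map {A : DA} (M : Adm A) {m μ : ℕ} (X : Fin m → NC (Fin μ) (PowerSeries M.E))
    (hX : ∀ j, PowerSeries.constantCoeff (X j []) = 0) (f : NC (Fin m) A.F) :
    M.hX0 X hX (NC.map (algebraMap A.F A.D) f) = NC.map (PowerSeries.map M.jE) (M.hE0 X hX f) := by
  have hc : ∀ (k : A.F) (i : Fin m), ((M.phi0 μ).comp (algebraMap A.F A.D)) k * M.let0 X i =
      M.let0 X i * ((M.phi0 μ).comp (algebraMap A.F A.D)) k := fun k i => M.let0_comm X _ i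
  have h1 := NC.subst_unique (M.filt μ) ((M.phi0 μ).comp (algebraMap A.F A.D)) (M.let0 X)
    (M.let0_mem X hX) hc (fun f => M.hX0 X hX (NC.map (algebraMap A.F A.D) f))
    (fun f => NC.subst_eq (M.filt μ) (M.phi0 μ) (M.let0 X) (M.let0_mem X hX) (M.let0_comm X)
      (NC.map (algebraMap A.F A.D) f)) f
  have h2 := NC.subst_unique (M.filt μ) ((M.phi0 μ).comp (algebraMap A.F A.D)) (M.let0 X)
    (M.let0_mem X hX) hc (fun f => NC.map (PowerSeries.map M.jE) (M.hE0 X hX f))
    (fun f => by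
      change NC.map (PowerSeries.map M.jE) (hEv X hX f) = _
      rw [hEv_eq_step, map_add, map_sum]
      congr 1
      · rw [NC.map_C]
        change NC.C (PowerSeries.map M.jE (PowerSeries.C (algebraMap A.F M.E (f [])))) =
          NC.C (PowerSeries.C (M.jD (algebraMap A.F A.D (f []))))
        rw [PowerSeries.map_C, M.jE_algebraMap]
      · refine Finset.sum_congr rfl fun i _ => ?_
        rw [map_mul]
        rfl) f
  exact h1.trans h2.symm

theorem LD.ofPS_map {K K' : Type} [Ring K] [Ring K'] (φ : K →+* K') (x : PowerSeries K) :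
    LD.ofPS (PowerSeries.map φ x) = LD.map φ (LD.ofPS x) := by
  apply LD.ext; intro n
  rw [LD.co_map]
  by_cases hn : n < 0
  · rw [LD.co_ofPS_neg _ _ hn, LD.co_ofPS_neg _ _ hn, map_zero]
  · obtain ⟨k, rfl⟩ := Int.eq_ofNat_of_zero_le (not_lt.1 hn)
    rw [LD.co_ofPS, LD.co_ofPS, PowerSeries.coeff_map]

/-- the image of a central series under a move, coefficientwise -/
theorem Adm.hX_map_apply {A : DA} (M : Adm A) {m μ : ℕ}
    (X : Fin m → NC (Fin μ) (PowerSeries M.E))
    (hX : ∀ j, PowerSeries.constantCoeff (X j []) = 0) (f : NC (Fin m) A.F) (w : List (Fin μ)) :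
    M.hX X hX (NC.map (algebraMap A.F A.D) f) w = M.incE (LD.ofPS (M.hE0 X hX f w)) := by
  change LD.ofPS (M.hX0 X hX (NC.map (algebraMap A.F A.D) f) w) = _
  rw [M.hX0_map, NC.map_apply]
  exact LD.ofPS_map M.jE _

theorem Adm.incE_toLD {A : DA} (M : Adm A) (c : LF M.F1) :
    M.incE (LF.toLD c) = algebraMap (A.mv M).F (A.mv M).D c := by
  apply LD.ext; intro n
  change M.jE (algebraMap M.F1 M.E (c.co n)) = algebraMap M.F1 M.D0 (c.co n)
  exact (Algebra.TensorProduct.includeLeft : M.E →ₐ[M.F1] M.E ⊗[A.F] A.D).commutes _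

/-- behaviour of plain representations under good moves -/
theorem PRS.move (hP : MoveClosed P) {A : DA} {m : ℕ} {κ : Type} [Finite κ]
    {Θ : κ → NC (Fin m) A.F} (h : PRS P A m Θ) (M : Adm A) {μ : ℕ}
    (X : Fin m → NC (Fin μ) (PowerSeries M.E)) (hX : Good' M X) {β : Type} [Fintype β]
    (e : Module.Basis β M.F1 M.E) (Θ' : κ × β → NC (Fin μ) (A.mv M).F)
    (h0 : ∀ p, Θ' p [] = 0)
    (hΘ' : ∀ c w, w ≠ [] → LD.ofPS ((M.hE0 X hX.x0 (Θ c)) w) =
      ∑ b, LF.toLD (Θ' (c, b) w) * (LD.C (e b) : LD M.E)) :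
    PRS P (A.mv M) μ Θ' := by
  refine ⟨h0, ?_⟩
  obtain ⟨a, v, v', hv, hv', hPa, hcl⟩ := h.rep
  refine ⟨M.hX X hX.x0 a, M.hX X hX.x0 v, M.hX X hX.x0 v', ?_, ?_, hP A m a hPa M μ X hX, ?_⟩
  · rw [← map_mul, hv, map_one]
  · rw [← map_mul, hv', map_one]
  rw [← map_mul, ← map_mul]
  intro k
  set B' := Algebra.adjoin (A.mv M).F
    (Set.range (fun d : (A.mv M).D => (NC.C d : NC (Fin μ) (A.mv M).D)) ∪
      Set.range (fun c => (NC.map (algebraMap (A.mv M).F (A.mv M).D) (Θ' c) :
        NC (Fin μ) (A.mv M).D))) with hB'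
  have hCB : ∀ d, (NC.C d : NC (Fin μ) (A.mv M).D) ∈ B' := fun d =>
    Algebra.subset_adjoin (Or.inl ⟨d, rfl⟩)
  have hΘB : ∀ p, (NC.map (algebraMap (A.mv M).F (A.mv M).D) (Θ' p) :
      NC (Fin μ) (A.mv M).D) ∈ B' := fun p => Algebra.subset_adjoin (Or.inr ⟨p, rfl⟩)
  have hG : ∀ g ∈ Algebra.adjoin A.F
      (Set.range (fun d : A.D => (NC.C d : NC (Fin m) A.D)) ∪
      Set.range (fun c => (NC.map (algebraMap A.F A.D) (Θ c) : NC (Fin m) A.D))),
      M.hX X hX.x0 g ∈ B' := by
    intro g hg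
    induction hg using Algebra.adjoin_induction with
    | mem g hg =>
      rcases hg with ⟨d, rfl⟩ | ⟨c, rfl⟩
      · change M.hX X hX.x0 (NC.C d) ∈ B'
        rw [M.hX_C]
        exact hCB _
      · change M.hX X hX.x0 (NC.map (algebraMap A.F A.D) (Θ c)) ∈ B'
        have key : M.hX X hX.x0 (NC.map (algebraMap A.F A.D) (Θ c)) =
            NC.C (M.incE (LD.ofPS (M.hE0 X hX.x0 (Θ c) []))) +
            ∑ b, (NC.map (algebraMap (A.mv M).F (A.mv M).D) (Θ' (c, b)) :
              NC (Fin μ) (A.mv M).D) * NC.C (M.incE (LD.C (e b))) := by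
          apply NC.ext'; intro w
          rw [M.hX_map_apply, NC.add_apply, NC.sum_apply]
          by_cases hw : w = []
          · subst hw
            rw [NC.C_nil]
            rw [Finset.sum_eq_zero, add_zero]
            intro b _
            rw [NC.mul_C_apply, NC.map_apply, h0, map_zero, zero_mul]
          · have hC : (NC.C (M.incE (LD.ofPS (M.hE0 X hX.x0 (Θ c) []))) :
                NC (Fin μ) (A.mv M).D) w = 0 := by
              cases w with
              | nil => exact absurd rfl hw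
              | cons s w => rfl
            rw [hC, zero_add, hΘ' c w hw, map_sum]
            refine Finset.sum_congr rfl fun b _ => ?_
            rw [map_mul, M.incE_toLD, NC.mul_C_apply, NC.map_apply]
        rw [key]
        refine B'.add_mem (hCB _) (B'.sum_mem fun b _ => B'.mul_mem (hΘB _) (hCB _))
    | algebraMap c =>
      rw [NC.algebraMap_eq, M.hX_C]
      exact hCB _
    | add g₁ g₂ _ _ h₁ h₂ =>
      rw [map_add]
      exact B'.add_mem h₁ h₂
    | mul g₁ g₂ _ _ h₁ h₂ =>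
      rw [map_mul]
      exact B'.mul_mem h₁ h₂
  obtain ⟨g, hg, hgw⟩ := closure_move M X hX.x0 1 1
    (Algebra.adjoin A.F (Set.range (fun d : A.D => (NC.C d : NC (Fin m) A.D)) ∪
      Set.range (fun c => (NC.map (algebraMap A.F A.D) (Θ c) : NC (Fin m) A.D))) : Set _)
    (Subalgebra.toSubmodule B') (fun g hg => by
      rw [one_mul, mul_one]; exact hG g hg) (v * a * v') hcl k
  exact ⟨g, hg, fun w hw => by rw [← hgw w hw, one_mul, mul_one]⟩

/-- conjugation of algebraic elements -/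
theorem isAlgebraic_of_conj {F B : Type} [Field F] [Ring B] [Algebra F B] {a v v' : B}
    (hv : v * v' = 1) (hv' : v' * v = 1) (h : IsAlgebraic F (v * a * v')) : IsAlgebraic F a := by
  obtain ⟨p, hp0, hp⟩ := h
  refine ⟨p, hp0, ?_⟩
  have hpow : ∀ n : ℕ, (v * a * v') ^ n = v * a ^ n * v' := by
    intro n
    induction n with
    | zero => rw [pow_zero, pow_zero, mul_one, hv]
    | succ n ih =>
      rw [pow_succ, ih, pow_succ]
      calc v * a ^ n * v' * (v * a * v') = v * a ^ n * (v' * v) * a * v' := by noncomm_ring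
        _ = v * (a ^ n * a) * v' := by rw [hv']; noncomm_ring
  have hconj : Polynomial.aeval (v * a * v') p = v * Polynomial.aeval a p * v' := by
    rw [Polynomial.aeval_eq_sum_range, Polynomial.aeval_eq_sum_range, Finset.mul_sum,
      Finset.sum_mul]
    refine Finset.sum_congr rfl fun i _ => ?_
    rw [hpow, mul_smul_comm, smul_mul_assoc]
  calc Polynomial.aeval a p = (v' * v) * Polynomial.aeval a p * (v' * v) := by
        rw [hv', one_mul, mul_one]
    _ = v' * (v * Polynomial.aeval a p * v') * v := by noncomm_ring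
    _ = 0 := by rw [← hconj, hp, mul_zero, zero_mul]

theorem isAlgebraic_NC_C {F D : Type} [Field F] [Ring D] [Algebra F D] [FiniteDimensional F D]
    {σ : Type} (d : D) : IsAlgebraic F (NC.C d : NC σ D) := by
  obtain ⟨p, hp0, hp⟩ := Algebra.IsAlgebraic.isAlgebraic (R := F) d
  refine ⟨p, hp0, ?_⟩
  have : Polynomial.aeval (NC.C d : NC σ D) p = NC.C (Polynomial.aeval d p) := by
    rw [Polynomial.aeval_eq_sum_range, Polynomial.aeval_eq_sum_range, map_sum]
    refine Finset.sum_congr rfl fun i _ => ?_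
    rw [Algebra.smul_def, Algebra.smul_def, map_mul, map_pow, NC.algebraMap_eq]
  rw [this, hp, map_zero]

/-- end of Theorem S -/
theorem PRS.final {A : DA} {m : ℕ} {κ : Type} {Θ : κ → NC (Fin m) A.F} (h : PRS P A m Θ)
    (hΘ : ∀ c, Θ c = 0) : ∃ a : NC (Fin m) A.D, P A m a ∧ IsAlgebraic A.F a := by
  obtain ⟨a, v, v', hv, hv', hPa, hcl⟩ := h.rep
  refine ⟨a, hPa, isAlgebraic_of_conj hv hv' ?_⟩
  have hconst : ∀ g ∈ Algebra.adjoin A.F
      (Set.range (fun d : A.D => (NC.C d : NC (Fin m) A.D)) ∪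
      Set.range (fun c => (NC.map (algebraMap A.F A.D) (Θ c) : NC (Fin m) A.D))),
      ∃ d : A.D, g = NC.C d := by
    intro g hg
    induction hg using Algebra.adjoin_induction with
    | mem g hg =>
      rcases hg with ⟨d, rfl⟩ | ⟨c, rfl⟩
      · exact ⟨d, rfl⟩
      · refine ⟨0, ?_⟩
        change NC.map (algebraMap A.F A.D) (Θ c) = _
        rw [hΘ c, map_zero, map_zero]
    | algebraMap c => exact ⟨algebraMap A.F A.D c, NC.algebraMap_eq c⟩
    | add g₁ g₂ _ _ h₁ h₂ =>
      obtain ⟨d₁, rfl⟩ := h₁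
      obtain ⟨d₂, rfl⟩ := h₂
      exact ⟨d₁ + d₂, (map_add _ _ _).symm⟩
    | mul g₁ g₂ _ _ h₁ h₂ =>
      obtain ⟨d₁, rfl⟩ := h₁
      obtain ⟨d₂, rfl⟩ := h₂
      exact ⟨d₁ * d₂, (map_mul _ _ _).symm⟩
  have hb : v * a * v' = NC.C ((v * a * v') []) := by
    apply NC.ext'; intro w
    obtain ⟨g, hg, hgw⟩ := hcl (w.length + 1)
    obtain ⟨d, rfl⟩ := hconst g hg
    rw [hgw w (Nat.lt_succ_self _), hgw [] (by simp)]
    rw [NC.C_nil]
  rw [hb]
  exact isAlgebraic_NC_C _

/-- from a representation to a plain one: all coefficients of `γ` in the span of the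
family `b`, with coordinates `Θ`. -/
theorem RS.toPRS {A : DA} {m : ℕ} {Λ : Subalgebra A.F A.D} {γ : NC (Fin m) A.D}
    (h : RS P A m Λ γ) {κ : Type} [Fintype κ] (b : κ → A.D) (Θ : κ → NC (Fin m) A.F)
    (h0 : ∀ c, Θ c [] = 0) (hγ : ∀ w, γ w = ∑ c, Θ c w • b c) : PRS P A m Θ := by
  refine ⟨h0, ?_⟩
  obtain ⟨a, v, v', hv, hv', hPa, hcl⟩ := h.rep
  refine ⟨a, v, v', hv, hv', hPa, fun k => ?_⟩
  obtain ⟨g, hg, hgw⟩ := hcl k
  refine ⟨g, ?_, hgw⟩
  have hle : Algebra.adjoin A.F ((fun d => (NC.C d : NC (Fin m) A.D)) '' (Λ : Set A.D) ∪ {γ}) ≤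
      Algebra.adjoin A.F (Set.range (fun d : A.D => (NC.C d : NC (Fin m) A.D)) ∪
      Set.range (fun c => (NC.map (algebraMap A.F A.D) (Θ c) : NC (Fin m) A.D))) := by
    refine Algebra.adjoin_le ?_
    rintro _ (⟨d, _, rfl⟩ | hx)
    · exact Algebra.subset_adjoin (Or.inl ⟨d, rfl⟩)
    · rw [Set.mem_singleton_iff.1 hx]
      have e : γ = ∑ c, (NC.map (algebraMap A.F A.D) (Θ c) : NC (Fin m) A.D) * NC.C (b c) := by
        apply NC.ext'; intro w
        rw [NC.sum_apply, hγ w]
        refine Finset.sum_congr rfl fun c _ => ?_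
        rw [NC.mul_C_apply, NC.map_apply, Algebra.smul_def]
      rw [SetLike.mem_coe, e]
      exact Subalgebra.sum_mem _ fun c _ => Subalgebra.mul_mem _
        (Algebra.subset_adjoin (Or.inr ⟨c, rfl⟩)) (Algebra.subset_adjoin (Or.inl ⟨b c, rfl⟩))
  exact hle hg

end Crest.Agent.R180
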