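import Crest.Agent.R180.MinStep
import Crest.Agent.R180.MinTaylor2
import Crest.Agent.R180.MinTr
import Crest.Agent.R180.PRS

set_option autoImplicit false
set_option linter.unusedSectionVars false

/-! # Row 180, ROUTE M: derivatives are values of `γ'₁`, liveness is inherited -/

noncomputable section
namespace Crest.Agent.R180

open TensorProduct

variable {P : (A : DA) → (m : ℕ) → NC (Fin m) A.D → Prop}

/-- factoring out the order -/
theorem LD.exists_factor' {K : Type} [Ring K] (x : LD K) (q : ℤ) (h : ∀ n < q, x.co n = 0) :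
    ∃ y : LD K, x = LD.tp q * y ∧ LD.IsInt y := by
  refine ⟨LD.tp (-q) * x, ?_, ?_⟩
  · rw [← mul_assoc, LD.tp_mul_tp, add_neg_cancel, LD.tp_zero, one_mul]
  · intro n hn
    rw [LD.co_tp_mul]; exact h _ (by omega)

/-- orders add up -/
theorem LD.co_mul_of_bound {K : Type} [Ring K] (x y : LD K) (a b : ℤ)
    (hx : ∀ n < a, x.co n = 0) (hy : ∀ n < b, y.co n = 0) : ∀ n < a + b, (x * y).co n = 0 := by
  obtain ⟨x', rfl, hx'⟩ := LD.exists_factor' x a hx
  obtain ⟨y', rfl, hy'⟩ := LD.exists_factor' y b hy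
  intro n hn
  have h1 : (LD.tp a * x') * (LD.tp b * y') = LD.tp (a + b) * (x' * y') := by
    rw [mul_assoc, ← mul_assoc x', ← LD.tp_commute b x', mul_assoc, ← mul_assoc, LD.tp_mul_tp]
  rw [h1, LD.co_tp_mul]
  exact (hx'.mul hy') _ (by omega)

section Rel
variable {A : DA} (M : Adm A) {m : ℕ}

theorem LD.map_smul_LF (l : LF M.F1) (x : LD M.E) :
    LD.map M.jE (l • x) = (l • (LD.map M.jE x) : LD M.D0) := by
  rw [LD.smul_def, LD.smul_def, map_mul]
  congr 1

theorem LD.map_ofPS' (x : PowerSeries M.E) :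
    LD.map M.jE (LD.ofPS x) = (LD.ofPS (PowerSeries.map M.jE x) : LD M.D0) :=
  (LD.ofPS_map M.jE x).symm

theorem LD.comm_C_jD (G : LD M.E) (a : A.D) :
    LD.map M.jE G * LD.C (M.jD a) = LD.C (M.jD a) * (LD.map M.jE G : LD M.D0) := by
  apply LD.ext; intro n
  rw [LD.mul_C_co, LD.C_mul_co, LD.co_map, M.jE_jD_comm]

/-- relations between directions give relations between derivatives -/
theorem dv_rel (z v : Fin m → PowerSeries M.E) (hz : ∀ j, PowerSeries.constantCoeff (z j) = 0)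
    {μ : ℕ} (d : Fin μ → Fin m → PowerSeries M.E) (l : Fin μ → LF M.F1) (g : LD M.E)
    (h : ∀ j, (LD.ofPS (v j) : LD M.E) = ∑ i, l i • (LD.ofPS (d i j) : LD M.E) +
      (g * LD.ofPS (z j) - LD.ofPS (z j) * g)) (f : NC (Fin m) A.D) :
    (LD.ofPS (M.dv z v f) : LD M.D0) = ∑ i, l i • (LD.ofPS (M.dv z (d i) f) : LD M.D0) +
      (LD.map M.jE g * LD.ofPS (M.ev z f) - LD.ofPS (M.ev z f) * LD.map M.jE g) := by
  classical
  set G : LD M.D0 := LD.map M.jE g with hG
  set Z : Fin m → LD M.D0 := fun j => LD.ofPS (PowerSeries.map M.jE (z j)) with hZ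
  have h' : ∀ j, (LD.ofPS (PowerSeries.map M.jE (v j)) : LD M.D0) =
      ∑ i, l i • (LD.ofPS (PowerSeries.map M.jE (d i j)) : LD M.D0) + (G * Z j - Z j * G) := by
    intro j
    have h1 := congrArg (LD.map M.jE) (h j)
    rw [map_add, map_sub, map_mul, map_mul, map_sum] at h1
    simp only [LD.map_smul_LF, LD.map_ofPS'] at h1
    exact h1
  let Δ : NC (Fin m) A.D → LD M.D0 := fun f =>
    LD.ofPS (M.dv z v f) - ∑ i, l i • (LD.ofPS (M.dv z (d i) f) : LD M.D0) -
      (G * LD.ofPS (M.ev z f) - LD.ofPS (M.ev z f) * G)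
  have hrec : ∀ f, Δ f = ∑ j, Z j * Δ (NC.ld j f) := by
    intro f
    have e1 : ∀ (w : Fin m → PowerSeries M.E) (f : NC (Fin m) A.D),
        (LD.ofPS (M.dv z w f) : LD M.D0) =
        ∑ j, (LD.ofPS (PowerSeries.map M.jE (w j)) * LD.ofPS (M.ev z (NC.ld j f)) +
          Z j * LD.ofPS (M.dv z w (NC.ld j f))) := by
      intro w f
      conv_lhs => rw [dv_rec M z w hz f]
      rw [map_sum]
      exact Finset.sum_congr rfl fun j _ => by rw [map_add, map_mul, map_mul]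
    have e2 : (LD.ofPS (M.ev z f) : LD M.D0) = LD.C (M.jD (f [])) +
        ∑ j, Z j * LD.ofPS (M.ev z (NC.ld j f)) := by
      conv_lhs => rw [ev_rec M z hz f]
      rw [map_add, map_sum]
      congr 1
      exact Finset.sum_congr rfl fun j _ => by rw [map_mul]
    have e3 : G * LD.ofPS (M.ev z f) - LD.ofPS (M.ev z f) * G =
        ∑ j, ((G * Z j - Z j * G) * LD.ofPS (M.ev z (NC.ld j f)) +
          Z j * (G * LD.ofPS (M.ev z (NC.ld j f)) - LD.ofPS (M.ev z (NC.ld j f)) * G)) := by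
      rw [e2, mul_add, add_mul, LD.comm_C_jD, add_sub_add_left_eq_sub, Finset.mul_sum,
        Finset.sum_mul, ← Finset.sum_sub_distrib]
      refine Finset.sum_congr rfl fun j _ => ?_
      simp only [sub_mul, mul_sub, mul_assoc]
      abel
    have e4 : ∑ i, l i • (LD.ofPS (M.dv z (d i) f) : LD M.D0) =
        ∑ j, ((∑ i, l i • (LD.ofPS (PowerSeries.map M.jE (d i j)) : LD M.D0)) *
          LD.ofPS (M.ev z (NC.ld j f)) +
          Z j * ∑ i, l i • (LD.ofPS (M.dv z (d i) (NC.ld j f)) : LD M.D0)) := by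
      have e5 : ∀ i, l i • (LD.ofPS (M.dv z (d i) f) : LD M.D0) =
          ∑ j, (l i • (LD.ofPS (PowerSeries.map M.jE (d i j)) : LD M.D0) *
            LD.ofPS (M.ev z (NC.ld j f)) +
            Z j * l i • (LD.ofPS (M.dv z (d i) (NC.ld j f)) : LD M.D0)) := by
        intro i
        rw [e1 (d i) f, Finset.smul_sum]
        refine Finset.sum_congr rfl fun j _ => ?_
        rw [smul_add, smul_mul_assoc, mul_smul_comm]
      rw [Finset.sum_congr rfl fun i _ => e5 i, Finset.sum_comm]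
      refine Finset.sum_congr rfl fun j _ => ?_
      rw [Finset.sum_add_distrib, Finset.sum_mul, Finset.mul_sum]
    change LD.ofPS (M.dv z v f) - ∑ i, l i • (LD.ofPS (M.dv z (d i) f) : LD M.D0) -
      (G * LD.ofPS (M.ev z f) - LD.ofPS (M.ev z f) * G) = _
    rw [e1 v f, e3, e4, ← Finset.sum_sub_distrib, ← Finset.sum_sub_distrib]
    refine Finset.sum_congr rfl fun j _ => ?_
    change _ = Z j * (LD.ofPS (M.dv z v (NC.ld j f)) -
      ∑ i, l i • (LD.ofPS (M.dv z (d i) (NC.ld j f)) : LD M.D0) -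
      (G * LD.ofPS (M.ev z (NC.ld j f)) - LD.ofPS (M.ev z (NC.ld j f)) * G))
    rw [h' j]
    simp only [mul_sub, add_mul, sub_mul, mul_assoc]
    abel
  -- uniform lower bound for the orders
  obtain ⟨N, hN1, hN2, hN3⟩ : ∃ N : ℤ, (∀ i, ∀ n < N, (l i).co n = 0) ∧
      (∀ n < N, G.co n = 0) ∧ N ≤ 0 := by
    obtain ⟨N2, hN2⟩ := LD.exists_bound G
    choose N1 hN1 using fun i : Fin μ =>
      (⟨HahnSeries.order (l i : HahnSeries ℤ M.F1),
        fun _ hn => HahnSeries.coeff_eq_zero_of_lt_order hn⟩ :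
        ∃ N : ℤ, ∀ n < N, (l i).co n = 0)
    obtain ⟨N3, hN3⟩ : ∃ N3 : ℤ, ∀ i, N3 ≤ N1 i := by
      obtain ⟨B, hB⟩ := (Set.finite_range N1).bddBelow
      exact ⟨B, fun i => hB ⟨i, rfl⟩⟩
    refine ⟨min 0 (min N2 N3), fun i n hn => hN1 i n ?_, fun n hn => hN2 n ?_, min_le_left _ _⟩
    · have := hN3 i; omega
    · omega
  have hG0 : ∀ x : PowerSeries M.D0, (∀ k < N, (G * LD.ofPS x).co k = 0) ∧
      ∀ k < N, (LD.ofPS x * G : LD M.D0).co k = 0 := by
    intro x
    constructor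
    · intro k hk
      exact LD.co_mul_of_bound G (LD.ofPS x) N 0 hN2 (LD.isInt_ofPS x) k (by omega)
    · intro k hk
      exact LD.co_mul_of_bound (LD.ofPS x) G 0 N (LD.isInt_ofPS x) hN2 k (by omega)
  have hlow : ∀ f, ∀ k < N, (Δ f).co k = 0 := by
    intro f k hk
    change (LD.ofPS (M.dv z v f) - ∑ i, l i • (LD.ofPS (M.dv z (d i) f) : LD M.D0) -
      (G * LD.ofPS (M.ev z f) - LD.ofPS (M.ev z f) * G) : LD M.D0).co k = 0
    rw [LD.co_sub, LD.co_sub, LD.co_sub, LD.co_sum, (hG0 _).1 k hk, (hG0 _).2 k hk,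
      LD.isInt_ofPS _ k (by omega), Finset.sum_eq_zero]
    · simp
    · intro i _
      exact (LD.co_smul_of_bound (l i) _ N (hN1 i) (LD.isInt_ofPS _)).1 k hk
  have key : ∀ n : ℕ, ∀ f, ∀ k : ℤ, k < N + n → (Δ f).co k = 0 := by
    intro n
    induction n with
    | zero => intro f k hk; exact hlow f k (by simpa using hk)
    | succ n ih =>
      intro f k hk
      rw [hrec, LD.co_sum]
      refine Finset.sum_eq_zero fun j _ => ?_
      refine LD.co_mul_of_bound (Z j) (Δ (NC.ld j f)) 1 (N + n) ?_ (ih _) k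
        (by push_cast at hk; omega)
      intro n hn
      rcases lt_or_ge n 0 with h | h
      · exact LD.co_ofPS_neg _ _ h
      · have : n = 0 := by omega
        subst this
        have h2 := LD.co_ofPS (PowerSeries.map M.jE (z j)) 0
        rw [Nat.cast_zero] at h2
        rw [hZ, h2, PowerSeries.coeff_map, PowerSeries.coeff_zero_eq_constantCoeff_apply, hz,
          map_zero]
  have h0 : Δ f = 0 := by
    apply LD.ext; intro k
    obtain ⟨n, hn⟩ : ∃ n : ℕ, k < N + n := ⟨(k - N + 1).toNat, by omega⟩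
    rw [key n f k hn]
    rfl
  have h1 : LD.ofPS (M.dv z v f) - ∑ i, l i • (LD.ofPS (M.dv z (d i) f) : LD M.D0) -
      (G * LD.ofPS (M.ev z f) - LD.ofPS (M.ev z f) * G) = 0 := h0
  rw [sub_sub, sub_eq_zero] at h1
  exact h1

end Rel

/-- consequence: modulo `[c₀, ·]` every derivative is a value of `γ'₁` -/
theorem Step.exists_T {A : DA} {m : ℕ} {Λ : Subalgebra A.F A.D} {γ : NC (Fin m) A.D} {M : Adm A}
    {z : Fin m → PowerSeries M.E} (hz : GenPt M z) (st : Step P Λ γ M z)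
    (v : Fin m → PowerSeries M.E) : ∃ T ∈ st.U, ∃ x : LD M.D0,
      T = LD.ofPS (M.dv z v γ) -
        (LD.ofPS (M.ev z γ) * x - x * LD.ofPS (M.ev z γ)) := by
  obtain ⟨l, g, hlg⟩ := st.full (fun j => LD.ofPS (v j))
  have h1 := dv_rel M z v hz.z0 st.dir l g hlg γ
  set c : LD M.D0 := LD.ofPS (M.ev z γ) with hc
  set G : LD M.D0 := LD.map M.jE g with hG
  have hT : Crest.Agent.R180.lin (A := A.mv M) st.γ' l = ∑ i, l i • (st.γ' [i] : LD M.D0) :=
    lin_apply (A := A.mv M) st.γ' l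
  refine ⟨Crest.Agent.R180.lin (A := A.mv M) st.γ' l, ⟨l, rfl⟩, (∑ i, l i • st.κ i) - G, ?_⟩
  rw [hT, h1]
  have h2 : ∑ i, l i • (st.γ' [i] : LD M.D0) =
      ∑ i, (l i • (LD.ofPS (M.dv z (st.dir i) γ) : LD M.D0) -
        (c * (l i • st.κ i) - (l i • st.κ i) * c)) := by
    refine Finset.sum_congr rfl fun i _ => ?_
    rw [st.lin i, smul_sub, smul_sub, ← hc, mul_smul_comm, smul_mul_assoc]
  rw [h2, Finset.sum_sub_distrib, Finset.sum_sub_distrib, ← Finset.mul_sum, ← Finset.sum_mul]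
  simp only [mul_sub, sub_mul]
  abel

theorem PS.coeff_l1_zero {A : DA} {m : ℕ} (M : Adm A) (w : Fin m → A.F) (γ : NC (Fin m) A.D) :
    M.l1 (fun j => PowerSeries.C (algebraMap A.F M.E (w j))) γ =
      PowerSeries.C (M.jD (lin γ w)) := by
  unfold Adm.l1
  rw [lin_apply, map_sum, map_sum]
  refine Finset.sum_congr rfl fun j _ => ?_
  rw [PowerSeries.map_C, ← map_mul, ← jD_algebraMap, ← map_mul, ← Algebra.smul_def]

/-- liveness is inherited -/
theorem Step.live {A : DA} {m : ℕ} {Λ : Subalgebra A.F A.D} {γ : NC (Fin m) A.D} {M : Adm A}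
    {z : Fin m → PowerSeries M.E} (hz : GenPt M z) (st : Step P Λ γ M z) (h : Live Λ γ) :
    Live (A := A.mv M) (M.adj Λ (M.ev z γ)) st.γ' := by
  obtain ⟨t, ht, a, haΛ, b, ⟨w, rfl⟩, hab⟩ := h
  obtain ⟨tE, htE⟩ := exists_isTrE M
  set v : Fin m → PowerSeries M.E := fun j => PowerSeries.C (algebraMap A.F M.E (w j)) with hv
  obtain ⟨T, hT, x, hTx⟩ := Step.exists_T hz st v
  set c : LD M.D0 := LD.ofPS (M.ev z γ) with hc
  set t' : LD M.D0 →ₗ[LF M.F1] LF M.F1 := LD.mapL (M.tt tE t) with ht'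
  have htr := isTr_mv M ht htE
  have hcomm : ∀ x y, t' (x * y) = t' (y * x) := htr.1
  have haΛ' : (LD.C (M.jD a) : LD M.D0) ∈ M.adj Λ (M.ev z γ) :=
    Algebra.subset_adjoin (Or.inl ⟨a, haΛ, rfl⟩)
  have hcΛ' : c ∈ M.adj Λ (M.ev z γ) := Algebra.subset_adjoin (Or.inr rfl)
  have hac : (LD.C (M.jD a) : LD M.D0) * c = c * LD.C (M.jD a) :=
    st.rs.comm _ haΛ' _ hcΛ'
  refine ⟨t', htr, LD.C (M.jD a), haΛ', T, hT, ?_⟩
  have h1 : t' (LD.C (M.jD a) * T) = t' (LD.C (M.jD a) * LD.ofPS (M.dv z v γ)) := by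
    rw [hTx, mul_sub, map_sub, mul_sub, map_sub, ← mul_assoc, hac, mul_assoc, hcomm c,
      ← mul_assoc, sub_self, sub_zero]
  -- the residue
  obtain ⟨y, hy⟩ := dv_lead M z v 1 0 le_rfl (fun j => by
      rw [← ord_iff]
      exact Ord.of_const (hz.z0 j)) (fun j => ⟨v j, by rw [pow_zero, one_mul]⟩) γ
  rw [hv, PS.coeff_l1_zero] at hy
  have h2 : (LD.C (M.jD a) * LD.ofPS (M.dv z v γ) : LD M.D0).co 0 =
      (1 : M.E) ⊗ₜ[A.F] (a * Crest.Agent.R180.lin γ w) := by
    rw [LD.C_mul_co]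
    have h3 : (LD.ofPS (M.dv z v γ) : LD M.D0).co 0 = PowerSeries.coeff 0 (M.dv z v γ) :=
      LD.co_ofPS _ 0
    rw [h3, hv, hy, map_add]
    have h4 : PowerSeries.coeff 0 (PowerSeries.X ^ (1 + 0) * y) = 0 := by
      rw [PowerSeries.coeff_X_pow_mul', if_neg (by omega)]
    rw [h4, add_zero, PowerSeries.coeff_zero_C]
    change ((1 : M.E) ⊗ₜ[A.F] a) * ((1 : M.E) ⊗ₜ[A.F] (Crest.Agent.R180.lin γ w)) = _
    rw [Algebra.TensorProduct.tmul_mul_tmul, mul_one]
  intro h0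
  change t' (LD.C (M.jD a) * T) = 0 at h0
  rw [h1] at h0
  have h5 := congrArg (fun x : LF M.F1 => x.co 0) h0
  simp only [ht', LD.co_mapL, h2, MinTr.tt_tmul] at h5
  have h6 : algebraMap A.F M.F1 (t (a * Crest.Agent.R180.lin γ w)) * tE 1 = 0 := h5
  rcases mul_eq_zero.mp h6 with h7 | h7
  · exact hab ((FaithfulSMul.algebraMap_eq_zero_iff _ _).mp h7)
  · exact htE.2 h7

/-- the new state -/
def Step.toSt {S : St P} {M : Adm S.A} {z : Fin S.m → PowerSeries M.E} (hz : GenPt M z)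
    (st : Step P S.Λ S.γ M z) : St P where
  A := S.A.mv M
  m := st.μ
  hm := by
    have h1 := st.hμ
    have h2 : 0 < Module.finrank M.F1 M.E := Module.finrank_pos
    have h3 := S.hm
    have h4 : 1 * 1 ≤ (S.m - 1) * Module.finrank M.F1 M.E :=
      Nat.mul_le_mul (by omega) h2
    omega
  Λ := M.adj S.Λ (M.ev z S.γ)
  γ := st.γ'
  rs := st.rs
  live := st.live hz S.live

end Crest.Agent.R180
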