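import Crest.Agent.R180.MinKer6Core
import Crest.Agent.R180.MinStart
import Crest.Agent.R180.MinSt
import Crest.Agent.R180.MinTr
import Crest.Agent.R180.MinPE
import Crest.Agent.R180.MinLive

set_option autoImplicit false
noncomputable section
namespace Crest.Agent.R180

open TensorProduct

variable {P : (A : DA) → (m : ℕ) → NC (Fin m) A.D → Prop}

theorem finrank_ker6 (hP : MoveClosed P) {S : St P} {N : ℕ} {M : PE S.A N}
    {z : Fin S.m → PowerSeries M.E}
    (hz : GenPt M.toAdm z) (st : Step P S.Λ S.γ M.toAdm z) (hsd : (st.toSt hz).sd = S.sd)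
    (h1 : (st.toSt hz).Good1)
    (hPsi : Module.finrank (LF M.F1) st.Psi = N * Module.finrank S.A.F S.Psi) :
    Module.finrank (st.toSt hz).A.F (LinearMap.ker (lin (st.toSt hz).γ)) +
      N * Module.finrank S.A.F S.Psi = (S.m - 1) * (N * N) + 1 + S.sd := by
  obtain ⟨t, ht⟩ := exists_isTr (st.toSt hz).A
  have hle : Module.finrank (LF M.F1) st.U ≤ Module.finrank (LF M.F1) st.Psi :=
    ((st.toSt hz).finrank_HH (h1.lin_mem hP) ht).2
  have hs : Module.finrank (LF M.F1) st.Psi - Module.finrank (LF M.F1) st.U = S.sd := hsd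
  have hk : Module.finrank (st.toSt hz).A.F (LinearMap.ker (lin (st.toSt hz).γ)) +
      Module.finrank (LF M.F1) st.U = (S.m - 1) * Module.finrank M.F1 M.E + 1 := finrank_ker_step st
  rw [M.finrank_E] at hk
  rw [← hPsi]
  omega

end Crest.Agent.R180
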