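import Crest.Agent.R180.MinDefs

set_option autoImplicit false
noncomputable section
namespace Crest.Agent.R180

variable {P : (A : DA) → (m : ℕ) → NC (Fin m) A.D → Prop}

/-- nondegenerate minimal states: all `q_h`, `0 ≠ h ∈ 𝓗`, have large rank on `V = ker γ₁`
(same text as `St.NDeg` of `IfMin.lean`) -/
def St.NDeg (S : St P) : Prop :=
  S.Good4 ∧ S.sd + 2 ≤ Module.finrank S.A.F (LinearMap.ker (lin S.γ)) ∧
  ∃ t : S.A.D →ₗ[S.A.F] S.A.F, IsTr t ∧ ∀ h ∈ HH t S.U, h ≠ 0 →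
    3 * S.sd ≤ brk (qH S.γ t h) (LinearMap.ker (lin S.γ))

end Crest.Agent.R180
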