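import Crest.Agent.R180.MinDefs
import Crest.Agent.R180.LaurentLemmas

set_option autoImplicit false
set_option linter.unusedSectionVars false
noncomputable section

/-!
# Row 180, ROUTE M, step (VI): dimension count for the linear part
-/

namespace Crest.Agent.R180

open TensorProduct

namespace MinVI

/-- rank-nullity for the image of a subspace -/
theorem finrank_add_range_le {k V W : Type} [Field k] [AddCommGroup V] [Module k V]
    [AddCommGroup W] [Module k W] [FiniteDimensional k V] (f : V →ₗ[k] W) (Q : Submodule k V) :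
    Module.finrank k Q + Module.finrank k (LinearMap.range f) ≤
      Module.finrank k (Q.map f) + Module.finrank k V := by
  have h1 := LinearMap.finrank_range_add_finrank_ker (f.domRestrict Q)
  have h2 : LinearMap.range (f.domRestrict Q) = Q.map f := by
    rw [LinearMap.domRestrict, LinearMap.range_comp, Submodule.range_subtype]
  have h3 : Module.finrank k (LinearMap.ker (f.domRestrict Q)) ≤
      Module.finrank k (LinearMap.ker f) := by
    have h4 : (LinearMap.ker (f.domRestrict Q)).map Q.subtype ≤ LinearMap.ker f := by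
      rintro _ ⟨x, hx, rfl⟩
      exact hx
    rw [← Submodule.finrank_map_subtype_eq Q (LinearMap.ker (f.domRestrict Q))]
    exact Submodule.finrank_mono h4
  have h4 := LinearMap.finrank_range_add_finrank_ker f
  rw [h2] at h1
  omega

variable {A : DA} (M : Adm A) {m : ℕ} (γ : NC (Fin m) A.D)

/-- the leading term of the linear part at constant vectors -/
def xi : (Fin m → M.E) →ₗ[M.F1] M.D0 where
  toFun v := ∑ j, v j ⊗ₜ[A.F] γ [j]
  map_add' v w := by simp [TensorProduct.add_tmul, Finset.sum_add_distrib]
  map_smul' c v := by simp [Finset.smul_sum, TensorProduct.smul_tmul']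

theorem xi_apply (v : Fin m → M.E) : xi M γ v = ∑ j, v j ⊗ₜ[A.F] γ [j] := rfl

/-- `E ⊗ U` is contained in the range -/
theorem tmul_mem_range_xi (e : M.E) {a : A.D} (ha : a ∈ UU γ) :
    e ⊗ₜ[A.F] a ∈ LinearMap.range (xi M γ) := by
  obtain ⟨x, rfl⟩ := ha
  refine ⟨fun j => x j • e, ?_⟩
  rw [xi_apply, lin_apply, TensorProduct.tmul_sum]
  refine Finset.sum_congr rfl fun j _ => ?_
  rw [TensorProduct.smul_tmul]

/-- `e_a ⊗ b_i` is an independent family -/
theorem linearIndependent_tmul {ι κ : Type} (e : ι → M.E) (he : LinearIndependent M.F1 e)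
    (b : κ → A.D) (hb : LinearIndependent A.F b) :
    LinearIndependent M.F1 fun p : ι × κ => (e p.1 ⊗ₜ[A.F] b p.2 : M.E ⊗[A.F] A.D) := by
  have h1 : LinearIndependent M.E (fun i => ((1 : M.E) ⊗ₜ[A.F] b i : M.E ⊗[A.F] A.D)) :=
    Module.Flat.linearIndependent_one_tmul hb
  have h2 := linearIndependent_smul he h1
  have h3 : (fun p : ι × κ => (e p.1 ⊗ₜ[A.F] b p.2 : M.E ⊗[A.F] A.D)) =
      fun p : ι × κ => e p.1 • ((1 : M.E) ⊗ₜ[A.F] b p.2) := by
    funext p
    rw [TensorProduct.smul_tmul', smul_eq_mul, mul_one]
  rw [h3]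
  exact h2

theorem le_finrank_range_xi :
    Module.finrank M.F1 M.E * Module.finrank A.F (UU γ) ≤
      Module.finrank M.F1 (LinearMap.range (xi M γ)) := by
  classical
  let e := Module.finBasis M.F1 M.E
  let b := Module.finBasis A.F (UU γ)
  have hb : LinearIndependent A.F (fun i => (b i : A.D)) :=
    b.linearIndependent.map' (UU γ).subtype (Submodule.ker_subtype _)
  have h1 := linearIndependent_tmul M e e.linearIndependent _ hb
  have h2 := finrank_span_eq_card h1
  rw [Fintype.card_prod, Fintype.card_fin, Fintype.card_fin] at h2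
  rw [← h2]
  refine Submodule.finrank_mono ?_
  rw [Submodule.span_le]
  rintro _ ⟨p, rfl⟩
  exact tmul_mem_range_xi M γ _ (b p.2).2

/-- **dimension of the space of leading terms** -/
theorem finrank_span_xi {p : ℕ} (v : Fin p → Fin m → M.E) (hv : LinearIndependent M.F1 v) :
    p + Module.finrank M.F1 M.E * Module.finrank A.F (UU γ) ≤
      Module.finrank M.F1 (Submodule.span M.F1 (Set.range fun i => xi M γ (v i))) +
        m * Module.finrank M.F1 M.E := by
  have h1 := finrank_add_range_le (xi M γ) (Submodule.span M.F1 (Set.range v))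
  have h2 := finrank_span_eq_card hv
  rw [Fintype.card_fin] at h2
  have h3 : (Submodule.span M.F1 (Set.range v)).map (xi M γ) =
      Submodule.span M.F1 (Set.range fun i => xi M γ (v i)) := by
    rw [Submodule.map_span]
    congr 1
    exact (Set.range_comp _ _).symm
  have h4 : Module.finrank M.F1 (Fin m → M.E) = m * Module.finrank M.F1 M.E := by
    rw [Module.finrank_pi_fintype, Finset.sum_const, Finset.card_univ, Fintype.card_fin,
      smul_eq_mul]
  have h5 := le_finrank_range_xi M γ
  rw [h2, h3, h4] at h1
  omega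

end MinVI

end Crest.Agent.R180
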