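import Crest.Agent.R180.MinDefs
import Crest.Agent.R180.MinFacts0

set_option autoImplicit false

/-!
# Row 180, ROUTE M, (VI): the rank lemma `vi_rank` (helper881)
-/

noncomputable section
namespace Crest.Agent.R180

open TensorProduct

namespace MinVI

section lin
variable {K V : Type*} [Field K] [AddCommGroup V] [Module K V] [FiniteDimensional K V]

/-- `dim (A K') + dim (ker A ⊓ K') = dim K'` -/
theorem finrank_map_add {V2 : Type*} [AddCommGroup V2] [Module K V2] (A : V →ₗ[K] V2)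
    (K' : Submodule K V) :
    Module.finrank K (K'.map A) + Module.finrank K (LinearMap.ker A ⊓ K' : Submodule K V) =
      Module.finrank K K' := by
  have h := LinearMap.finrank_range_add_finrank_ker (A.domRestrict K')
  rw [LinearMap.range_domRestrict] at h
  have h2 : Module.finrank K (LinearMap.ker (A.domRestrict K')) =
      Module.finrank K (LinearMap.ker A ⊓ K' : Submodule K V) := by
    have h3 : (LinearMap.ker (A.domRestrict K')).map K'.subtype = LinearMap.ker A ⊓ K' := by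
      ext y
      constructor
      · rintro ⟨z, hz, rfl⟩
        exact ⟨hz, z.2⟩
      · rintro ⟨hy1, hy2⟩
        exact ⟨⟨y, hy2⟩, hy1, rfl⟩
    rw [← h3]
    exact (Submodule.equivMapOfInjective K'.subtype K'.injective_subtype _).finrank_eq
  rw [h2] at h
  exact h

/-- the rank of a Gram matrix for a form that lives on `V / ker A` -/
theorem rank_ge (β : V →ₗ[K] V →ₗ[K] K) (hβ : ∀ y, (∀ k, β k y = 0) → y = 0) (A : V →ₗ[K] V)
    (hA : ∀ k, A k = 0 → ∀ y, β k (A y) = 0) {p : ℕ} (k : Fin p → V) :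
    2 * Module.finrank K (Submodule.span K (Set.range fun i => A (k i))) +
      Module.finrank K (LinearMap.ker A) ≤
      (Matrix.of fun i j => β (k i) (A (k j))).rank + Module.finrank K V := by
  classical
  set X := Submodule.span K (Set.range fun i => A (k i)) with hX
  set K' := Submodule.span K (Set.range k) ⊔ LinearMap.ker A with hK'
  have h1 : K'.map A = X := by
    have h0 : (LinearMap.ker A).map A = ⊥ := by
      rw [eq_bot_iff]
      rintro _ ⟨y, hy, rfl⟩
      exact hy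
    rw [hK', Submodule.map_sup, h0, sup_bot_eq, Submodule.map_span, ← Set.range_comp]
    rfl
  have h2 : Module.finrank K X + Module.finrank K (LinearMap.ker A) = Module.finrank K K' := by
    have := finrank_map_add A K'
    rw [h1, inf_eq_left.2 (show LinearMap.ker A ≤ K' from le_sup_right)] at this
    exact this
  let Φ : V →ₗ[K] (Fin p → K) := LinearMap.pi fun i => β (k i)
  have h3 : (Matrix.of fun i j => β (k i) (A (k j))).rank = Module.finrank K (X.map Φ) := by
    rw [Matrix.rank_eq_finrank_span_cols, hX, Submodule.map_span, ← Set.range_comp]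
    rfl
  have h4 := finrank_map_add Φ X
  have h5 : Module.finrank K (LinearMap.ker Φ ⊓ X : Submodule K V) ≤
      Module.finrank K K'.dualAnnihilator := by
    have hinj : Function.Injective β.flip := by
      rw [← LinearMap.ker_eq_bot, LinearMap.ker_eq_bot']
      intro y hy
      apply hβ
      intro z
      exact congrArg (fun g : V →ₗ[K] K => g z) hy
    rw [(Submodule.equivMapOfInjective β.flip hinj (LinearMap.ker Φ ⊓ X)).finrank_eq]
    apply Submodule.finrank_mono
    rintro _ ⟨y, ⟨hy1, hy2⟩, rfl⟩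
    rw [Submodule.mem_dualAnnihilator]
    intro w hw
    rw [hK', Submodule.mem_sup] at hw
    obtain ⟨w1, hw1, w2, hw2, rfl⟩ := hw
    rw [map_add]
    have e1 : β.flip y w1 = 0 := by
      change β w1 y = 0
      induction hw1 using Submodule.span_induction with
      | mem x hx =>
        obtain ⟨i, rfl⟩ := hx
        exact congrFun hy1 i
      | zero => simp
      | add a b _ _ ha hb => rw [map_add, LinearMap.add_apply, ha, hb, add_zero]
      | smul c a _ ha => rw [map_smul, LinearMap.smul_apply, ha, smul_zero]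
    have e2 : β.flip y w2 = 0 := by
      change β w2 y = 0
      have hyX : y ∈ X := hy2
      rw [← h1] at hyX
      obtain ⟨y', -, rfl⟩ := hyX
      exact hA w2 hw2 y'
    rw [e1, e2, add_zero]
  have h6 := Subspace.finrank_add_finrank_dualAnnihilator_eq K'
  rw [h3]
  omega

end lin

section tensor

variable {F D F1 E : Type} [Field F] [Ring D] [Algebra F D] [Field F1] [Algebra F F1]
  [Ring E] [Algebra F1 E] [Algebra F E] [IsScalarTower F F1 E]

/-- the subspace `C ⊗ Ξ` of `E ⊗ D` -/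
def TT (C : Submodule F1 E) (Ξ : Submodule F D) : Submodule F1 (E ⊗[F] D) :=
  Submodule.span F1 {y | ∃ e ∈ C, ∃ a ∈ Ξ, y = e ⊗ₜ[F] a}

theorem tmul_mem_TT {C : Submodule F1 E} {Ξ : Submodule F D} {e : E} {a : D} (he : e ∈ C)
    (ha : a ∈ Ξ) : e ⊗ₜ[F] a ∈ TT C Ξ := Submodule.subset_span ⟨e, he, a, ha, rfl⟩

theorem finrank_TT [FiniteDimensional F1 E] [FiniteDimensional F D] (C : Submodule F1 E)
    (Ξ : Submodule F D) :
    Module.finrank F1 (TT C Ξ) = Module.finrank F1 C * Module.finrank F Ξ := by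
  classical
  let bC := Module.finBasis F1 C
  let bX := Module.finBasis F Ξ
  have hC : LinearIndependent F1 (fun i => ((bC i : C) : E)) :=
    bC.linearIndependent.map' C.subtype (Submodule.ker_subtype C)
  have hXX : LinearIndependent F (fun i => ((bX i : Ξ) : D)) :=
    bX.linearIndependent.map' Ξ.subtype (Submodule.ker_subtype Ξ)
  have hind := MinI.indep_tensor (F1 := F1) (E := E) _ hC _ hXX
  have hspan : TT C Ξ = Submodule.span F1 (Set.range fun p :
      Fin (Module.finrank F1 C) × Fin (Module.finrank F Ξ) =>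
      ((bC p.1 : C) : E) ⊗ₜ[F] ((bX p.2 : Ξ) : D)) := by
    apply le_antisymm
    · rw [TT, Submodule.span_le]
      rintro _ ⟨e, he, a, ha, rfl⟩
      have h1 : e = ∑ i, bC.repr ⟨e, he⟩ i • ((bC i : C) : E) := by
        have := congrArg Subtype.val (bC.sum_repr ⟨e, he⟩)
        rw [AddSubmonoidClass.coe_finsetSum] at this
        exact this.symm
      have h2 : a = ∑ i, bX.repr ⟨a, ha⟩ i • ((bX i : Ξ) : D) := by
        have := congrArg Subtype.val (bX.sum_repr ⟨a, ha⟩)
        rw [AddSubmonoidClass.coe_finsetSum] at this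
        exact this.symm
      rw [SetLike.mem_coe, h1, h2, TensorProduct.sum_tmul]
      refine Submodule.sum_mem _ fun i _ => ?_
      rw [TensorProduct.tmul_sum]
      refine Submodule.sum_mem _ fun j _ => ?_
      rw [← TensorProduct.smul_tmul', TensorProduct.tmul_smul,
        ← IsScalarTower.algebraMap_smul F1 ((bX.repr ⟨a, ha⟩) j)]
      exact Submodule.smul_mem _ _ (Submodule.smul_mem _ _ (Submodule.subset_span ⟨(i, j), rfl⟩))
    · rw [Submodule.span_le]
      rintro _ ⟨p, rfl⟩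
      exact tmul_mem_TT (bC p.1).2 (bX p.2).2
  rw [hspan, finrank_span_eq_card hind, Fintype.card_prod, Fintype.card_fin, Fintype.card_fin]

theorem TT_mul {Ψ : Subalgebra F D} {x y : E ⊗[F] D}
    (hx : x ∈ TT (F1 := F1) (E := E) ⊤ (Subalgebra.toSubmodule Ψ))
    (hy : y ∈ TT (F1 := F1) (E := E) ⊤ (Subalgebra.toSubmodule Ψ)) :
    x * y ∈ TT (F1 := F1) (E := E) ⊤ (Subalgebra.toSubmodule Ψ) := by
  induction hx using Submodule.span_induction with
  | mem x hx =>
    obtain ⟨e, -, a, ha, rfl⟩ := hx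
    induction hy using Submodule.span_induction with
    | mem y hy =>
      obtain ⟨e', -, a', ha', rfl⟩ := hy
      rw [Algebra.TensorProduct.tmul_mul_tmul]
      exact tmul_mem_TT Submodule.mem_top (Ψ.mul_mem ha ha')
    | zero => rw [mul_zero]; exact Submodule.zero_mem _
    | add p q _ _ hp hq => rw [mul_add]; exact Submodule.add_mem _ hp hq
    | smul c p _ hp => rw [mul_smul_comm]; exact Submodule.smul_mem _ _ hp
  | zero => rw [zero_mul]; exact Submodule.zero_mem _
  | add p q _ _ hp hq => rw [add_mul]; exact Submodule.add_mem _ hp hq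
  | smul c p _ hp => rw [smul_mul_assoc]; exact Submodule.smul_mem _ _ hp

/-- `E ⊗ Ψ` as a subalgebra -/
def TA (F1 E : Type) [Field F1] [Algebra F F1] [Ring E] [Algebra F1 E] [Algebra F E]
    [IsScalarTower F F1 E] (Ψ : Subalgebra F D) : Subalgebra F1 (E ⊗[F] D) where
  carrier := TT (F1 := F1) (E := E) ⊤ (Subalgebra.toSubmodule Ψ)
  mul_mem' := TT_mul
  add_mem' := Submodule.add_mem _
  algebraMap_mem' r := by
    rw [Algebra.TensorProduct.algebraMap_apply]
    exact tmul_mem_TT Submodule.mem_top Ψ.one_mem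

/-- `E`-linear extension of a projection `D → Ψ` -/
theorem exists_proj (Ψ : Subalgebra F D) : ∃ P : E ⊗[F] D →ₗ[F1] E ⊗[F] D,
    (∀ x, P x ∈ TA F1 E Ψ) ∧ (∀ x ∈ TA F1 E Ψ, P x = x) ∧
    (∀ (e : E) x, P ((e ⊗ₜ[F] (1 : D)) * x) = (e ⊗ₜ[F] (1 : D)) * P x) ∧
    (∀ (e : E) x, P (x * (e ⊗ₜ[F] (1 : D))) = P x * (e ⊗ₜ[F] (1 : D))) := by
  obtain ⟨π, hπ⟩ := LinearMap.exists_leftInverse_of_injective (Ψ.val.toLinearMap)
    (LinearMap.ker_eq_bot_of_injective Subtype.val_injective)
  have hπ' : ∀ a : Ψ, π (a : D) = a := fun a => congrArg (fun g : Ψ →ₗ[F] Ψ => g a) hπ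
  let P : E ⊗[F] D →ₗ[F1] E ⊗[F] D :=
    AlgebraTensorModule.map (LinearMap.id : E →ₗ[F1] E) (Ψ.val.toLinearMap ∘ₗ π)
  have hP : ∀ (e : E) (a : D), P (e ⊗ₜ[F] a) = e ⊗ₜ[F] ((π a : Ψ) : D) := fun e a => rfl
  refine ⟨P, fun x => ?_, fun x hx => ?_, fun e x => ?_, fun e x => ?_⟩
  · induction x using TensorProduct.induction_on with
    | zero => rw [map_zero]; exact (TA F1 E Ψ).zero_mem
    | tmul e a => rw [hP]; exact tmul_mem_TT Submodule.mem_top (π a).2
    | add p q hp hq => rw [map_add]; exact (TA F1 E Ψ).add_mem hp hq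
  · change x ∈ TT (F1 := F1) (E := E) ⊤ (Subalgebra.toSubmodule Ψ) at hx
    induction hx using Submodule.span_induction with
    | mem x hx =>
      obtain ⟨e, -, a, ha, rfl⟩ := hx
      have := hπ' ⟨a, ha⟩
      rw [hP, this]
    | zero => rw [map_zero]
    | add p q _ _ hp hq => rw [map_add, hp, hq]
    | smul c p _ hp => rw [map_smul, hp]
  · induction x using TensorProduct.induction_on with
    | zero => simp
    | tmul e' a =>
      rw [Algebra.TensorProduct.tmul_mul_tmul, one_mul, hP, hP,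
        Algebra.TensorProduct.tmul_mul_tmul, one_mul]
    | add p q hp hq => rw [mul_add, map_add, hp, hq, map_add, mul_add]
  · induction x using TensorProduct.induction_on with
    | zero => simp
    | tmul e' a =>
      rw [Algebra.TensorProduct.tmul_mul_tmul, mul_one, hP, hP,
        Algebra.TensorProduct.tmul_mul_tmul, mul_one]
    | add p q hp hq => rw [add_mul, map_add, hp, hq, map_add, add_mul]

end tensor

section adm
variable {A : DA} (M : Adm A)

theorem tt_tmul (tE : M.E →ₗ[M.F1] M.F1) (t : A.D →ₗ[A.F] A.F) (e : M.E) (a : A.D) :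
    M.tt tE t (e ⊗ₜ[A.F] a) = t a • tE e := by
  change tE (MinI.ellE (F1 := M.F1) M.E t (e ⊗ₜ[A.F] a)) = _
  rw [MinI.ellE_tmul, ← IsScalarTower.algebraMap_smul M.F1 (t a), map_smul,
    IsScalarTower.algebraMap_smul M.F1 (t a)]

theorem tt_comm {tE : M.E →ₗ[M.F1] M.F1} {t : A.D →ₗ[A.F] A.F} (ht : ∀ x y, t (x * y) = t (y * x))
    (htE : ∀ x y, tE (x * y) = tE (y * x)) (x y : M.D0) :
    M.tt tE t (x * y) = M.tt tE t (y * x) := by
  induction x using TensorProduct.induction_on with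
  | zero => simp
  | tmul e a =>
    induction y using TensorProduct.induction_on with
    | zero => simp
    | tmul e' a' =>
      rw [Algebra.TensorProduct.tmul_mul_tmul, Algebra.TensorProduct.tmul_mul_tmul, tt_tmul,
        tt_tmul, ht, htE]
    | add p q hp hq => rw [mul_add, add_mul, map_add, map_add, hp, hq]
  | add p q hp hq => rw [mul_add, add_mul, map_add, map_add, hp, hq]

theorem tt_one {tE : M.E →ₗ[M.F1] M.F1} {t : A.D →ₗ[A.F] A.F} (ht : t 1 ≠ 0) (htE : tE 1 ≠ 0) :
    M.tt tE t 1 ≠ 0 := by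
  rw [Algebra.TensorProduct.one_def, tt_tmul, ← IsScalarTower.algebraMap_smul M.F1 (t 1)]
  intro h
  rw [smul_eq_mul, mul_eq_zero] at h
  rcases h with h | h
  · exact ht ((map_eq_zero_iff _ (algebraMap A.F M.F1).injective).1 h)
  · exact htE h

/-- **rank lemma for (VI)** -/
theorem vi_rank {N : ℕ} (hN : Module.finrank M.F1 M.E = N * N)
    (Ψ : Subalgebra A.F A.D)
    {t : A.D →ₗ[A.F] A.F} (ht : IsTr t) {tE : M.E →ₗ[M.F1] M.F1}
    (htE : (∀ x y, tE (x * y) = tE (y * x)) ∧ tE 1 ≠ 0)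
    {l0 : M.E} (hl0 : Module.finrank M.F1 (Subalgebra.centralizer M.F1 ({l0} : Set M.E)) = N)
    {u u' : A.D} (huu' : u * u' = 1) (hu'u : u' * u = 1) (hu : ∀ a ∈ Ψ, u * a = a * u)
    {h0 : M.D0} (hh0 : h0 ≠ 0)
    (hh : h0 ∈ Submodule.span M.F1 {y : M.D0 | ∃ ψ ∈ Ψ, y = (1 : M.E) ⊗ₜ[A.F] (u' * ψ)})
    {p : ℕ} (k x : Fin p → M.D0)
    (hx : ∀ i, x i = (l0 ⊗ₜ[A.F] u) * k i - k i * (l0 ⊗ₜ[A.F] u))
    (hk : ∀ i, k i * ((1 : M.E) ⊗ₜ[A.F] u) = ((1 : M.E) ⊗ₜ[A.F] u) * k i)
    (hxm : ∀ i, x i ∈ Submodule.span M.F1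
      {y : M.D0 | ∃ (e : M.E) (ψ : A.D), ψ ∈ Ψ ∧ y = e ⊗ₜ[A.F] (u * ψ)}) :
    2 * Module.finrank M.F1 (Submodule.span M.F1 (Set.range x)) ≤
      (Matrix.of fun i j => M.tt tE t (h0 * k i * x j)).rank +
        (N * N - N) * Module.finrank A.F Ψ := by
  classical
  set τ := M.tt tE t with hτ
  have hτc : ∀ x y, τ (x * y) = τ (y * x) := tt_comm M ht.1 htE.1
  have hτ1 : τ 1 ≠ 0 := tt_one M ht.2 htE.2
  set v : M.D0 := (1 : M.E) ⊗ₜ[A.F] u with hv
  set v' : M.D0 := (1 : M.E) ⊗ₜ[A.F] u' with hv'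
  set l : M.D0 := l0 ⊗ₜ[A.F] (1 : A.D) with hl
  have hvv' : v * v' = 1 := by
    rw [hv, hv', Algebra.TensorProduct.tmul_mul_tmul, huu', mul_one, ← Algebra.TensorProduct.one_def]
  have hv'v : v' * v = 1 := by
    rw [hv, hv', Algebra.TensorProduct.tmul_mul_tmul, hu'u, mul_one, ← Algebra.TensorProduct.one_def]
  have hlv : l0 ⊗ₜ[A.F] u = l * v := by
    rw [hl, hv, Algebra.TensorProduct.tmul_mul_tmul, mul_one, one_mul]
  have hlvc : l * v = v * l := by
    rw [hl, hv, Algebra.TensorProduct.tmul_mul_tmul, Algebra.TensorProduct.tmul_mul_tmul]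
    simp
  -- the algebra `E ⊗ Ψ`
  set B := TA M.F1 M.E Ψ with hB
  obtain ⟨P, hP1, hP2, hP3, hP4⟩ := exists_proj (F1 := M.F1) (E := M.E) Ψ
  have hlB : l ∈ B := tmul_mem_TT Submodule.mem_top Ψ.one_mem
  have hvB : ∀ b ∈ B, v * b = b * v := by
    intro b hb
    change b ∈ TT (F1 := M.F1) (E := M.E) ⊤ (Subalgebra.toSubmodule Ψ) at hb
    induction hb using Submodule.span_induction with
    | mem x hx =>
      obtain ⟨e, -, a, ha, rfl⟩ := hx
      rw [hv, Algebra.TensorProduct.tmul_mul_tmul, Algebra.TensorProduct.tmul_mul_tmul, one_mul,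
        mul_one, hu a ha]
    | zero => simp
    | add p q _ _ hp hq => rw [mul_add, add_mul, hp, hq]
    | smul c p _ hp => rw [mul_smul_comm, smul_mul_assoc, hp]
  -- `ψ₀ = v h₀`
  set ψ0 : M.D0 := v * h0 with hψ0
  have hh0' : h0 = v' * ψ0 := by rw [hψ0, ← mul_assoc, hv'v, one_mul]
  have hψ0mem : ψ0 ∈ Submodule.span M.F1 {y : M.D0 | ∃ ψ ∈ Ψ, y = (1 : M.E) ⊗ₜ[A.F] ψ} := by
    have h1 : ∀ y ∈ Submodule.span M.F1 {y : M.D0 | ∃ ψ ∈ Ψ, y = (1 : M.E) ⊗ₜ[A.F] (u' * ψ)},
        v * y ∈ Submodule.span M.F1 {y : M.D0 | ∃ ψ ∈ Ψ, y = (1 : M.E) ⊗ₜ[A.F] ψ} := by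
      intro y hy
      induction hy using Submodule.span_induction with
      | mem x hx =>
        obtain ⟨a, ha, rfl⟩ := hx
        refine Submodule.subset_span ⟨a, ha, ?_⟩
        rw [hv, Algebra.TensorProduct.tmul_mul_tmul, one_mul, ← mul_assoc, huu', one_mul]
      | zero => rw [mul_zero]; exact Submodule.zero_mem _
      | add p q _ _ hp hq => rw [mul_add]; exact Submodule.add_mem _ hp hq
      | smul c p _ hp => rw [mul_smul_comm]; exact Submodule.smul_mem _ _ hp
    exact h1 _ hh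
  have hψ0B : ψ0 ∈ B := by
    have hle : Submodule.span M.F1 {y : M.D0 | ∃ ψ ∈ Ψ, y = (1 : M.E) ⊗ₜ[A.F] ψ} ≤
        Subalgebra.toSubmodule B := by
      rw [Submodule.span_le]
      rintro _ ⟨a, ha, rfl⟩
      exact tmul_mem_TT Submodule.mem_top ha
    exact hle hψ0mem
  have hv0 : v ≠ 0 := left_ne_zero_of_mul_eq_one hvv'
  have hψ00 : ψ0 ≠ 0 := mul_ne_zero hv0 hh0
  have hψl : ψ0 * l = l * ψ0 := by
    have h1 : ∀ y ∈ Submodule.span M.F1 {y : M.D0 | ∃ ψ ∈ Ψ, y = (1 : M.E) ⊗ₜ[A.F] ψ},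
        y * l = l * y := by
      intro y hy
      induction hy using Submodule.span_induction with
      | mem x hx =>
        obtain ⟨a, ha, rfl⟩ := hx
        rw [hl, Algebra.TensorProduct.tmul_mul_tmul, Algebra.TensorProduct.tmul_mul_tmul]
        simp
      | zero => simp
      | add p q _ _ hp hq => rw [mul_add, add_mul, hp, hq]
      | smul c p _ hp => rw [mul_smul_comm, smul_mul_assoc, hp]
    exact h1 _ hψ0mem
  -- `y = x v⁻¹ = [l, k]`
  have hkv : ∀ i, k i * v = v * k i := hk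
  let y : Fin p → M.D0 := fun i => x i * v'
  have hy : ∀ i, y i = l * k i - k i * l := by
    intro i
    have h1 : x i = (l * k i - k i * l) * v := by
      rw [hx i, hlv, sub_mul, mul_assoc l v, ← hkv i, mul_assoc (k i) l v, ← mul_assoc l]
    change x i * v' = _
    rw [h1, mul_assoc, hvv', mul_one]
  have hxy : ∀ i, x i = y i * v := by
    intro i
    change x i = x i * v' * v
    rw [mul_assoc, hv'v, mul_one]
  have hyB : ∀ i, y i ∈ B := by
    intro i
    have hle : Submodule.span M.F1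
        {y : M.D0 | ∃ (e : M.E) (ψ : A.D), ψ ∈ Ψ ∧ y = e ⊗ₜ[A.F] (u * ψ)} ≤
        (Subalgebra.toSubmodule B).comap (LinearMap.mulRight M.F1 v') := by
      rw [Submodule.span_le]
      rintro _ ⟨e, a, ha, rfl⟩
      change (e ⊗ₜ[A.F] (u * a)) * v' ∈ B
      rw [hv', Algebra.TensorProduct.tmul_mul_tmul, hu a ha, mul_one, mul_assoc, huu', mul_one]
      exact tmul_mem_TT Submodule.mem_top ha
    exact hle (hxm i)
  -- replace `k` by its projection
  let k' : Fin p → M.D0 := fun i => P (k i)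
  have hk'B : ∀ i, k' i ∈ B := fun i => hP1 _
  have hk' : ∀ i, l * k' i - k' i * l = y i := by
    intro i
    change l * P (k i) - P (k i) * l = y i
    rw [hl, ← hP3, ← hP4, ← map_sub, ← hl, ← hy i]
    exact hP2 _ (hyB i)
  -- the Gram matrix
  have hkill : ∀ κ : M.D0, κ * l = l * κ → ∀ b : M.D0, τ (κ * (l * b - b * l)) = 0 := by
    intro κ hκ b
    rw [mul_sub, map_sub, ← mul_assoc, hκ, mul_assoc l, hτc l, mul_assoc κ b l, sub_self]
  have hgram : ∀ i j, τ (h0 * k i * x j) = τ (ψ0 * k' i * y j) := by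
    intro i j
    have h1 : τ (h0 * k i * x j) = τ (ψ0 * k i * y j) := by
      have h2 : h0 * k i * x j = v' * (ψ0 * k i * y j * v) := by
        rw [hxy j, hh0']
        simp only [mul_assoc]
      rw [h2, hτc, mul_assoc, hvv', mul_one]
    rw [h1, ← sub_eq_zero, ← map_sub, ← sub_mul, ← mul_sub, ← hk' j]
    apply hkill
    have h2 : (k i - k' i) * l = l * (k i - k' i) := by
      have h3 := hk' i
      rw [hy i] at h3
      rw [mul_sub, sub_mul]
      rw [sub_eq_sub_iff_add_eq_add] at h3 ⊢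
      rw [add_comm, ← h3, add_comm]
    rw [mul_assoc, h2, ← mul_assoc, hψl, mul_assoc]
  -- the linear algebra on `E ⊗ Ψ`
  have hfinB : FiniteDimensional M.F1 B := FiniteDimensional.finiteDimensional_submodule
    (Subalgebra.toSubmodule B)
  let β : B →ₗ[M.F1] B →ₗ[M.F1] M.F1 :=
    ((LinearMap.mul M.F1 B).compr₂ (τ ∘ₗ B.val.toLinearMap)) ∘ₗ
      (LinearMap.mulLeft M.F1 (⟨ψ0, hψ0B⟩ : B))
  have hβ : ∀ a b : B, β a b = τ (ψ0 * a * b) := fun a b => rfl
  let Aop : B →ₗ[M.F1] B := LinearMap.mulLeft M.F1 (⟨l, hlB⟩ : B) -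
    LinearMap.mulRight M.F1 (⟨l, hlB⟩ : B)
  have hAop : ∀ a : B, ((Aop a : B) : M.D0) = l * a - a * l := fun a => rfl
  have hnd : ∀ b : B, (∀ a, β a b = 0) → b = 0 := by
    intro b hb
    by_contra hb0
    have hb0' : (b : M.D0) ≠ 0 := fun h => hb0 (Subtype.ext h)
    obtain ⟨b', hb'B, -, hb'⟩ := MinF.exists_inv_mem (F := M.F1) B b.2 hb0'
    obtain ⟨q, hqB, hq, -⟩ := MinF.exists_inv_mem (F := M.F1) B hψ0B hψ00
    have h1 := hb ⟨q * b', B.mul_mem hqB hb'B⟩
    rw [hβ] at h1
    change τ (ψ0 * (q * b') * b) = 0 at h1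
    rw [← mul_assoc, hq, one_mul, hb'] at h1
    exact hτ1 h1
  have hA : ∀ a : B, Aop a = 0 → ∀ b, β a (Aop b) = 0 := by
    intro a ha b
    rw [hβ, hAop]
    apply hkill
    have h1 : l * (a : M.D0) - a * l = 0 := by rw [← hAop, ha]; rfl
    rw [mul_assoc, ← sub_eq_zero.mp h1, ← mul_assoc, hψl, mul_assoc]
  have key := rank_ge β hnd Aop hA (fun i => (⟨k' i, hk'B i⟩ : B))
  have hrk : (Matrix.of fun i j => β (⟨k' i, hk'B i⟩ : B) (Aop (⟨k' j, hk'B j⟩ : B))).rank =
      (Matrix.of fun i j => τ (h0 * k i * x j)).rank := by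
    congr 2
    funext i j
    rw [hgram, hβ, hAop]
    change τ (ψ0 * k' i * (l * k' j - k' j * l)) = _
    rw [hk' j]
  have hdimB : Module.finrank M.F1 B = N * N * Module.finrank A.F Ψ := by
    have h1 := finrank_TT (F1 := M.F1) (E := M.E) ⊤ (Subalgebra.toSubmodule Ψ)
    rw [finrank_top, hN] at h1
    exact h1
  have hker : N * Module.finrank A.F Ψ ≤ Module.finrank M.F1 (LinearMap.ker Aop) := by
    have h1 := finrank_TT (F1 := M.F1) (E := M.E)
      (Subalgebra.toSubmodule (Subalgebra.centralizer M.F1 ({l0} : Set M.E)))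
      (Subalgebra.toSubmodule Ψ)
    have h2 : Module.finrank M.F1 (Subalgebra.toSubmodule
      (Subalgebra.centralizer M.F1 ({l0} : Set M.E))) = N := hl0
    rw [h2] at h1
    have h3 : TT (Subalgebra.toSubmodule (Subalgebra.centralizer M.F1 ({l0} : Set M.E)))
        (Subalgebra.toSubmodule Ψ) ≤ (LinearMap.ker Aop).map B.val.toLinearMap := by
      rw [TT, Submodule.span_le]
      rintro _ ⟨e, he, a, ha, rfl⟩
      refine ⟨⟨e ⊗ₜ[A.F] a, tmul_mem_TT Submodule.mem_top ha⟩, ?_, rfl⟩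
      rw [SetLike.mem_coe, LinearMap.mem_ker]
      apply Subtype.ext
      rw [hAop]
      change l * (e ⊗ₜ[A.F] a) - (e ⊗ₜ[A.F] a) * l = 0
      have he' : l0 * e = e * l0 := (Subalgebra.mem_centralizer_iff M.F1).1 he l0 rfl
      rw [hl, Algebra.TensorProduct.tmul_mul_tmul, Algebra.TensorProduct.tmul_mul_tmul, he',
        one_mul, mul_one, sub_self]
    have h4 := Submodule.finrank_mono h3
    rw [h1, ← (Submodule.equivMapOfInjective B.val.toLinearMap Subtype.val_injective
      (LinearMap.ker Aop)).finrank_eq] at h4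
    exact h4
  have hX : Module.finrank M.F1 (Submodule.span M.F1 (Set.range x)) =
      Module.finrank M.F1 (Submodule.span M.F1
        (Set.range fun i => Aop (⟨k' i, hk'B i⟩ : B))) := by
    have hinj : Function.Injective ((LinearMap.mulRight M.F1 v) ∘ₗ B.val.toLinearMap) := by
      rw [← LinearMap.ker_eq_bot, LinearMap.ker_eq_bot']
      intro b hb
      have h1 : (b : M.D0) * v = 0 := hb
      exact Subtype.ext ((mul_eq_zero.mp h1).resolve_right hv0)
    rw [(Submodule.equivMapOfInjective _ hinj (Submodule.span M.F1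
        (Set.range fun i => Aop (⟨k' i, hk'B i⟩ : B)))).finrank_eq, Submodule.map_span,
      ← Set.range_comp]
    have h2 : x = ((LinearMap.mulRight M.F1 v) ∘ₗ B.val.toLinearMap) ∘
        (fun i => Aop (⟨k' i, hk'B i⟩ : B)) := by
      funext i
      change x i = (l * k' i - k' i * l) * v
      rw [hk' i, hxy i]
    rw [← h2]
  rw [hrk, ← hX, hdimB] at key
  rw [Nat.sub_mul]
  omega

end adm

end MinVI

end Crest.Agent.R180
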