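import Crest.Agent.R180.MinVIPair
import Crest.Agent.R180.MinVIDim
import Crest.Agent.R180.MinVIres
import Crest.Agent.R180.MinKAP
import Crest.Agent.R180.MinTr
import Crest.Agent.R180.MinSt
import Crest.Agent.R180.MinPE
import Crest.Agent.R180.MinAlg
import Crest.Agent.R180.MinNDeg
import Crest.Agent.R180.MinStart
import Crest.Agent.R180.MinBig
import Crest.Agent.R180.MinKer6

set_option autoImplicit false
set_option linter.unusedSectionVars false
noncomputable section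

/-!
# Row 180, ROUTE M, step (VI)
-/

namespace Crest.Agent.R180

open TensorProduct

namespace MinVI

section gen
variable {A : DA} {M : Adm A} {m : ℕ}

theorem jE_mul_jD (M : Adm A) (e : M.E) (d : A.D) : M.jE e * M.jD d = e ⊗ₜ[A.F] d := by
  change (e ⊗ₜ[A.F] (1 : A.D)) * ((1 : M.E) ⊗ₜ[A.F] d) = _
  rw [Algebra.TensorProduct.tmul_mul_tmul, mul_one, one_mul]

theorem constantCoeff_l1 (V : Fin m → PowerSeries M.E) (γ : NC (Fin m) A.D) :
    PowerSeries.constantCoeff (M.l1 V γ) = xi M γ (fun j => PowerSeries.constantCoeff (V j)) := by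
  rw [Adm.l1, map_sum, xi_apply]
  refine Finset.sum_congr rfl fun j _ => ?_
  rw [map_mul, PowerSeries.constantCoeff_C, ← jE_mul_jD]
  congr 1

end gen

theorem co_zero_ofPS {K : Type} [Ring K] (x : PowerSeries K) :
    (LD.ofPS x : LD K).co 0 = PowerSeries.constantCoeff x := by
  have := LD.co_ofPS x 0
  rw [Nat.cast_zero] at this
  rw [this, PowerSeries.coeff_zero_eq_constantCoeff_apply]

section main
variable {P : (A : DA) → (m : ℕ) → NC (Fin m) A.D → Prop} {A : DA} {m N : ℕ}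
  {Λ : Subalgebra A.F A.D} {γ : NC (Fin m) A.D} (M : PE A N) {z : Fin m → PowerSeries M.E}

/-- rank of the second order form on the kernel of the linear part -/
theorem rank_lower (st : Step P Λ γ M.toAdm z) (l0 : M.L)
    (hl0 : Algebra.adjoin M.F1 ({l0} : Set M.L) = ⊤) {r : ℕ} (u : A.D) (hu : u ∈ Λ)
    (hu0 : u ≠ 0) (b : Fin r → A.D) (hz : Pt3 γ M 2 l0 u b 0 z)
    (hΛ : ∀ a ∈ Λ, ∀ b ∈ Λ, a * b = b * a)
    (hres : LD.resSp (Subalgebra.toSubmodule (M.toAdm.adj Λ (M.toAdm.ev z γ))) =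
      Subalgebra.toSubmodule (M.psiL Λ))
    (t : A.D →ₗ[A.F] A.F) (ht : IsTr t) (tE : M.E →ₗ[M.F1] M.F1)
    (htE : (∀ x y, tE (x * y) = tE (y * x)) ∧ tE 1 ≠ 0)
    (h : LD M.D0) (hh : LD.ofPS (M.toAdm.ev z γ) * h = h * LD.ofPS (M.toAdm.ev z γ))
    (hi : LD.IsInt h) (W : Submodule (LF M.F1) (Fin st.μ → LF M.F1))
    (hW : ∀ l ∈ W, ∑ i, l i • st.γ' [i] = 0) :
    ∃ (k x : Fin (Module.finrank (LF M.F1) W) → M.D0) (v : Fin (Module.finrank (LF M.F1) W) →
      Fin m → M.E), LinearIndependent M.F1 v ∧ (∀ i, x i = xi M.toAdm γ (v i)) ∧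
      (∀ i, x i = (M.j l0 ⊗ₜ[A.F] u) * k i - k i * (M.j l0 ⊗ₜ[A.F] u)) ∧
      (∀ i, ∀ a ∈ Λ, M.toAdm.jD a * k i = k i * M.toAdm.jD a) ∧
      (Matrix.of fun i j => M.toAdm.tt tE t (h.co 0 * k i * x j)).rank ≤
        Module.finrank (LF M.F1) (LinearMap.range
          ((Matrix.toBilin' (Matrix.of fun i j : Fin st.μ => LD.mapL (M.toAdm.tt tE t)
            (h * st.γ' [i, j]))).domRestrict₁₂ W W)) := by
  classical
  set T : LD M.D0 →ₗ[LF M.F1] LF M.F1 := LD.mapL (M.toAdm.tt tE t) with hTdef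
  have hT : ∀ x y, T (x * y) = T (y * x) := (isTr_mv M.toAdm ht htE).1
  have hz0 : ∀ j, PowerSeries.constantCoeff (z j) = 0 := hz.gp.z0
  -- the family
  obtain ⟨l, V, hlW, hV, hli⟩ := exists_family st.dir (fun l hl => st.indep l 0 (fun j => by
    rw [hl j, zero_mul, mul_zero, sub_zero])) W
  -- the base point
  obtain ⟨y0, hy0⟩ := hz.c0
  set cP : PowerSeries M.D0 := PowerSeries.C (M.j l0 ⊗ₜ[A.F] u) +
    PowerSeries.X * PowerSeries.C (∑ i : Fin r, (M.u ^ (i.val + 1)) ⊗ₜ[A.F] b i) +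
    PowerSeries.X ^ 2 * PowerSeries.C 0 + PowerSeries.X ^ 3 * y0 with hcP
  have hc0 : (LD.ofPS (M.toAdm.ev z γ) : LD M.D0) = LD.tp ((4 : ℕ) : ℤ) * LD.ofPS cP := by
    rw [hy0, map_mul, MinA.ofPS_X_pow]
  have hcu : (LD.ofPS cP : LD M.D0).co 0 = M.j l0 ⊗ₜ[A.F] u := by
    rw [co_zero_ofPS, hcP]
    simp
  -- derivatives
  have hy : ∀ i, (LD.ofPS (M.toAdm.dv z (V i) γ) : LD M.D0) =
      LD.ofPS (M.toAdm.ev z γ) * kapC st (l i) - kapC st (l i) * LD.ofPS (M.toAdm.ev z γ) := by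
    intro i
    have := lin_comb hz0 st (l i) (V i) (hV i)
    rw [hW _ (hlW i)] at this
    exact sub_eq_zero.mp this.symm
  have hyc : ∀ i, (LD.ofPS (M.toAdm.dv z (V i) γ) : LD M.D0) =
      LD.ofPS cP * (LD.tp ((4 : ℕ) : ℤ) * kapC st (l i)) -
        (LD.tp ((4 : ℕ) : ℤ) * kapC st (l i)) * LD.ofPS cP := by
    intro i
    rw [hy, hc0]
    have h1 := LD.tp_commute ((4 : ℕ) : ℤ) (LD.ofPS cP : LD M.D0)
    have h2 := LD.tp_commute ((4 : ℕ) : ℤ) (kapC st (l i))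
    have e2 : kapC st (l i) * (LD.ofPS cP * LD.tp ((4 : ℕ) : ℤ)) =
        LD.tp ((4 : ℕ) : ℤ) * kapC st (l i) * LD.ofPS cP := by
      rw [← h1, ← mul_assoc, ← h2]
    rw [h1, mul_assoc, e2]
  have hcom : ∀ i, ∀ a ∈ Λ, (LD.C (M.toAdm.jD a) : LD M.D0) *
      (LD.tp ((4 : ℕ) : ℤ) * kapC st (l i)) =
      (LD.tp ((4 : ℕ) : ℤ) * kapC st (l i)) * LD.C (M.toAdm.jD a) := by
    intro i a ha
    have h1 : (LD.C (M.toAdm.jD a) : LD M.D0) * kapC st (l i) =
        kapC st (l i) * LD.C (M.toAdm.jD a) := by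
      rw [kapC, Finset.mul_sum, Finset.sum_mul]
      refine Finset.sum_congr rfl fun k _ => ?_
      rw [mul_smul_comm, smul_mul_assoc, st.κΛ a ha]
    rw [← mul_assoc, ← LD.tp_commute, mul_assoc, h1, mul_assoc]
  have hkap : ∀ i, ∃ κ' : LD M.D0, LD.IsInt κ' ∧
      (∀ a ∈ Λ, (LD.C (M.toAdm.jD a) : LD M.D0) * κ' = κ' * LD.C (M.toAdm.jD a)) ∧
      LD.ofPS cP * κ' - κ' * LD.ofPS cP = LD.ofPS (M.toAdm.dv z (V i) γ) := by
    intro i
    obtain ⟨κ', h1, h2, h3⟩ := kap M l0 hl0 Λ hΛ (M.toAdm.ev z γ) hres 4 (LD.ofPS cP)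
      (LD.isInt_ofPS _) hc0 u hu hu0 hcu (LD.tp ((4 : ℕ) : ℤ) * kapC st (l i)) (hcom i) (by
        rw [← hyc]; exact LD.isInt_ofPS _)
    exact ⟨κ', h1, h2, by rw [h3, ← hyc]⟩
  choose κ' hκi hκΛ hκc using hkap
  -- leading coefficients
  have hx0 : ∀ i, (LD.ofPS (M.toAdm.dv z (V i) γ) : LD M.D0).co 0 =
      xi M.toAdm γ (fun j => PowerSeries.constantCoeff (V i j)) := by
    intro i
    obtain ⟨y, hy⟩ := hz.d1 (V i)
    rw [co_zero_ofPS, hy, map_add, constantCoeff_l1]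
    simp
  refine ⟨fun i => (κ' i).co 0, fun i => xi M.toAdm γ (fun j => PowerSeries.constantCoeff (V i j)),
    fun i j => PowerSeries.constantCoeff (V i j), hli, fun _ => rfl, ?_, ?_, ?_⟩
  · intro i
    change xi M.toAdm γ (fun j => PowerSeries.constantCoeff (V i j)) =
      (M.j l0 ⊗ₜ[A.F] u) * (κ' i).co 0 - (κ' i).co 0 * (M.j l0 ⊗ₜ[A.F] u)
    rw [← hx0, ← hκc, LD.co_sub, (LD.isInt_ofPS cP).co_mul_zero (hκi i),
      (hκi i).co_mul_zero (LD.isInt_ofPS cP), hcu]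
  · intro i a ha
    have h1 := congrArg (fun y : LD M.D0 => y.co 0) (hκΛ i a ha)
    simpa only [LD.C_mul_co, LD.mul_C_co] using h1
  · -- the Gram matrix
    set φ := (Matrix.toBilin' (Matrix.of fun i j : Fin st.μ => T (h * st.γ' [i, j]))).domRestrict₁₂
      W W with hφ
    set Q : Matrix (Fin (Module.finrank (LF M.F1) W)) (Fin (Module.finrank (LF M.F1) W))
      (LF M.F1) := Matrix.of fun i j => φ ⟨l i, hlW i⟩ ⟨l j, hlW j⟩ with hQ
    have h1 : Q.rank ≤ Module.finrank (LF M.F1) (LinearMap.range φ) :=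
      gram_rank_le φ (fun i => (⟨l i, hlW i⟩ : W)) (fun j => (⟨l j, hlW j⟩ : W))
    refine le_trans ?_ h1
    have h2 : ((LF.tp ((4 : ℕ) : ℤ) : LF M.F1) • Q).rank = Q.rank :=
      Matrix.rank_smul_of_mem_nonZeroDivisors Q (mem_nonZeroDivisors_of_ne_zero (LF.tp_ne_zero _))
    rw [← h2]
    have h3 : ∀ i j, ((LF.tp ((4 : ℕ) : ℤ) : LF M.F1) • Q) i j =
        LF.tp ((4 : ℕ) : ℤ) * T (h * LD.ofPS (M.toAdm.d2 z (V i) (V j) γ)) +
          T (h * κ' i * LD.ofPS (M.toAdm.dv z (V j) γ)) := by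
      intro i j
      rw [← gram_entry hz0 st T hT h hh (l i) (l j) (V i) (V j) (hV i) (hV j) (hW _ (hlW i))
        (hW _ (hlW j)) ((4 : ℕ) : ℤ) (κ' i) ?_]
      · rw [Matrix.smul_apply, smul_eq_mul]
        congr 1
        rw [hQ, Matrix.of_apply, hφ, LinearMap.domRestrict₁₂_apply, Matrix.toBilin'_apply,
          Finset.mul_sum, map_sum]
        refine Finset.sum_congr rfl fun a _ => ?_
        rw [Finset.mul_sum, map_sum]
        refine Finset.sum_congr rfl fun c _ => ?_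
        rw [mul_smul_comm, map_smul, smul_eq_mul, Matrix.of_apply]
        ring
      · have e1 := hκc i
        rw [hyc i] at e1
        rw [hc0]
        have h4 : ∀ y : LD M.D0, LD.tp ((4 : ℕ) : ℤ) * LD.ofPS cP * y - y *
            (LD.tp ((4 : ℕ) : ℤ) * LD.ofPS cP) =
            LD.tp ((4 : ℕ) : ℤ) * (LD.ofPS cP * y - y * LD.ofPS cP) := by
          intro y
          rw [mul_sub, mul_assoc, ← mul_assoc y, ← LD.tp_commute _ y, mul_assoc]
        rw [h4, h4, e1]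
    have h4 : ∀ y : LD M.D0, LD.IsInt y → LF.IsInt (T y) := fun y hy n hn => by
      rw [hTdef, LD.co_mapL, hy n hn, map_zero]
    have h5 : ∀ i j, LF.IsInt (((LF.tp ((4 : ℕ) : ℤ) : LF M.F1) • Q) i j) := by
      intro i j
      rw [h3]
      refine LF.IsInt.add ?_ (h4 _ ((hi.mul (hκi i)).mul (LD.isInt_ofPS _)))
      intro n hn
      rw [LF.co_tp_mul]
      exact h4 _ (hi.mul (LD.isInt_ofPS _)) _ (by push_cast; omega)
    have h6 := LF.rank_residue_le _ h5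
    refine le_trans (le_of_eq ?_) h6
    congr 1
    ext i j
    rw [Matrix.of_apply, Matrix.map_apply, h3, LF.co_add, LF.co_tp_mul,
      h4 _ (hi.mul (LD.isInt_ofPS _)) _ (by norm_num), zero_add, hTdef, LD.co_mapL,
      (hi.mul (hκi i)).co_mul_zero (LD.isInt_ofPS _), hi.co_mul_zero (hκi i), hx0]

/-- scaling the functional does not increase the rank -/
theorem range_scale {F' : Type} [Field F'] {μ : ℕ} (Q Q' : Matrix (Fin μ) (Fin μ) F') (c : F')
    (hQ : ∀ i j, Q i j = c * Q' i j) (W : Submodule F' (Fin μ → F')) :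
    Module.finrank F' (LinearMap.range ((Matrix.toBilin' Q).domRestrict₁₂ W W)) ≤
      Module.finrank F' (LinearMap.range ((Matrix.toBilin' Q').domRestrict₁₂ W W)) := by
  refine Submodule.finrank_mono ?_
  rintro _ ⟨x, rfl⟩
  refine ⟨c • x, ?_⟩
  ext y
  rw [map_smul, LinearMap.smul_apply, LinearMap.domRestrict₁₂_apply,
    LinearMap.domRestrict₁₂_apply, Matrix.toBilin'_apply, Matrix.toBilin'_apply, smul_eq_mul,
    Finset.mul_sum]
  refine Finset.sum_congr rfl fun i _ => ?_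
  rw [Finset.mul_sum]
  refine Finset.sum_congr rfl fun j _ => ?_
  rw [hQ]
  ring

theorem finrank_centralizer_j {A : DA} {N : ℕ} (M : PE A N) (l0 : M.L)
    (hl0 : Algebra.adjoin M.F1 ({l0} : Set M.L) = ⊤) :
    Module.finrank M.F1 (Subalgebra.centralizer M.F1 ({M.j l0} : Set M.E)) = N := by
  have hcen : Subalgebra.center M.F1 M.E = ⊥ := Algebra.IsCentral.center_eq_bot M.F1 M.E
  have h1 := DCT.finrank_mul_centralizer (F := M.F1) (B := M.E)
    (Algebra.adjoin M.F1 ({M.j l0} : Set M.E)) (by rw [hcen]; exact bot_le)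
  rw [hcen, Subalgebra.finrank_bot, mul_one, PE.finrank_E, PE.finrank_adjoin_j M l0 hl0] at h1
  have hN : 0 < N := M.pr.pos
  have h2 := Nat.eq_of_mul_eq_mul_left hN h1
  have h3 : Subalgebra.centralizer M.F1 ({M.j l0} : Set M.E) =
      Subalgebra.centralizer M.F1 ((Algebra.adjoin M.F1 ({M.j l0} : Set M.E) : Subalgebra M.F1 M.E) :
        Set M.E) := by
    apply le_antisymm
    · intro y hy
      rw [Subalgebra.mem_centralizer_iff] at hy ⊢
      intro x hx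
      have h4 : Algebra.adjoin M.F1 ({M.j l0} : Set M.E) ≤
          Subalgebra.centralizer M.F1 ({y} : Set M.E) := by
        apply Algebra.adjoin_le
        intro w hw
        rw [SetLike.mem_coe, Subalgebra.mem_centralizer_iff]
        rintro _ rfl
        exact (hy w hw).symm
      have h5 := h4 hx
      rw [Subalgebra.mem_centralizer_iff] at h5
      exact (h5 y rfl).symm
    · exact Subalgebra.centralizer_le _ _ _ Algebra.subset_adjoin
  rw [h3, h2]

/-- the arithmetic of (VI) -/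
theorem arith {m N d s rU p X R : ℕ} (hm : 2 ≤ m) (h1 : p + N * d = (m - 1) * (N * N) + 1 + s)
    (h2 : p + N * N * rU ≤ X + m * (N * N)) (h3 : 2 * X ≤ R + (N * N - N) * d)
    (h4 : rU + s = d) (h5 : 2 * s + 3 ≤ d) (h6 : d + s + 3 < N) : 3 * s ≤ R := by
  obtain ⟨m', rfl⟩ : ∃ m', m = m' + 2 := ⟨m - 2, by omega⟩
  obtain ⟨e, rfl⟩ : ∃ e, d = 2 * s + 3 + e := ⟨d - (2 * s + 3), by omega⟩
  obtain ⟨f, rfl⟩ : ∃ f, N = (2 * s + 3 + e) + s + 4 + f := ⟨N - ((2 * s + 3 + e) + s + 4), by omega⟩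
  have hr : rU = s + 3 + e := by omega
  subst hr
  have h1' : m' + 2 - 1 = m' + 1 := by omega
  rw [h1'] at h1
  generalize hN : (2 * s + 3 + e) + s + 4 + f = N at *
  have hNN : N ≤ N * N := Nat.le_mul_self N
  have h3' : 2 * X + N * (2 * s + 3 + e) ≤ R + N * N * (2 * s + 3 + e) := by
    have : (N * N - N) * (2 * s + 3 + e) + N * (2 * s + 3 + e) = N * N * (2 * s + 3 + e) := by
      rw [← add_mul, Nat.sub_add_cancel hNN]
    omega
  have hQ : N * N = N * (2 * s + 3 + e) + N * s + N * 4 + N * f := by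
    rw [← hN]; ring
  nlinarith [Nat.zero_le (N * s), Nat.zero_le (N * f), Nat.zero_le (N * N * e)]

theorem arith2 {m N d s p : ℕ} (hm : 2 ≤ m) (h1 : p + N * d = (m - 1) * (N * N) + 1 + s)
    (h6 : d + s + 3 < N) : s + 2 ≤ p := by
  obtain ⟨m', rfl⟩ : ∃ m', m = m' + 2 := ⟨m - 2, by omega⟩
  obtain ⟨f, rfl⟩ : ∃ f, N = d + s + 4 + f := ⟨N - (d + s + 4), by omega⟩
  have h1' : m' + 2 - 1 = m' + 1 := by omega
  rw [h1'] at h1
  nlinarith [Nat.zero_le (m' * ((d + s + 4 + f) * (d + s + 4 + f)))]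

end main

end MinVI

variable {P : (A : DA) → (m : ℕ) → NC (Fin m) A.D → Prop}

theorem St.mem_Lam_of_HH (S : St P) (hU : S.U ≤ Subalgebra.toSubmodule S.Λ)
    {t : S.A.D →ₗ[S.A.F] S.A.F} {y : S.A.D} (hy : y ∈ HH t S.U) : y ∈ S.Λ := by
  obtain ⟨a, ha, ha0⟩ := S.U_ne
  obtain ⟨a', h1, h2, -⟩ := S.exists_inv (hU ha) ha0
  have h3 : y = y * a * a' := by rw [mul_assoc, h2, mul_one]
  rw [h3]
  exact Subalgebra.mul_mem _ (S.psi_le hU (hy a ha).1) h1

/-- (VI) -/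
theorem minVI (hP : MoveClosed P) {S : St P} (h : S.Good4)
    (hd : 2 * S.sd + 3 ≤ Module.finrank S.A.F S.Psi) : ∃ S' : St P, S'.NDeg := by
  classical
  obtain ⟨N, M, l0, u, u', z, r, b, hz, st, t, tE, hN, hl0, hu, huu', hu'u, ht, htE, hC, hG4, hsd,
    hPsi, hH⟩ := exists_mv6 hP h (Module.finrank S.A.F S.Psi + S.sd + 3)
  have hU : S.U ≤ Subalgebra.toSubmodule S.Λ := h.1.1.1.lin_mem hP
  have hΨ : S.Psi ≤ S.Λ := S.psi_le hU
  have hΛc : ∀ a ∈ S.Λ, ∀ b ∈ S.Λ, a * b = b * a := S.rs.comm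
  have hu0 : u ≠ 0 := by
    rintro rfl
    rw [zero_mul] at huu'
    exact zero_ne_one huu'
  have hu'Λ : u' ∈ S.Λ := by
    obtain ⟨u'', h1, h2, h3⟩ := S.exists_inv (hU hu) hu0
    have : u' = u'' := by
      calc u' = u' * (u * u'') := by rw [h2, mul_one]
        _ = u'' := by rw [← mul_assoc, hu'u, one_mul]
    rw [this]; exact h1
  have hE : Module.finrank M.F1 M.E = N * N := PE.finrank_E M
  obtain ⟨hHH, hUle⟩ := S.finrank_HH hU ht
  have hker := finrank_ker6 hP hz.gp st hsd hG4.1.1.1 hPsi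
  have h4 : Module.finrank S.A.F S.U + S.sd = Module.finrank S.A.F S.Psi := by
    unfold St.sd; omega
  -- the rank bound
  let W : Submodule (LF M.F1) (Fin st.μ → LF M.F1) := LinearMap.ker (lin (A := S.A.mv M.toAdm) st.γ')
  have hker' : Module.finrank (LF M.F1) W + N * Module.finrank S.A.F S.Psi =
      (S.m - 1) * (N * N) + 1 + S.sd := hker
  have main : ∀ η ∈ st.H t tE, η ≠ 0 → 3 * S.sd ≤ Module.finrank (LF M.F1) (LinearMap.range
      ((Matrix.toBilin' (Matrix.of fun i j : Fin st.μ => LD.mapL (M.toAdm.tt tE t)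
        (η * st.γ' [i, j]))).domRestrict₁₂ W W)) := by
    intro η hη hη0
    -- normalise
    obtain ⟨q, y, hqy, hyi, hy0⟩ := LD.exists_normal hη0
    have hyH : y ∈ st.H t tE := by
      have h1 : y = (LF.tp (-q) : LF M.F1) • η := by
        rw [LD.smul_def, LD.toLD_tp, hqy, ← mul_assoc, LD.tp_mul_tp, neg_add_cancel, LD.tp_zero,
          one_mul]
      rw [h1]
      exact (st.H t tE).smul_mem _ hη
    -- `y` commutes with `c₀`
    have hyc : LD.ofPS (M.toAdm.ev z S.γ) * y = y * LD.ofPS (M.toAdm.ev z S.γ) := by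
      have h2 : y ∈ (st.toSt hz.gp).Λ :=
        (st.toSt hz.gp).mem_Lam_of_HH (hG4.1.1.1.lin_mem hP) hyH
      have h3 : (LD.ofPS (M.toAdm.ev z S.γ) : LD M.D0) ∈ (M.toAdm.adj S.Λ (M.toAdm.ev z S.γ)) :=
        Algebra.subset_adjoin (Or.inr rfl)
      exact (st.toSt hz.gp).rs.comm _ h3 _ h2
    have hW : ∀ l ∈ W, ∑ i, l i • st.γ' [i] = 0 := by
      intro l hl
      have h1 := lin_apply (A := S.A.mv M.toAdm) st.γ' l
      have h2 : lin (A := S.A.mv M.toAdm) st.γ' l = 0 := hl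
      rw [h2] at h1
      exact h1.symm
    obtain ⟨k, x, v, hv, hxv, hxk, hkΛ, hrank⟩ := MinVI.rank_lower M st l0 hl0 u (hU hu) hu0 b hz
      hΛc hC.resLam t ht tE htE y hyc hyi W hW
    -- the rank lemma
    have hh0 : y.co 0 ∈ Submodule.span M.F1
        {y : M.D0 | ∃ ψ ∈ S.Psi, y = (1 : M.E) ⊗ₜ[S.A.F] (u' * ψ)} := by
      refine Submodule.span_mono ?_ (hH y hyH hyi)
      rintro _ ⟨h', hh', rfl⟩
      refine ⟨h' * u, (hh' u hu).1, ?_⟩
      have h1 : h' * u ∈ S.Λ := hΨ (hh' u hu).1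
      rw [hΛc u' hu'Λ _ h1, mul_assoc, huu', mul_one]
    have hxm : ∀ i, x i ∈ Submodule.span M.F1
        {y : M.D0 | ∃ (e : M.E) (ψ : S.A.D), ψ ∈ S.Psi ∧ y = e ⊗ₜ[S.A.F] (u * ψ)} := by
      intro i
      rw [hxv, MinVI.xi_apply]
      refine Submodule.sum_mem _ fun j _ => Submodule.subset_span ?_
      have h1 : S.γ [j] ∈ S.U := by
        refine ⟨Pi.single j 1, ?_⟩
        rw [lin_apply, Finset.sum_eq_single j]
        · simp
        · intro i _ hi
          simp [Pi.single_eq_of_ne hi]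
        · simp
      obtain ⟨ψ, hψ, h2⟩ := S.mem_U_mul hU hu hu0 h1
      exact ⟨v i j, ψ, hψ, by rw [h2]⟩
    have hvi := MinVI.vi_rank M.toAdm hE S.Psi ht htE (l0 := M.j l0)
      (MinVI.finrank_centralizer_j M l0 hl0) huu' hu'u
      (fun a ha => hΛc u (hU hu) a (hΨ ha)) hy0 hh0 k x hxk (by
        intro i
        have h1 := hkΛ i u (hU hu)
        exact h1.symm) hxm
    have hsp := MinVI.finrank_span_xi M.toAdm S.γ v hv
    rw [hE] at hsp
    have hsp' : Module.finrank M.F1 (Submodule.span M.F1 (Set.range fun i =>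
        MinVI.xi M.toAdm S.γ (v i))) = Module.finrank M.F1 (Submodule.span M.F1 (Set.range x)) := by
      rw [show (fun i => MinVI.xi M.toAdm S.γ (v i)) = x from funext fun i => (hxv i).symm]
    rw [hsp'] at hsp
    have h5 := MinVI.arith S.hm hker' hsp hvi h4 hd hN
    refine h5.trans (hrank.trans ?_)
    refine MinVI.range_scale _ _ (LF.tp (-q)) ?_ W
    intro i j
    have e : y * st.γ' [i, j] = (LF.tp (-q) : LF M.F1) • (η * st.γ' [i, j]) := by
      rw [hqy, LD.smul_def, LD.toLD_tp, ← mul_assoc, ← mul_assoc, LD.tp_mul_tp, neg_add_cancel,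
        LD.tp_zero, one_mul]
    rw [Matrix.of_apply, Matrix.of_apply, e, map_smul, smul_eq_mul]
  refine ⟨st.toSt hz.gp, hG4, ?_, LD.mapL (M.toAdm.tt tE t), isTr_mv M.toAdm ht htE, ?_⟩
  · rw [hsd]
    exact MinVI.arith2 S.hm hker' hN
  · intro η hη hη0
    rw [hsd]
    exact main η hη hη0

end Crest.Agent.R180
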