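import Crest.Agent.R180.MinOneCore
import Crest.Agent.R180.MinPoint
import Crest.Agent.R180.MinLive
import Crest.Agent.R180.MinStep
import Crest.Agent.R180.MinSt
import Crest.Agent.R180.MinG
import Crest.Agent.R180.MinPE
import Crest.Agent.R180.MinTr
import Crest.Agent.R180.MinStart
import Crest.Agent.R180.MinMu

set_option autoImplicit false
noncomputable section
namespace Crest.Agent.R180

open TensorProduct RegPt

variable {P : (A : DA) → (m : ℕ) → NC (Fin m) A.D → Prop}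

/-! # Row 180, ROUTE M: steps (I) and (II) -/

/-- (I) -/
theorem minI (hP : MoveClosed P) {S : St P} (h : S.Good1) (X : Fin S.m → NC (Fin 2) S.A.F)
    (hX : ∀ j, X j [] = 0) (k : ℕ) (hk : 2 ≤ k)
    (hr : ∀ w : List (Fin 2), w.length < k → compD X S.γ w = 0) (w : List (Fin 2))
    (hw : w.length = k) : compD X S.γ w ∈ S.Λ := by
  obtain ⟨u, hu, h0⟩ := S.U_ne
  have hU := h.lin_mem hP
  obtain ⟨u', hu', huu', hu'u⟩ := S.exists_inv (hU hu) h0
  obtain ⟨N, hNk, ⟨M⟩⟩ := exists_PE S.A k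
  have hE := M.finrank_E
  have hN2 := M.pr.two_le
  obtain ⟨tE, htE, htE1⟩ := exists_isTrE M.toAdm
  have key := MinI.coeff_mem (F := S.A.F) (D := S.A.D) (F1 := M.F1) (E := M.E)
    (Subalgebra.toSubmodule S.Λ) k
    (fun w : Fin k → Fin 2 => compD X S.γ (List.ofFn w)) u' tE htE1
    (by rw [hE, pow_two]; exact Nat.mul_le_mul hNk hNk) (by rw [hE]; nlinarith)
    (fun ℓ hℓ p s hs => by
      obtain ⟨z, hz⟩ := exists_pt12 S.hm S.γ S.rs.zero M X hX k hk hr p s u hu
      obtain ⟨st⟩ := exists_step hP S.hm S.rs M.toAdm z hz.gp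
      have hrank := h.finrank_le hE hz.gp st
      obtain ⟨y, hy⟩ := hz.c0
      exact MinOne.pointI M.pr hE hs hy hu' huu' hrank tE htE ℓ hℓ)
  subst hw
  have h1 := key w.get
  have h2 : List.ofFn w.get = w := List.ofFn_get w
  rw [h2] at h1
  have h3 : compD X S.γ w = compD X S.γ w * u' * u := by rw [mul_assoc, hu'u, mul_one]
  rw [h3]
  exact S.Λ.mul_mem h1 (hU hu)

/-- (II) -/
theorem minII (hP : MoveClosed P) {S : St P} (h : S.Good2) (X : Fin S.m → NC (Fin 2) S.A.F)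
    (hX : ∀ j, X j [] = 0) (k : ℕ) (hk : 2 ≤ k)
    (hr : ∀ w : List (Fin 2), w.length < k → compD X S.γ w = 0) (w : List (Fin 2))
    (hw : w.length = k) (u : S.A.D) (hu : u ∈ S.U) (h0 : u ≠ 0) :
    ∃ ψ ∈ S.Psi, compD X S.γ w = u * ψ := by
  have hU := h.1.lin_mem hP
  obtain ⟨u', hu', huu', hu'u⟩ := S.exists_inv (hU hu) h0
  obtain ⟨N, hNk, ⟨M⟩⟩ := exists_PE S.A k
  have hE := M.finrank_E
  have hN2 := M.pr.two_le
  obtain ⟨tE, htE, htE1⟩ := exists_isTrE M.toAdm
  obtain ⟨t, ht⟩ := exists_isTr S.A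
  have hmem : ∀ w : List (Fin 2), w.length = k → compD X S.γ w ∈ S.Λ :=
    fun w hw => minI hP h.1 X hX k hk hr w hw
  have key := MinI.coeff_mem (F := S.A.F) (D := S.A.D) (F1 := M.F1) (E := M.E)
    (Subalgebra.toSubmodule S.Psi) k
    (fun w : Fin k → Fin 2 => compD X S.γ (List.ofFn w)) u' tE htE1
    (by rw [hE, pow_two]; exact Nat.mul_le_mul hNk hNk) (by rw [hE]; nlinarith)
    (fun ℓ hℓ p s hs => by
      obtain ⟨z, hz⟩ := exists_pt12 S.hm S.γ S.rs.zero M X hX k hk hr p s u hu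
      obtain ⟨st⟩ := exists_step hP S.hm S.rs M.toAdm z hz.gp
      have hrank := h.1.finrank_le hE hz.gp st
      obtain ⟨y, hy⟩ := hz.c0
      have hg1 : (st.toSt hz.gp).Good1 := by
        refine h.1.of_finrank hE hz.gp st ?_
        have h5 := MinOne.finrank_ge_of_res s S.Λ (M.adj S.Λ (M.ev z S.γ))
          (fun a ha => MinOne.one_tmul_res _ ha) (MinOne.s_tmul_res hy hu' huu')
        rwa [MinI.finrank_adjoin_of_prime M.pr hE s hs] at h5
      have hU' := hg1.lin_mem hP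
      have hrankΨ := h.finrank_le hU hE hz.gp st hg1 hU'
      refine MinOne.pointII st.U M.pr hE hs (k := k) (by omega) hz.c0 hz.d1 hz.eu hu hu' huu'
        st.rs.comm hU hU' (fun v => Step.exists_T hz.gp st v) hrank hrankΨ ?_ tE htE htE1 t ht ℓ hℓ
      intro l hl
      rw [Adm.homv, map_sum]
      refine Finset.sum_eq_zero fun w _ => ?_
      rw [MinI.ellE_tmul, hl _ (hmem _ (List.length_ofFn)), zero_smul])
  have h1 := key (fun i => w.get (i.cast hw.symm))
  have h2 : List.ofFn (fun i : Fin k => w.get (i.cast hw.symm)) = w := by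
    subst hw; exact List.ofFn_get w
  rw [h2] at h1
  refine ⟨u' * compD X S.γ w, ?_, by rw [← mul_assoc, huu', one_mul]⟩
  rw [S.rs.comm u' hu' _ (hmem w hw)]
  exact h1

end Crest.Agent.R180
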