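import Crest.Agent.R180.MinIVa

set_option autoImplicit false
set_option linter.unusedSectionVars false

/-!
# Row 180, route M, step (IV): the index drops by one (helper164)
-/

noncomputable section
namespace Crest.Agent.R180

open TensorProduct

namespace MinIV

section comm2

variable {F D : Type} [Field F] [Ring D] [IsDomain D] [Algebra F D] [FiniteDimensional F D]
  {U : Submodule F D} {Λ : Subalgebra F D}

/-- if `dim U^q = dim Ψ` then `U^q = Ψ u^q` -/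
theorem full_spec (hc : ∀ a ∈ Λ, ∀ b ∈ Λ, a * b = b * a) (hU : U ≤ Subalgebra.toSubmodule Λ)
    {u u' : D} (hu : u ∈ U) (hu0 : u ≠ 0) (hu' : u' * u = 1) (hu'Λ : u' ∈ Λ) (q : ℕ)
    (hq : Module.finrank F (U ^ q : Submodule F D) = Module.finrank F (PsiOf U)) (ψ : D)
    (hψ : ψ ∈ PsiOf U) : ψ * u ^ q ∈ U ^ q := by
  have hne : u' ^ q ≠ 0 := by
    apply pow_ne_zero
    rintro rfl
    rw [zero_mul] at hu'
    exact zero_ne_one hu'
  have h1 : (U ^ q).map (LinearMap.mulRight F (u' ^ q)) ≤ Subalgebra.toSubmodule (PsiOf U) := by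
    rintro _ ⟨y, hy, rfl⟩
    exact pow_mul_inv_mem hc hU hu hu0 hu' hu'Λ q y hy
  have hinj : Function.Injective (LinearMap.mulRight F (u' ^ q)) := by
    intro a b hab
    exact mul_right_cancel₀ hne hab
  have h2 : Module.finrank F ((U ^ q).map (LinearMap.mulRight F (u' ^ q))) =
      Module.finrank F (U ^ q : Submodule F D) :=
    (Submodule.equivMapOfInjective _ hinj (U ^ q)).finrank_eq.symm
  have h3 : (U ^ q).map (LinearMap.mulRight F (u' ^ q)) = Subalgebra.toSubmodule (PsiOf U) := by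
    apply Submodule.eq_of_le_of_finrank_eq h1
    rw [h2, hq]
    rfl
  have h4 : ψ ∈ (U ^ q).map (LinearMap.mulRight F (u' ^ q)) := by
    rw [h3]; exact hψ
  obtain ⟨y, hy, rfl⟩ := h4
  have h5 : u' ^ q * u ^ q = 1 := by
    have hcomm : Commute u' u := hc u' hu'Λ u (hU hu)
    rw [← hcomm.mul_pow, hu', one_pow]
  change y * u' ^ q * u ^ q ∈ U ^ q
  rw [mul_assoc, h5, mul_one]
  exact hy

end comm2

section core

variable {P : (A : DA) → (m : ℕ) → NC (Fin m) A.D → Prop} {A : DA} {m N : ℕ}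
  {Λ : Subalgebra A.F A.D} {γ : NC (Fin m) A.D}

/-- products of residues of `U'` -/
theorem tmul_mem_pow (M : PE A N) (R : Submodule M.F1 M.D0) (U : Submodule A.F A.D)
    (hR : ∀ a ∈ U, ∀ l : M.L, (M.j l) ⊗ₜ[A.F] a ∈ R) (n : ℕ) :
    (∀ κ ∈ U ^ n, (1 : M.E) ⊗ₜ[A.F] κ ∈ R ^ n) ∧
      ∀ κ ∈ U ^ (n + 1), ∀ l : M.L, (M.j l) ⊗ₜ[A.F] κ ∈ R ^ (n + 1) := by
  have h1 : ∀ n, ∀ κ ∈ U ^ n, (1 : M.E) ⊗ₜ[A.F] κ ∈ R ^ n := by
    intro n
    induction n with
    | zero =>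
      intro κ hκ
      rw [pow_zero] at hκ ⊢
      obtain ⟨c, rfl⟩ := Submodule.mem_one.mp hκ
      refine Submodule.mem_one.mpr ⟨algebraMap A.F M.F1 c, ?_⟩
      rw [Algebra.TensorProduct.algebraMap_apply, ← IsScalarTower.algebraMap_apply A.F M.F1 M.E,
        Algebra.algebraMap_eq_smul_one, Algebra.algebraMap_eq_smul_one, TensorProduct.smul_tmul]
    | succ n ih =>
      intro κ hκ
      rw [pow_succ] at hκ ⊢
      refine Submodule.mul_induction_on hκ ?_ ?_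
      · intro a ha b hb
        have h2 := hR b hb 1
        rw [map_one] at h2
        have h3 : (1 : M.E) ⊗ₜ[A.F] (a * b) = ((1 : M.E) ⊗ₜ[A.F] a) * ((1 : M.E) ⊗ₜ[A.F] b) := by
          rw [Algebra.TensorProduct.tmul_mul_tmul, one_mul]
        rw [h3]
        exact Submodule.mul_mem_mul (ih a ha) h2
      · intro a b ha hb
        rw [TensorProduct.tmul_add]
        exact Submodule.add_mem _ ha hb
  refine ⟨h1 n, fun κ hκ l => ?_⟩
  rw [pow_succ] at hκ ⊢
  refine Submodule.mul_induction_on hκ ?_ ?_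
  · intro a ha b hb
    have h3 : (M.j l) ⊗ₜ[A.F] (a * b) = ((1 : M.E) ⊗ₜ[A.F] a) * ((M.j l) ⊗ₜ[A.F] b) := by
      rw [Algebra.TensorProduct.tmul_mul_tmul, one_mul]
    rw [h3]
    exact Submodule.mul_mem_mul (h1 n a ha) (hR b hb l)
  · intro a b ha hb
    rw [TensorProduct.tmul_add]
    exact Submodule.add_mem _ ha hb

/-- **(IV)**: the index drops by one. -/
theorem core (M : PE A N) (hN : 2 ≤ N) {z : Fin m → PowerSeries M.E}
    (st : Step P Λ γ M.toAdm z) (t : A.D →ₗ[A.F] A.F) (ht : IsTr t) (tE : M.E →ₗ[M.F1] M.F1)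
    (u u' : A.D) (hu : u ∈ UU γ) (huu' : u * u' = 1)
    (hΛ : ∀ a ∈ Λ, ∀ b ∈ Λ, a * b = b * a) (hU : UU γ ≤ Subalgebra.toSubmodule Λ)
    (hΛ' : ∀ a ∈ st.Lam, ∀ b ∈ st.Lam, a * b = b * a)
    (hU' : st.U ≤ Subalgebra.toSubmodule st.Lam) (hne' : ∃ a ∈ st.U, a ≠ 0)
    (resPsi : LD.resSp (Subalgebra.toSubmodule st.Psi) =
      Subalgebra.toSubmodule (M.psiL (PsiOf (UU γ))))
    (resH : ∀ x ∈ st.H t tE, LD.IsInt x →
      x.co 0 ∈ Submodule.span M.F1 {y : M.D0 | ∃ (a : M.L) (h : A.D), h ∈ HH2 t (UU γ) u' ∧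
          y = M.j a ⊗ₜ[A.F] h} ⊔
        Submodule.span M.F1 {y : M.D0 | ∃ h ∈ HH t (UU γ), y = (1 : M.E) ⊗ₜ[A.F] h})
    (resU : ∀ a ∈ UU γ, ∀ l : M.L, (M.j l) ⊗ₜ[A.F] a ∈ LD.resSp st.U)
    (q p : ℕ) (hq : Module.finrank A.F ((UU γ) ^ q : Submodule A.F A.D) =
      Module.finrank A.F (PsiOf (UU γ))) (hqp : q ≤ p + 1) (hp : 2 ≤ p) :
    Module.finrank (LF M.F1) (st.U ^ p : Submodule (LF M.F1) (LD M.D0)) =
      Module.finrank (LF M.F1) st.Psi := by
  classical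
  have hD : IsDomain M.D0 := M.dom
  set U := UU γ with hUdef
  -- inverses
  have hu0 : u ≠ 0 := by rintro rfl; rw [zero_mul] at huu'; exact zero_ne_one huu'
  obtain ⟨w, hwΛ, huw, hwu⟩ := P2Dim.exists_inv_mem Λ u (hU hu) hu0
  have hu'w : u' = w := by
    calc u' = (w * u) * u' := by rw [hwu, one_mul]
      _ = w := by rw [mul_assoc, huu', mul_one]
  have hu'Λ : u' ∈ Λ := by rw [hu'w]; exact hwΛ
  have hu'u : u' * u = 1 := by rw [hu'w]; exact hwu
  obtain ⟨u1, hu1, hu10⟩ := hne'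
  obtain ⟨u1', hu1'Λ, hu1u, hu1'u⟩ := P2Dim.exists_inv_mem st.Lam u1 (hU' hu1) hu10
  set T := LD.mapL (M.tt tE t) with hT
  by_contra hcon
  have hlt : Module.finrank (LF M.F1) (st.U ^ p : Submodule (LF M.F1) (LD M.D0)) <
      Module.finrank (LF M.F1) st.Psi :=
    lt_of_le_of_ne (finrank_pow_le hΛ' hU' hu1 hu10 hu1'u hu1'Λ p) hcon
  -- the annihilating element
  obtain ⟨x, hx0, hx⟩ : ∃ x : LD M.D0, x ≠ 0 ∧ ∀ y ∈ st.U ^ p, x * y ∈ st.Psi ∧ T (x * y) = 0 := by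
    have h1 : Module.finrank (LF M.F1)
        ((st.U ^ p).map (LinearMap.mulRight (LF M.F1) (u1' ^ p))) <
          Module.finrank (LF M.F1) (Subalgebra.toSubmodule st.Psi) :=
      lt_of_le_of_lt (Submodule.finrank_map_le _ _) hlt
    obtain ⟨ψ, hψ, hψ0, h2⟩ := exists_ne_zero_of_finrank_lt T _ _ h1
    have hne : u1' ^ p ≠ 0 := by
      apply pow_ne_zero
      rintro rfl
      rw [zero_mul] at hu1'u
      exact zero_ne_one hu1'u
    refine ⟨ψ * u1' ^ p, mul_ne_zero hψ0 hne, fun y hy => ?_⟩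
    have h3 : ψ * u1' ^ p * y = ψ * (y * u1' ^ p) := by
      rw [mul_assoc, hΛ' _ (st.Lam.pow_mem hu1'Λ p) y (pow_le hU' p hy)]
    rw [h3]
    exact ⟨st.Psi.mul_mem hψ (pow_mul_inv_mem hΛ' hU' hu1 hu10 hu1'u hu1'Λ p y hy),
      h2 _ ⟨y, hy, rfl⟩⟩
  -- normalise
  obtain ⟨k, x', hxx', hxi, hx'0⟩ := LD.exists_normal hx0
  have hx' : ∀ y ∈ st.U ^ p, x' * y ∈ st.Psi ∧ T (x' * y) = 0 := by
    intro y hy
    have h1 : x' * y = (LF.tp (-k) : LF M.F1) • (x * y) := by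
      rw [LD.smul_def, LD.toLD_tp, hxx', ← mul_assoc, ← mul_assoc, LD.tp_mul_tp]
      simp [LD.tp_zero]
    rw [h1, map_smul, (hx y hy).2, smul_zero]
    exact ⟨st.Psi.smul_mem (hx y hy).1 _, rfl⟩
  set x0 := x'.co 0 with hx0def
  -- (R1)
  have R1 : ∀ y ∈ st.U ^ (p - 1), x' * y ∈ st.H t tE := by
    intro y hy a ha
    have h1 : y * a ∈ st.U ^ p := by
      have h2 : p = (p - 1) + 1 := by omega
      rw [h2, pow_succ]
      exact Submodule.mul_mem_mul hy ha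
    rw [mul_assoc]
    exact hx' _ h1
  set R := Submodule.span M.F1 {y : M.D0 | ∃ (a : M.L) (h : A.D), h ∈ HH2 t U u' ∧
      y = M.j a ⊗ₜ[A.F] h} ⊔
    Submodule.span M.F1 {y : M.D0 | ∃ h ∈ HH t U, y = (1 : M.E) ⊗ₜ[A.F] h} with hRdef
  -- (R2)
  have R2 : ∀ y0 ∈ (LD.resSp st.U) ^ (p - 1), x0 * y0 ∈ R := by
    intro y0 hy0
    obtain ⟨y, hy, hyi, rfl⟩ := resSp_pow st.U (p - 1) hy0
    have h1 := resH _ (R1 y hy) (hxi.mul hyi)
    rw [hxi.co_mul_zero hyi] at h1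
    exact h1
  -- (R3)
  have R3 : ∀ y0 ∈ (LD.resSp st.U) ^ p, x0 * y0 ∈ M.psiL (PsiOf U) := by
    intro y0 hy0
    obtain ⟨y, hy, hyi, rfl⟩ := resSp_pow st.U p hy0
    have h1 : (x' * y).co 0 ∈ LD.resSp (Subalgebra.toSubmodule st.Psi) :=
      ⟨x' * y, (hx' y hy).1, hxi.mul hyi, rfl⟩
    rw [hxi.co_mul_zero hyi, resPsi] at h1
    exact h1
  have R4 := tmul_mem_pow M (LD.resSp st.U) U resU
  -- Lemma A
  have lemA : ∀ z ∈ R, ∀ a ∈ U, ∀ b ∈ U, ∃ c : M.F1,
      M.con (t ∘ₗ LinearMap.mulRight A.F (a * b * u')) z = algebraMap M.F1 M.E c := by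
    intro z hz a ha b hb
    have hle : R ≤ (LinearMap.range (Algebra.linearMap M.F1 M.E)).comap
        (M.con (t ∘ₗ LinearMap.mulRight A.F (a * b * u'))) := by
      refine sup_le ?_ ?_
      · rw [Submodule.span_le]
        rintro _ ⟨l, h, hh, rfl⟩
        refine ⟨0, ?_⟩
        rw [map_zero]
        change (0 : M.E) = MinI.ellE (F1 := M.F1) M.E _ _
        rw [MinI.ellE_tmul]
        have h1 : (t ∘ₗ LinearMap.mulRight A.F (a * b * u')) h = t (h * a * b * u') := by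
          change t (h * (a * b * u')) = _
          simp only [mul_assoc]
        rw [h1, hh.2 a ha b hb, zero_smul]
      · rw [Submodule.span_le]
        rintro _ ⟨h, hh, rfl⟩
        rw [SetLike.mem_coe, Submodule.mem_comap]
        change MinI.ellE (F1 := M.F1) M.E (t ∘ₗ LinearMap.mulRight A.F (a * b * u'))
          ((1 : M.E) ⊗ₜ[A.F] h) ∈ _
        rw [MinI.ellE_tmul]
        refine ⟨algebraMap A.F M.F1 ((t ∘ₗ LinearMap.mulRight A.F (a * b * u')) h), ?_⟩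
        rw [Algebra.linearMap_apply, ← IsScalarTower.algebraMap_apply A.F M.F1 M.E,
          Algebra.algebraMap_eq_smul_one]
    obtain ⟨c, hc⟩ := hle hz
    exact ⟨c, hc.symm⟩
  -- (R6)
  have R6 : ∀ l : M.L, ∀ y ∈ U ^ (p + 1),
      M.con (t ∘ₗ LinearMap.mulRight A.F (y * u')) x0 * M.j l ∈
        LinearMap.range (Algebra.linearMap M.F1 M.E) := by
    intro l y hy
    have hp1 : p + 1 = (p - 1) + 1 + 1 := by omega
    rw [hp1, pow_succ] at hy
    have hadd : ∀ y1 y2 : A.D, M.con (t ∘ₗ LinearMap.mulRight A.F ((y1 + y2) * u')) x0 =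
        M.con (t ∘ₗ LinearMap.mulRight A.F (y1 * u')) x0 +
          M.con (t ∘ₗ LinearMap.mulRight A.F (y2 * u')) x0 := by
      intro y1 y2
      have : ∀ x : M.D0, M.con (t ∘ₗ LinearMap.mulRight A.F ((y1 + y2) * u')) x =
        M.con (t ∘ₗ LinearMap.mulRight A.F (y1 * u')) x +
          M.con (t ∘ₗ LinearMap.mulRight A.F (y2 * u')) x := by
        intro x
        induction x using TensorProduct.induction_on with
        | zero => simp
        | tmul e d =>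
          change MinI.ellE (F1 := M.F1) M.E _ _ = MinI.ellE (F1 := M.F1) M.E _ _ +
            MinI.ellE (F1 := M.F1) M.E _ _
          rw [MinI.ellE_tmul, MinI.ellE_tmul, MinI.ellE_tmul, ← add_smul]
          congr 1
          change t (d * ((y1 + y2) * u')) = t (d * (y1 * u')) + t (d * (y2 * u'))
          rw [add_mul, mul_add, map_add]
        | add a b ha hb => rw [map_add, map_add, map_add, ha, hb]; abel
      exact this x0
    refine Submodule.mul_induction_on hy ?_ ?_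
    · intro y1 hy1 b hb
      rw [pow_succ] at hy1
      refine Submodule.mul_induction_on hy1 ?_ ?_
      · intro κ hκ a ha
        -- `x0 * (j l ⊗ κ) ∈ R`
        obtain ⟨n, hn⟩ : ∃ n, p - 1 = n + 1 := ⟨p - 2, by omega⟩
        rw [hn] at hκ
        have h1 := R2 ((M.j l) ⊗ₜ[A.F] κ) (by rw [hn]; exact (R4 n).2 κ hκ l)
        obtain ⟨c, hc⟩ := lemA _ h1 a ha b hb
        refine ⟨c, ?_⟩
        rw [Algebra.linearMap_apply, ← hc]
        change MinI.ellE (F1 := M.F1) M.E _ _ = MinI.ellE (F1 := M.F1) M.E _ _ * _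
        have h4 : (t ∘ₗ LinearMap.mulRight A.F (a * b * u')) ∘ₗ LinearMap.mulRight A.F κ =
            t ∘ₗ LinearMap.mulRight A.F (κ * a * b * u') := by
          apply LinearMap.ext
          intro d
          change t (d * κ * (a * b * u')) = t (d * (κ * a * b * u'))
          simp only [mul_assoc]
        rw [ellE_mul_tmul, h4]
      · intro y1 y2 h1 h2
        rw [add_mul, hadd, add_mul]
        exact Submodule.add_mem _ h1 h2
    · intro y1 y2 h1 h2
      rw [hadd, add_mul]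
      exact Submodule.add_mem _ h1 h2
  -- (R7)
  have R7 : ∀ y ∈ U ^ (p + 1), M.con (t ∘ₗ LinearMap.mulRight A.F (y * u')) x0 = 0 := by
    intro y hy
    by_contra hne
    obtain ⟨c, hc⟩ := R6 1 y hy
    rw [map_one, mul_one] at hc
    have hc0 : c ≠ 0 := by
      rintro rfl
      rw [map_zero] at hc
      exact hne hc.symm
    have hall : ∀ l : M.L, ∃ d : M.F1, algebraMap M.F1 M.L d = l := by
      intro l
      obtain ⟨e, he⟩ := R6 l y hy
      rw [← hc, Algebra.linearMap_apply, Algebra.linearMap_apply] at he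
      refine ⟨c⁻¹ * e, ?_⟩
      apply (M.j : M.L →+* M.E).injective
      change M.j (algebraMap M.F1 M.L (c⁻¹ * e)) = M.j l
      rw [AlgHom.commutes, map_mul, he, ← mul_assoc, ← map_mul, inv_mul_cancel₀ hc0, map_one,
        one_mul]
    have hbot : (⊤ : Subalgebra M.F1 M.L) = ⊥ := by
      rw [eq_bot_iff]
      intro l _
      exact Algebra.mem_bot.mpr (hall l)
    have h1 : Module.finrank M.F1 M.L = 1 := by
      have h2 : Module.finrank M.F1 (⊤ : Subalgebra M.F1 M.L) = Module.finrank M.F1 M.L :=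
        Subalgebra.topEquiv.toLinearEquiv.finrank_eq
      rw [← h2, hbot, Subalgebra.finrank_bot]
    rw [M.finrankL] at h1
    omega
  -- (R8), (R9)
  have hcomm : Commute u u' := hΛ u (hU hu) u' hu'Λ
  have hupow : ∀ n : ℕ, u ^ n * u' ^ n = 1 := by
    intro n
    rw [← hcomm.mul_pow, huu', one_pow]
  have hupow' : ∀ n : ℕ, u' ^ n * u ^ n = 1 := by
    intro n
    rw [← hcomm.symm.mul_pow, hu'u, one_pow]
  have hψΛ : PsiOf U ≤ Λ := psi_le hU
  have hz0 : x0 * ((1 : M.E) ⊗ₜ[A.F] (u ^ p)) = 0 := by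
    apply key_zero (F1 := M.F1) t (PsiOf U)
    · intro ψ hψ hψ0
      obtain ⟨ψ', hψ', h1, h2⟩ := P2Dim.exists_inv_mem (PsiOf U) ψ hψ hψ0
      exact ⟨ψ', hψ', by rw [h2]; exact ht.2⟩
    · have h1 := R3 ((1 : M.E) ⊗ₜ[A.F] (u ^ p)) ((R4 p).1 _ (Submodule.pow_mem_pow _ hu p))
      have h2 : M.psiL (PsiOf U) ≤ (Algebra.TensorProduct.map (AlgHom.id M.F1 M.E)
          (PsiOf U).val : M.E ⊗[A.F] (PsiOf U) →ₐ[M.F1] M.E ⊗[A.F] A.D).range := by
        apply Algebra.adjoin_le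
        rintro _ (⟨l, rfl⟩ | ⟨ψ, hψ, rfl⟩)
        · exact ⟨(M.j l) ⊗ₜ[A.F] (1 : PsiOf U), rfl⟩
        · exact ⟨(1 : M.E) ⊗ₜ[A.F] (⟨ψ, hψ⟩ : PsiOf U), rfl⟩
      exact h2 h1
    · intro ψ hψ
      rw [ellE_mul_tmul, mul_one]
      -- `y = ψ u^(p+1) ∈ U^(p+1)`
      have h1 : ψ * u ^ q ∈ U ^ q := full_spec hΛ hU hu hu0 hu'u hu'Λ q hq ψ hψ
      have h2 : ψ * u ^ (p + 1) ∈ U ^ (p + 1) := by
        have h3 : p + 1 = q + (p + 1 - q) := by omega
        rw [h3, pow_add u, ← mul_assoc, pow_add]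
        exact Submodule.mul_mem_mul h1 (Submodule.pow_mem_pow _ hu _)
      have h3 := R7 _ h2
      have h4 : (t ∘ₗ LinearMap.mulRight A.F ψ) ∘ₗ LinearMap.mulRight A.F (u ^ p) =
          t ∘ₗ LinearMap.mulRight A.F (ψ * u ^ (p + 1) * u') := by
        apply LinearMap.ext
        intro d
        change t (d * u ^ p * ψ) = t (d * (ψ * u ^ (p + 1) * u'))
        rw [pow_succ, mul_assoc ψ, mul_assoc (u ^ p), huu', mul_one, mul_assoc,
          hΛ _ (Λ.pow_mem (hU hu) p) _ (hψΛ hψ)]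
      rw [h4]
      exact h3
  apply hx'0
  have h1 : x0 = x0 * ((1 : M.E) ⊗ₜ[A.F] (u ^ p)) * ((1 : M.E) ⊗ₜ[A.F] (u' ^ p)) := by
    rw [mul_assoc, Algebra.TensorProduct.tmul_mul_tmul, hupow, one_mul,
      ← Algebra.TensorProduct.one_def, mul_one]
  rw [h1, hz0, zero_mul]

end core

end MinIV

end Crest.Agent.R180
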