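import Mathlib

set_option autoImplicit false

/-!
# Row 180: trace separation

`K` a field, `E` a finite dimensional central division algebra over `K` with `n ^ 2 ≤ dim E`,
`τ : E → K` a nonzero trace form (`τ (x*y) = τ (y*x)`).  If `P` is a homogeneous noncommutative
polynomial of degree `n` with `τ (P z) = 0` for all `z`, then all cyclic sums of `P` vanish.
-/

namespace Crest.Agent.R180

open scoped TensorProduct

section Simple

variable {K Ω E : Type*} [Field K] [Field Ω] [Algebra K Ω] [Ring E] [IsDomain E] [Algebra K E]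
  [FiniteDimensional K E] [Algebra.IsCentral K E]

omit [IsDomain E] [FiniteDimensional K E] [Algebra.IsCentral K E] in
theorem bc_mul_left {ι : Type*} (b : Module.Basis ι K Ω) (f : ι →₀ E) (a : E) :
    ((1 : Ω) ⊗ₜ[K] a) * (f.sum fun i e => b i ⊗ₜ[K] e) =
      (f.mapRange (a * ·) (mul_zero a)).sum fun i e => b i ⊗ₜ[K] e := by
  rw [Finsupp.sum_mapRange_index (by simp), Finsupp.mul_sum]
  simp

omit [IsDomain E] [FiniteDimensional K E] [Algebra.IsCentral K E] in
theorem bc_mul_right {ι : Type*} (b : Module.Basis ι K Ω) (f : ι →₀ E) (a : E) :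
    (f.sum fun i e => b i ⊗ₜ[K] e) * ((1 : Ω) ⊗ₜ[K] a) =
      (f.mapRange (· * a) (zero_mul a)).sum fun i e => b i ⊗ₜ[K] e := by
  rw [Finsupp.sum_mapRange_index (by simp), Finsupp.sum_mul]
  simp

variable (K Ω E)

/-- base change of a f.d. central division algebra to any field extension is simple. -/
theorem isSimpleRing_baseChange : IsSimpleRing (Ω ⊗[K] E) := by
  classical
  let b := Module.Basis.ofVectorSpace K Ω
  have key : ∀ (I : TwoSidedIdeal (Ω ⊗[K] E)) (n : ℕ)
      (f : (Module.Basis.ofVectorSpaceIndex K Ω) →₀ E), f.support.card = n → f ≠ 0 →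
      (f.sum fun i e => b i ⊗ₜ[K] e) ∈ I → (1 : Ω ⊗[K] E) ∈ I := by
    intro I n
    induction n using Nat.strong_induction_on with
    | _ n ih =>
    intro f hfn hf0 hfI
    obtain ⟨i0, hi0⟩ := Finsupp.support_nonempty_iff.mpr hf0
    have hi0' : f i0 ≠ 0 := Finsupp.mem_support_iff.mp hi0
    obtain ⟨a, ha⟩ := FiniteDimensional.exists_mul_eq_one K hi0'
    -- normalise on the right
    set f1 := f.mapRange (· * a) (zero_mul a) with hf1
    have hf1I : (f1.sum fun i e => b i ⊗ₜ[K] e) ∈ I := by
      rw [hf1, ← bc_mul_right]; exact I.mul_mem_right _ _ hfI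
    have hf1i0 : f1 i0 = 1 := by simp [hf1, ha]
    have hsupp : f1.support ⊆ f.support := Finsupp.support_mapRange
    by_cases hcomm : ∀ d : E, ∀ i, d * f1 i = f1 i * d
    · -- all coefficients central
      have hk : ∀ i, ∃ k : K, algebraMap K E k = f1 i := by
        intro i
        have hm : f1 i ∈ Subalgebra.center K E := by
          rw [Subalgebra.mem_center_iff]; intro d; exact hcomm d i
        have := Algebra.IsCentral.out (K := K) (D := E) hm
        exact Algebra.mem_bot.mp this
      choose k hk using hk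
      set ω : Ω := ∑ i ∈ f1.support, k i • b i with hω
      have hx : (f1.sum fun i e => b i ⊗ₜ[K] e) = ω ⊗ₜ[K] (1 : E) := by
        rw [Finsupp.sum, hω, TensorProduct.sum_tmul]
        refine Finset.sum_congr rfl fun i _ => ?_
        rw [← hk i, Algebra.algebraMap_eq_smul_one, TensorProduct.tmul_smul,
          TensorProduct.smul_tmul']
      have hω0 : ω ≠ 0 := by
        intro h0
        have hz : (f1.sum fun i e => b i ⊗ₜ[K] e) = 0 := by rw [hx, h0, TensorProduct.zero_tmul]
        have := TensorProduct.sum_tmul_basis_left_eq_zero b f1 hz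
        rw [this] at hf1i0
        simp at hf1i0
      have : (1 : Ω ⊗[K] E) = (ω⁻¹ ⊗ₜ[K] (1 : E)) * (ω ⊗ₜ[K] (1 : E)) := by
        rw [Algebra.TensorProduct.tmul_mul_tmul, inv_mul_cancel₀ hω0, one_mul,
          Algebra.TensorProduct.one_def]
      rw [this, ← hx]
      exact I.mul_mem_left _ _ hf1I
    · push Not at hcomm
      obtain ⟨d, i, hdi⟩ := hcomm
      set g := f1.mapRange (d * ·) (mul_zero d) - f1.mapRange (· * d) (zero_mul d) with hg
      have hgI : (g.sum fun i e => b i ⊗ₜ[K] e) ∈ I := by
        have h1 := bc_mul_left b f1 d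
        have h2 := bc_mul_right b f1 d
        rw [hg, Finsupp.sum_sub_index (by intro i e e'; rw [TensorProduct.tmul_sub]), ← h1, ← h2]
        exact I.sub_mem (I.mul_mem_left _ _ hf1I) (I.mul_mem_right _ _ hf1I)
      have hgi : g i ≠ 0 := by
        simp only [hg, Finsupp.coe_sub, Pi.sub_apply, Finsupp.mapRange_apply]
        exact sub_ne_zero.mpr hdi
      have hg0 : g ≠ 0 := fun h => hgi (by rw [h]; rfl)
      have hlt : g.support.card < n := by
        rw [← hfn]
        apply Finset.card_lt_card
        rw [Finset.ssubset_iff_of_subset]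
        · refine ⟨i0, hi0, ?_⟩
          rw [Finsupp.notMem_support_iff]
          simp only [hg, Finsupp.coe_sub, Pi.sub_apply, Finsupp.mapRange_apply, hf1i0]
          simp
        · intro j hj
          apply hsupp
          rw [Finsupp.mem_support_iff] at hj ⊢
          intro h0
          apply hj
          simp only [hg, Finsupp.coe_sub, Pi.sub_apply, Finsupp.mapRange_apply, h0]
          simp
      exact ih _ hlt g rfl hg0 hgI
  have hnt : Nontrivial (Ω ⊗[K] E) := by
    have : Module.FaithfullyFlat K E := inferInstance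
    infer_instance
  refine IsSimpleRing.of_eq_bot_or_eq_top fun I => ?_
  rw [or_iff_not_imp_left, ← I.one_mem_iff]
  intro hI
  obtain ⟨x, hx1, hx2⟩ := SetLike.exists_of_lt (bot_lt_iff_ne_bot.mpr hI : ⊥ < I)
  have hx0 : x ≠ 0 := fun h => hx2 (by rw [h]; exact zero_mem _)
  set f := TensorProduct.equivFinsuppOfBasisLeft b x with hf
  have hfx : (f.sum fun i e => b i ⊗ₜ[K] e) = x := by
    have := (TensorProduct.equivFinsuppOfBasisLeft (N := E) b).symm_apply_apply x
    rw [← hf, TensorProduct.equivFinsuppOfBasisLeft_symm_apply] at this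
    exact this
  refine key I _ f rfl ?_ (by rw [hfx]; exact hx1)
  intro h0
  apply hx0
  rw [← hfx, h0]; simp

end Simple

section Multilin

variable {K E : Type*} [Field K] [Ring E] [Algebra K E]

/-- the multilinear form `y ↦ ∑ f, c f • τ (y (f 0) * y (f 1) * ...)`. -/
noncomputable def permForm (n : ℕ) (τ : E →ₗ[K] K) (c : Equiv.Perm (Fin n) → K) :
    MultilinearMap K (fun _ : Fin n => E) K :=
  ∑ f : Equiv.Perm (Fin n),
    c f • (τ.compMultilinearMap (MultilinearMap.mkPiAlgebraFin K n E)).domDomCongr f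

theorem permForm_apply (n : ℕ) (τ : E →ₗ[K] K) (c : Equiv.Perm (Fin n) → K) (y : Fin n → E) :
    permForm n τ c y =
      ∑ f : Equiv.Perm (Fin n), c f * τ (List.ofFn (fun j => y (f j))).prod := by
  simp [permForm]

/-- `S ⊇ A` alternating sum. -/
theorem sum_compl_neg_one_pow {n : ℕ} (A : Finset (Fin n)) :
    (∑ S : Finset (Fin n), if A ⊆ S then (-1 : ℤ) ^ (Sᶜ).card else 0) =
      if A = Finset.univ then 1 else 0 := by
  classical
  have h1 : (∑ S : Finset (Fin n), if A ⊆ S then (-1 : ℤ) ^ (Sᶜ).card else 0) =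
      ∑ T : Finset (Fin n), if T ⊆ Aᶜ then (-1 : ℤ) ^ T.card else 0 := by
    refine Finset.sum_bij' (fun S _ => Sᶜ) (fun T _ => Tᶜ) (by simp) (by simp) (by simp) (by simp) ?_
    intro S _
    simp
  rw [h1, ← Finset.sum_filter]
  have h2 : (Finset.univ.filter fun T : Finset (Fin n) => T ⊆ Aᶜ) = (Aᶜ).powerset := by
    ext T; simp
  rw [h2, Finset.sum_powerset_neg_one_pow_card]
  simp [Finset.compl_eq_empty_iff]

variable {σ : Type*} [Fintype σ]

/-- evaluation of a homogeneous noncommutative polynomial. -/
def evalH {n : ℕ} (P : (Fin n → σ) → K) (z : σ → E) : E :=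
  ∑ w, P w • (List.ofFn (fun j => z (w j))).prod

open Classical in
/-- partial sums used in the polarisation -/
noncomputable def zpol {n : ℕ} (s : Fin n → σ) (y : Fin n → E) (S : Finset (Fin n)) : σ → E :=
  fun t => ∑ k ∈ S.filter (fun k => s k = t), y k

open Classical in
theorem evalH_zpol {n : ℕ} (P : (Fin n → σ) → K) (s : Fin n → σ) (y : Fin n → E)
    (S : Finset (Fin n)) :
    evalH P (zpol s y S) =
      ∑ r : Fin n → Fin n, if Finset.univ.image r ⊆ S then
        P (s ∘ r) • (List.ofFn (fun j => y (r j))).prod else 0 := by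
  have h1 : ∀ w : Fin n → σ, (List.ofFn (fun j => zpol s y S (w j))).prod =
      ∑ r : Fin n → Fin n, if (∀ j, r j ∈ S ∧ s (r j) = w j) then
        (List.ofFn (fun j => y (r j))).prod else 0 := by
    intro w
    have := MultilinearMap.map_sum_finset (MultilinearMap.mkPiAlgebraFin K n E)
      (fun _ k => y k) (fun j => S.filter (fun k => s k = w j))
    simp only [MultilinearMap.mkPiAlgebraFin_apply] at this
    rw [← Finset.sum_filter]
    refine this.trans (Finset.sum_congr ?_ fun _ _ => rfl)
    ext r
    simp [Fintype.mem_piFinset]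
  unfold evalH
  simp only [h1, Finset.smul_sum]
  rw [Finset.sum_comm]
  refine Finset.sum_congr rfl fun r _ => ?_
  rw [Finset.sum_eq_single (s ∘ r)]
  · have : (∀ j, r j ∈ S ∧ s (r j) = (s ∘ r) j) ↔ Finset.univ.image r ⊆ S := by
      simp [Finset.subset_iff]
    simp only [this]
    split_ifs <;> simp
  · intro w _ hw
    rw [if_neg, smul_zero]
    intro h
    apply hw
    ext j
    rw [← (h j).2]; rfl
  · simp

open Classical in
theorem polarisation {n : ℕ} (τ : E →ₗ[K] K) (P : (Fin n → σ) → K) (s : Fin n → σ)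
    (y : Fin n → E) :
    permForm n τ (fun f => P (s ∘ f)) y =
      ∑ S : Finset (Fin n), ((-1 : ℤ) ^ (Sᶜ).card) • τ (evalH P (zpol s y S)) := by
  simp only [evalH_zpol, map_sum, Finset.smul_sum]
  rw [Finset.sum_comm]
  have h1 : ∀ r : Fin n → Fin n, (∑ S : Finset (Fin n), ((-1 : ℤ) ^ (Sᶜ).card) •
      τ (if Finset.univ.image r ⊆ S then P (s ∘ r) • (List.ofFn (fun j => y (r j))).prod else 0)) =
      if Function.Bijective r then P (s ∘ r) * τ (List.ofFn (fun j => y (r j))).prod else 0 := by
    intro r
    have h2 := sum_compl_neg_one_pow (Finset.univ.image r)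
    have h3 : Finset.univ.image r = Finset.univ ↔ Function.Bijective r := by
      rw [Finset.eq_univ_iff_forall, ← Finite.surjective_iff_bijective]
      simp [Function.Surjective]
    rw [if_congr h3 rfl rfl] at h2
    have h4 : ∀ S : Finset (Fin n), ((-1 : ℤ) ^ (Sᶜ).card) •
      τ (if Finset.univ.image r ⊆ S then P (s ∘ r) • (List.ofFn (fun j => y (r j))).prod else 0) =
      (if Finset.univ.image r ⊆ S then (-1 : ℤ) ^ (Sᶜ).card else 0) •
        (P (s ∘ r) * τ (List.ofFn (fun j => y (r j))).prod) := by
      intro S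
      split_ifs <;> simp
    simp only [h4, ← Finset.sum_smul, h2]
    split_ifs <;> simp
  simp only [h1]
  rw [permForm_apply, ← Finset.sum_filter]
  symm
  refine Finset.sum_bij' (fun r hr => Equiv.ofBijective r (Finset.mem_filter.mp hr).2)
    (fun f _ => (f : Fin n → Fin n)) ?_ ?_ ?_ ?_ ?_
  · simp
  · intro f _; exact Finset.mem_filter.mpr ⟨Finset.mem_univ _, f.bijective⟩
  · intro r hr; rfl
  · intro f _; ext; rfl
  · intro r hr; rfl

end Multilin

section MatrixPart

variable {Ω : Type*} [Field Ω]

/-- a trace form on matrices is a multiple of the trace -/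
theorem tracial_matrix {m : ℕ} [NeZero m] (τ : Matrix (Fin m) (Fin m) Ω →ₗ[Ω] Ω)
    (hτ : ∀ x y, τ (x * y) = τ (y * x)) (x : Matrix (Fin m) (Fin m) Ω) :
    τ x = τ (Matrix.single 0 0 1) * x.trace := by
  have h1 : ∀ i j : Fin m, τ (Matrix.single i j 1) =
      if i = j then τ (Matrix.single 0 0 1) else 0 := by
    intro i j
    split_ifs with h
    · subst h
      have e1 : (Matrix.single i i 1 : Matrix (Fin m) (Fin m) Ω) =
        Matrix.single i 0 1 * Matrix.single 0 i 1 := by
        rw [Matrix.single_mul_single_same, mul_one]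
      have e2 : (Matrix.single 0 0 1 : Matrix (Fin m) (Fin m) Ω) =
        Matrix.single 0 i 1 * Matrix.single i 0 1 := by
        rw [Matrix.single_mul_single_same, mul_one]
      rw [e1, e2, hτ]
    · have e1 : (Matrix.single i j 1 : Matrix (Fin m) (Fin m) Ω) =
        Matrix.single i i 1 * Matrix.single i j 1 := by
        rw [Matrix.single_mul_single_same, mul_one]
      rw [e1, hτ, Matrix.single_mul_single_of_ne _ _ _ _ (Ne.symm h), map_zero]
  generalize τ (Matrix.single 0 0 1) = c0 at h1 ⊢
  conv_lhs => rw [Matrix.matrix_eq_sum_single x]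
  simp only [map_sum]
  have h2 : ∀ i j : Fin m, τ (Matrix.single i j (x i j)) = x i j * τ (Matrix.single i j 1) := by
    intro i j
    rw [← smul_eq_mul, ← map_smul, Matrix.smul_single, smul_eq_mul, mul_one]
  simp only [h2, h1, mul_ite, mul_zero, Finset.sum_ite_eq, Finset.mem_univ, if_true, Matrix.trace,
    Matrix.diag, Finset.mul_sum]
  exact Finset.sum_congr rfl fun i _ => mul_comm _ _

/-- product of matrix units -/
theorem prod_single {m : ℕ} : ∀ (k : ℕ) (a b : Fin (k + 1) → Fin m),
    (List.ofFn (fun j => (Matrix.single (a j) (b j) (1 : Ω)))).prod =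
      if (∀ j : Fin k, b j.castSucc = a j.succ) then Matrix.single (a 0) (b (Fin.last k)) 1
      else 0 := by
  intro k
  induction k with
  | zero => intro a b; simp
  | succ k ih =>
    intro a b
    rw [List.ofFn_succ, List.prod_cons]
    have := ih (fun j => a j.succ) (fun j => b j.succ)
    rw [this]
    by_cases h0 : b 0 = a 1
    · by_cases h : ∀ j : Fin k, b j.castSucc.succ = a j.succ.succ
      · rw [if_pos h, if_pos]
        · have : (Matrix.single (a 0) (b 0) (1 : Ω)) = Matrix.single (a 0) (a 1) 1 := by rw [h0]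
          rw [this]
          have h2 : (Fin.succ (0 : Fin (k+1))) = (1 : Fin (k + 2)) := rfl
          rw [h2, Matrix.single_mul_single_same, mul_one, Fin.succ_last]
        · intro j
          refine Fin.cases ?_ (fun j => ?_) j
          · exact h0
          · rw [← Fin.succ_castSucc]; exact h j
      · rw [if_neg h, mul_zero, if_neg]
        intro h'
        apply h
        intro j
        have := h' j.succ
        rwa [← Fin.succ_castSucc] at this
    · rw [if_neg (c := ∀ j : Fin (k+1), b j.castSucc = a j.succ)]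
      · split_ifs
        · rw [Matrix.single_mul_single_of_ne]
          exact h0
        · rw [mul_zero]
      · intro h'
        exact h0 (h' 0)

end MatrixPart

section Main

/-- the cyclic permutations -/
theorem sum_perm_cyclic {A : Type*} [AddCommMonoid A] (k : ℕ) (c : Equiv.Perm (Fin (k + 1)) → A) :
    (∑ f : Equiv.Perm (Fin (k + 1)), if (∀ j, f j + 1 = f (j + 1)) then c f else 0) =
      ∑ r : Fin (k + 1), c (Equiv.addRight r) := by
  classical
  rw [← Finset.sum_filter]
  symm
  refine Finset.sum_bij (fun r _ => Equiv.addRight r) ?_ ?_ ?_ ?_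
  · intro r _
    refine Finset.mem_filter.mpr ⟨Finset.mem_univ _, fun j => ?_⟩
    simp only [Equiv.coe_addRight]
    exact add_right_comm _ _ _
  · intro r _ r' _ h
    have := congrArg (fun e : Equiv.Perm (Fin (k+1)) => e 0) h
    simpa using this
  · intro f hf
    have hf' := (Finset.mem_filter.mp hf).2
    refine ⟨f 0, Finset.mem_univ _, ?_⟩
    ext j
    congr 1
    simp only [Equiv.coe_addRight]
    induction j using Fin.induction with
    | zero => simp
    | succ j ih =>
      have h1 : (j.succ : Fin (k + 1)) = j.castSucc + 1 := by simp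
      rw [h1, ← hf', ← ih]; exact add_right_comm _ _ _
  · intro r _; rfl

variable {Ω : Type*} [Field Ω]

theorem permForm_matrix {m k : ℕ} (hkm : k + 1 ≤ m) (τ : Matrix (Fin m) (Fin m) Ω →ₗ[Ω] Ω)
    (hτ : ∀ x y, τ (x * y) = τ (y * x)) (hτ0 : τ ≠ 0) (c : Equiv.Perm (Fin (k + 1)) → Ω)
    (h : ∀ y, permForm (k + 1) τ c y = 0) : ∑ r : Fin (k + 1), c (Equiv.addRight r) = 0 := by
  have : NeZero m := ⟨by omega⟩
  have h1 := tracial_matrix τ hτ
  have h2 : τ (Matrix.single 0 0 1) ≠ 0 := by
    intro h0
    apply hτ0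
    refine LinearMap.ext fun x => ?_
    rw [h1, h0, zero_mul]; rfl
  set e : Fin (k + 1) → Fin m := Fin.castLE hkm with he
  have hinj : Function.Injective e := Fin.castLE_injective hkm
  have h3 := h (fun j => Matrix.single (e j) (e (j + 1)) 1)
  rw [permForm_apply] at h3
  have h4 : ∀ f : Equiv.Perm (Fin (k + 1)),
      c f * τ (List.ofFn (fun j => (Matrix.single (e (f j)) (e (f j + 1)) (1 : Ω)))).prod =
      τ (Matrix.single 0 0 1) * (if (∀ j, f j + 1 = f (j + 1)) then c f else 0) := by
    intro f
    rw [h1, prod_single]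
    have hiff : (∀ j, f j + 1 = f (j + 1)) ↔ ((∀ j : Fin k, e (f j.castSucc + 1) = e (f j.succ)) ∧
        e (f (Fin.last k) + 1) = e (f 0)) := by
      constructor
      · intro h
        refine ⟨fun j => ?_, ?_⟩
        · rw [h]; congr 2; simp
        · rw [h]; congr 2; simp
      · rintro ⟨h, h'⟩ j
        refine Fin.lastCases ?_ (fun j => ?_) j
        · have := hinj h'
          rw [this]; congr 1; simp
        · have := hinj (h j)
          rw [this]; congr 1; simp
    by_cases hc : ∀ j, f j + 1 = f (j + 1)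
    · have hc' := hiff.mp hc
      rw [if_pos hc'.1, if_pos hc, hc'.2, Matrix.trace_single_eq_same]
      ring
    · rw [if_neg hc]
      have hc' := fun h => hc (hiff.mpr h)
      by_cases h5 : (∀ j : Fin k, e (f j.castSucc + 1) = e (f j.succ))
      · rw [if_pos h5, Matrix.trace_single_eq_of_ne]
        · ring
        · intro h6
          exact hc' ⟨h5, h6.symm⟩
      · rw [if_neg h5, Matrix.trace_zero]; ring
  simp only [h4] at h3
  rw [← Finset.mul_sum, mul_eq_zero] at h3
  rcases h3 with h3 | h3
  · exact absurd h3 h2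
  · rw [← sum_perm_cyclic]; exact h3

variable {K E : Type*} [Field K] [Ring E] [IsDomain E] [Algebra K E]
  [FiniteDimensional K E] [Algebra.IsCentral K E]

/-- multilinear trace separation -/
theorem permForm_div {n : ℕ} [hn : NeZero n] (hnE : n ^ 2 ≤ Module.finrank K E) (τ : E →ₗ[K] K)
    (hτ : ∀ x y, τ (x * y) = τ (y * x)) (hτ0 : τ ≠ 0) (c : Equiv.Perm (Fin n) → K)
    (h : ∀ y, permForm n τ c y = 0) : ∑ r : Fin n, c (Equiv.addRight r) = 0 := by
  classical
  obtain ⟨k, rfl⟩ : ∃ k, n = k + 1 := ⟨n - 1, by have := hn.out; omega⟩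
  let Ω := AlgebraicClosure K
  have hs : IsSimpleRing (Ω ⊗[K] E) := isSimpleRing_baseChange K Ω E
  obtain ⟨m, hm, ⟨e⟩⟩ := IsSimpleRing.exists_algEquiv_matrix_of_isAlgClosed Ω (Ω ⊗[K] E)
  have hdim : m * m = Module.finrank K E := by
    have h1 : Module.finrank Ω (Ω ⊗[K] E) = Module.finrank K E := Module.finrank_baseChange
    have h2 := LinearEquiv.finrank_eq e.toLinearEquiv
    rw [h1, Module.finrank_matrix] at h2
    simp at h2
    omega
  have hkm : k + 1 ≤ m := by
    by_contra hlt
    push Not at hlt
    have : m * m < (k + 1) ^ 2 := by nlinarith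
    omega
  -- base change of τ
  let τΩ : Ω ⊗[K] E →ₗ[Ω] Ω :=
    (TensorProduct.AlgebraTensorModule.rid K Ω Ω).toLinearMap ∘ₗ τ.baseChange Ω
  have hτΩ : ∀ (ω : Ω) (x : E), τΩ (ω ⊗ₜ x) = ω * algebraMap K Ω (τ x) := by
    intro ω x
    simp [τΩ, Algebra.smul_def, mul_comm]
  have hτΩt : ∀ x y, τΩ (x * y) = τΩ (y * x) := by
    intro x y
    induction x using TensorProduct.induction_on with
    | zero => simp
    | add x x' hx hx' => rw [add_mul, mul_add, map_add, map_add, hx, hx']
    | tmul ω a =>
      induction y using TensorProduct.induction_on with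
      | zero => simp
      | add y y' hy hy' => rw [add_mul, mul_add, map_add, map_add, hy, hy']
      | tmul ω' b =>
        rw [Algebra.TensorProduct.tmul_mul_tmul, Algebra.TensorProduct.tmul_mul_tmul, hτΩ, hτΩ,
          hτ a b, mul_comm ω ω']
  have hΩ : permForm (k + 1) τΩ (fun f => algebraMap K Ω (c f)) = 0 := by
    refine Module.Basis.ext_multilinear
      (fun _ => Algebra.TensorProduct.basis Ω (Module.finBasis K E)) (fun v => ?_)
    rw [permForm_apply]
    have := h (fun j => Module.finBasis K E (v j))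
    rw [permForm_apply] at this
    simp only [Algebra.TensorProduct.basis_apply]
    have h5 : ∀ f : Equiv.Perm (Fin (k + 1)),
        τΩ (List.ofFn (fun j => (1 : Ω) ⊗ₜ[K] (Module.finBasis K E (v (f j))))).prod =
        algebraMap K Ω (τ (List.ofFn (fun j => Module.finBasis K E (v (f j)))).prod) := by
      intro f
      have h6 : (List.ofFn (fun j => (1 : Ω) ⊗ₜ[K] (Module.finBasis K E (v (f j))))).prod =
          (1 : Ω) ⊗ₜ[K] (List.ofFn (fun j => Module.finBasis K E (v (f j)))).prod := by
        have := map_list_prod (Algebra.TensorProduct.includeRight : E →ₐ[K] Ω ⊗[K] E)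
          (List.ofFn (fun j => Module.finBasis K E (v (f j))))
        rw [List.map_ofFn] at this
        exact this.symm
      rw [h6, hτΩ, one_mul]
    simp only [h5, ← map_mul, ← map_sum]
    rw [this]; simp
  -- transport to matrices
  let τM : Matrix (Fin m) (Fin m) Ω →ₗ[Ω] Ω := τΩ ∘ₗ e.symm.toLinearMap
  have hfin := permForm_matrix (Ω := Ω) hkm τM
    (fun x y => by simp only [τM, LinearMap.comp_apply, AlgEquiv.toLinearMap_apply, map_mul, hτΩt])
    (by
      intro h0
      apply hτ0
      ext x
      have : τΩ (1 ⊗ₜ x) = 0 := by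
        have := congrArg (fun φ : Matrix (Fin m) (Fin m) Ω →ₗ[Ω] Ω => φ (e (1 ⊗ₜ x))) h0
        simpa [τM] using this
      rw [hτΩ, one_mul] at this
      simpa using this)
    (fun f => algebraMap K Ω (c f))
    (by
      intro y
      have := congrArg (fun φ : MultilinearMap Ω (fun _ : Fin (k + 1) => Ω ⊗[K] E) Ω =>
        φ (fun j => e.symm (y j))) hΩ
      simp only [permForm_apply, zero_apply] at this ⊢
      rw [← this]
      refine Finset.sum_congr rfl fun f _ => ?_
      congr 1
      simp only [τM, LinearMap.comp_apply, AlgEquiv.toLinearMap_apply]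
      congr 1
      rw [map_list_prod, List.map_ofFn]
      rfl)
  rw [← map_sum] at hfin
  exact (map_eq_zero_iff _ (algebraMap K Ω).injective).mp hfin

/-- **Trace separation.** If a homogeneous noncommutative polynomial of degree `n` has trace `0`
on a central division algebra of degree `≥ n`, then all its cyclic sums vanish. -/
theorem trace_separation {σ : Type*} [Fintype σ] {n : ℕ} [NeZero n]
    (hnE : n ^ 2 ≤ Module.finrank K E) (τ : E →ₗ[K] K)
    (hτ : ∀ x y, τ (x * y) = τ (y * x)) (hτ0 : τ ≠ 0) (P : (Fin n → σ) → K)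
    (h : ∀ z : σ → E, τ (evalH P z) = 0) (s : Fin n → σ) :
    ∑ r : Fin n, P (fun i => s (i + r)) = 0 := by
  have := permForm_div hnE τ hτ hτ0 (fun f => P (s ∘ f)) (fun y => by
    rw [polarisation]; simp [h])
  exact this

/-- the regular trace is a nonzero trace form -/
theorem exists_tracial (K E : Type*) [Field K] [CharZero K] [Ring E] [Nontrivial E] [Algebra K E]
    [FiniteDimensional K E] :
    ∃ τ : E →ₗ[K] K, τ ≠ 0 ∧ ∀ x y, τ (x * y) = τ (y * x) := by
  refine ⟨(LinearMap.trace K E) ∘ₗ (LinearMap.mul K E), ?_, ?_⟩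
  · intro h
    have := congrArg (fun φ : E →ₗ[K] K => φ 1) h
    simp only [LinearMap.comp_apply, LinearMap.zero_apply] at this
    have h1 : LinearMap.mul K E 1 = LinearMap.id := by ext; simp
    rw [h1, LinearMap.trace_id] at this
    have h2 : 0 < Module.finrank K E := Module.finrank_pos
    exact (Nat.cast_ne_zero.mpr h2.ne') this
  · intro x y
    simp only [LinearMap.comp_apply]
    have h1 : ∀ a b : E, LinearMap.mul K E (a * b) = LinearMap.mul K E a * LinearMap.mul K E b := by
      intro a b; ext c; simp [mul_assoc]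
    rw [h1, h1]
    exact LinearMap.trace_mul_comm K _ _

/-- **Trace separation, coefficients in a subfield** (contrapositive form). -/
theorem exists_trace_ne_zero {K₀ : Type*} [Field K₀] [Algebra K₀ K] [Algebra K₀ E]
    [IsScalarTower K₀ K E] {σ : Type*} [Fintype σ] {n : ℕ} [NeZero n]
    (hnE : n ^ 2 ≤ Module.finrank K E) (τ : E →ₗ[K] K)
    (hτ : ∀ x y, τ (x * y) = τ (y * x)) (hτ0 : τ ≠ 0) (P : (Fin n → σ) → K₀) (s : Fin n → σ)
    (hs : ∑ r : Fin n, P (fun i => s (i + r)) ≠ 0) :
    ∃ z : σ → E, τ (∑ w, P w • (List.ofFn (fun j => z (w j))).prod) ≠ 0 := by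
  by_contra hcon
  push Not at hcon
  have h1 := trace_separation hnE τ hτ hτ0 (fun w => algebraMap K₀ K (P w)) (fun z => by
    unfold evalH
    simp only [algebraMap_smul]
    exact hcon z) s
  rw [← map_sum] at h1
  exact hs ((map_eq_zero_iff _ (algebraMap K₀ K).injective).mp h1)

end Main

end Crest.Agent.R180
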