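import Crest.Agent.R180.MinVAlg
import Crest.Agent.R180.TS
import Crest.Agent.R180.MinState
import Crest.Agent.R180.MinStart
import Crest.Agent.R180.MinSt
import Crest.Agent.R180.MinG
import Crest.Agent.R180.MinPE
import Crest.Agent.R180.MinTr
import Crest.Agent.R180.MinPoint
import Crest.Agent.R180.MinStep
import Crest.Agent.R180.MinIII
import Crest.Agent.R180.MinIVcore

set_option autoImplicit false

/-! # Row 180, ROUTE M, (V) -/

noncomputable section
namespace Crest.Agent.R180

open TensorProduct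

variable {P : (A : DA) → (m : ℕ) → NC (Fin m) A.D → Prop}

open MinV in
theorem minV (hP : MoveClosed P) {S : St P} (h : S.Good4) (t : S.A.D →ₗ[S.A.F] S.A.F)
    (ht : IsTr t) (X : Fin S.m → NC (Fin 2) S.A.F)
    (hX : ∀ j, X j [] = 0) (k : ℕ) (hk : 2 ≤ k)
    (hr : ∀ w : List (Fin 2), w.length < k → compD X S.γ w = 0) (η : S.A.D)
    (hη : η ∈ HH t S.U) (w : List (Fin 2)) (hw : w.length = k) :
    ∑ i ∈ Finset.range k, t (η * compD X S.γ (w.rotate i)) = 0 := by
  classical
  by_contra hne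
  have hg1 : S.Good1 := h.1.1.1
  have hU := hg1.lin_mem hP
  obtain ⟨u, hu, hu0⟩ := S.U_ne
  obtain ⟨u', -, huu', -⟩ := S.exists_inv (hU hu) hu0
  -- basis of `U`
  let b : Fin (Module.finrank S.A.F S.U) → S.A.D := fun i => (Module.finBasis S.A.F S.U i : S.A.D)
  have hbU : ∀ i, b i ∈ S.U := fun i => (Module.finBasis S.A.F S.U i).2
  have hb : Submodule.span S.A.F (Set.range b) = S.U := by
    have h1 := (Module.finBasis S.A.F S.U).span_eq
    have h2 := congrArg (Submodule.map S.U.subtype) h1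
    rw [Submodule.map_span, Submodule.map_top, Submodule.range_subtype, ← Set.range_comp] at h2
    exact h2
  -- the extension
  obtain ⟨N, hN, ⟨M⟩⟩ := exists_PE S.A (k + Module.finrank S.A.F S.U + 3)
  obtain ⟨l0, hl0⟩ := exists_prim M
  obtain ⟨tE, htE⟩ := exists_isTrE M.toAdm
  have htE0 : tE ≠ 0 := fun h0 => htE.2 (by rw [h0, LinearMap.zero_apply])
  have hfE := M.finrank_E
  -- the point
  have : NeZero k := ⟨by omega⟩
  subst hw
  obtain ⟨p, hp⟩ := exists_trace_ne_zero (K₀ := S.A.F) (K := M.F1) (E := M.E) (n := w.length)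
    (by rw [hfE, pow_two]; exact Nat.mul_le_mul (by omega) (by omega)) tE htE.1 htE0
    (fun v : Fin w.length → Fin 2 => t (η * compD X S.γ (List.ofFn v))) w.get (by
      intro h1
      apply hne
      rw [← h1, Finset.sum_range]
      refine Finset.sum_congr rfl fun r _ => ?_
      rw [get_rotate])
  obtain ⟨z, hz⟩ := exists_pt3 S.hm S.γ S.rs.zero M X hX w.length hk hr p l0 u hu b hbU
  obtain ⟨st⟩ := exists_step hP S.hm S.rs M.toAdm z hz.gp
  have hC := minIII hP h.1.1 M l0 hl0 w.length hk u u' hu huu' (by omega) b hb _ hz st t ht tE htE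
  have hF : (st.toSt hz.gp).Full 2 :=
    MinIV.core M (by omega) st t ht tE u u' hu huu' S.rs.comm (hg1.lin_mem hP) st.rs.comm
      ((hC.g2.1).lin_mem hP) ((st.toSt hz.gp).U_ne) hC.resPsi hC.resH hC.resU 2 2 h.1.2
      (by omega) le_rfl
  have hs := h.2 (st.toSt hz.gp) ⟨hC.g2, hF⟩
  -- compute `s'`
  have hU' := (hC.g2.1).lin_mem hP
  have hH' := ((st.toSt hz.gp).finrank_HH hU' (isTr_mv M.toAdm ht htE)).1
  have hres : Module.finrank M.F1 (LD.resSp (st.H t tE)) =
      Module.finrank (LF M.F1) (st.H t tE) := LD.finrank_resSp _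
  have hlt : Module.finrank M.F1 (LD.resSp (st.H t tE)) < Module.finrank S.A.F (HH t S.U) := by
    refine MinV.finrank_lt M.toAdm (HH t S.U)
      (M.tt tE t ∘ₗ LinearMap.mulRight M.F1 (M.homv w.length p (compD X S.γ))) η hη ?_ _ ?_ ?_
    · rw [LinearMap.comp_apply, LinearMap.mulRight_apply, tt_homv]
      exact hp
    · rintro _ ⟨x, hx, hxi, rfl⟩
      have h1 := hC.resH x hx hxi
      rw [HH2_eq_bot t ht.2 S.U hu huu' h.1.2] at h1
      have h2 : {y : M.D0 | ∃ (a : M.L) (h : S.A.D), h ∈ (⊥ : Submodule S.A.F S.A.D) ∧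
          y = M.j a ⊗ₜ[S.A.F] h} ⊆ ({0} : Set M.D0) := by
        rintro _ ⟨a, h, hh, rfl⟩
        rw [Submodule.mem_bot] at hh
        rw [hh, TensorProduct.tmul_zero]
        rfl
      have h3 := Submodule.span_mono (R := M.F1) h2
      rw [Submodule.span_zero_singleton, le_bot_iff] at h3
      rw [h3, bot_sup_eq] at h1
      exact h1
    · rintro _ ⟨x, hx, hxi, rfl⟩
      rw [LinearMap.comp_apply, LinearMap.mulRight_apply]
      exact hC.rho x hx hxi
  have hsd := (S.finrank_HH hU ht).1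
  rw [hres, hsd] at hlt
  have h5 : Module.finrank (LF M.F1) (st.H t tE) = (st.toSt hz.gp).sd := hH'
  omega

end Crest.Agent.R180
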