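import Crest.Agent.R180.MinVIIOf
import Crest.Agent.R180.MinStart
import Crest.Agent.R180.MinSt
import Crest.Agent.R180.MinOne
import Crest.Agent.R180.MinV
import Crest.Agent.R180.MinG

set_option autoImplicit false

/-!
# Row 180, ROUTE M, step (VII)
-/

noncomputable section
namespace Crest.Agent.R180

variable {P : (A : DA) → (m : ℕ) → NC (Fin m) A.D → Prop}

theorem minVII (hP : MoveClosed P) {S : St P} (h : S.NDeg) :
    ∃ (A' : DA) (Λ' : Subalgebra A'.F A'.D), RS P A' 2 Λ' 0 := by
  have h4 : S.Good4 := h.1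
  have h2 : S.Good2 := h4.1.1
  have hU : S.U ≤ Subalgebra.toSubmodule S.Λ := h2.1.lin_mem hP
  exact minVII_of hP h S.U_ne
    (fun X hX k hk hr w hw u hu h0 => minII hP h2 X hX k hk hr w hw u hu h0)
    (fun ht => (S.finrank_HH hU ht).1)
    (fun ht _ hu h0 x hx hh => S.mem_U_of_HH hU ht hu h0 x hx hh)
    (fun t ht X hX k hk hr η hη w hw => minV hP h4 t ht X hX k hk hr η hη w hw)
    (exists_trivialAdm S.A)

end Crest.Agent.R180
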