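import Crest.Agent.R180.MinStart
import Crest.Agent.R180.MinIV
import Crest.Agent.R180.MinBig
import Crest.Agent.R180.MinVI
import Crest.Agent.R180.MinVII
import Crest.Agent.R180.ModR
import Crest.Agent.R180.ModD

set_option autoImplicit false
noncomputable section
namespace Crest.Agent.R180

/-! # Row 180, ROUTE M: final assembly of Theorem A -/

variable {P : (A : DA) → (m : ℕ) → NC (Fin m) A.D → Prop}

theorem St.reach_zero (hP : MoveClosed P) (h : Nonempty (St P)) :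
    ∃ (A' : DA) (Λ' : Subalgebra A'.F A'.D), RS P A' 2 Λ' 0 := by
  obtain ⟨S, hS⟩ := exists_good4 hP h
  obtain ⟨S1, h1, h2, h3⟩ := exists_big hP hS (2 * S.sd + 3)
  obtain ⟨S2, h4⟩ := minVI hP h1 (by rw [h2]; exact h3)
  exact minVII hP h4

theorem theoremA : TheoremA := by
  intro F D _ _ _ _ _ _ _ 𝒜 h𝒜 a
  let A₀ : DA := { F := F, D := D }
  let P := Reach A₀ 𝒜 a
  have hP : MoveClosed P := reach_moveClosed A₀ 𝒜 a
  have key : ∃ (A' : DA) (Λ' : Subalgebra A'.F A'.D), RS P A' 2 Λ' 0 := by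
    have h0 : P A₀ 2 a := by
      refine ⟨RingHom.id _, RingHom.id _, fun c => rfl, rfl, ?_⟩
      have : (RingHom.id (NC (Fin 2) A₀.D) : NC (Fin 2) A₀.D → NC (Fin 2) A₀.D) ''
          (𝒜 : Set (NC (Fin 2) A₀.D)) = (𝒜 : Set (NC (Fin 2) A₀.D)) := by
        simp
      rw [this, Algebra.adjoin_eq]
      exact h𝒜
    obtain ⟨γ, hγ⟩ := RS.start (A := A₀) a h0
    by_cases hz : γ = 0
    · subst hz; exact ⟨_, _, hγ⟩
    · exact St.reach_zero hP (exists_live hP le_rfl hγ hz)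
  obtain ⟨A', Λ', hRS⟩ := key
  obtain ⟨a', ⟨i, h, h1, h2, h3⟩, halg⟩ := RS.final hRS
  refine ⟨A'.F, A'.D, A'.fF, A'.cz, A'.rD, A'.dD, A'.aD, A'.fd, A'.ce, i, h, h1, ?_, h3⟩
  rw [h2]; exact halg

end Crest.Agent.R180
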