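import Crest.Agent.R180.MinDefs
import Crest.Agent.R180.MinFacts0

set_option autoImplicit false
set_option linter.unusedSectionVars false

/-!
# Row 180, route M: consequences of `U₁² = Ψ`

* `St.HH2_eq_bot` : `Full 2 ⇒ 𝓗₂ = 0`
* `span_of_HH2_bot`, `finrank_span_one_le`, `Step.finrank_H_le`
-/

noncomputable section
namespace Crest.Agent.R180

open TensorProduct

variable {P : (A : DA) → (m : ℕ) → NC (Fin m) A.D → Prop}

section Alg

variable {F D : Type} [Field F] [Ring D] [IsDomain D] [Algebra F D] [FiniteDimensional F D]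

/-- `U₁² = Ψ ⇒ 𝓗₂ = 0`, abstract form: `Λ` a commutative subalgebra containing `U`. -/
theorem HH2_eq_bot_aux (Λ : Subalgebra F D) (hc : ∀ a ∈ Λ, ∀ b ∈ Λ, a * b = b * a)
    (U : Submodule F D) (hU : U ≤ Subalgebra.toSubmodule Λ)
    (hF : Module.finrank F (U ^ 2 : Submodule F D) = Module.finrank F (PsiOf U))
    {t : D →ₗ[F] F} (ht : IsTr t) {u u' : D} (hu : u ∈ U) (huu' : u * u' = 1) :
    HH2 t U u' = ⊥ := by
  have hu0 : u ≠ 0 := by
    rintro rfl
    rw [zero_mul] at huu'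
    exact zero_ne_one huu'
  have hu'u : u' * u = 1 := by
    have h2 : u * (u' * u - 1) = 0 := by
      rw [mul_sub, ← mul_assoc, huu', one_mul, mul_one, sub_self]
    exact sub_eq_zero.mp ((mul_eq_zero.mp h2).resolve_left hu0)
  have huΛ : u ∈ Λ := hU hu
  have hu'Λ : u' ∈ Λ := by
    obtain ⟨v, hv, h1, _⟩ := MinF.exists_inv_mem Λ huΛ hu0
    have h3 : u' = v := by
      have : u * (u' - v) = 0 := by rw [mul_sub, huu', h1, sub_self]
      exact sub_eq_zero.mp ((mul_eq_zero.mp this).resolve_left hu0)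
    rw [h3]; exact hv
  -- `a u' ∈ Ψ` for `a ∈ U`
  have hΨ : ∀ a ∈ U, a * u' ∈ PsiOf U := by
    intro a ha
    apply Algebra.subset_adjoin
    refine ⟨u, hu, hu0, ?_⟩
    rw [mul_assoc, hu'u, mul_one]; exact ha
  have hΨΛ : PsiOf U ≤ Λ := by
    rw [PsiOf, Algebra.adjoin_le_iff]
    rintro x ⟨b, hb, hb0, hxb⟩
    obtain ⟨b', hb', h1, _⟩ := MinF.exists_inv_mem Λ (hU hb) hb0
    have h2 : x = (x * b) * b' := by rw [mul_assoc, h1, mul_one]
    rw [h2]
    exact Λ.mul_mem (hU hxb) hb'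
  -- `U² = u² Ψ`
  let f : D →ₗ[F] D := LinearMap.mulLeft F (u * u)
  have hle : U ^ 2 ≤ (Subalgebra.toSubmodule (PsiOf U)).map f := by
    rw [pow_two, Submodule.mul_le]
    intro a ha b hb
    refine ⟨(a * u') * (b * u'), (PsiOf U).mul_mem (hΨ a ha) (hΨ b hb), ?_⟩
    have hbu : b * u' ∈ Λ := Λ.mul_mem (hU hb) hu'Λ
    have hau : a * u' ∈ Λ := Λ.mul_mem (hU ha) hu'Λ
    change u * u * ((a * u') * (b * u')) = a * b
    have h1 : u * (a * u') = a := by
      rw [hc u huΛ _ hau, mul_assoc, hu'u, mul_one]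
    have h2 : u * (b * u') = b := by
      rw [hc u huΛ _ hbu, mul_assoc, hu'u, mul_one]
    calc u * u * ((a * u') * (b * u')) = u * (u * (a * u')) * (b * u') := by
          simp only [mul_assoc]
      _ = u * a * (b * u') := by rw [h1]
      _ = a * u * (b * u') := by rw [hc u huΛ a (hU ha)]
      _ = a * (u * (b * u')) := by rw [mul_assoc]
      _ = a * b := by rw [h2]
  have heq : U ^ 2 = (Subalgebra.toSubmodule (PsiOf U)).map f := by
    apply Submodule.eq_of_le_of_finrank_le hle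
    rw [hF]
    exact Submodule.finrank_map_le f _
  rw [eq_bot_iff]
  intro x hx
  rw [mem_HH2] at hx
  have h3 : ∀ y ∈ U ^ 2, t (x * y * u') = 0 := by
    intro y hy
    rw [pow_two] at hy
    refine Submodule.mul_induction_on hy (fun a ha b hb => ?_) (fun y z h1 h2 => ?_)
    · rw [← mul_assoc x a b]; exact hx.2 a ha b hb
    · rw [mul_add, add_mul, map_add, h1, h2, add_zero]
  have hy : x * u ∈ PsiOf U := hx.1 u hu
  by_contra hx0
  have hx0' : x ≠ 0 := hx0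
  have hy0 : x * u ≠ 0 := mul_ne_zero hx0' hu0
  obtain ⟨v, hv, h4, _⟩ := MinF.exists_inv_mem (PsiOf U) hy hy0
  have h5 : u * u * v ∈ U ^ 2 := by
    rw [heq]; exact ⟨v, hv, rfl⟩
  have h6 := h3 _ h5
  have h7 : x * (u * u * v) * u' = 1 := by
    have h8 : v * u' = u' * v := hc v (hΨΛ hv) u' hu'Λ
    calc x * (u * u * v) * u' = x * u * u * (v * u') := by simp only [mul_assoc]
      _ = x * u * (u * u') * v := by rw [h8]; simp only [mul_assoc]
      _ = x * u * v := by rw [huu', mul_one]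
      _ = 1 := h4
  rw [h7] at h6
  exact ht.2 h6

end Alg

/-- `Full 2 ⇒ 𝓗₂ = 0` -/
theorem St.HH2_eq_bot (S : St P) (hU : S.U ≤ Subalgebra.toSubmodule S.Λ) (hF : S.Full 2)
    {t : S.A.D →ₗ[S.A.F] S.A.F} (ht : IsTr t) {u u' : S.A.D} (hu : u ∈ S.U)
    (huu' : u * u' = 1) : HH2 t S.U u' = ⊥ :=
  HH2_eq_bot_aux S.Λ S.rs.comm S.U hU hF ht hu huu'

section Span

variable {A : DA}

/-- with `𝓗₂ = 0` the residues of `𝓗'` lie in `1 ⊗ 𝓗` -/
theorem span_of_HH2_bot {N : ℕ} (M : PE A N) {t : A.D →ₗ[A.F] A.F} {U : Submodule A.F A.D}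
    {u' : A.D} (h0 : HH2 t U u' = ⊥) {x : M.D0}
    (hx : x ∈ Submodule.span M.F1 {y : M.D0 | ∃ (a : M.L) (h : A.D), h ∈ HH2 t U u' ∧
        y = M.j a ⊗ₜ[A.F] h} ⊔
      Submodule.span M.F1 {y : M.D0 | ∃ h ∈ HH t U, y = (1 : M.E) ⊗ₜ[A.F] h}) :
    x ∈ Submodule.span M.F1 {y : M.D0 | ∃ h ∈ HH t U, y = (1 : M.E) ⊗ₜ[A.F] h} := by
  have h1 : Submodule.span M.F1 {y : M.D0 | ∃ (a : M.L) (h : A.D), h ∈ HH2 t U u' ∧
        y = M.j a ⊗ₜ[A.F] h} = ⊥ := by
    rw [Submodule.span_eq_bot]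
    rintro y ⟨a, h, hh, rfl⟩
    rw [h0, Submodule.mem_bot] at hh
    rw [hh, TensorProduct.tmul_zero]
  rw [h1, bot_sup_eq] at hx
  exact hx

/-- `dim (F1 ⊗ V) ≤ dim V` -/
theorem finrank_span_one_le (M : Adm A) (V : Submodule A.F A.D) :
    Module.finrank M.F1 (Submodule.span M.F1
      {y : M.D0 | ∃ h ∈ V, y = (1 : M.E) ⊗ₜ[A.F] h}) ≤ Module.finrank A.F V := by
  classical
  let b := Module.finBasis A.F V
  have h1 : Submodule.span M.F1 {y : M.D0 | ∃ h ∈ V, y = (1 : M.E) ⊗ₜ[A.F] h} ≤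
      Submodule.span M.F1 (Set.range fun i => ((1 : M.E) ⊗ₜ[A.F] (b i : A.D) : M.D0)) := by
    rw [Submodule.span_le]
    rintro _ ⟨h, hh, rfl⟩
    have h2 : h = ∑ i, b.repr ⟨h, hh⟩ i • (b i : A.D) := by
      have h3 := congrArg Subtype.val (b.sum_repr ⟨h, hh⟩)
      rw [Submodule.coe_sum] at h3
      exact h3.symm
    rw [SetLike.mem_coe, h2, TensorProduct.tmul_sum]
    refine Submodule.sum_mem _ fun i _ => ?_
    have h4 : (1 : M.E) ⊗ₜ[A.F] (b.repr ⟨h, hh⟩ i • (b i : A.D)) =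
        (algebraMap A.F M.F1 (b.repr ⟨h, hh⟩ i)) • ((1 : M.E) ⊗ₜ[A.F] (b i : A.D)) := by
      rw [← TensorProduct.smul_tmul, TensorProduct.smul_tmul', algebraMap_smul]
    rw [h4]
    exact Submodule.smul_mem _ _ (Submodule.subset_span ⟨i, rfl⟩)
  have h5 := Submodule.finrank_mono h1
  refine h5.trans ((finrank_range_le_card _).trans ?_)
  rw [Fintype.card_fin]

end Span

section H

variable {S : St P} {M : Adm S.A} {z : Fin S.m → PowerSeries M.E}

/-- if the residues of `𝓗'` lie in `1 ⊗ 𝓗` then `dim 𝓗' ≤ dim 𝓗` -/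
theorem Step.finrank_H_le (st : Step P S.Λ S.γ M z) (t : S.A.D →ₗ[S.A.F] S.A.F)
    (tE : M.E →ₗ[M.F1] M.F1)
    (hx : ∀ x ∈ st.H t tE, LD.IsInt x → x.co 0 ∈
      Submodule.span M.F1 {y : M.D0 | ∃ h ∈ HH t S.U, y = (1 : M.E) ⊗ₜ[S.A.F] h}) :
    Module.finrank (LF M.F1) (st.H t tE) ≤ Module.finrank S.A.F (HH t S.U) := by
  rw [← LD.finrank_resSp]
  refine le_trans (Submodule.finrank_mono ?_) (finrank_span_one_le M (HH t S.U))
  intro v hv
  rw [LD.mem_resSp] at hv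
  obtain ⟨x, h1, h2, rfl⟩ := hv
  exact hx x h1 h2

end H

end Crest.Agent.R180
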