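import Mathlib

set_option autoImplicit false

/-!
# Row 180, route M, step (IV): powers of a generating subspace (helper164)
-/

namespace Crest.Agent.R180.MinIV

variable {F D : Type} [Field F] [Ring D] [Algebra F D]

theorem pow_mono (U : Submodule F D) (h1 : (1 : D) ∈ U) : Monotone fun n : ℕ => U ^ n := by
  refine monotone_nat_of_le_succ fun n => ?_
  intro x hx
  rw [pow_succ]
  have := Submodule.mul_mem_mul hx h1
  rwa [mul_one] at this

theorem pow_le_adjoin (U : Submodule F D) (n : ℕ) :
    U ^ n ≤ Subalgebra.toSubmodule (Algebra.adjoin F (U : Set D)) := by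
  induction n with
  | zero =>
    rw [pow_zero]
    intro x hx
    obtain ⟨c, rfl⟩ := Submodule.mem_one.mp hx
    exact Subalgebra.algebraMap_mem _ c
  | succ n ih =>
    rw [pow_succ]
    rw [Submodule.mul_le]
    intro a ha b hb
    exact Subalgebra.mul_mem _ (ih ha) (Algebra.subset_adjoin hb)

/-- some power of a subspace containing `1` is the algebra it generates -/
theorem exists_pow_eq_adjoin [FiniteDimensional F D] (U : Submodule F D) (h1 : (1 : D) ∈ U) :
    ∃ q : ℕ, 2 ≤ q ∧ U ^ q = Subalgebra.toSubmodule (Algebra.adjoin F (U : Set D)) := by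
  obtain ⟨n, hn⟩ := monotone_stabilizes_iff_noetherian.mpr (inferInstance : IsNoetherian F D)
    ⟨fun n : ℕ => U ^ n, pow_mono U h1⟩
  have hn' : ∀ m, n ≤ m → U ^ n = U ^ m := fun m hm => hn m hm
  have hpos : 1 ≤ max n 2 := by omega
  refine ⟨max n 2, le_max_right _ _, le_antisymm (pow_le_adjoin U _) ?_⟩
  have hq : U ^ (max n 2) * U ^ (max n 2) = U ^ (max n 2) := by
    rw [← pow_add, ← hn' _ (le_max_left n 2), ← hn' (max n 2 + max n 2) (by omega)]
  have h1' : (1 : D) ∈ U ^ (max n 2) := by
    have := pow_mono U h1 (Nat.zero_le (max n 2))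
    apply this
    change (1 : D) ∈ U ^ 0
    rw [pow_zero]
    exact Submodule.mem_one.mpr ⟨1, map_one _⟩
  let S : Subalgebra F D :=
    { (U ^ (max n 2)) with
      mul_mem' := fun {a b} ha hb => by
        have := Submodule.mul_mem_mul ha hb
        rw [hq] at this
        exact this
      algebraMap_mem' := fun r => by
        rw [Algebra.algebraMap_eq_smul_one]
        exact (U ^ (max n 2)).smul_mem r h1' }
  have hS : Algebra.adjoin F (U : Set D) ≤ S := by
    apply Algebra.adjoin_le
    intro x hx
    have := pow_mono U h1 hpos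
    change x ∈ U ^ (max n 2)
    apply this
    change x ∈ U ^ 1
    rwa [pow_one]
  intro x hx
  exact hS hx

end Crest.Agent.R180.MinIV
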