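import Mathlib

set_option autoImplicit false

/-!
# Row 180, Phase 2: valued subfields of `Ψ((ε))`

`O ≤ Ψ⟦X⟧` is the valuation ring of a subfield of `Ψ((ε))` containing `k₀((ε))`;
`resid O` its residue field.  All coefficients of all elements of `O` lie in `resid O`
(finite Newton iteration).
-/

namespace Crest.Agent.R180

namespace P2Val

open PowerSeries (constantCoeff)
open scoped PowerSeries
open scoped Polynomial

local notation "X" => (PowerSeries.X)

variable {k₀ Ψ : Type} [Field k₀] [Field Ψ] [Algebra k₀ Ψ]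

/-- valuation rings of subfields of `Ψ((ε))` containing `ε` and `k₀` -/
structure VRing (k₀ : Type) {Ψ : Type} [Field k₀] [Field Ψ] [Algebra k₀ Ψ]
    (O : Subring Ψ⟦X⟧) : Prop where
  hX : (X : Ψ⟦X⟧) ∈ O
  hdiv : ∀ q : Ψ⟦X⟧, X * q ∈ O → q ∈ O
  hC : ∀ c : k₀, PowerSeries.C (algebraMap k₀ Ψ c) ∈ O
  hinv : ∀ p ∈ O, constantCoeff p ≠ 0 → ∃ q ∈ O, p * q = 1

variable {O : Subring Ψ⟦X⟧}

theorem VRing.hdiv_pow (h : VRing k₀ O) (m : ℕ) (q : Ψ⟦X⟧) (hq : X ^ m * q ∈ O) : q ∈ O := by
  induction m with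
  | zero => simpa using hq
  | succ m ih =>
    apply ih
    apply h.hdiv
    rwa [← mul_assoc, ← pow_succ']

/-- residue field -/
def VRing.resid (h : VRing k₀ O) : Subfield Ψ where
  carrier := {c | ∃ p ∈ O, constantCoeff p = c}
  mul_mem' := by
    rintro _ _ ⟨p, hp, rfl⟩ ⟨q, hq, rfl⟩
    exact ⟨p * q, O.mul_mem hp hq, map_mul _ _ _⟩
  one_mem' := ⟨1, O.one_mem, map_one _⟩
  add_mem' := by
    rintro _ _ ⟨p, hp, rfl⟩ ⟨q, hq, rfl⟩
    exact ⟨p + q, O.add_mem hp hq, map_add _ _ _⟩
  zero_mem' := ⟨0, O.zero_mem, map_zero _⟩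
  neg_mem' := by
    rintro _ ⟨p, hp, rfl⟩
    exact ⟨-p, O.neg_mem hp, map_neg _ _⟩
  inv_mem' := by
    rintro _ ⟨p, hp, rfl⟩
    by_cases h0 : constantCoeff p = 0
    · rw [h0, inv_zero]; exact ⟨0, O.zero_mem, map_zero _⟩
    · obtain ⟨q, hq, hpq⟩ := h.hinv p hp h0
      refine ⟨q, hq, ?_⟩
      have := congrArg constantCoeff hpq
      rw [map_mul, map_one] at this
      exact eq_inv_of_mul_eq_one_right this

theorem VRing.mem_resid (h : VRing k₀ O) {c : Ψ} :
    c ∈ h.resid ↔ ∃ p ∈ O, constantCoeff p = c := Iff.rfl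

theorem VRing.algebraMap_mem (h : VRing k₀ O) (c : k₀) : algebraMap k₀ Ψ c ∈ h.resid :=
  ⟨_, h.hC c, by simp⟩

theorem VRing.aeval_mem (h : VRing k₀ O) {p : Ψ⟦X⟧} (hp : p ∈ O) (f : k₀[X]) :
    (f.map (algebraMap k₀ Ψ)).eval₂ (PowerSeries.C) p ∈ O := by
  rw [Polynomial.eval₂_map, Polynomial.eval₂_eq_sum_range]
  exact O.sum_mem fun i _ => O.mul_mem (h.hC _) (O.pow_mem hp i)

theorem VRing.eval_mem_resid (h : VRing k₀ O) {c : Ψ} (hc : c ∈ h.resid) (f : k₀[X]) :
    (f.map (algebraMap k₀ Ψ)).eval c ∈ h.resid := by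
  rw [Polynomial.eval_map, Polynomial.eval₂_eq_sum_range]
  exact h.resid.sum_mem fun i _ => h.resid.mul_mem (h.algebraMap_mem _) (h.resid.pow_mem hc i)

/-- residues have arbitrarily good constant approximations -/
theorem VRing.approx [CharZero k₀] [Algebra.IsAlgebraic k₀ Ψ] (h : VRing k₀ O) (N : ℕ) :
    ∀ c ∈ h.resid, ∃ q : Ψ⟦X⟧, PowerSeries.C c + X ^ (N + 1) * q ∈ O := by
  induction N with
  | zero =>
    rintro c ⟨p, hp, rfl⟩
    have : X ∣ p - PowerSeries.C (constantCoeff p) := by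
      rw [PowerSeries.X_dvd_iff]; simp
    obtain ⟨q, hq⟩ := this
    refine ⟨q, ?_⟩
    rw [zero_add, pow_one, ← hq]
    simpa using hp
  | succ N ih =>
    intro c hc
    obtain ⟨q, hq⟩ := ih c hc
    -- minimal polynomial
    have halg : IsIntegral k₀ c := (Algebra.IsAlgebraic.isAlgebraic (R := k₀) c).isIntegral
    set f := minpoly k₀ c with hf
    set F : Ψ[X] := f.map (algebraMap k₀ Ψ) with hF
    have hroot : F.eval c = 0 := by
      rw [hF, Polynomial.eval_map]; exact minpoly.aeval k₀ c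
    have hsep : f.Separable := (minpoly.irreducible halg).separable
    have hder : F.derivative.eval c ≠ 0 := by
      have h1 : F.Separable := hsep.map
      exact h1.eval₂_derivative_ne_zero (RingHom.id Ψ) (by simpa using hroot)
    -- Taylor expansion
    set G : Ψ⟦X⟧[X] := F.map PowerSeries.C with hG
    obtain ⟨k, hk⟩ := Polynomial.binomExpansion G (PowerSeries.C c) (X ^ (N + 1) * q)
    have h1 : G.eval (PowerSeries.C c) = 0 := by
      rw [hG, Polynomial.eval_map, Polynomial.eval₂_at_apply, hroot, map_zero]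
    have h2 : G.derivative.eval (PowerSeries.C c) = PowerSeries.C (F.derivative.eval c) := by
      rw [hG, Polynomial.derivative_map, Polynomial.eval_map, Polynomial.eval₂_at_apply]
    rw [h1, h2, zero_add] at hk
    have h3 : G.eval (PowerSeries.C c + X ^ (N + 1) * q) ∈ O := by
      rw [hG, Polynomial.eval_map]; exact h.aeval_mem hq f
    have h4 : G.eval (PowerSeries.C c + X ^ (N + 1) * q) = X ^ (N + 1) *
        (PowerSeries.C (F.derivative.eval c) * q + k * X ^ (N + 1) * q ^ 2) := by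
      rw [hk]; ring
    rw [h4] at h3
    have h5 := h.hdiv_pow _ _ h3
    have h6 : F.derivative.eval c * constantCoeff q ∈ h.resid := by
      refine ⟨_, h5, ?_⟩
      simp
    have h7 : F.derivative.eval c ∈ h.resid := by
      rw [hF, Polynomial.derivative_map]; exact h.eval_mem_resid hc _
    have h8 : constantCoeff q ∈ h.resid := by
      have := h.resid.mul_mem (h.resid.inv_mem h7) h6
      rwa [← mul_assoc, inv_mul_cancel₀ hder, one_mul] at this
    obtain ⟨r, hr, hr0⟩ := h8
    have : X ∣ q - r := by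
      rw [PowerSeries.X_dvd_iff, map_sub, hr0, sub_self]
    obtain ⟨s, hs⟩ := this
    refine ⟨s, ?_⟩
    have h9 : PowerSeries.C c + X ^ (N + 1 + 1) * s
        = (PowerSeries.C c + X ^ (N + 1) * q) - X ^ (N + 1) * r := by
      rw [pow_succ, mul_assoc, ← hs]; ring
    rw [h9]
    exact O.sub_mem hq (O.mul_mem (O.pow_mem h.hX _) hr)

/-- all coefficients of elements of `O` lie in the residue field -/
theorem VRing.coeff_mem [CharZero k₀] [Algebra.IsAlgebraic k₀ Ψ] (h : VRing k₀ O) (n : ℕ) :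
    ∀ p ∈ O, PowerSeries.coeff n p ∈ h.resid := by
  induction n with
  | zero => intro p hp; exact ⟨p, hp, by simp⟩
  | succ n ih =>
    intro p hp
    obtain ⟨q, hq⟩ := h.approx (n + 1) (constantCoeff p) ⟨p, hp, rfl⟩
    set y := PowerSeries.C (constantCoeff p) + X ^ (n + 1 + 1) * q with hy
    have : X ∣ p - y := by
      rw [PowerSeries.X_dvd_iff, hy]; simp
    obtain ⟨s, hs⟩ := this
    have h1 : s ∈ O := h.hdiv s (hs ▸ O.sub_mem hp hq)
    have h2 := ih s h1
    have h3 : PowerSeries.coeff n s = PowerSeries.coeff (n + 1) p := by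
      have h4 : PowerSeries.coeff (n + 1) (p - y) = PowerSeries.coeff n s := by
        rw [hs, PowerSeries.coeff_succ_X_mul]
      rw [← h4, map_sub, hy, map_add, PowerSeries.coeff_X_pow_mul', if_neg (by omega),
        PowerSeries.coeff_C, if_neg (by omega)]
      simp
    rwa [h3] at h2

end P2Val

end Crest.Agent.R180
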