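import Crest.Agent.R180.LaurentLemmas
import Crest.Agent.R180.P2Val

set_option autoImplicit false
set_option linter.unusedSectionVars false

/-!
# Row 180, Phase 2: dimension count (helper164)
-/

noncomputable section
namespace Crest.Agent.R180

namespace P2Dim

section free

variable {F A : Type} [Field F] [Ring A] [IsDomain A] [Algebra F A] [FiniteDimensional F A]

/-- a subalgebra of a finite-dimensional domain acts freely on stable subspaces -/
theorem finrank_dvd_of_stable (S : Subalgebra F A) (W : Submodule F A)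
    (hW : ∀ s ∈ S, ∀ x ∈ W, s * x ∈ W) :
    ∃ c : ℕ, Module.finrank F W = c * Module.finrank F S := by
  let _ : DivisionRing S := divisionRingOfFiniteDimensional F S
  let T : Submodule S A :=
    { W.toAddSubmonoid with
      smul_mem' := fun s x hx => hW s.1 s.2 x hx }
  have hT : Module.finrank F T = Module.finrank F W := by
    have e : T ≃ₗ[F] W :=
      { toFun := fun x => ⟨x.1, x.2⟩
        invFun := fun x => ⟨x.1, x.2⟩
        map_add' := fun _ _ => rfl
        map_smul' := fun c x => by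
          apply Subtype.ext
          rfl
        left_inv := fun _ => rfl
        right_inv := fun _ => rfl }
    exact e.finrank_eq
  refine ⟨Module.finrank S T, ?_⟩
  rw [← hT, mul_comm]
  exact (Module.finrank_mul_finrank F S T).symm

theorem finrank_dvd (S T : Subalgebra F A) (h : S ≤ T) :
    ∃ c : ℕ, Module.finrank F T = c * Module.finrank F S :=
  finrank_dvd_of_stable S (Subalgebra.toSubmodule T) fun _ hs _ hx => T.mul_mem (h hs) hx

theorem finrank_lt_of_lt {S T : Subalgebra F A} (h : S ≤ T) (c : A) (hc : c ∈ T) (hc' : c ∉ S) :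
    Module.finrank F S < Module.finrank F T := by
  have h1 : Subalgebra.toSubmodule S < Subalgebra.toSubmodule T := by
    refine lt_of_le_of_ne h ?_
    intro he
    apply hc'
    have : c ∈ Subalgebra.toSubmodule T := hc
    rw [← he] at this
    exact this
  exact Submodule.finrank_lt_finrank_of_lt h1

/-- inverses in subalgebras of finite-dimensional domains -/
theorem exists_inv_mem (S : Subalgebra F A) (a : A) (ha : a ∈ S) (h0 : a ≠ 0) :
    ∃ b ∈ S, a * b = 1 ∧ b * a = 1 := by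
  let _ : DivisionRing S := divisionRingOfFiniteDimensional F S
  have h1 : (⟨a, ha⟩ : S) ≠ 0 := fun h => h0 (congrArg Subtype.val h)
  refine ⟨((⟨a, ha⟩ : S)⁻¹ : S), ((⟨a, ha⟩ : S)⁻¹ : S).2, ?_, ?_⟩
  · exact congrArg Subtype.val (mul_inv_cancel₀ h1)
  · exact congrArg Subtype.val (inv_mul_cancel₀ h1)

end free

section coeff

variable {k Φ A : Type} [Field k] [CharZero k] [Field Φ] [Algebra k Φ] [Algebra.IsAlgebraic k Φ]
  [Ring A] [IsDomain A] [Algebra k A] [FiniteDimensional k A]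

theorem ofPS_X : (LD.ofPS (PowerSeries.X : PowerSeries A) : LD A) = LD.tp 1 := by
  apply LD.ext
  intro n
  rw [LD.co_tp]
  by_cases hn : n < 0
  · rw [LD.co_ofPS_neg _ n hn, if_neg (by omega)]
  · obtain ⟨m, rfl⟩ : ∃ m : ℕ, n = m := ⟨n.toNat, by omega⟩
    rw [LD.co_ofPS, PowerSeries.coeff_X]
    by_cases hm : m = 1
    · subst hm; simp
    · rw [if_neg hm, if_neg (by exact_mod_cast hm)]

/-- all coefficients of integral elements of a commutative subalgebra are residues -/
theorem coeff_mem_res (j : Φ →ₐ[k] A) (L' : Subalgebra (LF k) (LD A))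
    (hL' : ∀ x ∈ L', ∀ n, x.co n ∈ j.range) (x : LD A) (hx : x ∈ L') (hxi : LD.IsInt x) (n : ℤ) :
    ∃ y ∈ L', LD.IsInt y ∧ y.co 0 = x.co n := by
  have hj : Function.Injective j := j.toRingHom.injective
  set ψ : PowerSeries Φ →+* LD A := LD.ofPS.comp (PowerSeries.map (j : Φ →+* A)) with hψ
  set O : Subring (PowerSeries Φ) := (Subalgebra.toSubring L').comap ψ with hO
  have hmem : ∀ p, p ∈ O ↔ ψ p ∈ L' := fun p => Iff.rfl
  have hψX : ψ PowerSeries.X = LD.tp 1 := by
    rw [hψ, RingHom.comp_apply, PowerSeries.map_X, ofPS_X]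
  have htp : ∀ m : ℤ, (LD.tp m : LD A) ∈ L' := by
    intro m
    rw [← LD.toLD_tp (F := k)]
    exact L'.algebraMap_mem (LF.tp m)
  have hV : P2Val.VRing k O := by
    refine ⟨?_, ?_, ?_, ?_⟩
    · rw [hmem, hψX]; exact htp 1
    · intro q hq
      rw [hmem, map_mul, hψX] at hq
      rw [hmem]
      have h1 := L'.mul_mem (htp (-1)) hq
      rw [← mul_assoc, LD.tp_mul_tp] at h1
      simpa [LD.tp_zero] using h1
    · intro c
      rw [hmem, hψ, RingHom.comp_apply, PowerSeries.map_C]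
      have : (j : Φ →+* A) (algebraMap k Φ c) = algebraMap k A c := j.commutes c
      rw [this]
      have h2 : (LD.ofPS (PowerSeries.C (algebraMap k A c)) : LD A) = LD.C (algebraMap k A c) := rfl
      rw [h2, ← LD.toLD_C]
      exact L'.algebraMap_mem (LF.C c)
    · intro p hp h0
      refine ⟨p⁻¹, ?_, PowerSeries.mul_inv_cancel p h0⟩
      have hne : ψ p ≠ 0 := by
        intro h
        apply h0
        have h3 : (ψ p).co ((0 : ℕ) : ℤ) = j (PowerSeries.coeff 0 p) := by
          rw [hψ, RingHom.comp_apply, LD.co_ofPS, PowerSeries.coeff_map]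
          rfl
        rw [h] at h3
        have h4 : j (PowerSeries.coeff 0 p) = 0 := h3.symm
        rw [map_eq_zero_iff j hj, PowerSeries.coeff_zero_eq_constantCoeff_apply] at h4
        exact h4
      obtain ⟨b, hb, hab, _⟩ := exists_inv_mem L' (ψ p) hp hne
      have h5 : ψ p * ψ p⁻¹ = ψ p * b := by
        rw [← map_mul, PowerSeries.mul_inv_cancel p h0, map_one, hab]
      have h6 := mul_left_cancel₀ hne h5
      rw [hmem, h6]; exact hb
  by_cases hn : n < 0
  · exact ⟨0, L'.zero_mem, LD.isInt_zero, by rw [hxi n hn]; rfl⟩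
  · obtain ⟨m, rfl⟩ : ∃ m : ℕ, n = m := ⟨n.toNat, by omega⟩
    choose f hf using fun i : ℕ => hL' x hx i
    set p : PowerSeries Φ := PowerSeries.mk f with hp
    have hpx : ψ p = x := by
      apply LD.ext
      intro i
      by_cases hi : i < 0
      · rw [hxi i hi, hψ, RingHom.comp_apply, LD.co_ofPS_neg _ i hi]
      · obtain ⟨i, rfl⟩ : ∃ i' : ℕ, i = i' := ⟨i.toNat, by omega⟩
        rw [hψ, RingHom.comp_apply, LD.co_ofPS, PowerSeries.coeff_map, hp, PowerSeries.coeff_mk]
        exact hf i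
    obtain ⟨q, hq, hq0⟩ := hV.coeff_mem m p (by rw [hmem, hpx]; exact hx)
    refine ⟨ψ q, hq, ?_, ?_⟩
    · rw [hψ, RingHom.comp_apply]; exact LD.isInt_ofPS _
    · have h3 : (ψ q).co ((0 : ℕ) : ℤ) = j (PowerSeries.coeff 0 q) := by
        rw [hψ, RingHom.comp_apply, LD.co_ofPS, PowerSeries.coeff_map]
        rfl
      have h4 : (ψ q).co 0 = j (PowerSeries.coeff 0 q) := h3
      rw [h4, PowerSeries.coeff_zero_eq_constantCoeff_apply, hq0, hp, PowerSeries.coeff_mk]
      exact hf m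

end coeff

section main

variable {k A : Type} [Field k] [CharZero k] [Ring A] [IsDomain A] [Algebra k A]
  [FiniteDimensional k A]

/-- the algebra of residues -/
def resAlg (L' : Subalgebra (LF k) (LD A)) : Subalgebra k A where
  carrier := {v | ∃ x ∈ L', LD.IsInt x ∧ x.co 0 = v}
  mul_mem' := by
    rintro a b ⟨x, hx, hxi, rfl⟩ ⟨y, hy, hyi, rfl⟩
    exact ⟨x * y, L'.mul_mem hx hy, hxi.mul hyi, hxi.co_mul_zero hyi⟩
  add_mem' := by
    rintro a b ⟨x, hx, hxi, rfl⟩ ⟨y, hy, hyi, rfl⟩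
    exact ⟨x + y, L'.add_mem hx hy, hxi.add hyi, rfl⟩
  algebraMap_mem' := by
    intro c
    refine ⟨LF.toLD (LF.C c), L'.algebraMap_mem (LF.C c), ?_, ?_⟩
    · rw [LD.toLD_C]; exact LD.isInt_C _
    · rw [LD.toLD_C, LD.co_C_zero]

theorem mem_resAlg (L' : Subalgebra (LF k) (LD A)) (v : A) :
    v ∈ resAlg L' ↔ ∃ x ∈ L', LD.IsInt x ∧ x.co 0 = v := Iff.rfl

theorem finrank_resAlg (L' : Subalgebra (LF k) (LD A)) :
    Module.finrank k (resAlg L') = Module.finrank (LF k) L' :=
  LD.finrank_resSp (Subalgebra.toSubmodule L')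

/-- **dimension count of Phase 2** -/
theorem dim_lt (Ψ Ψ1 : Subalgebra k A) (hcomm : ∀ a ∈ Ψ, ∀ b ∈ Ψ, a * b = b * a)
    (L' : Subalgebra (LF k) (LD A)) (hL' : ∀ x ∈ L', ∀ n, x.co n ∈ Ψ)
    (h1 : ∀ c ∈ Ψ1, ∃ x ∈ L', LD.IsInt x ∧ x.co 0 = c)
    (h2 : ∃ x ∈ L', LD.IsInt x ∧ ∃ n, x.co n ∉ Ψ1) (r : ℕ)
    (h3 : Module.finrank k Ψ ≤ r * Module.finrank k Ψ1) :
    Module.finrank (LF k) (LD.sub Ψ) ≤ (r - 1) * Module.finrank (LF k) L' := by
  have hR1 : Ψ1 ≤ resAlg L' := fun c hc => h1 c hc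
  have hR2 : resAlg L' ≤ Ψ := by
    rintro c ⟨x, hx, _, rfl⟩
    exact hL' x hx 0
  obtain ⟨x, hx, hxi, n, hn⟩ := h2
  have hn' : x.co n ∈ resAlg L' := by
    let _ : CommRing Ψ :=
      { (inferInstance : Ring Ψ) with mul_comm := fun a b => Subtype.ext (hcomm a a.2 b b.2) }
    let _ : Field Ψ := fieldOfFiniteDimensional k Ψ
    have : Algebra.IsAlgebraic k Ψ := Algebra.IsAlgebraic.of_finite k Ψ
    exact coeff_mem_res (k := k) (Φ := Ψ) Ψ.val L' (fun y hy i => ⟨⟨y.co i, hL' y hy i⟩, rfl⟩)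
      x hx hxi n
  have hlt := finrank_lt_of_lt hR1 _ hn' hn
  obtain ⟨b, hb⟩ := finrank_dvd Ψ1 (resAlg L') hR1
  obtain ⟨c, hc⟩ := finrank_dvd (resAlg L') Ψ hR2
  rw [LD.finrank_sub, ← finrank_resAlg L']
  set a := Module.finrank k Ψ1 with ha
  have ha0 : 0 < a := Module.finrank_pos
  have hΨ0 : 0 < Module.finrank k Ψ := Module.finrank_pos
  rw [hc]
  apply Nat.mul_le_mul_right
  have hb2 : 2 ≤ b := by
    by_contra h
    have : b * a ≤ 1 * a := Nat.mul_le_mul_right a (by omega)
    omega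
  have hc1 : 1 ≤ c := by
    rcases Nat.eq_zero_or_pos c with h | h
    · rw [h, zero_mul] at hc; omega
    · exact h
  have h4 : c * b ≤ r := by
    apply Nat.le_of_mul_le_mul_right _ ha0
    rw [mul_assoc, ← hb, ← hc]; exact h3
  have h5 : c * 2 ≤ c * b := Nat.mul_le_mul_left c hb2
  omega

end main

end P2Dim

end Crest.Agent.R180
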