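import Crest.Agent.R180.MinDefs
import Crest.Agent.R180.MinIV0
import Crest.Agent.R180.P2Dim

set_option autoImplicit false
set_option linter.unusedSectionVars false

/-!
# Row 180, route M, step (IV): preparations (helper164)
-/

noncomputable section
namespace Crest.Agent.R180

open TensorProduct

namespace MinIV

/-! ### residues of products -/

section res

variable {F K : Type} [Field F] [Ring K] [Algebra F K]

theorem resSp_mul (V W : Submodule (LF F) (LD K)) :
    LD.resSp V * LD.resSp W ≤ LD.resSp (V * W) := by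
  rw [Submodule.mul_le]
  rintro a ⟨x, hx, hxi, rfl⟩ b ⟨y, hy, hyi, rfl⟩
  exact ⟨x * y, Submodule.mul_mem_mul hx hy, hxi.mul hyi, hxi.co_mul_zero hyi⟩

theorem resSp_pow (V : Submodule (LF F) (LD K)) (n : ℕ) :
    (LD.resSp V) ^ n ≤ LD.resSp (V ^ n) := by
  induction n with
  | zero =>
    rw [pow_zero, pow_zero]
    intro x hx
    obtain ⟨c, rfl⟩ := Submodule.mem_one.mp hx
    refine ⟨LF.toLD (LF.C c), Submodule.mem_one.mpr ⟨LF.C c, rfl⟩, ?_, ?_⟩
    · rw [LD.toLD_C]; exact LD.isInt_C _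
    · rw [LD.toLD_C, LD.co_C_zero]
  | succ n ih =>
    rw [pow_succ, pow_succ]
    exact le_trans (mul_le_mul' ih le_rfl) (resSp_mul _ _)

end res

/-! ### kernels of pairings -/

section pair

variable {F D : Type} [Field F] [Ring D] [Algebra F D] [FiniteDimensional F D]

theorem exists_ne_zero_of_finrank_lt (t : D →ₗ[F] F) (Ψ V : Submodule F D)
    (h : Module.finrank F V < Module.finrank F Ψ) :
    ∃ ψ ∈ Ψ, ψ ≠ 0 ∧ ∀ y ∈ V, t (ψ * y) = 0 := by
  let f : Ψ →ₗ[F] Module.Dual F V :=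
    (((LinearMap.mul F D).compr₂ t).domRestrict₁₂ Ψ V)
  have hf : LinearMap.ker f ≠ ⊥ := by
    apply LinearMap.ker_ne_bot_of_finrank_lt
    rw [Subspace.dual_finrank_eq]
    exact h
  obtain ⟨ψ, hψ, hψ0⟩ := Submodule.exists_mem_ne_zero_of_ne_bot hf
  refine ⟨ψ, ψ.2, fun h0 => hψ0 (Subtype.ext h0), fun y hy => ?_⟩
  have h1 := congrArg (fun g => g (⟨y, hy⟩ : V)) (LinearMap.mem_ker.mp hψ)
  exact h1

/-- for a nondegenerate pairing on `Ψ` every functional on `Ψ` is `t (· * ψ)` -/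
theorem exists_repr (t : D →ₗ[F] F) (Ψ : Subalgebra F D)
    (hnd : ∀ ψ ∈ Ψ, ψ ≠ 0 → ∃ ψ' ∈ Ψ, t (ψ' * ψ) ≠ 0) (φ : Ψ →ₗ[F] F) :
    ∃ ψ ∈ Ψ, ∀ d : Ψ, t ((d : D) * ψ) = φ d := by
  let f : Ψ →ₗ[F] Module.Dual F Ψ :=
    ((((LinearMap.mul F D).compr₂ t).flip).domRestrict₁₂
      (Subalgebra.toSubmodule Ψ) (Subalgebra.toSubmodule Ψ))
  have hf : ∀ ψ d : Ψ, f ψ d = t ((d : D) * (ψ : D)) := fun _ _ => rfl
  have hinj : Function.Injective f := by
    rw [← LinearMap.ker_eq_bot, LinearMap.ker_eq_bot']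
    intro ψ hψ
    by_contra h0
    obtain ⟨ψ', hψ', h1⟩ := hnd ψ ψ.2 (fun h => h0 (Subtype.ext h))
    apply h1
    have := congrArg (fun g => g (⟨ψ', hψ'⟩ : Ψ)) hψ
    exact this
  have hsurj : Function.Surjective f := by
    rw [← LinearMap.injective_iff_surjective_of_finrank_eq_finrank (f := f)]
    · exact hinj
    · exact (Subspace.dual_finrank_eq (K := F) (V := Ψ)).symm
  obtain ⟨ψ, hψ⟩ := hsurj φ
  exact ⟨ψ, ψ.2, fun d => by rw [← hf ψ d, hψ]⟩

end pair

section tensor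

variable {F F1 E D : Type} [Field F] [Field F1] [Algebra F F1] [Ring E] [Algebra F1 E]
  [Algebra F E] [IsScalarTower F F1 E] [Ring D] [Algebra F D] [FiniteDimensional F D]

/-- contraction and right multiplication by a pure tensor -/
theorem ellE_mul_tmul (ℓ : D →ₗ[F] F) (e : E) (d : D) (x : E ⊗[F] D) :
    MinI.ellE (F1 := F1) E ℓ (x * (e ⊗ₜ[F] d)) =
      MinI.ellE (F1 := F1) E (ℓ ∘ₗ LinearMap.mulRight F d) x * e := by
  induction x using TensorProduct.induction_on with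
  | zero => simp
  | tmul a b =>
    rw [Algebra.TensorProduct.tmul_mul_tmul, MinI.ellE_tmul, MinI.ellE_tmul, smul_mul_assoc]
    rfl
  | add a b ha hb => rw [add_mul, map_add, ha, hb, map_add, add_mul]

theorem key_zero (t : D →ₗ[F] F) (Ψ : Subalgebra F D)
    (hnd : ∀ ψ ∈ Ψ, ψ ≠ 0 → ∃ ψ' ∈ Ψ, t (ψ' * ψ) ≠ 0) (z : E ⊗[F] D)
    (hz : z ∈ (Algebra.TensorProduct.map (AlgHom.id F1 E) Ψ.val :
      E ⊗[F] Ψ →ₐ[F1] E ⊗[F] D).range)
    (h : ∀ ψ ∈ Ψ, MinI.ellE (F1 := F1) E (t ∘ₗ LinearMap.mulRight F ψ) z = 0) : z = 0 := by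
  classical
  obtain ⟨y, rfl⟩ := hz
  set b := Module.finBasis F Ψ with hb
  suffices hy : y = 0 by rw [hy]; exact map_zero _
  apply (TensorProduct.equivFinsuppOfBasisRight (M := E) b).injective
  ext k
  rw [map_zero, Finsupp.zero_apply]
  obtain ⟨ψ, hψ, hψ'⟩ := exists_repr t Ψ hnd (b.coord k)
  have h1 := h ψ hψ
  have h2 : ∀ y : E ⊗[F] Ψ, MinI.ellE (F1 := F1) E (t ∘ₗ LinearMap.mulRight F ψ)
      ((Algebra.TensorProduct.map (AlgHom.id F1 E) Ψ.val : E ⊗[F] Ψ →ₐ[F1] E ⊗[F] D) y) =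
      TensorProduct.equivFinsuppOfBasisRight b y k := by
    intro y
    induction y using TensorProduct.induction_on with
    | zero => simp
    | tmul e a =>
      rw [Algebra.TensorProduct.map_tmul, MinI.ellE_tmul,
        TensorProduct.equivFinsuppOfBasisRight_apply_tmul_apply]
      have h3 : (t ∘ₗ LinearMap.mulRight F ψ) (Ψ.val a) = b.coord k a := hψ' a
      rw [h3]
      rfl
    | add a c ha hc => rw [map_add, map_add, ha, hc, map_add, Finsupp.add_apply]
  rw [← h2]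
  exact h1

end tensor

/-! ### commutative algebra inside `Λ` -/

section comm

variable {F D : Type} [Field F] [Ring D] [IsDomain D] [Algebra F D] [FiniteDimensional F D]
  {U : Submodule F D} {Λ : Subalgebra F D}

theorem psi_le (hU : U ≤ Subalgebra.toSubmodule Λ) : PsiOf U ≤ Λ := by
  apply Algebra.adjoin_le
  rintro x ⟨b, hb, hb0, hxb⟩
  obtain ⟨c, hc, hbc, _⟩ := P2Dim.exists_inv_mem Λ b (hU hb) hb0
  have : x = x * b * c := by rw [mul_assoc, hbc, mul_one]
  rw [this]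
  exact Λ.mul_mem (hU hxb) hc

variable (hc : ∀ a ∈ Λ, ∀ b ∈ Λ, a * b = b * a) (hU : U ≤ Subalgebra.toSubmodule Λ)

theorem mul_inv_mem_psi {u u' a : D} (hu : u ∈ U) (hu0 : u ≠ 0) (hu' : u' * u = 1)
    (ha : a ∈ U) : a * u' ∈ PsiOf U := by
  apply Algebra.subset_adjoin
  exact ⟨u, hu, hu0, by rw [mul_assoc, hu', mul_one]; exact ha⟩

include hU in
theorem pow_le (n : ℕ) : U ^ n ≤ Subalgebra.toSubmodule Λ := by
  induction n with
  | zero =>
    rw [pow_zero]
    intro x hx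
    obtain ⟨c, rfl⟩ := Submodule.mem_one.mp hx
    exact Λ.algebraMap_mem c
  | succ n ih =>
    rw [pow_succ, Submodule.mul_le]
    intro a ha b hb
    exact Λ.mul_mem (ih ha) (hU hb)

include hc hU in
theorem pow_mul_inv_mem {u u' : D} (hu : u ∈ U) (hu0 : u ≠ 0) (hu' : u' * u = 1)
    (hu'Λ : u' ∈ Λ) (n : ℕ) (y : D) (hy : y ∈ U ^ n) : y * u' ^ n ∈ PsiOf U := by
  induction n generalizing y with
  | zero =>
    rw [pow_zero] at hy
    obtain ⟨c, rfl⟩ := Submodule.mem_one.mp hy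
    rw [pow_zero, mul_one]
    exact (PsiOf U).algebraMap_mem c
  | succ n ih =>
    rw [pow_succ] at hy
    refine Submodule.mul_induction_on hy ?_ ?_
    · intro a ha b hb
      have h1 : a * b * u' ^ (n + 1) = (a * u' ^ n) * (b * u') := by
        rw [pow_succ, mul_assoc, mul_assoc, ← mul_assoc b, hc b (hU hb) _ (Λ.pow_mem hu'Λ n),
          mul_assoc]
      rw [h1]
      exact (PsiOf U).mul_mem (ih a ha) (mul_inv_mem_psi hu hu0 hu' hb)
    · intro a b ha hb
      rw [add_mul]; exact (PsiOf U).add_mem ha hb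

include hc hU in
theorem finrank_pow_le {u u' : D} (hu : u ∈ U) (hu0 : u ≠ 0) (hu' : u' * u = 1)
    (hu'Λ : u' ∈ Λ) (n : ℕ) :
    Module.finrank F (U ^ n : Submodule F D) ≤ Module.finrank F (PsiOf U) := by
  have hne : u' ^ n ≠ 0 := by
    apply pow_ne_zero
    rintro rfl
    rw [zero_mul] at hu'
    exact zero_ne_one hu'
  have h1 : (U ^ n).map (LinearMap.mulRight F (u' ^ n)) ≤ Subalgebra.toSubmodule (PsiOf U) := by
    rintro _ ⟨y, hy, rfl⟩
    exact pow_mul_inv_mem hc hU hu hu0 hu' hu'Λ n y hy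
  have h2 : Module.finrank F ((U ^ n).map (LinearMap.mulRight F (u' ^ n))) =
      Module.finrank F (U ^ n : Submodule F D) := by
    have hinj : Function.Injective (LinearMap.mulRight F (u' ^ n)) := by
      intro a b hab
      exact mul_right_cancel₀ hne hab
    exact (Submodule.equivMapOfInjective _ hinj (U ^ n)).finrank_eq.symm
  rw [← h2]
  exact Submodule.finrank_mono h1

end comm

end MinIV

end Crest.Agent.R180
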