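import Crest.Agent.R180.MinDefs

set_option autoImplicit false
noncomputable section
namespace Crest.Agent.R180

open TensorProduct

/-! # Row 180, ROUTE M (VI): dimension of the kernel of the new linear part -/

variable {P : (A : DA) → (m : ℕ) → NC (Fin m) A.D → Prop}

theorem finrank_ker_lin {A : DA} {m : ℕ} (γ : NC (Fin m) A.D) :
    Module.finrank A.F (LinearMap.ker (lin γ)) + Module.finrank A.F (UU γ) = m := by
  have h := (lin γ).finrank_range_add_finrank_ker
  rw [Module.finrank_fin_fun] at h
  rw [add_comm]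
  exact h

theorem finrank_ker_step {A : DA} {m : ℕ} {Λ : Subalgebra A.F A.D} {γ : NC (Fin m) A.D}
    {M : Adm A} {z : Fin m → PowerSeries M.E} (st : Step P Λ γ M z) :
    Module.finrank (A.mv M).F (LinearMap.ker (lin (A := A.mv M) st.γ')) +
      Module.finrank (LF M.F1) st.U = (m - 1) * Module.finrank M.F1 M.E + 1 := by
  rw [← st.hμ]
  exact finrank_ker_lin (A := A.mv M) st.γ'

/-- core of `finrank_ker6` -/
theorem finrank_ker6_core {A : DA} {m N d s : ℕ} {Λ : Subalgebra A.F A.D} {γ : NC (Fin m) A.D}
    {M : Adm A} {z : Fin m → PowerSeries M.E} (st : Step P Λ γ M z)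
    (hE : Module.finrank M.F1 M.E = N * N)
    (hle : Module.finrank (LF M.F1) st.U ≤ Module.finrank (LF M.F1) st.Psi)
    (hs : Module.finrank (LF M.F1) st.Psi - Module.finrank (LF M.F1) st.U = s)
    (hPsi : Module.finrank (LF M.F1) st.Psi = N * d) :
    Module.finrank (A.mv M).F (LinearMap.ker (lin (A := A.mv M) st.γ')) + N * d =
      (m - 1) * (N * N) + 1 + s := by
  have hk := finrank_ker_step st
  rw [hE] at hk
  rw [← hPsi]
  omega

end Crest.Agent.R180
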