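import Crest.Agent.R180.MinTaylor
import Crest.Agent.R180.MinAPrep

set_option autoImplicit false
noncomputable section
namespace Crest.Agent.R180

open TensorProduct

/-! # Row 180, ROUTE M: linearity of `dv` and `d2` in the directions -/

section PS
variable {F R : Type} [Field F] [Ring R] [Algebra F R]

theorem psmap_commute (c : PowerSeries F) (y : PowerSeries R) :
    PowerSeries.map (algebraMap F R) c * y = y * PowerSeries.map (algebraMap F R) c := by
  apply LD.ofPS_injective
  rw [map_mul, map_mul, MinA.ofPS_map_algebraMap]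
  exact Algebra.commutes _ _

theorem ofPS_psmap_mul (c : PowerSeries F) (y : PowerSeries R) :
    (LD.ofPS (PowerSeries.map (algebraMap F R) c * y) : LD R) = LF.ofPS c • LD.ofPS y := by
  rw [map_mul, MinA.ofPS_map_algebraMap, Algebra.smul_def]

theorem ofPS_X_pow' (N : ℕ) : (LF.ofPS ((PowerSeries.X : PowerSeries F) ^ N) : LF F) = LF.tp N := by
  apply LF.ext; intro n
  have htp : (LF.tp (N : ℤ) : LF F).co n = if n = (N : ℤ) then 1 else 0 := by
    change HahnSeries.coeff (HahnSeries.single (N : ℤ) (1 : F)) n = _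
    rw [HahnSeries.coeff_single]
    split_ifs <;> rfl
  rw [htp]
  rcases lt_or_ge n 0 with hn | hn
  · rw [LF.co_ofPS_neg _ n hn, if_neg (by omega)]
  · obtain ⟨m, rfl⟩ := Int.eq_ofNat_of_zero_le hn
    rw [LF.co_ofPS, PowerSeries.coeff_X_pow]
    by_cases h : m = N
    · rw [if_pos h, if_pos (by exact_mod_cast h)]
    · rw [if_neg h, if_neg (by exact_mod_cast h)]

end PS

section Lin
variable {A : DA} (M : Adm A) {m : ℕ}

/-- uniqueness of solutions of the functional equation -/
theorem rec_unique (z : Fin m → PowerSeries M.E) (hz : ∀ j, PowerSeries.constantCoeff (z j) = 0)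
    (r g₁ g₂ : NC (Fin m) A.D → PowerSeries M.D0)
    (h₁ : ∀ f, g₁ f = r f + ∑ j, PowerSeries.map M.jE (z j) * g₁ (NC.ld j f))
    (h₂ : ∀ f, g₂ f = r f + ∑ j, PowerSeries.map M.jE (z j) * g₂ (NC.ld j f))
    (f : NC (Fin m) A.D) : g₁ f = g₂ f := by
  rw [← sub_eq_zero]
  refine Ord.eq_zero fun n => ?_
  induction n generalizing f with
  | zero => exact Ord.zero _
  | succ n ih =>
    rw [h₁ f, h₂ f, add_sub_add_left_eq_sub, ← Finset.sum_sub_distrib]
    refine Ord.sum fun j _ => ?_
    rw [← mul_sub, add_comm n 1]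
    exact ((Ord.of_const (hz j)).map _).mul (ih _)

theorem map_jE_map (c : PowerSeries M.F1) :
    PowerSeries.map M.jE (PowerSeries.map (algebraMap M.F1 M.E) c) =
      PowerSeries.map (algebraMap M.F1 M.D0) c := by
  ext n
  rw [PowerSeries.coeff_map, PowerSeries.coeff_map, PowerSeries.coeff_map]
  rfl

variable (z : Fin m → PowerSeries M.E) (hz : ∀ j, PowerSeries.constantCoeff (z j) = 0)

include hz

theorem dv_smul (v : Fin m → PowerSeries M.E) (c : PowerSeries M.F1) (f : NC (Fin m) A.D) :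
    M.dv z (fun j => PowerSeries.map (algebraMap M.F1 M.E) c * v j) f =
      PowerSeries.map (algebraMap M.F1 M.D0) c * M.dv z v f := by
  refine rec_unique M z hz (fun f => ∑ j, PowerSeries.map M.jE
    (PowerSeries.map (algebraMap M.F1 M.E) c * v j) * M.ev z (NC.ld j f))
    (fun f => M.dv z (fun j => PowerSeries.map (algebraMap M.F1 M.E) c * v j) f)
    (fun f => PowerSeries.map (algebraMap M.F1 M.D0) c * M.dv z v f) ?_ ?_ f
  · intro f
    rw [dv_rec M z _ hz f, Finset.sum_add_distrib]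
  · intro f
    rw [dv_rec M z v hz f, Finset.sum_add_distrib, mul_add, Finset.mul_sum, Finset.mul_sum]
    congr 1
    · refine Finset.sum_congr rfl fun j _ => ?_
      rw [map_mul, map_jE_map, mul_assoc]
    · refine Finset.sum_congr rfl fun j _ => ?_
      rw [← mul_assoc, ← mul_assoc, psmap_commute]

theorem d2_add_left (v w v' : Fin m → PowerSeries M.E) (f : NC (Fin m) A.D) :
    M.d2 z (fun j => v j + w j) v' f = M.d2 z v v' f + M.d2 z w v' f := by
  refine rec_unique M z hz (fun f => ∑ j, PowerSeries.map M.jE (v j + w j) *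
    M.dv z v' (NC.ld j f)) (fun f => M.d2 z (fun j => v j + w j) v' f)
    (fun f => M.d2 z v v' f + M.d2 z w v' f) ?_ ?_ f
  · intro f
    rw [d2_rec M z _ _ hz f, Finset.sum_add_distrib]
  · intro f
    rw [d2_rec M z v _ hz f, d2_rec M z w _ hz f, ← Finset.sum_add_distrib,
      ← Finset.sum_add_distrib]
    refine Finset.sum_congr rfl fun j _ => ?_
    rw [map_add, add_mul, mul_add]
    abel

theorem d2_add_right (v v' w' : Fin m → PowerSeries M.E) (f : NC (Fin m) A.D) :
    M.d2 z v (fun j => v' j + w' j) f = M.d2 z v v' f + M.d2 z v w' f := by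
  refine rec_unique M z hz (fun f => ∑ j, PowerSeries.map M.jE (v j) *
    (M.dv z v' (NC.ld j f) + M.dv z w' (NC.ld j f)))
    (fun f => M.d2 z v (fun j => v' j + w' j) f)
    (fun f => M.d2 z v v' f + M.d2 z v w' f) ?_ ?_ f
  · intro f
    rw [d2_rec M z _ _ hz f, Finset.sum_add_distrib]
    congr 1
    refine Finset.sum_congr rfl fun j _ => ?_
    rw [dv_add M z v' w' hz]
  · intro f
    rw [d2_rec M z v _ hz f, d2_rec M z v _ hz f, ← Finset.sum_add_distrib,
      ← Finset.sum_add_distrib]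
    refine Finset.sum_congr rfl fun j _ => ?_
    rw [mul_add, mul_add]
    abel

theorem d2_smul_left (v v' : Fin m → PowerSeries M.E) (c : PowerSeries M.F1)
    (f : NC (Fin m) A.D) :
    M.d2 z (fun j => PowerSeries.map (algebraMap M.F1 M.E) c * v j) v' f =
      PowerSeries.map (algebraMap M.F1 M.D0) c * M.d2 z v v' f := by
  refine rec_unique M z hz (fun f => ∑ j, PowerSeries.map M.jE
    (PowerSeries.map (algebraMap M.F1 M.E) c * v j) * M.dv z v' (NC.ld j f))
    (fun f => M.d2 z (fun j => PowerSeries.map (algebraMap M.F1 M.E) c * v j) v' f)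
    (fun f => PowerSeries.map (algebraMap M.F1 M.D0) c * M.d2 z v v' f) ?_ ?_ f
  · intro f
    rw [d2_rec M z _ _ hz f, Finset.sum_add_distrib]
  · intro f
    rw [d2_rec M z v _ hz f, Finset.sum_add_distrib, mul_add, Finset.mul_sum, Finset.mul_sum]
    congr 1
    · refine Finset.sum_congr rfl fun j _ => ?_
      rw [map_mul, map_jE_map, mul_assoc]
    · refine Finset.sum_congr rfl fun j _ => ?_
      rw [← mul_assoc, ← mul_assoc, psmap_commute]

theorem d2_smul_right (v v' : Fin m → PowerSeries M.E) (c : PowerSeries M.F1)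
    (f : NC (Fin m) A.D) :
    M.d2 z v (fun j => PowerSeries.map (algebraMap M.F1 M.E) c * v' j) f =
      PowerSeries.map (algebraMap M.F1 M.D0) c * M.d2 z v v' f := by
  refine rec_unique M z hz (fun f => ∑ j, PowerSeries.map M.jE (v j) *
    (PowerSeries.map (algebraMap M.F1 M.D0) c * M.dv z v' (NC.ld j f)))
    (fun f => M.d2 z v (fun j => PowerSeries.map (algebraMap M.F1 M.E) c * v' j) f)
    (fun f => PowerSeries.map (algebraMap M.F1 M.D0) c * M.d2 z v v' f) ?_ ?_ f
  · intro f
    rw [d2_rec M z _ _ hz f, Finset.sum_add_distrib]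
    congr 1
    refine Finset.sum_congr rfl fun j _ => ?_
    rw [dv_smul M z hz v' c]
  · intro f
    rw [d2_rec M z v _ hz f, Finset.sum_add_distrib, mul_add, Finset.mul_sum, Finset.mul_sum]
    congr 1
    · refine Finset.sum_congr rfl fun j _ => ?_
      rw [← mul_assoc, ← mul_assoc, psmap_commute]
    · refine Finset.sum_congr rfl fun j _ => ?_
      rw [← mul_assoc, ← mul_assoc, psmap_commute]

omit hz in
/-- an additive map homogeneous over `F1⟦t⟧` is linear over Laurent series -/
theorem lin_ext (Φ : (Fin m → PowerSeries M.E) → PowerSeries M.D0)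
    (hadd : ∀ v w, Φ (fun j => v j + w j) = Φ v + Φ w)
    (hsmul : ∀ (c : PowerSeries M.F1) v, Φ (fun j => PowerSeries.map (algebraMap M.F1 M.E) c * v j) =
      PowerSeries.map (algebraMap M.F1 M.D0) c * Φ v)
    {μ : ℕ} (l : Fin μ → LF M.F1) (dir : Fin μ → Fin m → PowerSeries M.E)
    (V : Fin m → PowerSeries M.E)
    (hV : ∀ j, (LD.ofPS (V j) : LD M.E) = ∑ i, l i • LD.ofPS (dir i j)) :
    ∑ i, l i • (LD.ofPS (Φ (dir i)) : LD M.D0) = LD.ofPS (Φ V) := by
  classical
  obtain ⟨N, a, -, ha, -⟩ := MinA.exists_denominator l (0 : LD M.E)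
  have h0 : Φ (fun _ => 0) = 0 := by
    have := hsmul 0 (fun _ => 0)
    simpa using this
  have hsum : ∀ (s : Finset (Fin μ)) (v : Fin μ → Fin m → PowerSeries M.E),
      Φ (fun j => ∑ i ∈ s, v i j) = ∑ i ∈ s, Φ (v i) := by
    intro s v
    induction s using Finset.induction_on with
    | empty => simpa using h0
    | insert i s hi ih =>
      simp only [Finset.sum_insert hi]
      rw [hadd, ih]
  have hXV : (fun j => PowerSeries.map (algebraMap M.F1 M.E) (PowerSeries.X ^ N) * V j) =
      fun j => ∑ i, PowerSeries.map (algebraMap M.F1 M.E) (a i) * dir i j := by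
    funext j
    apply LD.ofPS_injective
    rw [ofPS_psmap_mul, ofPS_X_pow', hV j, Finset.smul_sum, map_sum]
    refine Finset.sum_congr rfl fun i _ => ?_
    rw [ofPS_psmap_mul, ha, mul_smul]
  have h1 : (LD.ofPS (Φ (fun j => PowerSeries.map (algebraMap M.F1 M.E) (PowerSeries.X ^ N) * V j)) :
      LD M.D0) = (LF.tp N : LF M.F1) • LD.ofPS (Φ V) := by
    rw [hsmul, ofPS_psmap_mul, ofPS_X_pow']
  have h2 : (LD.ofPS (Φ (fun j => PowerSeries.map (algebraMap M.F1 M.E) (PowerSeries.X ^ N) * V j)) :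
      LD M.D0) = (LF.tp N : LF M.F1) • ∑ i, l i • (LD.ofPS (Φ (dir i)) : LD M.D0) := by
    rw [hXV, hsum, map_sum, Finset.smul_sum]
    refine Finset.sum_congr rfl fun i _ => ?_
    rw [hsmul, ofPS_psmap_mul, ha, mul_smul]
  have h3 : (LF.tp N : LF M.F1) ≠ 0 := LF.tp_ne_zero _
  have h4 := h2.symm.trans h1
  exact (smul_right_injective _ h3) h4

theorem dv_lin {μ : ℕ} (l : Fin μ → LF M.F1) (dir : Fin μ → Fin m → PowerSeries M.E)
    (V : Fin m → PowerSeries M.E)
    (hV : ∀ j, (LD.ofPS (V j) : LD M.E) = ∑ i, l i • LD.ofPS (dir i j)) (f : NC (Fin m) A.D) :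
    ∑ i, l i • (LD.ofPS (M.dv z (dir i) f) : LD M.D0) = LD.ofPS (M.dv z V f) :=
  lin_ext M (fun v => M.dv z v f) (fun v w => dv_add M z v w hz f)
    (fun c v => dv_smul M z hz v c f) l dir V hV

theorem d2_lin {μ : ℕ} (l l' : Fin μ → LF M.F1) (dir : Fin μ → Fin m → PowerSeries M.E)
    (V V' : Fin m → PowerSeries M.E)
    (hV : ∀ j, (LD.ofPS (V j) : LD M.E) = ∑ i, l i • LD.ofPS (dir i j))
    (hV' : ∀ j, (LD.ofPS (V' j) : LD M.E) = ∑ i, l' i • LD.ofPS (dir i j))
    (f : NC (Fin m) A.D) :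
    ∑ i, ∑ k, (l i * l' k) • (LD.ofPS (M.d2 z (dir i) (dir k) f) : LD M.D0) =
      LD.ofPS (M.d2 z V V' f) := by
  have h1 : ∀ i, ∑ k, l' k • (LD.ofPS (M.d2 z (dir i) (dir k) f) : LD M.D0) =
      LD.ofPS (M.d2 z (dir i) V' f) := fun i =>
    lin_ext M (fun v => M.d2 z (dir i) v f) (fun v w => d2_add_right M z hz (dir i) v w f)
      (fun c v => d2_smul_right M z hz (dir i) v c f) l' dir V' hV'
  have h2 : ∑ i, l i • (LD.ofPS (M.d2 z (dir i) V' f) : LD M.D0) = LD.ofPS (M.d2 z V V' f) :=
    lin_ext M (fun v => M.d2 z v V' f) (fun v w => d2_add_left M z hz v w V' f)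
      (fun c v => d2_smul_left M z hz v V' c f) l dir V hV
  rw [← h2]
  refine Finset.sum_congr rfl fun i _ => ?_
  rw [← h1 i, Finset.smul_sum]
  refine Finset.sum_congr rfl fun k _ => ?_
  rw [mul_smul]

end Lin

end Crest.Agent.R180
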