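import Crest.Agent.R180.MinDefs
import Crest.Agent.R180.MinGen

set_option autoImplicit false

/-!
# Row 180, ROUTE M: steps (I) and (II) at one base point
-/

noncomputable section
namespace Crest.Agent.R180

open TensorProduct RegPt

namespace MinOne

section res

variable {F D F1 E : Type} [Field F] [Ring D] [Algebra F D] [Field F1] [Algebra F F1]
  [Ring E] [Algebra F1 E] [Algebra F E] [IsScalarTower F F1 E]
  [FiniteDimensional F D] [FiniteDimensional F1 E]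

theorem finrank_ge_of_res [IsDomain E] (s : E) (Ξ : Subalgebra F D)
    (Λ' : Subalgebra (LF F1) (LD (E ⊗[F] D)))
    (hΞ : ∀ a ∈ Ξ, (1 : E) ⊗ₜ[F] a ∈ LD.resSp (Subalgebra.toSubmodule Λ'))
    (hs : s ⊗ₜ[F] (1 : D) ∈ LD.resSp (Subalgebra.toSubmodule Λ')) :
    Module.finrank F1 (Algebra.adjoin F1 ({s} : Set E)) * Module.finrank F Ξ ≤
      Module.finrank (LF F1) Λ' := by
  have hfin : FiniteDimensional F1 (E ⊗[F] D) := by
    have : Module.Finite E (E ⊗[F] D) := inferInstance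
    exact Module.Finite.trans E (E ⊗[F] D)
  have h1 : Module.finrank F1 (LD.resSp (Subalgebra.toSubmodule Λ')) =
      Module.finrank (LF F1) Λ' := LD.finrank_resSp _
  rw [← h1]
  refine (MinI.finrank_W_ge s Ξ).trans (Submodule.finrank_mono ?_)
  rw [MinI.W, Submodule.span_le]
  rintro _ ⟨i, a, ha, rfl⟩
  have h1 : (s ^ i) ⊗ₜ[F] a = (s ⊗ₜ[F] (1 : D)) ^ i * ((1 : E) ⊗ₜ[F] a) := by
    rw [Algebra.TensorProduct.tmul_pow, one_pow, Algebra.TensorProduct.tmul_mul_tmul, mul_one,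
      one_mul]
  rw [h1]
  exact MinI.res_mul_mem Λ' (MinI.res_pow_mem Λ' hs i) (hΞ a ha)

end res

theorem mapL_eq_trL {F B : Type} [Field F] [Ring B] [Algebra F B] [Module.Finite F B]
    (τ : B →ₗ[F] F) (x : LD B) : LD.mapL τ x = LD.trL τ x := by
  apply LF.ext; intro n
  rw [LD.co_mapL, LD.co_trL]

variable {A : DA} {m : ℕ} {Λ : Subalgebra A.F A.D} {γ : NC (Fin m) A.D} {M : Adm A}

theorem tp_smul_ofPS (K : ℕ) (q : PowerSeries M.D0) :
    (LF.tp (-(K : ℤ)) : LF M.F1) • (LD.ofPS (PowerSeries.X ^ K * q) : LD M.D0) = LD.ofPS q := by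
  apply LD.ext; intro n
  rw [LD.co_tp_smul]
  by_cases hn : 0 ≤ n
  · obtain ⟨k, rfl⟩ := Int.eq_ofNat_of_zero_le hn
    have h1 : (k : ℤ) - -(K : ℤ) = ((k + K : ℕ) : ℤ) := by push_cast; ring
    rw [h1, LD.co_ofPS, LD.co_ofPS, PowerSeries.coeff_X_pow_mul]
  · push Not at hn
    rw [LD.co_ofPS_neg _ _ hn]
    by_cases h : n - -(K : ℤ) < 0
    · rw [LD.co_ofPS_neg _ _ h]
    · push Not at h
      obtain ⟨k, hk⟩ := Int.eq_ofNat_of_zero_le h
      have hkK : k < K := by omega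
      rw [hk]
      have : ((Int.ofNat k : ℤ)) = (k : ℤ) := rfl
      rw [show (↑k : ℤ) = ((k : ℕ) : ℤ) from rfl, LD.co_ofPS, PowerSeries.coeff_X_pow_mul',
        if_neg (by omega)]

theorem co_zero_q (a ρ : M.D0) (y : PowerSeries M.D0) :
    (LD.ofPS (PowerSeries.C a + PowerSeries.X * PowerSeries.C ρ + PowerSeries.X ^ 2 * y) :
      LD M.D0).co 0 = a := by
  have h1 := LD.co_ofPS (PowerSeries.C a + PowerSeries.X * PowerSeries.C ρ +
    PowerSeries.X ^ 2 * y) 0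
  rw [Nat.cast_zero] at h1
  rw [h1]
  simp [pow_two, mul_assoc]

theorem co_one_q (a ρ : M.D0) (y : PowerSeries M.D0) :
    (LD.ofPS (PowerSeries.C a + PowerSeries.X * PowerSeries.C ρ + PowerSeries.X ^ 2 * y) :
      LD M.D0).co 1 = ρ := by
  have h1 := LD.co_ofPS (PowerSeries.C a + PowerSeries.X * PowerSeries.C ρ +
    PowerSeries.X ^ 2 * y) 1
  rw [Nat.cast_one] at h1
  rw [h1, map_add, map_add]
  have e1 : PowerSeries.coeff 1 (PowerSeries.C a) = 0 := by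
    rw [PowerSeries.coeff_C, if_neg one_ne_zero]
  have e2 : PowerSeries.coeff 1 (PowerSeries.X * PowerSeries.C ρ) = ρ := by
    have := PowerSeries.coeff_succ_X_mul 0 (PowerSeries.C ρ)
    rw [zero_add] at this
    rw [this]
    simp
  have e3 : PowerSeries.coeff 1 (PowerSeries.X ^ 2 * y) = 0 := by
    rw [PowerSeries.coeff_X_pow_mul', if_neg (by norm_num)]
  rw [e1, e2, e3, zero_add, add_zero]

theorem inc_mem_adj (c0 : PowerSeries M.D0) {a : A.D} (ha : a ∈ Λ) :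
    (LD.C ((1 : M.E) ⊗ₜ[A.F] a) : LD M.D0) ∈ M.adj Λ c0 :=
  Algebra.subset_adjoin (Or.inl ⟨a, ha, rfl⟩)

theorem c0_mem_adj (c0 : PowerSeries M.D0) : (LD.ofPS c0 : LD M.D0) ∈ M.adj Λ c0 :=
  Algebra.subset_adjoin (Or.inr rfl)

theorem one_tmul_res (c0 : PowerSeries M.D0) {a : A.D} (ha : a ∈ Λ) :
    (1 : M.E) ⊗ₜ[A.F] a ∈ LD.resSp (Subalgebra.toSubmodule (M.adj Λ c0)) :=
  ⟨_, inc_mem_adj c0 ha, LD.isInt_C _, LD.co_C_zero _⟩

/-- the residue of the normalised value of `γ` -/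
theorem s_tmul_res {K : ℕ} {c0 y : PowerSeries M.D0} {s : M.E} {u u' : A.D} {ρ : M.D0}
    (hc0 : c0 = PowerSeries.X ^ K * (PowerSeries.C (s ⊗ₜ[A.F] u) +
      PowerSeries.X * PowerSeries.C ρ + PowerSeries.X ^ 2 * y))
    (hu' : u' ∈ Λ) (huu' : u * u' = 1) :
    s ⊗ₜ[A.F] (1 : A.D) ∈ LD.resSp (Subalgebra.toSubmodule (M.adj Λ c0)) := by
  have h1 : s ⊗ₜ[A.F] (1 : A.D) = (s ⊗ₜ[A.F] u) * ((1 : M.E) ⊗ₜ[A.F] u') := by
    rw [Algebra.TensorProduct.tmul_mul_tmul, mul_one, huu']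
  rw [h1]
  refine MinI.res_mul_mem _ ⟨(LF.tp (-(K : ℤ)) : LF M.F1) • LD.ofPS c0,
    Subalgebra.smul_mem _ (c0_mem_adj c0) _, ?_, ?_⟩ (one_tmul_res c0 hu')
  · rw [hc0, tp_smul_ofPS]; exact LD.isInt_ofPS _
  · rw [hc0, tp_smul_ofPS, co_zero_q]

/-- step (I) at one base point -/
theorem pointI {N : ℕ} (hN : N.Prime) (hE : Module.finrank M.F1 M.E = N * N) {s : M.E}
    (hs : s ∉ Set.range (algebraMap M.F1 M.E)) {K : ℕ} {c0 y : PowerSeries M.D0} {u u' : A.D}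
    {ρ : M.D0}
    (hc0 : c0 = PowerSeries.X ^ K * (PowerSeries.C (s ⊗ₜ[A.F] u) +
      PowerSeries.X * PowerSeries.C ρ + PowerSeries.X ^ 2 * y))
    (hu' : u' ∈ Λ) (huu' : u * u' = 1)
    (hrank : Module.finrank (LF M.F1) (M.adj Λ c0) ≤ N * Module.finrank A.F Λ)
    (tE : M.E →ₗ[M.F1] M.F1) (htE : ∀ a b, tE (a * b) = tE (b * a))
    (ℓ : A.D →ₗ[A.F] A.F) (hℓ : ∀ a ∈ Λ, ℓ a = 0) :
    tE (s * MinI.ellE (F1 := M.F1) M.E ℓ (ρ * ((1 : M.E) ⊗ₜ[A.F] u'))) = 0 := by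
  set x : LD M.D0 := (LF.tp (-(K : ℤ)) : LF M.F1) • LD.ofPS c0 with hx
  have hx' : x = LD.ofPS (PowerSeries.C (s ⊗ₜ[A.F] u) +
      PowerSeries.X * PowerSeries.C ρ + PowerSeries.X ^ 2 * y) := by
    rw [hx, hc0, tp_smul_ofPS]
  have hxm : x ∈ M.adj Λ c0 := Subalgebra.smul_mem _ (c0_mem_adj c0) _
  set x' : LD M.D0 := x * LD.C ((1 : M.E) ⊗ₜ[A.F] u') with hx'd
  have h := MinI.core s Λ (M.adj Λ c0) (fun a ha => one_tmul_res c0 ha)
    (by rw [MinI.finrank_adjoin_of_prime hN hE s hs]; exact hrank) x'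
    (Subalgebra.mul_mem _ hxm (inc_mem_adj c0 hu'))
    (by rw [hx'd, hx']; exact (LD.isInt_ofPS _).mul (LD.isInt_C _))
    (by rw [hx'd, LD.mul_C_co, hx', co_zero_q, Algebra.TensorProduct.tmul_mul_tmul, mul_one, huu'])
    tE htE ℓ hℓ
  rwa [hx'd, LD.mul_C_co, hx', co_one_q] at h

/-- the constant direction of `w : F^m` -/
def cdir (M : Adm A) (w : Fin m → A.F) : Fin m → PowerSeries M.E :=
  fun j => PowerSeries.C (algebraMap A.F M.E (w j))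

theorem l1_cdir (w : Fin m → A.F) (f : NC (Fin m) A.D) :
    M.l1 (cdir M w) f = PowerSeries.C ((1 : M.E) ⊗ₜ[A.F] (lin f w)) := by
  rw [Adm.l1, lin_apply, TensorProduct.tmul_sum, map_sum]
  refine Finset.sum_congr rfl fun j _ => ?_
  rw [cdir, PowerSeries.map_C, ← map_mul]
  congr 1
  change (algebraMap A.F M.E (w j) ⊗ₜ[A.F] (1 : A.D)) * ((1 : M.E) ⊗ₜ[A.F] f [j]) = _
  rw [Algebra.TensorProduct.tmul_mul_tmul, mul_one, one_mul, TensorProduct.tmul_smul,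
    Algebra.algebraMap_eq_smul_one, TensorProduct.smul_tmul']

/-- integrality of quotients -/
theorem quot_int {K : Type} [Ring K] [IsDomain K] {q w e : LD K} (h : q * w = e)
    (he : LD.IsInt e) (hw : LD.IsInt w) (hw0 : w.co 0 ≠ 0) :
    LD.IsInt q ∧ q.co 0 * w.co 0 = e.co 0 := by
  have hqi : LD.IsInt q := by
    by_cases hq0 : q = 0
    · rw [hq0]; exact LD.isInt_zero
    obtain ⟨k, q', hk, hq'i, hq'0⟩ := LD.exists_normal hq0
    have hk0 : 0 ≤ k := by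
      by_contra hk0
      push Not at hk0
      have h1 : e.co k = q'.co 0 * w.co 0 := by
        rw [← h, hk, mul_assoc, LD.co_tp_mul, sub_self, hq'i.co_mul_zero hw]
      rw [he k hk0] at h1
      rcases mul_eq_zero.1 h1.symm with h2 | h2
      · exact hq'0 h2
      · exact hw0 h2
    intro n hn
    rw [hk, LD.co_tp_mul]
    exact hq'i _ (by omega)
  exact ⟨hqi, by rw [← hqi.co_mul_zero hw, h]⟩

theorem exists_inv_LD {w : LD M.D0} (hw : w ≠ 0) : ∃ V : LD M.D0, V * w = 1 := by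
  let _ := divisionRingOfFiniteDimensional (LF M.F1) (LD M.D0)
  exact ⟨w⁻¹, inv_mul_cancel₀ hw⟩

theorem one_tmul_ne {b : A.D} (hb : b ≠ 0) : (1 : M.E) ⊗ₜ[A.F] b ≠ 0 := by
  have hinj : Function.Injective
      (Algebra.TensorProduct.includeRight : A.D →ₐ[A.F] M.E ⊗[A.F] A.D) :=
    Algebra.TensorProduct.includeRight_injective (algebraMap A.F M.E).injective
  intro h
  exact hb (hinj (by rw [map_zero]; exact h))

/-- the trace of `η [c₀, x]` vanishes for `η` commuting with `c₀` -/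
theorem trL_comm_zero (τ : M.D0 →ₗ[M.F1] M.F1) (hτ : ∀ a b, τ (a * b) = τ (b * a))
    {η c x : LD M.D0} (hη : η * c = c * η) :
    LD.trL τ (η * (c * x - x * c)) = 0 := by
  rw [mul_sub, map_sub, ← mul_assoc, hη, mul_assoc, LD.trL_mul_comm τ hτ c (η * x), mul_assoc,
    sub_self]

section II

variable {z : Fin m → PowerSeries M.E} (U' : Submodule (LF M.F1) (LD M.D0))

/-- residues of `U'`: every `b ∈ U` lifts to an element of `U'` -/
theorem lift_U (hcomm : ∀ a ∈ M.adj Λ (M.ev z γ), ∀ b ∈ M.adj Λ (M.ev z γ), a * b = b * a)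
    (hU : UU γ ≤ Subalgebra.toSubmodule Λ)
    (hU' : U' ≤ Subalgebra.toSubmodule (M.adj Λ (M.ev z γ)))
    (hT : ∀ v : Fin m → PowerSeries M.E, ∃ T ∈ U', ∃ x : LD M.D0,
      T = LD.ofPS (M.dv z v γ) - (LD.ofPS (M.ev z γ) * x - x * LD.ofPS (M.ev z γ)))
    (d1 : ∀ v, ∃ y, M.dv z v γ = M.l1 v γ + PowerSeries.X ^ 2 * y)
    (τ : M.D0 →ₗ[M.F1] M.F1) (hτ : ∀ a b, τ (a * b) = τ (b * a)) (hτ1 : τ 1 ≠ 0)
    {b : A.D} (hb : b ∈ UU γ) :
    ∃ T ∈ U', LD.IsInt T ∧ T.co 0 = (1 : M.E) ⊗ₜ[A.F] b ∧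
      ∃ y : LD M.D0, LD.IsInt y ∧ y.co 0 = (1 : M.E) ⊗ₜ[A.F] b ∧ y.co 1 = 0 ∧
        ∀ η ∈ M.adj Λ (M.ev z γ), LD.trL τ (η * T) = LD.trL τ (η * y) := by
  obtain ⟨w, rfl⟩ := hb
  obtain ⟨T, hT', x, hTx⟩ := hT (cdir M w)
  obtain ⟨y, hy⟩ := d1 (cdir M w)
  rw [l1_cdir] at hy
  have hbΛ : lin γ w ∈ Λ := hU ⟨w, rfl⟩
  have hy' : M.dv z (cdir M w) γ = PowerSeries.C ((1 : M.E) ⊗ₜ[A.F] (lin γ w)) +
      PowerSeries.X * PowerSeries.C 0 + PowerSeries.X ^ 2 * y := by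
    rw [hy, map_zero, mul_zero, add_zero]
  have htr : ∀ η ∈ M.adj Λ (M.ev z γ),
      LD.trL τ (η * T) = LD.trL τ (η * LD.ofPS (M.dv z (cdir M w) γ)) := by
    intro η hη
    rw [hTx, mul_sub, map_sub, trL_comm_zero τ hτ (hcomm η hη _ (c0_mem_adj _)), sub_zero]
  have hyi : LD.IsInt (LD.ofPS (M.dv z (cdir M w) γ) : LD M.D0) := LD.isInt_ofPS _
  have hy0 : (LD.ofPS (M.dv z (cdir M w) γ) : LD M.D0).co 0 = (1 : M.E) ⊗ₜ[A.F] (lin γ w) := by
    rw [hy', co_zero_q]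
  have hy1 : (LD.ofPS (M.dv z (cdir M w) γ) : LD M.D0).co 1 = 0 := by
    rw [hy', co_one_q]
  -- `σ = t⁻¹ (T - b)` is integral
  obtain ⟨hσi, -⟩ := MinI.proj_int τ hτ1 (M.adj Λ (M.ev z γ))
    ((LF.tp (-1) : LF M.F1) • (T - LD.C ((1 : M.E) ⊗ₜ[A.F] (lin γ w))))
    ((LF.tp (-1) : LF M.F1) • (LD.ofPS (M.dv z (cdir M w) γ) -
      LD.C ((1 : M.E) ⊗ₜ[A.F] (lin γ w))))
    (Subalgebra.smul_mem _ (Subalgebra.sub_mem _ (hU' hT') (inc_mem_adj _ hbΛ)) _)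
    (by
      intro n hn
      rw [LD.co_tp_smul, LD.co_sub, LD.co_C]
      by_cases h0 : n = -1
      · subst h0
        have : (-1 : ℤ) - -1 = 0 := by norm_num
        rw [this, hy0, if_pos rfl, sub_self]
      · rw [hyi _ (by omega), if_neg (by omega), sub_zero])
    (by
      intro η hη
      rw [mul_smul_comm, mul_smul_comm, map_smul, map_smul, mul_sub, mul_sub, map_sub, map_sub,
        htr η hη])
  have hTe : T = LD.C ((1 : M.E) ⊗ₜ[A.F] (lin γ w)) + (LF.tp 1 : LF M.F1) •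
      ((LF.tp (-1) : LF M.F1) • (T - LD.C ((1 : M.E) ⊗ₜ[A.F] (lin γ w)))) := by
    rw [smul_smul, LF.tp_mul_tp, add_neg_cancel, LF.tp_zero, one_smul]; abel
  refine ⟨T, hT', ?_, ?_, _, hyi, hy0, hy1, htr⟩
  · rw [hTe]
    refine LD.IsInt.add (LD.isInt_C _) ?_
    intro n hn; rw [LD.co_tp_smul, hσi _ (by omega)]
  · rw [hTe, LD.co_add, LD.co_C_zero, LD.co_tp_smul, hσi _ (by omega), add_zero]

/-- residues of `Ψ'` contain `Ψ` -/
theorem psi_res (hlift : ∀ b ∈ UU γ, ∃ T ∈ U', LD.IsInt T ∧ T.co 0 = (1 : M.E) ⊗ₜ[A.F] b)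
    {a : A.D} (ha : a ∈ PsiOf (UU γ)) :
    (1 : M.E) ⊗ₜ[A.F] a ∈ LD.resSp (Subalgebra.toSubmodule (PsiOf U')) := by
  induction ha using Algebra.adjoin_induction with
  | mem x hx =>
    obtain ⟨b, hb, hb0, hxb⟩ := hx
    obtain ⟨T, hT, hTi, hT0⟩ := hlift b hb
    obtain ⟨T', hT', hTi', hT0'⟩ := hlift _ hxb
    have hb1 : (1 : M.E) ⊗ₜ[A.F] b ≠ 0 := one_tmul_ne hb0
    have hTne : T ≠ 0 := by
      intro h; rw [h] at hT0; exact hb1 hT0.symm
    obtain ⟨V, hV⟩ := exists_inv_LD hTne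
    obtain ⟨hqi, hq0⟩ := quot_int (q := T' * V) (w := T) (e := T')
      (by rw [mul_assoc, hV, mul_one]) hTi' hTi (by rw [hT0]; exact hb1)
    refine ⟨T' * V, ?_, hqi, ?_⟩
    · exact Algebra.subset_adjoin ⟨T, hT, hTne, by rw [mul_assoc, hV, mul_one]; exact hT'⟩
    · rw [hT0, hT0'] at hq0
      have h2 : (1 : M.E) ⊗ₜ[A.F] (x * b) = ((1 : M.E) ⊗ₜ[A.F] x) * ((1 : M.E) ⊗ₜ[A.F] b) := by
        rw [Algebra.TensorProduct.tmul_mul_tmul, one_mul]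
      rw [h2] at hq0
      exact mul_right_cancel₀ hb1 hq0
  | algebraMap c =>
    have h1 : (1 : M.E) ⊗ₜ[A.F] (algebraMap A.F A.D c) =
        (algebraMap A.F M.F1 c) • (1 : M.D0) := by
      rw [Algebra.TensorProduct.one_def, TensorProduct.smul_tmul', algebraMap_smul,
        Algebra.algebraMap_eq_smul_one, TensorProduct.tmul_smul, TensorProduct.smul_tmul']
    rw [h1]
    exact Submodule.smul_mem _ _ (MinI.res_one_mem _)
  | add a b _ _ ha hb => rw [TensorProduct.tmul_add]; exact Submodule.add_mem _ ha hb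
  | mul a b _ _ ha hb =>
    have h2 : (1 : M.E) ⊗ₜ[A.F] (a * b) = ((1 : M.E) ⊗ₜ[A.F] a) * ((1 : M.E) ⊗ₜ[A.F] b) := by
      rw [Algebra.TensorProduct.tmul_mul_tmul, one_mul]
    rw [h2]; exact MinI.res_mul_mem _ ha hb

/-- step (II) at one base point -/
theorem pointII {N : ℕ} (hN : N.Prime) (hE : Module.finrank M.F1 M.E = N * N) {s : M.E}
    (hs : s ∉ Set.range (algebraMap M.F1 M.E)) {k : ℕ} (hk : 1 ≤ k) {u u' : A.D}
    {ρ : M.D0}
    (c0 : ∃ y, M.ev z γ = PowerSeries.X ^ (2 * k - 1) * (PowerSeries.C (s ⊗ₜ[A.F] u) +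
      PowerSeries.X * PowerSeries.C ρ + PowerSeries.X ^ 2 * y))
    (d1 : ∀ v, ∃ y, M.dv z v γ = M.l1 v γ + PowerSeries.X ^ 2 * y)
    (eu : ∃ v y, M.dv z v γ = PowerSeries.X ^ (2 * k - 1) *
      ((2 * k - 1) • PowerSeries.C (s ⊗ₜ[A.F] u) + (2 * k) • (PowerSeries.X * PowerSeries.C ρ) +
        PowerSeries.X ^ 2 * y))
    (hu : u ∈ UU γ) (hu' : u' ∈ Λ) (huu' : u * u' = 1)
    (hcomm : ∀ a ∈ M.adj Λ (M.ev z γ), ∀ b ∈ M.adj Λ (M.ev z γ), a * b = b * a)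
    (hU : UU γ ≤ Subalgebra.toSubmodule Λ)
    (hU' : U' ≤ Subalgebra.toSubmodule (M.adj Λ (M.ev z γ)))
    (hT : ∀ v : Fin m → PowerSeries M.E, ∃ T ∈ U', ∃ x : LD M.D0,
      T = LD.ofPS (M.dv z v γ) - (LD.ofPS (M.ev z γ) * x - x * LD.ofPS (M.ev z γ)))
    (hrankΛ : Module.finrank (LF M.F1) (M.adj Λ (M.ev z γ)) ≤ N * Module.finrank A.F Λ)
    (hrankΨ : Module.finrank (LF M.F1) (PsiOf U') ≤ N * Module.finrank A.F (PsiOf (UU γ)))
    (hρ : ∀ l : A.D →ₗ[A.F] A.F, (∀ a ∈ Λ, l a = 0) → MinI.ellE (F1 := M.F1) M.E l ρ = 0)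
    (tE : M.E →ₗ[M.F1] M.F1) (htE : ∀ a b, tE (a * b) = tE (b * a)) (htE1 : tE 1 ≠ 0)
    (t : A.D →ₗ[A.F] A.F) (ht : IsTr t)
    (ℓ : A.D →ₗ[A.F] A.F) (hℓ : ∀ a ∈ PsiOf (UU γ), ℓ a = 0) :
    tE (s * MinI.ellE (F1 := M.F1) M.E ℓ (ρ * ((1 : M.E) ⊗ₜ[A.F] u'))) = 0 := by
  set τ := MinI.tau (F1 := M.F1) tE t with hτdef
  have hτ : ∀ a b, τ (a * b) = τ (b * a) := MinI.tau_comm tE t htE ht.1
  have hτ1 : τ 1 ≠ 0 := by
    rw [hτdef, Algebra.TensorProduct.one_def, MinI.tau_tmul, Algebra.smul_def]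
    exact mul_ne_zero (fun h => ht.2 ((map_eq_zero _).1 h)) htE1
  have huΛ : u ∈ Λ := hU hu
  have hdeg := MinI.finrank_adjoin_of_prime hN hE s hs
  obtain ⟨y0, hc0⟩ := c0
  obtain ⟨v, y1, hv⟩ := eu
  have hlift := fun (b : A.D) (hb : b ∈ UU γ) => lift_U U' hcomm hU hU' hT d1 τ hτ hτ1 hb
  set K := 2 * k - 1 with hK
  have hKpos : 0 < K := by omega
  have h2k : 2 * k = K + 1 := by omega
  rw [h2k] at hv
  -- the normalised value
  set x : LD M.D0 := (LF.tp (-(K : ℤ)) : LF M.F1) • LD.ofPS (M.ev z γ) with hx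
  have hx' : x = LD.ofPS (PowerSeries.C (s ⊗ₜ[A.F] u) +
      PowerSeries.X * PowerSeries.C ρ + PowerSeries.X ^ 2 * y0) := by
    rw [hx, hc0, tp_smul_ofPS]
  have hxm : x ∈ M.adj Λ (M.ev z γ) := Subalgebra.smul_mem _ (c0_mem_adj _) _
  have hx1 : x.co 1 = ρ := by rw [hx', co_one_q]
  -- the Euler direction
  obtain ⟨T, hTU, xv, hTx⟩ := hT v
  set e : LD M.D0 := (LF.tp (-(K : ℤ)) : LF M.F1) • T with he
  set Eul : LD M.D0 := (LF.tp (-(K : ℤ)) : LF M.F1) • LD.ofPS (M.dv z v γ) with hEul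
  have heE : ∀ η ∈ M.adj Λ (M.ev z γ), LD.trL τ (η * e) = LD.trL τ (η * Eul) := by
    intro η hη
    rw [he, hEul, mul_smul_comm, mul_smul_comm, map_smul, map_smul, hTx, mul_sub, map_sub,
      trL_comm_zero τ hτ (hcomm η hη _ (c0_mem_adj _)), sub_zero]
  have hEul' : Eul = (K : LD M.D0) * x + LD.ofPS (PowerSeries.X * (PowerSeries.C ρ +
      PowerSeries.X * (y1 - (K : PowerSeries M.D0) * y0))) := by
    rw [hEul, hv, tp_smul_ofPS, hx']
    have h1 : (K : LD M.D0) = LD.ofPS (K : PowerSeries M.D0) := by rw [map_natCast]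
    rw [h1, ← map_mul, ← map_add]
    congr 1
    rw [nsmul_eq_mul, nsmul_eq_mul]
    have hKc : PowerSeries.X * (PowerSeries.X * ((K : PowerSeries M.D0) * y0)) =
        (K : PowerSeries M.D0) * (PowerSeries.X ^ 2 * y0) := by
      have hc : ∀ a : PowerSeries M.D0, a * (K : PowerSeries M.D0) = (K : PowerSeries M.D0) * a :=
        fun a => (Nat.cast_commute K a).symm
      rw [pow_two, mul_assoc PowerSeries.X PowerSeries.X y0,
        ← mul_assoc PowerSeries.X (K : PowerSeries M.D0) y0, hc PowerSeries.X,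
        mul_assoc (K : PowerSeries M.D0) PowerSeries.X y0,
        ← mul_assoc PowerSeries.X (K : PowerSeries M.D0) (PowerSeries.X * y0), hc PowerSeries.X,
        mul_assoc]
    have e2 : PowerSeries.X * (PowerSeries.C ρ + PowerSeries.X * (y1 - (K : PowerSeries M.D0) * y0))
        = PowerSeries.X * PowerSeries.C ρ + PowerSeries.X ^ 2 * y1 -
          (K : PowerSeries M.D0) * (PowerSeries.X ^ 2 * y0) := by
      rw [← hKc, mul_add, mul_sub, mul_sub, pow_two, mul_assoc]; abel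
    rw [e2]
    push_cast
    rw [mul_add, mul_add, add_mul, one_mul]
    abel
  set ρ' : LD M.D0 := LD.ofPS (PowerSeries.C ρ +
      PowerSeries.X * (y1 - (K : PowerSeries M.D0) * y0)) with hρ'
  have hρ'0 : ρ'.co 0 = ρ := by
    have h1 := LD.co_ofPS (PowerSeries.C ρ +
      PowerSeries.X * (y1 - (K : PowerSeries M.D0) * y0)) 0
    rw [Nat.cast_zero] at h1
    rw [hρ', h1]
    simp
  have hEul2 : Eul = (K : LD M.D0) * x + (LF.tp 1 : LF M.F1) • ρ' := by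
    rw [hEul']
    congr 1
    have h1 := tp_smul_ofPS (M := M) 1 (PowerSeries.C ρ +
      PowerSeries.X * (y1 - (K : PowerSeries M.D0) * y0))
    rw [hρ', ← h1, smul_smul, LF.tp_mul_tp, pow_one]
    norm_num [LF.tp_zero]
  -- the direction of `u`
  obtain ⟨w, hwU, hwi, hw0, y, hyi, hy0, hy1, hwy⟩ := hlift u hu
  have hu0 : u ≠ 0 := fun h => by rw [h, zero_mul] at huu'; exact zero_ne_one huu'
  have hwne : w ≠ 0 := by
    intro h; rw [h] at hw0; exact one_tmul_ne hu0 hw0.symm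
  obtain ⟨V, hV⟩ := exists_inv_LD hwne
  have hqw : e * V * w = e := by rw [mul_assoc, hV, mul_one]
  have heU : e ∈ U' := Submodule.smul_mem _ _ hTU
  have hqΨ : e * V ∈ PsiOf U' := Algebra.subset_adjoin ⟨w, hwU, hwne, by rw [hqw]; exact heU⟩
  have hmain := MinI.coreII tE htE htE1 t ht.2 s Λ (PsiOf (UU γ)) u u' huΛ hu' huu'
    (M.adj Λ (M.ev z γ)) (PsiOf U') (fun a ha => inc_mem_adj _ ha)
    (by rw [hdeg]; exact hrankΛ)
    (fun a ha => psi_res U' (fun b hb => by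
      obtain ⟨T, h1, h2, h3, -⟩ := hlift b hb
      exact ⟨T, h1, h2, h3⟩) ha)
    (by rw [hdeg]; exact hrankΨ) K hKpos x hxm (by rw [hx']; exact LD.isInt_ofPS _)
    (by rw [hx', co_zero_q]) (by rw [hx1]; exact hρ) e Eul ρ' (hU' heU) hEul2 (LD.isInt_ofPS _)
    (by rw [hρ'0, hx1]) heE w y (hU' hwU) hyi hy0 hy1 hwy (e * V) hqΨ hqw ℓ hℓ
  rwa [hx1] at hmain

end II

end MinOne

end Crest.Agent.R180
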