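import Crest.Agent.R180.MinDefs
import Crest.Agent.R180.TS

set_option autoImplicit false

/-! # Row 180, ROUTE M, (V): auxiliary lemmas -/

noncomputable section
namespace Crest.Agent.R180

open TensorProduct

namespace MinV

section Alg
variable {F D : Type} [Field F] [Ring D] [IsDomain D] [Algebra F D] [FiniteDimensional F D]

/-- `U₁² = Ψ` implies `𝓗₂ = 0` -/
theorem HH2_eq_bot (t : D →ₗ[F] F) (ht : t 1 ≠ 0) (U : Submodule F D) {u u' : D} (hu : u ∈ U)
    (huu' : u * u' = 1) (hfull : Module.finrank F (U ^ 2 : Submodule F D) =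
      Module.finrank F (PsiOf U)) : HH2 t U u' = ⊥ := by
  classical
  have hu0 : u ≠ 0 := left_ne_zero_of_mul_eq_one huu'
  have hu'0 : u' ≠ 0 := right_ne_zero_of_mul_eq_one huu'
  have hu'u : u' * u = 1 := by
    apply mul_left_cancel₀ hu0
    rw [← mul_assoc, huu', one_mul, mul_one]
  rw [eq_bot_iff]
  intro x hx
  rw [Submodule.mem_bot]
  by_contra hx0
  rw [mem_HH2] at hx
  let φ : D →ₗ[F] D := (LinearMap.mulLeft F x) ∘ₗ (LinearMap.mulRight F u')
  have hφ : ∀ y, φ y = x * (y * u') := fun y => rfl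
  have hφi : Function.Injective φ := by
    rw [← LinearMap.ker_eq_bot, LinearMap.ker_eq_bot']
    intro y hy
    rw [hφ] at hy
    rcases mul_eq_zero.mp hy with h | h
    · exact absurd h hx0
    · rcases mul_eq_zero.mp h with h | h
      · exact h
      · exact absurd h hu'0
  have hle : (U ^ 2 : Submodule F D).map φ ≤ Subalgebra.toSubmodule (PsiOf U) := by
    rw [Submodule.map_le_iff_le_comap, pow_two, Submodule.mul_le]
    intro a ha b hb
    rw [Submodule.mem_comap, hφ, Subalgebra.mem_toSubmodule]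
    have h1 : x * (a * b * u') = (x * a) * (b * u') := by noncomm_ring
    rw [h1]
    refine (PsiOf U).mul_mem (hx.1 a ha) (Algebra.subset_adjoin ⟨u, hu, hu0, ?_⟩)
    rw [mul_assoc, hu'u, mul_one]
    exact hb
  have heq : (U ^ 2 : Submodule F D).map φ = Subalgebra.toSubmodule (PsiOf U) := by
    apply Submodule.eq_of_le_of_finrank_eq hle
    rw [← (Submodule.equivMapOfInjective φ hφi (U ^ 2 : Submodule F D)).finrank_eq, hfull]
    rfl
  have h1 : (1 : D) ∈ (U ^ 2 : Submodule F D).map φ := by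
    rw [heq]; exact (PsiOf U).one_mem
  obtain ⟨y, hy, hy1⟩ := h1
  have hker : (U ^ 2 : Submodule F D) ≤ LinearMap.ker (t ∘ₗ φ) := by
    rw [pow_two, Submodule.mul_le]
    intro a ha b hb
    rw [LinearMap.mem_ker, LinearMap.comp_apply, hφ]
    have h1 : x * (a * b * u') = x * a * b * u' := by noncomm_ring
    rw [h1]
    exact hx.2 a ha b hb
  have h2 := hker hy
  rw [LinearMap.mem_ker, LinearMap.comp_apply, hy1] at h2
  exact ht h2

end Alg

section Sp
variable {A : DA} (M : Adm A)

/-- `F1 ⊗ H` has dimension at most `dim H`; with one nontrivial condition less -/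
theorem finrank_lt (H : Submodule A.F A.D) (φ : M.D0 →ₗ[M.F1] M.F1) (η : A.D) (hη : η ∈ H)
    (hne : φ ((1 : M.E) ⊗ₜ[A.F] η) ≠ 0) (R : Submodule M.F1 M.D0)
    (hR : R ≤ Submodule.span M.F1 {y : M.D0 | ∃ h ∈ H, y = (1 : M.E) ⊗ₜ[A.F] h})
    (hφ : ∀ x ∈ R, φ x = 0) : Module.finrank M.F1 R < Module.finrank A.F H := by
  classical
  set T := Submodule.span M.F1 {y : M.D0 | ∃ h ∈ H, y = (1 : M.E) ⊗ₜ[A.F] h} with hT
  have hTle : Module.finrank M.F1 T ≤ Module.finrank A.F H := by
    let b := Module.finBasis A.F H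
    have h1 : T ≤ Submodule.span M.F1 (Set.range fun i => ((1 : M.E) ⊗ₜ[A.F] (b i : A.D) : M.D0)) := by
      rw [hT, Submodule.span_le]
      rintro _ ⟨h, hh, rfl⟩
      have h2 : h = ∑ i, b.repr ⟨h, hh⟩ i • (b i : A.D) := by
        have h3 := congrArg Subtype.val (b.sum_repr ⟨h, hh⟩)
        rw [AddSubmonoidClass.coe_finsetSum] at h3
        exact h3.symm
      rw [h2, TensorProduct.tmul_sum, SetLike.mem_coe]
      refine Submodule.sum_mem _ fun i _ => ?_
      rw [← TensorProduct.smul_tmul, Algebra.smul_def, mul_one,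
        IsScalarTower.algebraMap_apply A.F M.F1 M.E, Algebra.algebraMap_eq_smul_one,
        ← TensorProduct.smul_tmul']
      exact Submodule.smul_mem _ _ (Submodule.subset_span ⟨i, rfl⟩)
    calc Module.finrank M.F1 T ≤ Module.finrank M.F1 (Submodule.span M.F1
          (Set.range fun i => ((1 : M.E) ⊗ₜ[A.F] (b i : A.D) : M.D0))) := Submodule.finrank_mono h1
      _ ≤ Fintype.card (Fin (Module.finrank A.F H)) := finrank_range_le_card _
      _ = Module.finrank A.F H := Fintype.card_fin _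
  have hlt : R < T := by
    refine lt_of_le_of_ne hR ?_
    rintro rfl
    exact hne (hφ _ (Submodule.subset_span ⟨η, hη, rfl⟩))
  exact lt_of_lt_of_le (Submodule.finrank_lt_finrank_of_lt hlt) hTle

theorem con_tmul (t : A.D →ₗ[A.F] A.F) (x : M.E) (a : A.D) :
    M.con t (x ⊗ₜ[A.F] a) = t a • x := rfl

/-- value of `t_E ⊗ t` on `(1 ⊗ η) · r(p)` -/
theorem tt_homv (t : A.D →ₗ[A.F] A.F) (tE : M.E →ₗ[M.F1] M.F1) (η : A.D) (k : ℕ) {n : ℕ}
    (p : Fin n → M.E) (f : NC (Fin n) A.D) :
    M.tt tE t (((1 : M.E) ⊗ₜ[A.F] η) * M.homv k p f) =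
      tE (∑ w : Fin k → Fin n, t (η * f (List.ofFn w)) • (List.ofFn fun i => p (w i)).prod) := by
  unfold Adm.homv Adm.tt
  rw [LinearMap.comp_apply, Finset.mul_sum, map_sum]
  congr 1
  refine Finset.sum_congr rfl fun w _ => ?_
  rw [Algebra.TensorProduct.tmul_mul_tmul, one_mul, con_tmul]

end Sp

theorem get_rotate {σ : Type} (w : List σ) [NeZero w.length] (r : Fin w.length) :
    List.ofFn (fun i => w.get (i + r)) = w.rotate r := by
  apply List.ext_getElem
  · simp
  · intro i h1 h2
    simp only [List.getElem_ofFn, List.getElem_rotate, List.get_eq_getElem]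
    congr 1

/-- primitive element of the maximal subfield -/
theorem exists_prim {A : DA} {N : ℕ} (M : PE A N) :
    ∃ l0 : M.L, Algebra.adjoin M.F1 ({l0} : Set M.L) = ⊤ := by
  have : CharZero M.F1 := charZero_of_injective_algebraMap (algebraMap A.F M.F1).injective
  obtain ⟨l0, hl0⟩ := Field.exists_primitive_element M.F1 M.L
  refine ⟨l0, ?_⟩
  have h1 := IntermediateField.adjoin_simple_toSubalgebra_of_isAlgebraic
    (F := M.F1) (α := l0) (Algebra.IsAlgebraic.isAlgebraic l0)
  rw [← h1, hl0, IntermediateField.top_toSubalgebra]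

end MinV

end Crest.Agent.R180
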