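import Crest.Agent.R180.MinDefs
import Crest.Agent.R180.LaurentLemmas

set_option autoImplicit false
set_option linter.unusedSectionVars false
noncomputable section

/-!
# Row 180, ROUTE M, step (VI): families in a subspace with independent residues, Gram matrices
-/

namespace Crest.Agent.R180

open TensorProduct

namespace MinVI

section fam

variable {F1 E : Type} [Field F1] [Ring E] [Algebra F1 E] [Module.Finite F1 E] {μ m : ℕ}

/-- the linear map `l ↦ ∑ l i • dir i` -/
def comb (dir : Fin μ → Fin m → PowerSeries E) : (Fin μ → LF F1) →ₗ[LF F1] (Fin m → LD E) :=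
  LinearMap.pi fun j => ∑ i, (LinearMap.proj i : (Fin μ → LF F1) →ₗ[LF F1] LF F1).smulRight
    (LD.ofPS (dir i j) : LD E)

theorem comb_apply (dir : Fin μ → Fin m → PowerSeries E) (l : Fin μ → LF F1) (j : Fin m) :
    comb dir l j = ∑ i, l i • (LD.ofPS (dir i j) : LD E) := by
  simp [comb]

/-- coordinates -/
def coord {n : ℕ} (b : Module.Basis (Fin n) F1 E) :
    (Fin m → LD E) ≃ₗ[LF F1] (Fin m × Fin n → LF F1) :=
  (LinearEquiv.piCongrRight fun _ : Fin m => (LD.basis b).equivFun).trans
    (LinearEquiv.curry (LF F1) (LF F1) (Fin m) (Fin n)).symm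

theorem coord_apply {n : ℕ} (b : Module.Basis (Fin n) F1 E) (v : Fin m → LD E) (j : Fin m)
    (a : Fin n) : coord b v (j, a) = (LD.basis b).repr (v j) a := rfl

theorem exists_family (dir : Fin μ → Fin m → PowerSeries E)
    (hinj : ∀ l : Fin μ → LF F1, (∀ j, ∑ i, l i • (LD.ofPS (dir i j) : LD E) = 0) → l = 0)
    (W : Submodule (LF F1) (Fin μ → LF F1)) :
    ∃ (l : Fin (Module.finrank (LF F1) W) → Fin μ → LF F1)
      (V : Fin (Module.finrank (LF F1) W) → Fin m → PowerSeries E),
      (∀ i, l i ∈ W) ∧
      (∀ i j, (LD.ofPS (V i j) : LD E) = ∑ k, l i k • (LD.ofPS (dir k j) : LD E)) ∧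
      LinearIndependent F1 (fun i => (fun j => PowerSeries.constantCoeff (V i j) : Fin m → E)) := by
  classical
  let n := Module.finrank F1 E
  let bE : Module.Basis (Fin n) F1 E := Module.finBasis F1 E
  let Φ : (Fin μ → LF F1) →ₗ[LF F1] (Fin m × Fin n → LF F1) :=
    (coord (m := m) bE).toLinearMap ∘ₗ comb dir
  have hΦ : Function.Injective Φ := by
    rw [← LinearMap.ker_eq_bot, LinearMap.ker_eq_bot']
    intro l hl
    apply hinj
    intro j
    have h1 : comb dir l = 0 := by
      apply (coord (m := m) bE).injective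
      rw [map_zero]
      exact hl
    rw [← comb_apply, h1]
    rfl
  let T : Submodule (LF F1) (Fin m × Fin n → LF F1) := W.map Φ
  have hT : Module.finrank (LF F1) T = Module.finrank (LF F1) W :=
    (LinearEquiv.finrank_eq (Submodule.equivMapOfInjective Φ hΦ W)).symm
  have hres : Module.finrank F1 (LF.resPi T) = Module.finrank (LF F1) W := by
    rw [LF.finrank_resPi, hT]
  let β : Module.Basis (Fin (Module.finrank (LF F1) W)) F1 (LF.resPi T) :=
    Module.finBasisOfFinrankEq F1 (LF.resPi T) hres
  have hb : ∀ i, ∃ x ∈ T, (∀ a, LF.IsInt (x a)) ∧ ∀ a, (x a).co 0 = (β i : Fin m × Fin n → F1) a :=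
    fun i => (LF.mem_resPi T _).mp (β i).2
  choose x hxT hxi hxr using hb
  have hl : ∀ i, ∃ l ∈ W, Φ l = x i := fun i => hxT i
  choose l hlW hlx using hl
  -- integrality of the combinations
  have hint : ∀ i j, LD.IsInt (comb dir (l i) j) ∧
      (comb dir (l i) j).co 0 = ∑ a, (β i : Fin m × Fin n → F1) (j, a) • bE a := by
    intro i j
    have h1 : ∀ a, (LD.basis bE).repr (comb dir (l i) j) a = x i (j, a) := by
      intro a
      rw [← hlx, ← coord_apply]
      rfl
    have h2 : ∀ (k : ℤ) (a : Fin n), bE.repr ((comb dir (l i) j).co k) a = (x i (j, a)).co k := by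
      intro k a
      rw [← h1, LD.basis_repr_co]
    constructor
    · intro k hk
      apply bE.repr.injective
      ext a
      rw [h2, hxi i (j, a) k hk, map_zero, Finsupp.zero_apply]
    · apply bE.repr.injective
      ext a
      rw [h2, hxr, map_sum, Finsupp.finsetSum_apply]
      rw [Finset.sum_eq_single a]
      · simp
      · intro c _ hc
        simp [Finsupp.single_eq_of_ne hc.symm]
      · simp
  have hV : ∀ i j, ∃ V : PowerSeries E, comb dir (l i) j = LD.ofPS V := fun i j =>
    (LD.isInt_iff _).mp (hint i j).1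
  choose V hV using hV
  refine ⟨l, V, hlW, fun i j => by rw [← hV, comb_apply], ?_⟩
  have h3 : ∀ i j, PowerSeries.constantCoeff (V i j) =
      ∑ a, (β i : Fin m × Fin n → F1) (j, a) • bE a := by
    intro i j
    rw [← (hint i j).2, hV]
    have := LD.co_ofPS (V i j) 0
    rw [Nat.cast_zero] at this
    rw [this, PowerSeries.coeff_zero_eq_constantCoeff_apply]
  rw [Fintype.linearIndependent_iff]
  intro g hg i
  have h4 : LinearIndependent F1 (fun i => (β i : Fin m × Fin n → F1)) :=
    β.linearIndependent.map' (LF.resPi T).subtype (Submodule.ker_subtype _)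
  rw [Fintype.linearIndependent_iff] at h4
  apply h4 g _ i
  funext ⟨j, a⟩
  have h5 := congrFun hg j
  simp only [Finset.sum_apply, Pi.smul_apply, Pi.zero_apply, h3] at h5
  have h6 := congrArg (fun y => bE.repr y a) h5
  simp only [map_sum, map_smul, Finsupp.finsetSum_apply, Finsupp.smul_apply, map_zero,
    Finsupp.zero_apply] at h6
  rw [Finset.sum_apply]
  simp only [Pi.smul_apply, Pi.zero_apply]
  rw [← h6]
  refine Finset.sum_congr rfl fun k _ => ?_
  congr 1
  rw [Finset.sum_eq_single a]
  · simp
  · intro c _ hc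
    simp [Finsupp.single_eq_of_ne hc.symm]
  · simp

end fam

end MinVI

end Crest.Agent.R180
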