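import Crest.Agent.R180.MinDefs
import Crest.Agent.R180.MinSolve
import Crest.Agent.R180.LinSep
import Crest.Agent.R180.PRS

set_option autoImplicit false

/-!
# Row 180, ROUTE M, step (VII): solving at the minimal state
-/

noncomputable section
namespace Crest.Agent.R180

open TensorProduct Module

/-! ### alternation from the cyclic condition -/

namespace NC

section Alt

variable {ι κ K : Type} [Field K] [CharZero K] [Fintype ι] [Fintype κ]

theorem alt_of_hcyc {Θ : κ → NC ι K} (h : κ → K) (hann : ∀ i, ∑ c, h c * Θ c [i] = 0)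
    (hcyc : ∀ X : ι → NC (Fin 2) K, (∀ i, OrdGE 1 (X i)) →
      (∀ c, OrdGE 2 (tsub X (Θ c) - C (Θ c []))) → ∀ (w : List (Fin 2)), w.length = 2 →
      ∑ k ∈ Finset.range 2,
        (tsub X (hc Θ h) - C (hc Θ h []) : NC (Fin 2) K) (w.rotate k) = 0)
    (x y : ι → K) (hx : ∀ c, ∑ i, Θ c [i] * x i = 0) (hy : ∀ c, ∑ i, Θ c [i] * y i = 0) :
    qf Θ h x y + qf Θ h y x = 0 := by
  have hlinX1 : ∀ f : NC ι K, (∑ i, f [i] * x i = 0) → (∑ i, f [i] * y i = 0) →
      lin f (X1 x y) = 0 := by
    intro f h1 h2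
    unfold X1
    rw [lin_add, lin_vec, lin_vec, h1, h2, map_zero, zero_mul, zero_mul, add_zero]
  have hG : ∀ c, OrdGE 2 (tsub (X1 x y) (Θ c) - C (Θ c [])) := by
    intro c
    have h1 := tsub_lin (X1 x y) X1_ordGE (Θ c)
    rwa [hlinX1 _ (hx c) (hy c), add_zero] at h1
  have h1 := tsub_quad (X1 x y) X1_ordGE (hc Θ h)
  rw [lin_hc_eq_zero h hann, add_zero] at h1
  have h2 := hcyc (X1 x y) X1_ordGE hG [0, 1] rfl
  have hq : quad (hc Θ h) (X1 x y) (X1 x y) =
      (C (qf Θ h x x) : NC (Fin 2) K) * (X 0 * X 0) + (C (qf Θ h x y) : NC (Fin 2) K) * (X 0 * X 1) +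
      ((C (qf Θ h y x) : NC (Fin 2) K) * (X 1 * X 0) +
        (C (qf Θ h y y) : NC (Fin 2) K) * (X 1 * X 1)) := by
    have e : (X1 x y : ι → NC (Fin 2) K) = fun i => (C (x i) : NC (Fin 2) K) * X 0 +
      (C (y i) : NC (Fin 2) K) * X 1 := rfl
    conv_lhs => rw [e]
    rw [quad_add_left, quad_add_right, quad_add_right, quad_vec, quad_vec, quad_vec, quad_vec]
    simp only [qf_eq]
  have key : ∀ v : List (Fin 2), v.length = 2 → (tsub (X1 x y) (hc Θ h) - C (hc Θ h []) :
      NC (Fin 2) K) v = quad (hc Θ h) (X1 x y) (X1 x y) v := by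
    intro v hv
    have := h1 v (by omega)
    rw [sub_apply, add_apply] at this
    rw [sub_apply]
    rw [← sub_eq_zero, ← this]
    abel
  have e01 : quad (hc Θ h) (X1 x y) (X1 x y) [0, 1] = qf Θ h x y := by
    rw [hq]
    simp [mul_cons, ld_X]
  have e10 : quad (hc Θ h) (X1 x y) (X1 x y) [1, 0] = qf Θ h y x := by
    rw [hq]
    simp [mul_cons, ld_X]
  rw [Finset.sum_range_succ, Finset.sum_range_one] at h2
  have r0 : ([0, 1] : List (Fin 2)).rotate 0 = [0, 1] := rfl
  have r1 : ([0, 1] : List (Fin 2)).rotate 1 = [1, 0] := rfl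
  rw [r0, r1, key _ rfl, key _ rfl, e01, e10] at h2
  exact h2

end Alt

end NC

/-! ### composition in coordinates -/

section comp

variable {A : DA} {m n : ℕ}

theorem compD_C' (X : Fin m → NC (Fin n) A.F) (d : A.D) : compD X (NC.C d) = NC.C d :=
  NC.subst_C _ _ _ _ _ d

theorem compD_map (X : Fin m → NC (Fin n) A.F) (f : NC (Fin m) A.F) :
    compD X (NC.map (algebraMap A.F A.D) f) = NC.map (algebraMap A.F A.D) (NC.tsub X f) := by
  have hX : ∀ j, (NC.map (algebraMap A.F A.D) (X j - NC.C (X j [])) : NC (Fin n) A.D) ∈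
      (CFilt.nc (CFilt.discrete A.D) : CFilt (NC (Fin n) A.D)).I 1 := fun j => by
    rw [CFilt.mem_nc_one, CFilt.mem_discrete]
    right
    simp [NC.map_apply]
  have hc : ∀ (k : A.D) (j : Fin m), (NC.C k : NC (Fin n) A.D) *
      NC.map (algebraMap A.F A.D) (X j - NC.C (X j [])) =
      NC.map (algebraMap A.F A.D) (X j - NC.C (X j [])) * NC.C k := fun k j => by
    apply NC.ext'; intro w
    rw [NC.C_mul_apply, NC.mul_C_apply, NC.map_apply]
    exact (Algebra.commutes _ _).symm
  have h1 := NC.subst_unique (CFilt.nc (CFilt.discrete A.D))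
    ((NC.C : A.D →+* NC (Fin n) A.D).comp (algebraMap A.F A.D))
    (fun j => NC.map (algebraMap A.F A.D) (X j - NC.C (X j []))) hX
    (fun k j => hc (algebraMap A.F A.D k) j)
    (fun f => compD X (NC.map (algebraMap A.F A.D) f))
    (fun f => NC.subst_eq (CFilt.nc (CFilt.discrete A.D)) (NC.C : A.D →+* NC (Fin n) A.D)
      (fun j => NC.map (algebraMap A.F A.D) (X j - NC.C (X j []))) hX hc
      (NC.map (algebraMap A.F A.D) f)) f
  have h2 := NC.subst_unique (CFilt.nc (CFilt.discrete A.D))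
    ((NC.C : A.D →+* NC (Fin n) A.D).comp (algebraMap A.F A.D))
    (fun j => NC.map (algebraMap A.F A.D) (X j - NC.C (X j []))) hX
    (fun k j => hc (algebraMap A.F A.D k) j)
    (fun f => NC.map (algebraMap A.F A.D) (NC.tsub X f))
    (fun f => by
      have e : NC.tsub X f = NC.C (f []) + ∑ i, (X i - NC.C (X i [])) * NC.tsub X (NC.ld i f) :=
        NC.subst_eq _ _ _ _ _ f
      change NC.map (algebraMap A.F A.D) (NC.tsub X f) = _
      rw [e, map_add, map_sum, NC.map_C]
      congr 1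
      refine Finset.sum_congr rfl fun i _ => ?_
      rw [map_mul]) f
  exact h1.trans h2.symm

theorem compD_coord {κ : Type} [Fintype κ] (b : κ → A.D) (Θ : κ → NC (Fin m) A.F)
    (γ : NC (Fin m) A.D) (hγ : ∀ w, γ w = ∑ c, Θ c w • b c) (X : Fin m → NC (Fin n) A.F)
    (w : List (Fin n)) : compD X γ w = ∑ c, (NC.tsub X (Θ c)) w • b c := by
  have e : γ = ∑ c, (NC.map (algebraMap A.F A.D) (Θ c) : NC (Fin m) A.D) * NC.C (b c) := by
    apply NC.ext'; intro w
    rw [NC.sum_apply, hγ w]
    refine Finset.sum_congr rfl fun c _ => ?_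
    rw [NC.mul_C_apply, NC.map_apply, Algebra.smul_def]
  rw [e, map_sum, NC.sum_apply]
  refine Finset.sum_congr rfl fun c _ => ?_
  rw [map_mul, compD_map, compD_C', NC.mul_C_apply, NC.map_apply, Algebra.smul_def]

end comp

/-! ### the final trivial move -/

theorem hEv_map {K E : Type} [CommRing K] [Ring E] [Algebra K E] {m μ : ℕ}
    (X' : Fin m → NC (Fin μ) K) (hX' : ∀ j, X' j [] = 0)
    (hX : ∀ j, PowerSeries.constantCoeff
      ((NC.map ((PowerSeries.C (R := E)).comp (algebraMap K E)) (X' j) :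
        NC (Fin μ) (PowerSeries E)) []) = 0) (f : NC (Fin m) K) :
    hEv (fun j => NC.map ((PowerSeries.C (R := E)).comp (algebraMap K E)) (X' j)) hX f =
      NC.map ((PowerSeries.C (R := E)).comp (algebraMap K E)) (NC.tsub X' f) := by
  symm
  refine NC.subst_unique _ _ _ _ _
    (fun f => NC.map ((PowerSeries.C (R := E)).comp (algebraMap K E)) (NC.tsub X' f))
    (fun f => ?_) f
  rw [NC.tsub_eq X' hX' f, map_add, map_sum, NC.map_C]
  congr 1
  refine Finset.sum_congr rfl fun i _ => ?_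
  rw [map_mul]

/-- the final trivial move: an exact solution `X'` of `γ(X') = 0` with independent linear parts -/
theorem RS.final_move {P : (A : DA) → (m : ℕ) → NC (Fin m) A.D → Prop} (hP : MoveClosed P)
    {A : DA} {m : ℕ} {Λ : Subalgebra A.F A.D} {γ : NC (Fin m) A.D} (h : RS P A m Λ γ)
    (htriv : ∃ M : Adm A, Function.Bijective (algebraMap A.F M.F1) ∧
      Function.Bijective (algebraMap M.F1 M.E))
    {κ : Type} [Fintype κ] (b : κ → A.D) (Θ : κ → NC (Fin m) A.F)
    (hγ : ∀ w, γ w = ∑ c, Θ c w • b c)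
    (X' : Fin m → NC (Fin 2) A.F) (hX' : ∀ j, X' j [] = 0)
    (u₁ u₂ : Fin m → A.F) (h1 : ∀ j, X' j [0] = u₁ j) (h2 : ∀ j, X' j [1] = u₂ j)
    (hu : ∀ a b : A.F, a • u₁ + b • u₂ = 0 → a = 0 ∧ b = 0)
    (hs : ∀ c, NC.tsub X' (Θ c) = 0) :
    ∃ (A' : DA) (Λ' : Subalgebra A'.F A'.D), RS P A' 2 Λ' 0 := by
  obtain ⟨M, hM1, hM2⟩ := htriv
  set X : Fin m → NC (Fin 2) (PowerSeries M.E) :=
    fun j => NC.map ((PowerSeries.C (R := M.E)).comp (algebraMap A.F M.E)) (X' j) with hXdef
  have hXw : ∀ j w, X j w = PowerSeries.C (algebraMap A.F M.E (X' j w)) := fun j w => rfl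
  have hX0 : ∀ j, PowerSeries.constantCoeff (X j []) = 0 := by
    intro j
    rw [hXw, hX' j, map_zero, map_zero, map_zero]
  have hpt : ∀ j, M.pt X j = 0 := by
    intro j
    change LD.ofPS (X j []) = 0
    rw [hXw, hX' j, map_zero, map_zero, map_zero]
  have hfr1 : Module.finrank M.F1 M.E = 1 := by
    rw [← (LinearEquiv.ofBijective (Algebra.linearMap M.F1 M.E) hM2).finrank_eq]
    exact Module.finrank_self _
  have hgood : Good' M X := by
    refine ⟨hX0, ?_, ?_⟩
    · have hfr : Module.finrank (LF M.F1) (LD M.E) = 1 := by rw [LD.finrank_eq, hfr1]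
      have := Subalgebra.bot_eq_top_of_finrank_eq_one hfr
      exact top_le_iff.1 (this ▸ bot_le)
    · intro l g hl
      have hcof : ∀ (n : ℤ) (j : Fin m), (l 0).co n • algebraMap A.F M.E (u₁ j) +
          (l 1).co n • algebraMap A.F M.E (u₂ j) = 0 := by
        intro n j
        have h3 := hl j
        rw [hpt j, mul_zero, zero_mul, sub_zero, Fin.sum_univ_two] at h3
        have h4 : ∀ (i : Fin 2), M.dir X i j = LD.C (algebraMap A.F M.E (X' j [i])) := fun i => rfl
        rw [h4, h4, h1, h2] at h3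
        have h5 := congrArg (fun z : LD M.E => z.co n) h3
        simp only [LD.co_add, LD.co_smul_C, LD.co_zero] at h5
        exact h5
      have hl0 : ∀ n, (l 0).co n = 0 ∧ (l 1).co n = 0 := by
        intro n
        obtain ⟨a, ha⟩ := hM1.2 ((l 0).co n)
        obtain ⟨b', hb'⟩ := hM1.2 ((l 1).co n)
        have h6 : a • u₁ + b' • u₂ = 0 := by
          funext j
          have h7 := hcof n j
          rw [← ha, ← hb'] at h7
          simp only [Algebra.smul_def] at h7
          rw [← IsScalarTower.algebraMap_apply, ← IsScalarTower.algebraMap_apply, ← map_mul,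
            ← map_mul, ← map_add] at h7
          have hinj : Function.Injective (algebraMap A.F M.E) := by
            rw [IsScalarTower.algebraMap_eq A.F M.F1 M.E]
            exact hM2.1.comp hM1.1
          have h8 : a * u₁ j + b' * u₂ j = 0 := hinj (by rw [h7, map_zero])
          simpa using h8
        obtain ⟨h9, h10⟩ := hu a b' h6
        rw [← ha, ← hb', h9, h10, map_zero]
        exact ⟨rfl, rfl⟩
      funext i
      apply LF.ext; intro n
      fin_cases i
      · exact (hl0 n).1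
      · exact (hl0 n).2
  have hhX : M.hX X hX0 γ = 0 := by
    have e : γ = ∑ c, (NC.map (algebraMap A.F A.D) (Θ c) : NC (Fin m) A.D) * NC.C (b c) := by
      apply NC.ext'; intro w
      rw [NC.sum_apply, hγ w]
      refine Finset.sum_congr rfl fun c _ => ?_
      rw [NC.mul_C_apply, NC.map_apply, Algebra.smul_def]
    rw [e, map_sum]
    refine Finset.sum_eq_zero fun c _ => ?_
    rw [map_mul]
    have : M.hX X hX0 (NC.map (algebraMap A.F A.D) (Θ c)) = 0 := by
      apply NC.ext'; intro w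
      rw [M.hX_map_apply]
      have h3 : M.hE0 X hX0 (Θ c) = 0 := by
        refine (hEv_map X' hX' hX0 (Θ c)).trans ?_
        rw [hs c, map_zero]
      rw [h3, NC.zero_apply, map_zero, map_zero, NC.zero_apply]
    rw [this, zero_mul]
  refine ⟨A.mv M, _, h.move hP M X hgood 1 1 0 (one_mul 1) (one_mul 1) ?_ 0 ?_ rfl ?_ ?_ ?_⟩
  · intro v a _
    cases v with
    | nil => rw [NC.one_nil, mul_one, one_mul]
    | cons s v => rw [NC.one_cons, mul_zero, zero_mul]
  · rw [hhX, mul_zero, zero_mul, map_zero, add_zero]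
  · intro v a _; rw [NC.zero_apply, mul_zero, zero_mul]
  · intro v; rw [NC.zero_apply, mul_zero]
  · intro a _; rw [mul_zero, zero_mul]

end Crest.Agent.R180
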