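import Crest.Agent.R180.MinVII0

set_option autoImplicit false

/-!
# Row 180, ROUTE M, step (VII): core (with the outputs of the other steps as hypotheses)
-/

noncomputable section
namespace Crest.Agent.R180

open TensorProduct Module

theorem minVII_core {P : (A : DA) → (m : ℕ) → NC (Fin m) A.D → Prop} (hP : MoveClosed P)
    {A : DA} {m : ℕ} {Λ : Subalgebra A.F A.D} {γ : NC (Fin m) A.D} (h : RS P A m Λ γ)
    (t : A.D →ₗ[A.F] A.F)
    (hdim : finrank A.F (HH t (UU γ)) + 2 ≤ finrank A.F (LinearMap.ker (lin γ)))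
    (hnd : ∀ η ∈ HH t (UU γ), η ≠ 0 →
      3 * finrank A.F (HH t (UU γ)) ≤ brk (qH γ t η) (LinearMap.ker (lin γ)))
    (hlead : ∀ X : Fin m → NC (Fin 2) A.F, (∀ j, X j [] = 0) → ∀ k, 2 ≤ k →
      (∀ w : List (Fin 2), w.length < k → compD X γ w = 0) →
      ∀ w : List (Fin 2), w.length = k → (∀ η ∈ HH t (UU γ), t (η * compD X γ w) = 0) →
      compD X γ w ∈ UU γ)
    (hcyc : ∀ X : Fin m → NC (Fin 2) A.F, (∀ j, X j [] = 0) → ∀ k, 2 ≤ k →
      (∀ w : List (Fin 2), w.length < k → compD X γ w = 0) →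
      ∀ η ∈ HH t (UU γ), ∀ w : List (Fin 2), w.length = k →
      ∑ i ∈ Finset.range k, t (η * compD X γ (w.rotate i)) = 0)
    (htriv : ∃ M : Adm A, Function.Bijective (algebraMap A.F M.F1) ∧
      Function.Bijective (algebraMap M.F1 M.E)) :
    ∃ (A' : DA) (Λ' : Subalgebra A'.F A'.D), RS P A' 2 Λ' 0 := by
  classical
  -- coordinates
  let b : Basis (Fin (finrank A.F A.D)) A.F A.D := Module.finBasis A.F A.D
  let Θ : Fin (finrank A.F A.D) → NC (Fin m) A.F := fun c => ⟨fun w => b.repr (γ w) c⟩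
  have hΘ : ∀ c w, Θ c w = b.repr (γ w) c := fun _ _ => rfl
  have hΘ0 : ∀ c, Θ c [] = 0 := by
    intro c; rw [hΘ, h.zero, map_zero]; rfl
  have hγ : ∀ w, γ w = ∑ c, Θ c w • b c := fun w => (b.sum_repr (γ w)).symm
  have hcoord : ∀ (X : Fin m → NC (Fin 2) A.F) (w : List (Fin 2)),
      compD X γ w = ∑ c, (NC.tsub X (Θ c)) w • b c := fun X w => compD_coord b Θ γ hγ X w
  -- the annihilator
  set H : Submodule A.F A.D := HH t (UU γ) with hH
  set s := finrank A.F H with hs
  let hb : Basis (Fin s) A.F H := Module.finBasis A.F H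
  let ha : Fin s → Fin (finrank A.F A.D) → A.F := fun a c => t ((hb a : A.D) * b c)
  have hpair : ∀ (a : Fin s) (r : Fin (finrank A.F A.D) → A.F),
      ∑ c, ha a c * r c = t ((hb a : A.D) * ∑ c, r c • b c) := by
    intro a r
    rw [Finset.mul_sum, map_sum]
    refine Finset.sum_congr rfl fun c _ => ?_
    rw [mul_smul_comm, map_smul, smul_eq_mul, mul_comm]
  have hpairΘ : ∀ (a : Fin s) (w : List (Fin m)), ∑ c, ha a c * Θ c w =
      t ((hb a : A.D) * γ w) := by
    intro a w; rw [hpair, ← hγ]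
  have hUmem : ∀ i, γ [i] ∈ UU γ := by
    intro i
    refine ⟨Pi.single i 1, ?_⟩
    rw [lin_apply, Finset.sum_eq_single i]
    · rw [Pi.single_eq_same, one_smul]
    · intro j _ hj; rw [Pi.single_eq_of_ne hj, zero_smul]
    · intro hi; exact absurd (Finset.mem_univ i) hi
  have hann : ∀ a i, ∑ c, ha a c * Θ c [i] = 0 := by
    intro a i
    rw [hpairΘ]
    exact ((mem_HH.1 (hb a).2) _ (hUmem i)).2
  -- every element of `H` is a combination of the basis
  have hspan : ∀ x : A.D, (∀ a, t ((hb a : A.D) * x) = 0) → ∀ η ∈ H, t (η * x) = 0 := by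
    intro x hx η hη
    have e : η = ∑ a, (hb.repr ⟨η, hη⟩ a) • (hb a : A.D) := by
      have h2 : H.subtype (∑ a, (hb.repr ⟨η, hη⟩ a) • hb a) = η :=
        congrArg H.subtype (hb.sum_repr ⟨η, hη⟩)
      rw [map_sum] at h2
      simp only [map_smul] at h2
      exact h2.symm
    rw [e, Finset.sum_mul, map_sum]
    refine Finset.sum_eq_zero fun a _ => ?_
    rw [smul_mul_assoc, map_smul, hx a, smul_zero]
  -- translation of orders
  have hX0 : ∀ X : Fin m → NC (Fin 2) A.F, (∀ i, NC.OrdGE 1 (X i)) → ∀ j, X j [] = 0 :=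
    fun X hX j => NC.ordGE_nil (hX j)
  have hC0 : ∀ c, (NC.C (Θ c []) : NC (Fin 2) A.F) = 0 := fun c => by rw [hΘ0, map_zero]
  have hord : ∀ (X : Fin m → NC (Fin 2) A.F) (n : ℕ),
      (∀ c, NC.OrdGE n (NC.tsub X (Θ c) - NC.C (Θ c []))) →
      ∀ w : List (Fin 2), w.length < n → compD X γ w = 0 := by
    intro X n hn w hw
    rw [hcoord]
    refine Finset.sum_eq_zero fun c _ => ?_
    have := hn c w hw
    rw [hC0, sub_zero] at this
    rw [this, zero_smul]
  have hvan : ∀ x : Fin m → A.F, (∀ c, ∑ i, Θ c [i] * x i = 0) ↔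
      x ∈ LinearMap.ker (lin γ) := by
    intro x
    rw [LinearMap.mem_ker, lin_apply]
    have e : ∀ c, b.repr (∑ i, x i • γ [i]) c = ∑ i, Θ c [i] * x i := by
      intro c
      rw [map_sum, Finsupp.finsetSum_apply]
      refine Finset.sum_congr rfl fun i _ => ?_
      rw [map_smul, Finsupp.smul_apply, smul_eq_mul, mul_comm]
    constructor
    · intro hx
      apply b.repr.injective
      ext c
      rw [e, hx c, map_zero]; rfl
    · intro hx c
      rw [← e, hx, map_zero]; rfl
  -- cyclic sums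
  have hcyc' : ∀ X : Fin m → NC (Fin 2) A.F, (∀ i, NC.OrdGE 1 (X i)) → ∀ n, 2 ≤ n →
      (∀ c, NC.OrdGE n (NC.tsub X (Θ c) - NC.C (Θ c []))) → ∀ a (w : List (Fin 2)),
      w.length = n → ∑ k ∈ Finset.range n,
      (NC.tsub X (NC.hc Θ (ha a)) - NC.C (NC.hc Θ (ha a) []) : NC (Fin 2) A.F) (w.rotate k) = 0 := by
    intro X hX n hn hG a w hw
    have h1 := hcyc X (hX0 X hX) n hn (hord X n hG) (hb a : A.D) (hb a).2 w hw
    rw [← h1]
    refine Finset.sum_congr rfl fun k _ => ?_
    rw [NC.tsub_hc, NC.C_hc_nil, hcoord, ← hpair]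
    rw [NC.sub_apply, NC.sum_apply, NC.sum_apply]
    rw [Finset.sum_eq_zero (f := fun c => ((NC.C (ha a c) * NC.C (Θ c []) :
      NC (Fin 2) A.F)).coeff (w.rotate k)) (fun c _ => by rw [hC0, mul_zero, NC.zero_apply]),
      sub_zero]
    exact Finset.sum_congr rfl fun c _ => NC.C_mul_apply _ _ _
  -- the bilinear forms on `V`
  set V : Submodule A.F (Fin m → A.F) := LinearMap.ker (lin γ) with hV
  let q : H →ₗ[A.F] V →ₗ[A.F] V →ₗ[A.F] A.F :=
    { toFun := fun η => (Matrix.toBilin' (qH γ t (η : A.D))).domRestrict₁₂ V V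
      map_add' := by
        intro x y
        ext u v
        simp only [LinearMap.domRestrict₁₂_apply, LinearMap.add_apply, Matrix.toBilin'_apply, qH,
          Submodule.coe_add, add_mul, map_add, mul_add, Finset.sum_add_distrib]
      map_smul' := by
        intro c x
        ext u v
        simp only [LinearMap.domRestrict₁₂_apply, LinearMap.smul_apply, Matrix.toBilin'_apply, qH,
          Submodule.coe_smul, smul_mul_assoc, map_smul, smul_eq_mul, RingHom.id_apply,
          Finset.mul_sum]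
        refine Finset.sum_congr rfl fun i _ => Finset.sum_congr rfl fun j _ => ?_
        ring }
  have hq : ∀ η : H, q η = (Matrix.toBilin' (qH γ t (η : A.D))).domRestrict₁₂ V V := fun _ => rfl
  have hqf : ∀ (a : Fin s) (u v : V), q (hb a) u v = NC.qf Θ (ha a) u v := by
    intro a u v
    rw [hq, LinearMap.domRestrict₁₂_apply, Matrix.toBilin'_apply]
    unfold NC.qf NC.qco
    refine Finset.sum_congr rfl fun i _ => Finset.sum_congr rfl fun j _ => ?_
    rw [hpairΘ, qH]
    ring
  obtain ⟨u₁, u₂, h12, hinj, hind⟩ := LinSep.exists_two_avoid q (fun η hη => by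
      have h1 := hnd (η : A.D) η.2 (fun h0 => hη (Subtype.ext h0))
      rw [brk] at h1
      exact h1) (⊥ : Submodule A.F V) (by rw [finrank_bot]; omega)
  obtain ⟨v₁, v₂, d11, d21, d12, d22⟩ := LinSep.exists_dual_vectors q hb u₁ u₂ hinj
  have D : NC.SolverDataW Θ s ha (u₁ : Fin m → A.F) (u₂ : Fin m → A.F)
      (fun a => (v₁ a : Fin m → A.F)) (fun a => (v₂ a : Fin m → A.F)) := by
    refine ⟨hann, ?_, hcyc', (hvan _).2 u₁.2, (hvan _).2 u₂.2, fun a => (hvan _).2 (v₁ a).2,
      fun a => (hvan _).2 (v₂ a).2, ?_, ?_, ?_, ?_, ?_, ?_⟩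
    · intro X hX n hn hG w hw hker
      have h1 : compD X γ w ∈ UU γ := by
        refine hlead X (hX0 X hX) n hn (hord X n hG) w hw (hspan _ fun a => ?_)
        rw [hcoord, ← hpair]
        have := hker a
        simpa only [hC0, sub_zero] using this
      obtain ⟨y, hy⟩ := h1
      refine ⟨y, fun c => ?_⟩
      rw [hC0, sub_zero]
      have e1 : b.repr (lin γ y) c = ∑ i, Θ c [i] * y i := by
        rw [lin_apply, map_sum, Finsupp.finsetSum_apply]
        refine Finset.sum_congr rfl fun i _ => ?_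
        rw [map_smul, Finsupp.smul_apply, smul_eq_mul, mul_comm]
      rw [← e1, hy, hcoord, b.repr_sum_self]
    · intro a x y hx hy
      exact NC.alt_of_hcyc (ha a) (hann a) (fun X hX hG w hw => hcyc' X hX 2 le_rfl hG a w hw)
        x y hx hy
    · intro a; rw [← hqf]; exact h12 _
    · intro a c; rw [← hqf]; exact d11 a c
    · intro a c; rw [← hqf]; exact d21 a c
    · intro a c; rw [← hqf]; exact d12 a c
    · intro a c; rw [← hqf]; exact d22 a c
  obtain ⟨X', hX'1, hX'2⟩ := NC.solveW D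
  have hval : ∀ (j : Fin m) (w : List (Fin 2)), w.length < 2 →
      X' j w = NC.X1 (u₁ : Fin m → A.F) (u₂ : Fin m → A.F) j w := by
    intro j w hw
    have := hX'1 j w hw
    rw [NC.sub_apply, sub_eq_zero] at this
    exact this
  refine h.final_move hP htriv b Θ hγ X' ?_ (u₁ : Fin m → A.F) (u₂ : Fin m → A.F) ?_ ?_ ?_ ?_
  · intro j
    rw [hval j [] (by simp)]
    simp [NC.X1]
  · intro j
    rw [hval j [0] (by simp)]
    simp [NC.X1]
  · intro j
    rw [hval j [1] (by simp)]
    simp [NC.X1]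
  · intro x y hxy
    refine hind x y ?_
    rw [Submodule.mem_bot]
    apply Subtype.ext
    simpa using hxy
  · intro c
    rw [hX'2 c, hC0]

end Crest.Agent.R180
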