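import Crest.Agent.R180.MinVIICore
import Crest.Agent.R180.MinNDeg

set_option autoImplicit false

/-!
# Row 180, ROUTE M, step (VII): `minVII` from the statements of the other blocks
-/

noncomputable section
namespace Crest.Agent.R180

open TensorProduct Module

variable {P : (A : DA) → (m : ℕ) → NC (Fin m) A.D → Prop}

theorem minVII_of (hP : MoveClosed P) {S : St P} (h : S.NDeg)
    (hUne : ∃ u ∈ S.U, u ≠ 0)
    (hII : ∀ (X : Fin S.m → NC (Fin 2) S.A.F) (_ : ∀ j, X j [] = 0) (k : ℕ) (_ : 2 ≤ k)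
      (_ : ∀ w : List (Fin 2), w.length < k → compD X S.γ w = 0) (w : List (Fin 2))
      (_ : w.length = k) (u : S.A.D) (_ : u ∈ S.U) (_ : u ≠ 0),
      ∃ ψ ∈ S.Psi, compD X S.γ w = u * ψ)
    (hHH : ∀ {t : S.A.D →ₗ[S.A.F] S.A.F}, IsTr t → finrank S.A.F (HH t S.U) = S.sd)
    (hmem : ∀ {t : S.A.D →ₗ[S.A.F] S.A.F} (_ : IsTr t) {u : S.A.D} (_ : u ∈ S.U) (_ : u ≠ 0)
      (x : S.A.D) (_ : ∃ ψ ∈ S.Psi, x = u * ψ) (_ : ∀ h ∈ HH t S.U, t (h * x) = 0), x ∈ S.U)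
    (hV : ∀ (t : S.A.D →ₗ[S.A.F] S.A.F) (_ : IsTr t) (X : Fin S.m → NC (Fin 2) S.A.F)
      (_ : ∀ j, X j [] = 0) (k : ℕ) (_ : 2 ≤ k)
      (_ : ∀ w : List (Fin 2), w.length < k → compD X S.γ w = 0) (η : S.A.D)
      (_ : η ∈ HH t S.U) (w : List (Fin 2)) (_ : w.length = k),
      ∑ i ∈ Finset.range k, t (η * compD X S.γ (w.rotate i)) = 0)
    (htriv : ∃ M : Adm S.A, Function.Bijective (algebraMap S.A.F M.F1) ∧
      Function.Bijective (algebraMap M.F1 M.E)) :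
    ∃ (A' : DA) (Λ' : Subalgebra A'.F A'.D), RS P A' 2 Λ' 0 := by
  obtain ⟨_, hker, t, ht, hnd⟩ := h
  obtain ⟨u, hu, hu0⟩ := hUne
  refine minVII_core hP S.rs t ?_ ?_ ?_ ?_ htriv
  · rw [show HH t (UU S.γ) = HH t S.U from rfl, hHH ht]; exact hker
  · intro η hη hη0
    rw [show HH t (UU S.γ) = HH t S.U from rfl, hHH ht]
    exact hnd η hη hη0
  · intro X hX k hk hr w hw hη
    exact hmem ht hu hu0 _ (hII X hX k hk hr w hw u hu hu0) hη
  · intro X hX k hk hr η hη w hw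
    exact hV t ht X hX k hk hr η hη w hw

end Crest.Agent.R180
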