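import Crest.Agent.R180.MinState
import Crest.Agent.R180.MinLin
import Crest.Agent.R180.MinVIFam

set_option autoImplicit false
set_option linter.unusedSectionVars false
noncomputable section

/-!
# Row 180, ROUTE M, step (VI): the second order form on `ker γ'₁`
-/

namespace Crest.Agent.R180

open TensorProduct

namespace MinVI

section pair
variable {P : (A : DA) → (m : ℕ) → NC (Fin m) A.D → Prop} {A : DA} {m : ℕ}
  {Λ : Subalgebra A.F A.D} {γ : NC (Fin m) A.D} {M : Adm A} {z : Fin m → PowerSeries M.E}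

/-- combination of the correction terms -/
def kapC (st : Step P Λ γ M z) (l : Fin st.μ → LF M.F1) : LD M.D0 := ∑ i, l i • st.κ i

theorem lin_comb (hz : ∀ j, PowerSeries.constantCoeff (z j) = 0) (st : Step P Λ γ M z)
    (l : Fin st.μ → LF M.F1) (V : Fin m → PowerSeries M.E)
    (hV : ∀ j, (LD.ofPS (V j) : LD M.E) = ∑ i, l i • (LD.ofPS (st.dir i j) : LD M.E)) :
    ∑ i, l i • st.γ' [i] = LD.ofPS (M.dv z V γ) -
      (LD.ofPS (M.ev z γ) * kapC st l - kapC st l * LD.ofPS (M.ev z γ)) := by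
  rw [← dv_lin M z hz l st.dir V hV γ]
  simp only [st.lin, smul_sub, Finset.sum_sub_distrib, kapC, Finset.mul_sum, Finset.sum_mul,
    mul_smul_comm, smul_mul_assoc]

theorem quad_comb (hz : ∀ j, PowerSeries.constantCoeff (z j) = 0) (st : Step P Λ γ M z)
    (l l' : Fin st.μ → LF M.F1) (V V' : Fin m → PowerSeries M.E)
    (hV : ∀ j, (LD.ofPS (V j) : LD M.E) = ∑ i, l i • (LD.ofPS (st.dir i j) : LD M.E))
    (hV' : ∀ j, (LD.ofPS (V' j) : LD M.E) = ∑ i, l' i • (LD.ofPS (st.dir i j) : LD M.E)) :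
    ∃ Y : LD M.D0, ∑ i, ∑ k, (l i * l' k) • st.γ' [i, k] = LD.ofPS (M.d2 z V V' γ) +
      kapC st l * LD.ofPS (M.dv z V' γ) - (∑ i, l i • st.γ' [i]) * kapC st l' -
      (LD.ofPS (M.ev z γ) * Y - Y * LD.ofPS (M.ev z γ)) := by
  choose y hy using st.quad
  refine ⟨∑ i, ∑ k, (l i * l' k) • y i k, ?_⟩
  rw [← dv_lin M z hz l' st.dir V' hV' γ, ← d2_lin M z hz l l' st.dir V V' hV hV' γ]
  have h1 : kapC st l * (∑ k, l' k • (LD.ofPS (M.dv z (st.dir k) γ) : LD M.D0)) =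
      ∑ i, ∑ k, (l i * l' k) • (st.κ i * LD.ofPS (M.dv z (st.dir k) γ)) := by
    rw [kapC, Finset.sum_mul_sum]
    simp only [smul_mul_smul_comm]
  have h2 : (∑ i, l i • st.γ' [i]) * kapC st l' =
      ∑ i, ∑ k, (l i * l' k) • (st.γ' [i] * st.κ k) := by
    rw [kapC, Finset.sum_mul_sum]
    simp only [smul_mul_smul_comm]
  have h3 : (LD.ofPS (M.ev z γ) : LD M.D0) * (∑ i, ∑ k, (l i * l' k) • y i k) =
      ∑ i, ∑ k, (l i * l' k) • (LD.ofPS (M.ev z γ) * y i k) := by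
    simp only [Finset.mul_sum, mul_smul_comm]
  have h4 : (∑ i, ∑ k, (l i * l' k) • y i k) * (LD.ofPS (M.ev z γ) : LD M.D0) =
      ∑ i, ∑ k, (l i * l' k) • (y i k * LD.ofPS (M.ev z γ)) := by
    simp only [Finset.sum_mul, smul_mul_assoc]
  rw [h1, h2, h3, h4]
  simp only [← Finset.sum_add_distrib, ← Finset.sum_sub_distrib]
  refine Finset.sum_congr rfl fun i _ => Finset.sum_congr rfl fun k _ => ?_
  rw [hy i k, smul_sub, smul_sub, smul_sub, smul_add]

/-- a tracial functional kills `h w [c₀, x]` when `h`, `w` commute with `c₀` -/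
theorem tr_comm_zero {F' K' : Type} [Field F'] [Ring K'] [Algebra F' K'] (T : K' →ₗ[F'] F')
    (hT : ∀ x y, T (x * y) = T (y * x)) (h c0 x : K') (hh : c0 * h = h * c0) :
    T (h * (c0 * x - x * c0)) = 0 := by
  have h1 : T (h * (x * c0)) = T (h * (c0 * x)) := by
    rw [← mul_assoc, hT, ← mul_assoc, hh, mul_assoc]
  rw [mul_sub, map_sub, h1, sub_self]

/-- **entry of the Gram matrix** -/
theorem gram_entry (hz : ∀ j, PowerSeries.constantCoeff (z j) = 0) (st : Step P Λ γ M z)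
    (T : LD M.D0 →ₗ[LF M.F1] LF M.F1) (hT : ∀ x y, T (x * y) = T (y * x))
    (h : LD M.D0) (hh : LD.ofPS (M.ev z γ) * h = h * LD.ofPS (M.ev z γ))
    (l l' : Fin st.μ → LF M.F1) (V V' : Fin m → PowerSeries M.E)
    (hV : ∀ j, (LD.ofPS (V j) : LD M.E) = ∑ i, l i • (LD.ofPS (st.dir i j) : LD M.E))
    (hV' : ∀ j, (LD.ofPS (V' j) : LD M.E) = ∑ i, l' i • (LD.ofPS (st.dir i j) : LD M.E))
    (hl : ∑ i, l i • st.γ' [i] = 0) (hl' : ∑ i, l' i • st.γ' [i] = 0)
    (n : ℤ) (κ : LD M.D0)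
    (hκ : LD.ofPS (M.ev z γ) * (LD.tp n * kapC st l) - LD.tp n * kapC st l * LD.ofPS (M.ev z γ) =
      LD.ofPS (M.ev z γ) * κ - κ * LD.ofPS (M.ev z γ)) :
    LF.tp n * T (h * ∑ i, ∑ k, (l i * l' k) • st.γ' [i, k]) =
      LF.tp n * T (h * LD.ofPS (M.d2 z V V' γ)) + T (h * κ * LD.ofPS (M.dv z V' γ)) := by
  obtain ⟨Y, hY⟩ := quad_comb hz st l l' V V' hV hV'
  have hy' : (LD.ofPS (M.dv z V' γ) : LD M.D0) =
      LD.ofPS (M.ev z γ) * kapC st l' - kapC st l' * LD.ofPS (M.ev z γ) := by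
    have := lin_comb hz st l' V' hV'
    rw [hl'] at this
    exact (sub_eq_zero.mp this.symm)
  set c0 : LD M.D0 := LD.ofPS (M.ev z γ) with hc0
  rw [hY, hl, zero_mul, sub_zero, mul_sub, mul_add, map_sub, map_add,
    tr_comm_zero T hT h c0 Y hh, sub_zero, mul_add]
  congr 1
  have h1 : c0 * (h * (LD.tp n * kapC st l - κ)) = (h * (LD.tp n * kapC st l - κ)) * c0 := by
    have h2 : c0 * (LD.tp n * kapC st l - κ) = (LD.tp n * kapC st l - κ) * c0 := by
      have h3 := sub_eq_zero.mpr hκ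
      rw [mul_sub, sub_mul, ← sub_eq_zero]
      rw [← h3]
      abel
    rw [← mul_assoc, hh, mul_assoc, h2, mul_assoc]
  have h2 := tr_comm_zero T hT _ c0 (kapC st l') h1
  rw [← hy', mul_sub, sub_mul, map_sub, sub_eq_zero] at h2
  rw [← h2, ← smul_eq_mul, ← map_smul, LD.smul_def, LD.toLD_tp]
  congr 1
  rw [← mul_assoc h (LD.tp n), ← LD.tp_commute n h]
  simp only [mul_assoc]

end pair

end MinVI

end Crest.Agent.R180
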