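import Crest.Agent.R180.Norm

set_option autoImplicit false

/-!
# Row 180, Phase 3: non-degeneracy of the second order form at a regular point (helper881)

`CycData` : a finite-dimensional domain `A` over `k` with a central element `κ` and elements
`X, Y` (`Y^j X = X_j Y^j`, `X_j ∈ k[X]`, `Y^m ∈ k`), spanned by `κ^n X^i Y^j`.
`nd_rows` : for `η = κ X + X^2` and `0 ≠ c` commuting with `η` the rows
`(X^i Y^j) ↦ tr (c * adInv η (X^i Y^j) * X^i' Y^j')` are linearly independent, `j` in a set of at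
least `m - d - 2` exponents.
-/

namespace Crest.Agent.R180

open Finset

section tr
variable (k A : Type) [Field k] [Ring A] [Algebra k A]

/-- the trace of left multiplication -/
noncomputable def ltr : A →ₗ[k] k := (LinearMap.trace k A) ∘ₗ (Algebra.lmul k A).toLinearMap

theorem ltr_apply (x : A) : ltr k A x = LinearMap.trace k A (Algebra.lmul k A x) := rfl

theorem ltr_mul_comm (x y : A) : ltr k A (x * y) = ltr k A (y * x) := by
  rw [ltr_apply, ltr_apply, map_mul (Algebra.lmul k A), map_mul (Algebra.lmul k A),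
    LinearMap.trace_mul_comm]

theorem ltr_one [CharZero k] [Nontrivial A] [FiniteDimensional k A] : ltr k A 1 ≠ 0 := by
  rw [ltr_apply, map_one]
  change LinearMap.trace k A LinearMap.id ≠ 0
  rw [LinearMap.trace_id]
  exact_mod_cast (Module.finrank_pos (R := k) (M := A)).ne'

variable {k A}

theorem exists_inv_of_ne [IsDomain A] [FiniteDimensional k A] {x : A} (hx : x ≠ 0) :
    ∃ y : A, x * y = 1 ∧ y * x = 1 := by
  obtain ⟨u, rfl⟩ := FiniteDimensional.isUnit k hx
  exact ⟨↑u⁻¹, u.mul_inv, u.inv_mul⟩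

/-- the trace form is nondegenerate -/
theorem ltr_nondeg [CharZero k] [IsDomain A] [FiniteDimensional k A] {x : A}
    (h : ∀ y, ltr k A (x * y) = 0) : x = 0 := by
  by_contra hx
  obtain ⟨y, hy, _⟩ := exists_inv_of_ne (k := k) hx
  have := h y
  rw [hy] at this
  exact ltr_one k A this

/-- every functional is `tr (c * ·)` -/
theorem exists_ltr_eq [CharZero k] [IsDomain A] [FiniteDimensional k A] (f : A →ₗ[k] k) :
    ∃ c : A, ∀ x, f x = ltr k A (c * x) := by
  let F : A →ₗ[k] Module.Dual k A :=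
    { toFun := fun c => (ltr k A) ∘ₗ (LinearMap.mulLeft k c)
      map_add' := fun c d => by ext x; simp [add_mul]
      map_smul' := fun a d => by ext x; simp }
  have hinj : Function.Injective F := by
    rw [← LinearMap.ker_eq_bot, LinearMap.ker_eq_bot']
    intro c hc
    exact ltr_nondeg (k := k) fun y => by
      have := LinearMap.congr_fun hc y
      simpa [F] using this
  have hsurj : Function.Surjective F :=
    (LinearMap.injective_iff_surjective_of_finrank_eq_finrank
      (Subspace.dual_finrank_eq (K := k) (V := A)).symm).1 hinj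
  obtain ⟨c, hc⟩ := hsurj f
  exact ⟨c, fun x => by rw [← hc]; rfl⟩

end tr

/-- Cyclic data: see the file header. `Xj j = Y^j X Y^{-j}`. -/
structure CycData (k : Type) {A : Type} [Field k] [Ring A] [Algebra k A] (m d : ℕ)
    (X Y κ : A) (Xj : ℕ → A) (b : k) : Prop where
  hm : 1 < m
  hb : b ≠ 0
  hY : Y ^ m = algebraMap k A b
  hYX : ∀ j, Y ^ j * X = Xj j * Y ^ j
  hXj : ∀ j, Xj j ∈ Algebra.adjoin k {X}
  inj : ∀ i < m, ∀ j < m, Xj i = Xj j → i = j
  hκ : ∀ x : A, Commute κ x
  hq : ∀ j, κ + (X + Xj j) ≠ 0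
  span : ∀ x : A, x ∈ Submodule.span k
    (Set.range fun p : Fin d × Fin m × Fin m => κ ^ (p.1 : ℕ) * X ^ (p.2.1 : ℕ) * Y ^ (p.2.2 : ℕ))
  liX : LinearIndependent k fun i : Fin m => X ^ (i : ℕ)
  spX : ∀ l ∈ Algebra.adjoin k {X}, l ∈ Submodule.span k
    (Set.range fun i : Fin m => X ^ (i : ℕ))

/-- `η = κ X + X²` -/
def eta {A : Type} [Ring A] (X κ : A) : A := κ * X + X ^ 2

/-- `q_j = κ + (X + X_j)` -/
def qj {A : Type} [Ring A] (X κ : A) (Xj : ℕ → A) (j : ℕ) : A := κ + (X + Xj j)

/-- `θ_j = (X_j - X) q_j` -/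
def thj {A : Type} [Ring A] (X κ : A) (Xj : ℕ → A) (j : ℕ) : A := (Xj j - X) * qj X κ Xj j

theorem commute_of_mem_adjoin {k A : Type} [Field k] [Ring A] [Algebra k A] {x X l : A}
    (hx : Commute x X) (hl : l ∈ Algebra.adjoin k {X}) : Commute x l := by
  have h : Algebra.adjoin k {X} ≤ Subalgebra.centralizer k {x} := by
    refine Algebra.adjoin_le ?_
    intro y hy
    rw [Set.mem_singleton_iff] at hy
    subst hy
    rw [SetLike.mem_coe, Subalgebra.mem_centralizer_iff]
    rintro z rfl
    exact hx.eq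
  exact (Subalgebra.mem_centralizer_iff k).1 (h hl) x (Set.mem_singleton _)

namespace CycData

variable {k A : Type} [Field k] [Ring A] [Algebra k A] {m d : ℕ} {X Y κ : A} {Xj : ℕ → A} {b : k}
  (D : CycData k m d X Y κ Xj b)
include D

theorem hm0 : 0 < m := lt_trans Nat.zero_lt_one D.hm

theorem X_mem : X ∈ Algebra.adjoin k {X} := Algebra.subset_adjoin (Set.mem_singleton X)

theorem Xj_zero : Xj 0 = X := by
  have := D.hYX 0
  simpa using this.symm

theorem commute_Xj {x : A} (hx : Commute x X) (j : ℕ) : Commute x (Xj j) :=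
  commute_of_mem_adjoin hx (D.hXj j)

theorem Y_inv : ∃ Y' : A, Y * Y' = 1 ∧ Y' * Y = 1 := by
  have h := D.hY
  obtain ⟨n, rfl⟩ : ∃ n, m = n + 1 := ⟨m - 1, by have := D.hm0; omega⟩
  refine ⟨b⁻¹ • Y ^ n, ?_, ?_⟩
  · rw [mul_smul_comm, ← pow_succ', h, Algebra.smul_def, ← map_mul]
    simp [D.hb]
  · rw [smul_mul_assoc, ← pow_succ, h, Algebra.smul_def, ← map_mul]
    simp [D.hb]

theorem Y_pow_mul_X_pow (i j : ℕ) : Y ^ j * X ^ i = Xj j ^ i * Y ^ j := by
  induction i with
  | zero => simp
  | succ i ih => rw [pow_succ, ← mul_assoc, ih, mul_assoc, D.hYX, ← mul_assoc, ← pow_succ]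

theorem Y_pow_mul_eta (j : ℕ) : Y ^ j * eta X κ = (eta X κ + thj X κ Xj j) * Y ^ j := by
  have h1 := D.hYX j
  have h2 := D.Y_pow_mul_X_pow 2 j
  have h3 : κ * Y ^ j = Y ^ j * κ := (D.hκ _).eq
  have h4 : κ * X = X * κ := (D.hκ _).eq
  have h5 : κ * Xj j = Xj j * κ := (D.hκ _).eq
  have h6 : X * Xj j = Xj j * X := (D.commute_Xj (Commute.refl X) j).eq
  rw [eta, thj, qj, mul_add, h2, ← mul_assoc, ← h3, mul_assoc, h1, ← mul_assoc, ← add_mul]
  congr 1
  rw [sub_mul, mul_add, mul_add, mul_add, mul_add, ← h5, ← h4, ← h6, sq, sq]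
  abel

theorem commute_eta {x : A} (hx : Commute x X) : Commute x (eta X κ) := by
  unfold eta
  exact ((D.hκ x).symm.mul_right hx).add_right (hx.pow_right 2)

theorem commute_qj {x : A} (hx : Commute x X) (j : ℕ) : Commute x (qj X κ Xj j) := by
  unfold qj
  exact (D.hκ x).symm.add_right (hx.add_right (D.commute_Xj hx j))

theorem commute_thj {x : A} (hx : Commute x X) (j : ℕ) : Commute x (thj X κ Xj j) := by
  unfold thj
  exact ((D.commute_Xj hx j).sub_right hx).mul_right (D.commute_qj hx j)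

theorem commute_qj_X (j : ℕ) : Commute (qj X κ Xj j) X := (D.commute_qj (Commute.refl X) j).symm

theorem commute_thj_X (j : ℕ) : Commute (thj X κ Xj j) X :=
  (D.commute_thj (Commute.refl X) j).symm

theorem commute_Xj_X (j : ℕ) : Commute (Xj j) X := (D.commute_Xj (Commute.refl X) j).symm

variable [IsDomain A]

theorem Y0 : Y ≠ 0 := by
  rintro rfl
  obtain ⟨X', h, _⟩ := D.Y_inv
  rw [zero_mul] at h
  exact zero_ne_one h

theorem qj_ne (j : ℕ) : qj X κ Xj j ≠ 0 := D.hq j

theorem Xj_sub_ne {j : ℕ} (h0 : 0 < j) (hj : j < m) : Xj j - X ≠ 0 := by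
  intro h
  have h1 := D.inj j hj 0 D.hm0 (by rw [D.Xj_zero]; exact sub_eq_zero.1 h)
  omega

theorem thj_ne {j : ℕ} (h0 : 0 < j) (hj : j < m) : thj X κ Xj j ≠ 0 :=
  mul_ne_zero (D.Xj_sub_ne h0 hj) (D.qj_ne j)

end CycData

namespace CycData

variable {k A : Type} [Field k] [Ring A] [Algebra k A] {m d : ℕ} {X Y κ : A} {Xj : ℕ → A} {b : k}
  (D : CycData k m d X Y κ Xj b)
include D

/-- decomposition `A = Σ C(X) Y^j` -/
theorem decomp (x : A) : ∃ c : ℕ → A, (∀ j, c j ∈ Submodule.span k
    (Set.range fun p : Fin d × Fin m => κ ^ (p.1 : ℕ) * X ^ (p.2 : ℕ))) ∧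
    x = ∑ j ∈ range m, c j * Y ^ j := by
  classical
  refine Submodule.span_induction (p := fun x _ => ∃ c : ℕ → A, (∀ j, c j ∈ Submodule.span k
    (Set.range fun p : Fin d × Fin m => κ ^ (p.1 : ℕ) * X ^ (p.2 : ℕ))) ∧
    x = ∑ j ∈ range m, c j * Y ^ j) ?_ ?_ ?_ ?_ (D.span x)
  · rintro _ ⟨⟨n, i, j⟩, rfl⟩
    refine ⟨fun j' => if j' = j then κ ^ (n : ℕ) * X ^ (i : ℕ) else 0, fun j' => ?_, ?_⟩
    · dsimp only
      split_ifs
      · exact Submodule.subset_span ⟨(n, i), rfl⟩
      · exact Submodule.zero_mem _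
    · rw [Finset.sum_eq_single (j : ℕ)]
      · simp
      · intro j' _ hj'
        simp [hj']
      · intro h
        exact absurd (Finset.mem_range.2 j.2) h
  · exact ⟨fun _ => 0, fun _ => Submodule.zero_mem _, by simp⟩
  · rintro x y _ _ ⟨c, hc, rfl⟩ ⟨e, he, rfl⟩
    exact ⟨fun j => c j + e j, fun j => Submodule.add_mem _ (hc j) (he j), by
      simp only [add_mul, Finset.sum_add_distrib]⟩
  · rintro r x _ ⟨c, hc, rfl⟩
    exact ⟨fun j => r • c j, fun j => Submodule.smul_mem _ _ (hc j), by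
      simp only [smul_mul_assoc, Finset.smul_sum]⟩

theorem commute_of_mem {x : A} (hx : x ∈ Submodule.span k
    (Set.range fun p : Fin d × Fin m => κ ^ (p.1 : ℕ) * X ^ (p.2 : ℕ))) : Commute x X := by
  refine Submodule.span_induction (p := fun x _ => Commute x X) ?_ ?_ ?_ ?_ hx
  · rintro _ ⟨⟨n, i⟩, rfl⟩
    exact ((D.hκ X).pow_left _).mul_left ((Commute.refl X).pow_left _)
  · exact Commute.zero_left _
  · intro x y _ _ hx hy; exact hx.add_left hy
  · intro r x _ hx; exact hx.smul_left r

/-- uniqueness of the decomposition -/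
theorem unique_aux [IsDomain A] (n : ℕ) : ∀ (S : Finset ℕ) (c : ℕ → A), S.card = n →
    (∀ j ∈ S, j < m) → (∀ j, Commute (c j) X) → ∑ j ∈ S, c j * Y ^ j = 0 → ∀ j ∈ S, c j = 0 := by
  classical
  induction n with
  | zero =>
    intro S c hS _ _ _ j hj
    rw [Finset.card_eq_zero] at hS
    subst hS
    simp at hj
  | succ n ih =>
    intro S c hS hm hc h j hj
    -- remove another index
    have key : ∀ j0 ∈ S, ∀ j ∈ S.erase j0, c j = 0 := by
      intro j0 hj0 j hj
      have h1 : ∑ j ∈ S.erase j0, (c j * (Xj j - Xj j0)) * Y ^ j = 0 := by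
        have h2 : (∑ j ∈ S, c j * Y ^ j) * X - Xj j0 * (∑ j ∈ S, c j * Y ^ j) = 0 := by
          rw [h]; simp
        rw [Finset.sum_mul, Finset.mul_sum, ← Finset.sum_sub_distrib] at h2
        rw [← h2, ← Finset.add_sum_erase _ _ hj0]
        have h3 : ∀ j, c j * Y ^ j * X - Xj j0 * (c j * Y ^ j)
            = (c j * (Xj j - Xj j0)) * Y ^ j := by
          intro j
          rw [mul_assoc, D.hYX, ← mul_assoc (Xj j0), ← (D.commute_Xj (hc j) j0).eq]
          noncomm_ring
        rw [h3 j0, sub_self, mul_zero, zero_mul, zero_add]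
        exact Finset.sum_congr rfl fun j _ => (h3 j).symm
      have h4 := ih (S.erase j0) (fun j => c j * (Xj j - Xj j0))
        (by rw [Finset.card_erase_of_mem hj0, hS]; rfl)
        (fun j hj => hm j (Finset.mem_of_mem_erase hj))
        (fun j => (hc j).mul_left ((D.commute_Xj_X j).sub_left (D.commute_Xj_X j0))) h1 j hj
      rcases mul_eq_zero.1 h4 with h5 | h5
      · exact h5
      · exfalso
        exact (Finset.ne_of_mem_erase hj) (D.inj j (hm j (Finset.mem_of_mem_erase hj)) j0
          (hm j0 hj0) (sub_eq_zero.1 h5))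
    by_cases hex : ∃ j0 ∈ S, j0 ≠ j
    · obtain ⟨j0, hj0, hne⟩ := hex
      exact key j0 hj0 j (Finset.mem_erase.2 ⟨hne.symm, hj⟩)
    · push Not at hex
      have hS1 : S = {j} := by
        ext i
        rw [Finset.mem_singleton]
        exact ⟨fun hi => hex i hi, fun hi => hi ▸ hj⟩
      rw [hS1, Finset.sum_singleton] at h
      exact (mul_eq_zero.1 h).resolve_right (pow_ne_zero _ D.Y0)

theorem unique [IsDomain A] {c : ℕ → A} (hc : ∀ j, Commute (c j) X)
    (h : ∑ j ∈ range m, c j * Y ^ j = 0) {j : ℕ} (hj : j < m) : c j = 0 :=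
  D.unique_aux (range m).card (range m) c rfl (fun _ hj => Finset.mem_range.1 hj) hc h j
    (Finset.mem_range.2 hj)

/-- the trace kills `C(X) Y^j`, `0 < j < m` -/
theorem ltr_mul_Y_pow [IsDomain A] [FiniteDimensional k A] {c : A} (hc : Commute c X) {j : ℕ}
    (h0 : 0 < j) (hj : j < m) : ltr k A (c * Y ^ j) = 0 := by
  obtain ⟨v, hv, hv'⟩ := exists_inv_of_ne (k := k) (D.Xj_sub_ne h0 hj)
  have hvX : Commute v X := by
    have h1 : Commute X (Xj j - X) := ((D.commute_Xj_X j).sub_left (Commute.refl X)).symm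
    have h2 : v * X = X * v := by
      calc v * X = v * X * ((Xj j - X) * v) := by rw [hv, mul_one]
        _ = v * (X * (Xj j - X)) * v := by noncomm_ring
        _ = v * ((Xj j - X) * X) * v := by rw [h1.eq]
        _ = (v * (Xj j - X)) * X * v := by noncomm_ring
        _ = X * v := by rw [hv', one_mul]
    exact h2
  have h1 : ltr k A (X * (c * v * Y ^ j)) = ltr k A (c * v * Xj j * Y ^ j) := by
    rw [ltr_mul_comm, mul_assoc, D.hYX, ← mul_assoc]
  have h2 : X * (c * v * Y ^ j) = c * v * X * Y ^ j := by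
    rw [← mul_assoc, ← (hc.mul_left hvX).eq]
  rw [h2] at h1
  have h3 : c * Y ^ j = c * v * Xj j * Y ^ j - c * v * X * Y ^ j := by
    have h4 : c * v * (Xj j - X) = c := by rw [mul_assoc, hv', mul_one]
    conv_lhs => rw [← h4]
    noncomm_ring
  rw [h3, map_sub, h1, sub_self]

variable [IsDomain A]

theorem mem_of_commute {x : A} (hx : Commute x X) : x ∈ Submodule.span k
    (Set.range fun p : Fin d × Fin m => κ ^ (p.1 : ℕ) * X ^ (p.2 : ℕ)) := by
  obtain ⟨c, hc, hxc⟩ := D.decomp x
  have h1 := D.unique (c := fun j => c j - if j = 0 then x else 0) (fun j => by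
    refine (D.commute_of_mem (hc j)).sub_left ?_
    split_ifs
    · exact hx
    · exact Commute.zero_left _) (by
    simp only [sub_mul, Finset.sum_sub_distrib]
    rw [← hxc, sub_eq_zero, Finset.sum_eq_single 0]
    · simp
    · intro j _ hj
      simp [hj]
    · intro h
      exact absurd (Finset.mem_range.2 D.hm0) h) D.hm0
  simp only [if_true] at h1
  rw [← sub_eq_zero.1 h1]
  exact hc 0

/-- the centraliser of `η` is the centraliser of `X` -/
theorem commute_of_commute_eta {x : A} (hx : Commute x (eta X κ)) :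
    Commute x X := by
  obtain ⟨c, hc, hxc⟩ := D.decomp x
  have hcX := fun j => D.commute_of_mem (hc j)
  have h1 : ∀ j, j < m → c j * thj X κ Xj j = 0 := by
    intro j hj
    refine D.unique (c := fun j => c j * thj X κ Xj j) (fun j =>
      (hcX j).mul_left (D.commute_thj_X j)) ?_ hj
    have h2 : x * eta X κ - eta X κ * x = 0 := sub_eq_zero.2 hx.eq
    rw [hxc, Finset.sum_mul, Finset.mul_sum, ← Finset.sum_sub_distrib] at h2
    rw [← h2]
    refine Finset.sum_congr rfl fun j _ => ?_
    rw [mul_assoc (c j) (Y ^ j), D.Y_pow_mul_eta, ← mul_assoc (eta X κ),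
      ← (D.commute_eta (hcX j)).eq]
    noncomm_ring
  rw [hxc]
  refine Commute.sum_left _ _ _ fun j hj => ?_
  rcases Nat.eq_zero_or_pos j with rfl | hj0
  · simpa using hcX 0
  · have h2 := h1 j (Finset.mem_range.1 hj)
    rcases mul_eq_zero.1 h2 with h3 | h3
    · rw [h3, zero_mul]; exact Commute.zero_left _
    · exact absurd h3 (D.thj_ne hj0 (Finset.mem_range.1 hj))

end CycData

/-- `x` is orthogonal to all powers of `X` -/
def Bad (k : Type) {A : Type} [Field k] [Ring A] [Algebra k A] (X x : A) : Prop :=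
  ∀ i : ℕ, ltr k A (x * X ^ i) = 0

namespace Bad
variable {k A : Type} [Field k] [Ring A] [Algebra k A] {X : A}

theorem ltr_mul {x : A} (h : Bad k X x) {l : A} (hl : l ∈ Algebra.adjoin k {X}) :
    ltr k A (x * l) = 0 := by
  rw [Algebra.adjoin_singleton_eq_range_aeval] at hl
  obtain ⟨p, rfl⟩ := hl
  change ltr k A (x * (Polynomial.aeval X p)) = 0
  rw [Polynomial.aeval_eq_sum_range, Finset.mul_sum, map_sum]
  refine Finset.sum_eq_zero fun i _ => ?_
  rw [mul_smul_comm, map_smul, h i, smul_zero]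

theorem mul_poly {x : A} (h : Bad k X x) {l : A} (hl : l ∈ Algebra.adjoin k {X}) :
    Bad k X (x * l) := fun i => by
  rw [mul_assoc]
  exact h.ltr_mul ((Algebra.adjoin k {X}).mul_mem hl ((Algebra.adjoin k {X}).pow_mem
    (Algebra.subset_adjoin (Set.mem_singleton X)) i))

theorem add {x y : A} (hx : Bad k X x) (hy : Bad k X y) : Bad k X (x + y) := fun i => by
  rw [add_mul, map_add, hx i, hy i, add_zero]

theorem sub {x y : A} (hx : Bad k X x) (hy : Bad k X y) : Bad k X (x - y) := fun i => by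
  rw [sub_mul, map_sub, hx i, hy i, sub_zero]

/-- a nonzero polynomial in `X` acts surjectively on polynomials in `X` -/
theorem of_mul_poly [IsDomain A] [FiniteDimensional k A] {x l : A}
    (hl : l ∈ Algebra.adjoin k {X}) (hl0 : l ≠ 0) (h : Bad k X (x * l)) : Bad k X x := by
  let S := Subalgebra.toSubmodule (Algebra.adjoin k {X})
  let f : S →ₗ[k] S := (LinearMap.mulLeft k l).restrict (p := S) (q := S)
    (fun y hy => (Algebra.adjoin k {X}).mul_mem hl hy)
  have hinj : Function.Injective f := by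
    rw [← LinearMap.ker_eq_bot, LinearMap.ker_eq_bot']
    rintro ⟨y, hy⟩ h
    have h1 : l * y = 0 := congrArg Subtype.val h
    exact Subtype.ext ((mul_eq_zero.1 h1).resolve_left hl0)
  have hsurj : Function.Surjective f := LinearMap.surjective_of_injective hinj
  intro i
  obtain ⟨⟨y, hy⟩, hfy⟩ := hsurj ⟨X ^ i, (Algebra.adjoin k {X}).pow_mem
    (Algebra.subset_adjoin (Set.mem_singleton X)) i⟩
  have h1 : l * y = X ^ i := congrArg Subtype.val hfy
  rw [← h1, ← mul_assoc]
  exact h.ltr_mul hy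

end Bad

theorem commute_inv {A : Type} [Ring A] {x u v : A} (huv : u * v = 1) (hvu : v * u = 1)
    (h : Commute x u) : Commute x v := by
  have h1 : v * x = x * v := by
    calc v * x = v * x * (u * v) := by rw [huv, mul_one]
      _ = v * (x * u) * v := by noncomm_ring
      _ = v * (u * x) * v := by rw [h.eq]
      _ = (v * u) * x * v := by noncomm_ring
      _ = x * v := by rw [hvu, one_mul]
  exact h1.symm

namespace CycData

variable {k A : Type} [Field k] [Ring A] [Algebra k A] {m d : ℕ} {X Y κ : A} {Xj : ℕ → A} {b : k}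
  (D : CycData k m d X Y κ Xj b)
include D

theorem exists_R [IsDomain A] [FiniteDimensional k A] : ∃ R : ℕ → A,
    (∀ j, qj X κ Xj j * R j = 1) ∧ (∀ j, R j * qj X κ Xj j = 1) := by
  have h := fun j => exists_inv_of_ne (k := k) (D.qj_ne j)
  choose R hR hR' using h
  exact ⟨R, hR, hR'⟩

/-- conjugation by `Y^j` is surjective on `k[X]` -/
theorem conj_surj [IsDomain A] [FiniteDimensional k A] (j : ℕ) {l : A}
    (hl : l ∈ Algebra.adjoin k {X}) : ∃ l' ∈ Algebra.adjoin k {X}, Y ^ j * l' = l * Y ^ j := by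
  obtain ⟨Y', h1, h2⟩ := D.Y_inv
  have hYc : Commute Y Y' := by rw [Commute, SemiconjBy, h1, h2]
  have h3 : Y ^ j * Y' ^ j = 1 := by rw [← hYc.mul_pow, h1, one_pow]
  have h4 : Y' ^ j * Y ^ j = 1 := by rw [← hYc.symm.mul_pow, h2, one_pow]
  let g : A →ₗ[k] A := (LinearMap.mulRight k (Y' ^ j)) ∘ₗ (LinearMap.mulLeft k (Y ^ j))
  have hg : ∀ x, g x = Y ^ j * x * Y' ^ j := fun x => rfl
  have hmap : ∀ x ∈ Algebra.adjoin k {X}, g x ∈ Algebra.adjoin k {X} := by
    intro x hx
    rw [hg]
    rw [Algebra.adjoin_singleton_eq_range_aeval] at hx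
    obtain ⟨p, rfl⟩ := hx
    change Y ^ j * (Polynomial.aeval X p) * Y' ^ j ∈ _
    rw [Polynomial.aeval_eq_sum_range, Finset.mul_sum, Finset.sum_mul]
    refine Subalgebra.sum_mem _ fun i _ => ?_
    rw [mul_smul_comm, smul_mul_assoc, D.Y_pow_mul_X_pow, mul_assoc, h3, mul_one]
    exact Subalgebra.smul_mem _ (Subalgebra.pow_mem _ (D.hXj j) i) _
  let S := Subalgebra.toSubmodule (Algebra.adjoin k {X})
  let f : S →ₗ[k] S := g.restrict (p := S) (q := S) hmap
  have hinj : Function.Injective f := by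
    rw [← LinearMap.ker_eq_bot, LinearMap.ker_eq_bot']
    rintro ⟨y, hy⟩ h
    have h5 : Y ^ j * y * Y' ^ j = 0 := congrArg Subtype.val h
    have h6 : Y' ^ j * (Y ^ j * y * Y' ^ j) * Y ^ j = y := by
      calc Y' ^ j * (Y ^ j * y * Y' ^ j) * Y ^ j
          = (Y' ^ j * Y ^ j) * y * (Y' ^ j * Y ^ j) := by noncomm_ring
        _ = y := by rw [h4, one_mul, mul_one]
    rw [h5, mul_zero, zero_mul] at h6
    exact Subtype.ext h6.symm
  have hsurj : Function.Surjective f := LinearMap.surjective_of_injective hinj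
  obtain ⟨⟨y, hy⟩, hfy⟩ := hsurj ⟨l, hl⟩
  refine ⟨y, hy, ?_⟩
  have h5 : Y ^ j * y * Y' ^ j = l := congrArg Subtype.val hfy
  rw [← h5, mul_assoc, h4, mul_one]

section cauchy
variable {R : ℕ → A} (hR : ∀ j, qj X κ Xj j * R j = 1) (hR' : ∀ j, R j * qj X κ Xj j = 1)
include hR hR'

theorem commute_R {x : A} (hx : Commute x X) (j : ℕ) : Commute x (R j) :=
  commute_inv (hR j) (hR' j) (D.commute_qj hx j)

theorem commute_R_X (j : ℕ) : Commute (R j) X := (D.commute_R hR hR' (Commute.refl X) j).symm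

theorem commute_prod_X (l : List ℕ) : Commute (l.map R).prod X := by
  induction l with
  | nil => simp
  | cons i l ih =>
    rw [List.map_cons, List.prod_cons]
    exact (D.commute_R_X hR hR' i).mul_left ih

variable [IsDomain A] [FiniteDimensional k A]

theorem cauchyA {c : A} (n : ℕ) : ∀ l : List ℕ, l.length = n + 1 → l.Nodup →
    (∀ j ∈ l, j < m) → (∀ j ∈ l, Bad k X (c * R j)) → Bad k X (c * (l.map R).prod) := by
  induction n with
  | zero =>
    intro l hl _ _ hb
    obtain ⟨i, rfl⟩ := List.length_eq_one_iff.1 hl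
    simpa using hb i (by simp)
  | succ n ih =>
    intro l hl hnd hm hb
    obtain ⟨i, l, rfl⟩ := List.exists_cons_of_length_eq_add_one hl
    have hl2 : l.length = n + 1 := by simpa using hl
    obtain ⟨j, l, rfl⟩ := List.exists_cons_of_length_eq_add_one hl2
    have h1 := ih (i :: l) (by simpa using hl2) (by
      rw [List.nodup_cons, List.nodup_cons] at hnd
      rw [List.nodup_cons]
      exact ⟨fun h => hnd.1 (List.mem_cons_of_mem _ h), hnd.2.2⟩)
      (fun r hr => hm r (by
        rcases List.mem_cons.1 hr with rfl | h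
        · exact List.mem_cons_self
        · exact List.mem_cons_of_mem _ (List.mem_cons_of_mem _ h)))
      (fun r hr => hb r (by
        rcases List.mem_cons.1 hr with rfl | h
        · exact List.mem_cons_self
        · exact List.mem_cons_of_mem _ (List.mem_cons_of_mem _ h)))
    have h2 := ih (j :: l) (by simpa using hl2) (List.nodup_cons.1 hnd).2
      (fun r hr => hm r (List.mem_cons_of_mem _ hr))
      (fun r hr => hb r (List.mem_cons_of_mem _ hr))
    have hij : i ≠ j := by
      rintro rfl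
      exact (List.nodup_cons.1 hnd).1 List.mem_cons_self
    set P := (l.map R).prod with hP
    have hPX : Commute P X := D.commute_prod_X hR hR' l
    rw [List.map_cons, List.prod_cons] at h1 h2
    rw [← hP] at h1 h2
    rw [List.map_cons, List.prod_cons, List.map_cons, List.prod_cons, ← hP]
    have h3 : c * (R i * (R j * P)) * (qj X κ Xj i - qj X κ Xj j)
        = c * (R j * P) - c * (R i * P) := by
      have e1 : Commute (R j * P) (qj X κ Xj i) :=
        D.commute_qj ((D.commute_R_X hR hR' j).mul_left hPX) i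
      have e2 : Commute P (qj X κ Xj j) := D.commute_qj hPX j
      rw [mul_sub]
      congr 1
      · rw [mul_assoc c, mul_assoc (R i), e1.eq, ← mul_assoc (R i), hR', one_mul]
      · rw [mul_assoc c, mul_assoc (R i), mul_assoc (R j), e2.eq, ← mul_assoc (R j), hR', one_mul]
    have h4 : qj X κ Xj i - qj X κ Xj j = Xj i - Xj j := by
      unfold qj
      abel
    rw [h4] at h3
    have h5 : Bad k X (c * (R i * (R j * P)) * (Xj i - Xj j)) := by
      rw [h3]; exact h2.sub h1
    have h6 : Xj i - Xj j ≠ 0 := by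
      rw [sub_ne_zero]
      intro h
      exact hij (D.inj i (hm i (by simp)) j (hm j (by simp)) h)
    exact Bad.of_mul_poly (Subalgebra.sub_mem _ (D.hXj i) (D.hXj j)) h6 h5

theorem cauchyB {c : A} (n : ℕ) : ∀ l : List ℕ, n < l.length → l.Nodup →
    (∀ j ∈ l, j < m) → (∀ j ∈ l, Bad k X (c * R j)) →
    Bad k X (c * (l.map R).prod * κ ^ n) := by
  induction n with
  | zero =>
    intro l hl hnd hm hb
    rw [pow_zero, mul_one]
    exact D.cauchyA hR hR' (l.length - 1) l (by omega) hnd hm hb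
  | succ n ih =>
    intro l hl hnd hm hb
    obtain ⟨i, l, rfl⟩ : ∃ i l', l = i :: l' := by
      cases l with
      | nil => simp at hl
      | cons i l => exact ⟨i, l, rfl⟩
    have h1 := ih l (by simpa using hl) (List.nodup_cons.1 hnd).2
      (fun r hr => hm r (List.mem_cons_of_mem _ hr))
      (fun r hr => hb r (List.mem_cons_of_mem _ hr))
    have h2 := ih (i :: l) (by simp only [List.length_cons] at hl ⊢; omega) hnd hm hb
    rw [List.map_cons, List.prod_cons] at h2 ⊢
    set P := (l.map R).prod with hP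
    have hPX : Commute P X := D.commute_prod_X hR hR' l
    have h3 : κ = qj X κ Xj i - (X + Xj i) := by unfold qj; abel
    have h4 : c * (R i * P) * κ ^ (n + 1)
        = c * P * κ ^ n - (c * (R i * P) * κ ^ n * (X + Xj i)) := by
      have e0 : Commute (P * κ ^ n) X := hPX.mul_left ((D.hκ X).pow_left n)
      have e1 : Commute (P * κ ^ n) (qj X κ Xj i) := D.commute_qj e0 i
      have e2 : c * (R i * P) * κ ^ (n + 1) = c * (R i * (P * κ ^ n * κ)) := by
        rw [pow_succ]; noncomm_ring
      have e3 : P * κ ^ n * κ = qj X κ Xj i * (P * κ ^ n) - (P * κ ^ n * (X + Xj i)) := by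
        rw [← e1.eq, ← mul_sub, ← h3]
      rw [e2, e3, mul_sub, ← mul_assoc (R i), hR', one_mul, mul_sub]
      congr 1
      · rw [mul_assoc]
      · noncomm_ring
    rw [h4]
    exact h1.sub (h2.mul_poly (Subalgebra.add_mem _ D.X_mem (D.hXj i)))

variable [CharZero k]

/-- there are fewer than `d` bad exponents -/
theorem card_bad {c : A} (hc0 : c ≠ 0) (hc : Commute c X) (s : Finset ℕ)
    (hs : ∀ j ∈ s, j < m) (hb : ∀ j ∈ s, Bad k X (c * R j)) : s.card < d := by
  by_contra hlt
  push Not at hlt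
  have hlen : s.toList.length = s.card := s.length_toList
  set P := (s.toList.map R).prod with hP
  have hPX : Commute P X := D.commute_prod_X hR hR' _
  have h1 : ∀ n, n < d → Bad k X (c * P * κ ^ n) := fun n hn =>
    D.cauchyB hR hR' n s.toList (by omega) s.nodup_toList
      (fun j hj => hs j (Finset.mem_toList.1 hj)) (fun j hj => hb j (Finset.mem_toList.1 hj))
  have hR0 : ∀ j, R j ≠ 0 := fun j h => by
    have := hR j
    rw [h, mul_zero] at this
    exact zero_ne_one this
  have hP0 : P ≠ 0 := by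
    rw [hP]
    refine List.prod_ne_zero ?_
    intro h
    obtain ⟨j, _, hj⟩ := List.mem_map.1 h
    exact hR0 j hj
  have hcP : c * P ≠ 0 := mul_ne_zero hc0 hP0
  obtain ⟨v, hv, hv'⟩ := exists_inv_of_ne (k := k) hcP
  have hvX : Commute v X := (commute_inv hv hv' (hc.mul_left hPX).symm).symm
  have h2 : ∀ w ∈ Submodule.span k
      (Set.range fun p : Fin d × Fin m => κ ^ (p.1 : ℕ) * X ^ (p.2 : ℕ)),
      ltr k A (c * P * w) = 0 := by
    intro w hw
    refine Submodule.span_induction (p := fun w _ => ltr k A (c * P * w) = 0) ?_ ?_ ?_ ?_ hw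
    · rintro _ ⟨⟨n, i⟩, rfl⟩
      dsimp only
      rw [← mul_assoc]
      exact h1 n n.2 i
    · rw [mul_zero, map_zero]
    · intro x y _ _ hx hy
      rw [mul_add, map_add, hx, hy, add_zero]
    · intro r x _ hx
      rw [mul_smul_comm, map_smul, hx, smul_zero]
  have h3 := h2 v (D.mem_of_commute hvX)
  rw [hv] at h3
  exact ltr_one k A h3

end cauchy

section main
variable [CharZero k] [IsDomain A] [FiniteDimensional k A]

/-- the inverse of `ad η` on `C(X) Y^j` -/
theorem adInv_mul_Y_pow {j : ℕ} {y : A}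
    (hy : thj X κ Xj j * y = 1) (hy' : y * thj X κ Xj j = 1) {u : A} (hu : Commute u X) :
    adInv k (eta X κ) (u * Y ^ j) = -(y * u * Y ^ j) := by
  have hyX : Commute y X := (commute_inv hy hy' (D.commute_thj_X j).symm).symm
  have h1 : ∀ v : A, Commute v X → ad k (eta X κ) (v * Y ^ j) = -(thj X κ Xj j * v * Y ^ j) := by
    intro v hv
    rw [ad_apply, mul_assoc v, D.Y_pow_mul_eta, ← (D.commute_thj hv j).eq, ← mul_assoc,
      ← mul_assoc, ← (D.commute_eta hv).eq]
    noncomm_ring
  have h2 : u * Y ^ j = ad k (eta X κ) (-(y * u * Y ^ j)) := by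
    rw [map_neg, h1 _ (hyX.mul_left hu), neg_neg, ← mul_assoc, hy, one_mul]
  have h3 : -(y * u * Y ^ j) ∈ LinearMap.range (ad k (eta X κ)) := by
    refine ⟨y * (y * u) * Y ^ j, ?_⟩
    rw [h1 _ (hyX.mul_left (hyX.mul_left hu)), ← mul_assoc (thj X κ Xj j) y, hy, one_mul]
  conv_lhs => rw [h2]
  exact adInv_ad k h3

/-- **Non-degeneracy**: for `0 ≠ c` commuting with `η`, the rows `X^i Y^j`, `j ∈ G`, of the form
`tr (c * adInv η x * y)` on the span of `X^i' Y^j'`, `j' < m - 1`, are linearly independent. -/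
theorem nd_rows {c : A} (hc0 : c ≠ 0) (hc : Commute c (eta X κ)) :
    ∃ G : Finset ℕ, (∀ j ∈ G, 2 ≤ j ∧ j + 2 ≤ m) ∧ m ≤ G.card + d + 2 ∧
      ∀ g : ℕ → ℕ → k, (∀ i' < m, ∀ j' < m - 1,
        ltr k A (c * adInv k (eta X κ) (∑ j ∈ G, ∑ i ∈ range m, g i j • (X ^ i * Y ^ j))
          * (X ^ i' * Y ^ j')) = 0) → ∀ j ∈ G, ∀ i < m, g i j = 0 := by
  classical
  have hcX : Commute c X := D.commute_of_commute_eta hc
  obtain ⟨R, hR, hR'⟩ := D.exists_R
  let G : Finset ℕ := (Finset.Ico 2 (m - 1)).filter fun j => ¬ Bad k X (c * R j)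
  refine ⟨G, fun j hj => ?_, ?_, ?_⟩
  · have := (Finset.mem_Ico.1 (Finset.mem_filter.1 hj).1)
    omega
  · have h1 : ((Finset.Ico 2 (m - 1)).filter fun j => Bad k X (c * R j)).card < d :=
      D.card_bad hR hR' hc0 hcX _ (fun j hj => by
        have := (Finset.mem_Ico.1 (Finset.mem_filter.1 hj).1)
        omega) (fun j hj => (Finset.mem_filter.1 hj).2)
    have h2 := Finset.card_filter_add_card_filter_not (s := Finset.Ico 2 (m - 1))
      (fun j => Bad k X (c * R j))
    rw [Nat.card_Ico] at h2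
    have h3 : G.card = ((Finset.Ico 2 (m - 1)).filter fun j => ¬ Bad k X (c * R j)).card := rfl
    rw [h3]
    omega
  · intro g hg
    -- inverses of `θ_j`
    have hyex : ∀ j, ∃ y : A, 0 < j → j < m → thj X κ Xj j * y = 1 ∧ y * thj X κ Xj j = 1 := by
      intro j
      by_cases h0 : 0 < j ∧ j < m
      · obtain ⟨y, h1, h2⟩ := exists_inv_of_ne (k := k) (D.thj_ne h0.1 h0.2)
        exact ⟨y, fun _ _ => ⟨h1, h2⟩⟩
      · exact ⟨0, fun h1 h2 => absurd ⟨h1, h2⟩ h0⟩
    choose y hy using hyex
    have hyX : ∀ j, 0 < j → j < m → Commute (y j) X := fun j h0 hj =>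
      (commute_inv (hy j h0 hj).1 (hy j h0 hj).2 (D.commute_thj_X j).symm).symm
    let l : ℕ → A := fun j => ∑ i ∈ range m, g i j • X ^ i
    have hl : ∀ j, l j ∈ Algebra.adjoin k {X} := fun j =>
      Subalgebra.sum_mem _ fun i _ => Subalgebra.smul_mem _
        (Subalgebra.pow_mem _ (Algebra.subset_adjoin (Set.mem_singleton X)) i) _
    have hlX : ∀ j, Commute (l j) X := fun j =>
      (commute_of_mem_adjoin (Commute.refl X) (hl j)).symm
    have hsum : ∑ j ∈ G, ∑ i ∈ range m, g i j • (X ^ i * Y ^ j) = ∑ j ∈ G, l j * Y ^ j := by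
      refine Finset.sum_congr rfl fun j _ => ?_
      simp only [l]
      rw [Finset.sum_mul]
      exact Finset.sum_congr rfl fun i _ => by rw [smul_mul_assoc]
    have hmemG : ∀ j ∈ G, 2 ≤ j ∧ j < m - 1 := fun j hj =>
      Finset.mem_Ico.1 (Finset.mem_filter.1 hj).1
    have hadInv : adInv k (eta X κ) (∑ j ∈ G, l j * Y ^ j) = ∑ j ∈ G, -(y j * l j * Y ^ j) := by
      rw [map_sum]
      refine Finset.sum_congr rfl fun j hj => ?_
      have h1 := hmemG j hj
      exact D.adInv_mul_Y_pow (hy j (by omega) (by omega)).1 (hy j (by omega) (by omega)).2 (hlX j)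
    intro j0 hj0
    have hj0' := hmemG j0 hj0
    -- extend the hypothesis from `X^i'` to `k[X]`
    have hg2 : ∀ l' ∈ Algebra.adjoin k {X}, ltr k A (c * adInv k (eta X κ)
        (∑ j ∈ G, l j * Y ^ j) * (l' * Y ^ (m - j0))) = 0 := by
      intro l' hl'
      refine Submodule.span_induction (p := fun l' _ => ltr k A (c * adInv k (eta X κ)
        (∑ j ∈ G, l j * Y ^ j) * (l' * Y ^ (m - j0))) = 0) ?_ ?_ ?_ ?_ (D.spX l' hl')
      · rintro _ ⟨i', rfl⟩
        have h2 := hg i' i'.2 (m - j0) (by omega)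
        rwa [hsum] at h2
      · rw [zero_mul, mul_zero, map_zero]
      · intro p q _ _ hp hq
        rw [add_mul, mul_add, map_add, hp, hq, add_zero]
      · intro r p _ hp
        rw [smul_mul_assoc, mul_smul_comm, map_smul, hp, smul_zero]
    -- the row is orthogonal
    have h1 : Bad k X (c * y j0 * l j0) := by
      intro i'
      obtain ⟨l', hl', hl'2⟩ := D.conj_surj j0 (Subalgebra.pow_mem _
        (Algebra.subset_adjoin (Set.mem_singleton X) : X ∈ Algebra.adjoin k {X}) i')
      have h2 := hg2 l' hl'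
      rw [hadInv, Finset.mul_sum, Finset.sum_mul, map_sum, Finset.sum_eq_single j0] at h2
      · have h3 : c * -(y j0 * l j0 * Y ^ j0) * (l' * Y ^ (m - j0))
            = (-b) • (c * y j0 * l j0 * X ^ i') := by
          have h4 : Y ^ j0 * (l' * Y ^ (m - j0)) = b • X ^ i' := by
            rw [← mul_assoc, hl'2, mul_assoc, ← pow_add]
            have h5 : j0 + (m - j0) = m := by omega
            rw [h5, D.hY, ← Algebra.commutes, ← Algebra.smul_def]
          calc c * -(y j0 * l j0 * Y ^ j0) * (l' * Y ^ (m - j0))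
              = -(c * y j0 * l j0 * (Y ^ j0 * (l' * Y ^ (m - j0)))) := by noncomm_ring
            _ = _ := by rw [h4, mul_smul_comm, neg_smul]
        rw [h3, map_smul, smul_eq_mul] at h2
        exact (mul_eq_zero.1 h2).resolve_left (neg_ne_zero.2 D.hb)
      · intro j hj hne
        have hj' := hmemG j hj
        -- `Y^j l' = l'' Y^j`
        have hl3 : ∃ l'' : A, Commute l'' X ∧ Y ^ j * l' = l'' * Y ^ j := by
          rw [Algebra.adjoin_singleton_eq_range_aeval] at hl'
          obtain ⟨p, rfl⟩ := hl'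
          refine ⟨∑ i ∈ range (p.natDegree + 1), p.coeff i • Xj j ^ i, ?_, ?_⟩
          · exact Commute.sum_left _ _ _ fun i _ => ((D.commute_Xj_X j).pow_left i).smul_left _
          · change Y ^ j * (Polynomial.aeval X p) = _
            rw [Polynomial.aeval_eq_sum_range, Finset.mul_sum, Finset.sum_mul]
            refine Finset.sum_congr rfl fun i _ => ?_
            rw [mul_smul_comm, smul_mul_assoc, D.Y_pow_mul_X_pow]
        obtain ⟨l'', hl''X, hl''⟩ := hl3
        have hcX2 : Commute (c * y j * l j * l'') X :=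
          ((hcX.mul_left (hyX j (by omega) (by omega))).mul_left (hlX j)).mul_left hl''X
        have h3 : c * -(y j * l j * Y ^ j) * (l' * Y ^ (m - j0))
            = -(c * y j * l j * l'' * Y ^ (j + (m - j0))) := by
          have h4 : Y ^ j * (l' * Y ^ (m - j0)) = l'' * Y ^ (j + (m - j0)) := by
            rw [← mul_assoc, hl'', mul_assoc, ← pow_add]
          calc c * -(y j * l j * Y ^ j) * (l' * Y ^ (m - j0))
              = -(c * y j * l j * (Y ^ j * (l' * Y ^ (m - j0)))) := by noncomm_ring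
            _ = _ := by rw [h4, mul_assoc (c * y j * l j)]
        rw [h3, map_neg, neg_eq_zero]
        rcases Nat.lt_or_ge j j0 with hlt | hge
        · exact D.ltr_mul_Y_pow hcX2 (by omega) (by omega)
        · have h5 : j + (m - j0) = (j - j0) + m := by omega
          rw [h5, pow_add, D.hY, ← mul_assoc, ← Algebra.commutes, ← Algebra.smul_def, map_smul,
            D.ltr_mul_Y_pow hcX2 (by omega) (by omega), smul_zero]
      · intro h; exact absurd hj0 h
    have hl0 : l j0 = 0 := by
      by_contra hne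
      have h2 := Bad.of_mul_poly (hl j0) hne h1
      -- `c * y j0` is not bad
      have h3 : ¬ Bad k X (c * R j0) := (Finset.mem_filter.1 hj0).2
      apply h3
      have hj0m : 0 < j0 ∧ j0 < m := by omega
      have h4 : R j0 = y j0 * (Xj j0 - X) := by
        have h5 := (hy j0 hj0m.1 hj0m.2).2
        rw [thj, ← mul_assoc] at h5
        calc R j0 = (y j0 * (Xj j0 - X) * qj X κ Xj j0) * R j0 := by rw [h5, one_mul]
          _ = y j0 * (Xj j0 - X) * (qj X κ Xj j0 * R j0) := by noncomm_ring
          _ = y j0 * (Xj j0 - X) := by rw [hR, mul_one]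
      rw [h4, ← mul_assoc]
      exact h2.mul_poly (Subalgebra.sub_mem _ (D.hXj j0) D.X_mem)
    intro i hi
    have h2 := D.liX
    rw [Fintype.linearIndependent_iff] at h2
    have h3 := h2 (fun i => g i j0) (by
      rw [← hl0]
      simp only [l]
      rw [Finset.sum_range])
    exact h3 ⟨i, hi⟩

end main

end CycData

end Crest.Agent.R180
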