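import Crest.Agent.R180.Basic

set_option autoImplicit false

/-!
# Row 180: normal-form separation (combinatorial part)

`γ₁ = ∑ g s • t_s` a nonzero linear form with central coefficients in a field `Φ`, `p` homogeneous
of degree `k`.  If all cyclic sums of `p * γ₁ ^ i` vanish for one `i ≥ k`, then
`p = b * γ₁ - γ₁ * b` for some `b` homogeneous of degree `k - 1`.
-/

namespace Crest.Agent.R180

namespace NC

section Lin

variable {σ Γ Φ : Type} [Ring Γ] [Field Φ] [Algebra Φ Γ]

/-- underlying function of a linear form -/
def linFun (g : σ → Φ) : List σ → Γ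
  | [] => 0
  | [s] => algebraMap Φ Γ (g s)
  | (_ :: _ :: _) => 0

/-- the linear form `∑ g s • t_s` -/
def linS (g : σ → Φ) : NC σ Γ := ⟨linFun g⟩

@[simp] theorem lin_nil (g : σ → Φ) : (linS g : NC σ Γ) [] = 0 := rfl
@[simp] theorem lin_single (g : σ → Φ) (s : σ) : (linS g : NC σ Γ) [s] = algebraMap Φ Γ (g s) := rfl
@[simp] theorem lin_cons_cons (g : σ → Φ) (s r : σ) (w : List σ) :
    (linS g : NC σ Γ) (s :: r :: w) = 0 := rfl

theorem lin_append_single (g : σ → Φ) (a s : σ) (v : List σ) :
    (linS g : NC σ Γ) (a :: (v ++ [s])) = 0 := by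
  cases v <;> rfl

theorem ld_lin (g : σ → Φ) (s : σ) : ld s (linS g : NC σ Γ) = C (algebraMap Φ Γ (g s)) := by
  apply ext'; intro w; cases w <;> rfl

theorem lin_mul_cons (g : σ → Φ) (f : NC σ Γ) (s : σ) (w : List σ) :
    ((linS g : NC σ Γ) * f) (s :: w) = g s • f w := by
  rw [mul_cons, ld_lin, C_mul_apply, lin_nil, zero_mul, add_zero, Algebra.smul_def]

theorem lin_mul_nil (g : σ → Φ) (f : NC σ Γ) : ((linS g : NC σ Γ) * f) [] = 0 := by simp

theorem mul_lin_append (g : σ → Φ) (f : NC σ Γ) (w : List σ) (s : σ) :
    (f * (linS g : NC σ Γ)) (w ++ [s]) = g s • f w := by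
  induction w generalizing f with
  | nil =>
    rw [List.nil_append, mul_cons, mul_nil, lin_nil, mul_zero, zero_add, lin_single,
      Algebra.smul_def, Algebra.commutes]
  | cons a w ih =>
    rw [List.cons_append, mul_cons, ih, lin_append_single, mul_zero, add_zero, ld_apply]

/-- homogeneous of degree `k` -/
def Hom (k : ℕ) (f : NC σ Γ) : Prop := ∀ w : List σ, w.length ≠ k → f w = 0

/-- `f * linS g ^ i` on words -/
theorem mul_lin_pow_apply (g : σ → Φ) (f : NC σ Γ) (v x : List σ) :
    (f * (linS g : NC σ Γ) ^ x.length) (v ++ x) = (x.map g).prod • f v := by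
  induction x using List.reverseRecOn generalizing f with
  | nil => simp
  | append_singleton x s ih =>
    rw [List.length_append, List.length_singleton, pow_succ, ← mul_assoc, ← List.append_assoc,
      mul_lin_append, ih]
    simp [mul_comm, smul_smul]

/-- cyclic sum -/
def cyc (f : NC σ Γ) (w : List σ) : Γ := ∑ r ∈ Finset.range w.length, f (w.rotate r)

theorem sum_range_rotate_succ (f : List σ → Γ) (w : List σ) :
    ∑ r ∈ Finset.range w.length, f (w.rotate (r + 1)) =
      ∑ r ∈ Finset.range w.length, f (w.rotate r) := by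
  have h1 := Finset.sum_range_succ (fun r => f (w.rotate r)) w.length
  have h2 := Finset.sum_range_succ' (fun r => f (w.rotate r)) w.length
  rw [h1] at h2
  simp only [List.rotate_length, List.rotate_zero] at h2
  exact (add_right_cancel h2).symm

theorem cyc_comm_lin (g : σ → Φ) (f : NC σ Γ) (w : List σ) (hw : w ≠ []) :
    cyc (f * (linS g : NC σ Γ)) w = cyc ((linS g : NC σ Γ) * f) w := by
  unfold cyc
  rw [← sum_range_rotate_succ]
  refine Finset.sum_congr rfl fun r _ => ?_
  have h1 : w.rotate r ≠ [] := by simpa [List.rotate_eq_nil_iff] using hw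
  obtain ⟨s, v, hv⟩ := List.exists_cons_of_ne_nil h1
  rw [← List.rotate_rotate, hv, lin_mul_cons]
  have h2 : (s :: v).rotate 1 = v ++ [s] := by simp
  rw [h2, mul_lin_append]

theorem cyc_sub (f g : NC σ Γ) (w : List σ) : cyc (f - g) w = cyc f w - cyc g w := by
  unfold cyc; simp [Finset.sum_sub_distrib]

theorem cyc_add (f g : NC σ Γ) (w : List σ) : cyc (f + g) w = cyc f w + cyc g w := by
  unfold cyc; simp [Finset.sum_add_distrib]

/-- commutators with the linear form, times powers, have zero cyclic sums -/
theorem cyc_bracket (g : σ → Φ) (b : NC σ Γ) (i : ℕ) (w : List σ) :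
    cyc ((b * linS g - linS g * b) * (linS g : NC σ Γ) ^ i) w = 0 := by
  by_cases hw : w = []
  · subst hw; simp [cyc]
  · have h1 : (b * linS g - linS g * b) * (linS g : NC σ Γ) ^ i =
        (b * (linS g : NC σ Γ) ^ i) * linS g - linS g * (b * (linS g : NC σ Γ) ^ i) := by
      rw [sub_mul, mul_assoc b, mul_assoc b, ← pow_succ', ← pow_succ, mul_assoc]
    rw [h1, cyc_sub, cyc_comm_lin g _ w hw, sub_self]

end Lin

section Mono

variable {σ Γ Φ : Type} [DecidableEq σ] [Fintype σ] [Ring Γ] [Field Φ] [Algebra Φ Γ]

/-- a monomial -/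
def mono (u : List σ) (c : Γ) : NC σ Γ := ⟨fun v => if v = u then c else 0⟩

omit [Fintype σ] in
theorem mono_apply (u : List σ) (c : Γ) (v : List σ) :
    (mono u c : NC σ Γ) v = if v = u then c else 0 := rfl

theorem bracket_mono (g : σ → Φ) (u : List σ) (c : Γ) :
    (mono u c : NC σ Γ) * linS g - linS g * mono u c =
      ∑ s, mono (u ++ [s]) (g s • c) - ∑ s, mono (s :: u) (g s • c) := by
  apply ext'; intro w
  rw [sub_apply, sub_apply, sum_apply, sum_apply]
  congr 1
  · rcases List.eq_nil_or_concat w with rfl | ⟨v, s, rfl⟩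
    · rw [mul_nil, lin_nil, mul_zero]
      symm
      apply Finset.sum_eq_zero
      intro s _
      rw [mono_apply, if_neg (by simp)]
    · rw [List.concat_eq_append, mul_lin_append, Finset.sum_eq_single s]
      · simp only [mono_apply]
        by_cases h : v = u
        · subst h; simp
        · rw [if_neg h, if_neg, smul_zero]
          intro h'; exact h (List.append_cancel_right h')
      · intro r _ hr
        rw [mono_apply, if_neg]
        intro h'
        have := List.append_inj_right' h' rfl
        simp at this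
        exact hr this.symm
      · simp
  · cases w with
    | nil =>
      rw [lin_mul_nil]
      symm
      apply Finset.sum_eq_zero
      intro s _
      rw [mono_apply, if_neg (by simp)]
    | cons s v =>
      rw [lin_mul_cons, Finset.sum_eq_single s]
      · simp only [mono_apply]
        by_cases h : v = u
        · subst h; simp
        · rw [if_neg h, if_neg, smul_zero]
          intro h'; exact h (by simpa using h')
      · intro r _ hr
        rw [mono_apply, if_neg]
        intro h'
        exact hr (by simp at h'; exact h'.1.symm)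
      · simp

/-- coefficientwise sum of monomials -/
theorem eq_sum_mono (k : ℕ) (p : NC σ Γ) (hp : Hom k p) :
    p = ∑ w : Fin k → σ, mono (List.ofFn w) (p (List.ofFn w)) := by
  apply ext'; intro v
  rw [sum_apply]
  by_cases hv : v.length = k
  · subst hv
    rw [Finset.sum_eq_single (fun i => v.get i)]
    · rw [mono_apply, List.ofFn_get, if_pos rfl]
    · intro w _ hw
      rw [mono_apply, if_neg]
      intro h
      apply hw
      apply List.ofFn_injective
      rw [← h, List.ofFn_get]
    · simp
  · rw [hp v hv]
    symm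
    apply Finset.sum_eq_zero
    intro w _
    rw [mono_apply, if_neg]
    rintro rfl
    exact hv (by simp)

variable (B : Submodule Φ Γ) (g : σ → Φ) (s₀ : σ)

/-- normal: supported on words not starting with `s₀`, and the pure power. -/
def Nrm (k : ℕ) (h : NC σ Γ) : Prop :=
  ∀ v : List σ, h v ≠ 0 → v.length = k ∧ (v.head? ≠ some s₀ ∨ v = List.replicate k s₀)

/-- decomposable modulo brackets into normal words -/
def RR (k : ℕ) (f : NC σ Γ) : Prop :=
  ∃ b h : NC σ Γ, Hom (k - 1) b ∧ (∀ w, b w ∈ B) ∧ Nrm s₀ k h ∧ (∀ w, h w ∈ B) ∧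
    f = (b * linS g - linS g * b) + h

omit [DecidableEq σ] [Fintype σ] in
theorem Nrm.add {k : ℕ} {h h' : NC σ Γ} (H : Nrm s₀ k h) (H' : Nrm s₀ k h') :
    Nrm s₀ k (h + h') := by
  intro v hv
  by_cases h0 : h v = 0
  · rw [add_apply, h0, zero_add] at hv; exact H' v hv
  · exact H v h0

omit [DecidableEq σ] [Fintype σ] in
theorem RR.add {k : ℕ} {f f' : NC σ Γ} (H : RR B g s₀ k f) (H' : RR B g s₀ k f') :
    RR B g s₀ k (f + f') := by
  obtain ⟨b, h, h1, h2, h3, h4, h5⟩ := H
  obtain ⟨b', h', h1', h2', h3', h4', h5'⟩ := H'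
  refine ⟨b + b', h + h', ?_, ?_, h3.add s₀ h3', ?_, ?_⟩
  · intro w hw; rw [add_apply, h1 w hw, h1' w hw, add_zero]
  · intro w; exact B.add_mem (h2 w) (h2' w)
  · intro w; exact B.add_mem (h4 w) (h4' w)
  · rw [h5, h5', add_mul, mul_add]; abel

omit [DecidableEq σ] [Fintype σ] in
theorem RR.neg {k : ℕ} {f : NC σ Γ} (H : RR B g s₀ k f) : RR B g s₀ k (-f) := by
  obtain ⟨b, h, h1, h2, h3, h4, h5⟩ := H
  refine ⟨-b, -h, ?_, ?_, ?_, ?_, ?_⟩
  · intro w hw; rw [neg_apply, h1 w hw, neg_zero]
  · intro w; exact B.neg_mem (h2 w)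
  · intro v hv; exact h3 v (by simpa using hv)
  · intro w; exact B.neg_mem (h4 w)
  · rw [h5]; simp only [neg_mul, mul_neg]; abel

omit [DecidableEq σ] [Fintype σ] in
theorem RR.zero {k : ℕ} : RR B g s₀ k (0 : NC σ Γ) := by
  refine ⟨0, 0, fun _ _ => rfl, fun _ => B.zero_mem, fun v hv => absurd rfl hv, fun _ => B.zero_mem,
    by simp⟩

omit [DecidableEq σ] [Fintype σ] in
theorem RR.sum {k : ℕ} {ι : Type} (t : Finset ι) (f : ι → NC σ Γ)
    (H : ∀ i ∈ t, RR B g s₀ k (f i)) : RR B g s₀ k (∑ i ∈ t, f i) := by
  classical
  induction t using Finset.induction_on with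
  | empty => simpa using RR.zero B g s₀
  | insert a t ha ih =>
    rw [Finset.sum_insert ha]
    exact (H a (by simp)).add B g s₀ (ih fun i hi => H i (by simp [hi]))

omit [Fintype σ] in
theorem RR.mono_normal {k : ℕ} (v : List σ) (c : Γ) (hc : c ∈ B) (hv : v.length = k)
    (hn : v.head? ≠ some s₀ ∨ v = List.replicate k s₀) : RR B g s₀ k (mono v c) := by
  refine ⟨0, mono v c, fun _ _ => rfl, fun _ => B.zero_mem, ?_, ?_, by simp⟩
  · intro w hw
    rw [mono_apply] at hw
    by_cases h : w = v
    · rw [h]; exact ⟨hv, hn⟩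
    · rw [if_neg h] at hw; exact absurd rfl hw
  · intro w; rw [mono_apply]; split_ifs
    · exact hc
    · exact B.zero_mem

theorem RR.mono_run (hg : g s₀ = 1) : ∀ (a : ℕ) (v : List σ) (c : Γ), c ∈ B →
    (v.head? ≠ some s₀) → v ≠ [] → RR B g s₀ (a + v.length) (mono (List.replicate a s₀ ++ v) c) := by
  intro a
  induction a with
  | zero =>
    intro v c hc hv _
    simp only [List.replicate_zero, List.nil_append, zero_add]
    exact RR.mono_normal B g s₀ v c hc rfl (Or.inl hv)
  | succ a ih =>
    intro v c hc hv hv0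
    set u := List.replicate a s₀ ++ v with hu
    have hkey : (mono (List.replicate (a + 1) s₀ ++ v) c : NC σ Γ) =
        (∑ s, mono (List.replicate a s₀ ++ (v ++ [s])) (g s • c)) +
        (-(∑ s ∈ Finset.univ.erase s₀, mono (s :: u) (g s • c))) +
        (-((mono u c : NC σ Γ) * linS g - linS g * mono u c)) := by
      rw [bracket_mono, ← Finset.add_sum_erase Finset.univ
        (fun s => (mono (s :: u) (g s • c) : NC σ Γ)) (Finset.mem_univ s₀)]
      simp only [hg, one_smul]
      have h1 : List.replicate (a + 1) s₀ ++ v = s₀ :: u := by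
        rw [hu, List.replicate_succ, List.cons_append]
      have h2 : ∀ s, List.replicate a s₀ ++ (v ++ [s]) = u ++ [s] := by
        intro s; rw [hu, List.append_assoc]
      simp only [h1, h2]
      abel
    rw [hkey]
    refine RR.add B g s₀ (RR.add B g s₀ ?_ ?_) ?_
    · refine RR.sum B g s₀ _ _ fun s _ => ?_
      have := ih (v ++ [s]) (g s • c) (B.smul_mem _ hc)
        (by cases v with
          | nil => exact absurd rfl hv0
          | cons x v => simpa using hv) (by simp)
      rw [List.length_append, List.length_singleton] at this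
      have h3 : a + 1 + v.length = a + (v.length + 1) := by omega
      rw [h3]; exact this
    · refine RR.neg B g s₀ (RR.sum B g s₀ _ _ fun s hs => ?_)
      refine RR.mono_normal B g s₀ _ _ (B.smul_mem _ hc) ?_ (Or.inl ?_)
      · rw [hu]; simp; omega
      · simpa using (Finset.ne_of_mem_erase hs)
    · refine RR.neg B g s₀ ⟨mono u c, 0, ?_, ?_, fun v hv => absurd rfl hv, fun _ => B.zero_mem,
        by simp⟩
      · intro w hw
        rw [mono_apply, if_neg]
        rintro rfl
        apply hw
        rw [hu]; simp
      · intro w; rw [mono_apply]; split_ifs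
        · exact hc
        · exact B.zero_mem

omit [Fintype σ] in
theorem exists_run (w : List σ) : ∃ (a : ℕ) (v : List σ), w = List.replicate a s₀ ++ v ∧
    (v = [] ∨ v.head? ≠ some s₀) := by
  induction w with
  | nil => exact ⟨0, [], by simp, Or.inl rfl⟩
  | cons x w ih =>
    by_cases hx : x = s₀
    · obtain ⟨a, v, hw, hv⟩ := ih
      refine ⟨a + 1, v, ?_, hv⟩
      rw [hw, hx, List.replicate_succ, List.cons_append]
    · exact ⟨0, x :: w, by simp, Or.inr (by simpa using hx)⟩

theorem RR.of_hom (hg : g s₀ = 1) (k : ℕ) (p : NC σ Γ) (hp : Hom k p) (hB : ∀ w, p w ∈ B) :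
    RR B g s₀ k p := by
  rw [eq_sum_mono k p hp]
  refine RR.sum B g s₀ _ _ fun w _ => ?_
  obtain ⟨a, v, hw, hv⟩ := exists_run s₀ (List.ofFn w)
  have hlen : a + v.length = k := by
    have := congrArg List.length hw
    simp at this; omega
  rcases hv with rfl | hv
  · refine RR.mono_normal B g s₀ _ _ (hB _) (by simp) (Or.inr ?_)
    rw [hw]
    simp at hlen
    simp [hlen]
  · rw [hw, ← hlen]
    by_cases hv0 : v = []
    · subst hv0
      refine RR.mono_normal B g s₀ _ _ ?_ (by simp) (Or.inr ?_)
      · exact hB _
      · simp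
    · exact RR.mono_run B g s₀ hg a v _ (hB _) hv hv0

omit [DecidableEq σ] [Fintype σ] in
/-- value of `q * linS g ^ i` on a word of length `k + i` -/
theorem mul_lin_pow_take (k i : ℕ) (q : NC σ Γ) (y : List σ) (hy : y.length = k + i) :
    (q * (linS g : NC σ Γ) ^ i) y = ((y.drop k).map g).prod • q (y.take k) := by
  have h1 : (y.drop k).length = i := by simp; omega
  have := mul_lin_pow_apply g q (y.take k) (y.drop k)
  rw [List.take_append_drop, h1] at this
  exact this

omit [Fintype σ] in
theorem Nrm.eq_zero [CharZero Φ] (hg : g s₀ = 1) (k i : ℕ) (hik : k ≤ i) (hi : 0 < i)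
    (q : NC σ Γ) (hq : Nrm s₀ k q)
    (hc : ∀ w : List σ, w.length = k + i → cyc (q * (linS g : NC σ Γ) ^ i) w = 0) : q = 0 := by
  -- the pure word
  have hpure : q (List.replicate k s₀) = 0 := by
    have h1 := hc (List.replicate (k + i) s₀) (by simp)
    unfold cyc at h1
    have h2 : ∀ r ∈ Finset.range (List.replicate (k + i) s₀).length,
        (q * (linS g : NC σ Γ) ^ i) ((List.replicate (k + i) s₀).rotate r) =
        q (List.replicate k s₀) := by
      intro r _
      rw [List.rotate_replicate, mul_lin_pow_take g k i q _ (by simp)]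
      simp [hg]
    rw [Finset.sum_congr rfl h2, Finset.sum_const, Finset.card_range, List.length_replicate,
      ← Nat.cast_smul_eq_nsmul Φ] at h1
    have h3 : ((k + i : ℕ) : Φ) ≠ 0 := by exact_mod_cast (by omega : k + i ≠ 0)
    exact (smul_eq_zero.mp h1).resolve_left h3
  have hstart : ∀ z : List σ, z.head? = some s₀ → q z = 0 := by
    intro z hz
    by_contra hne
    obtain ⟨h1, h2⟩ := hq z hne
    rcases h2 with h2 | h2
    · exact h2 hz
    · rw [h2] at hne; exact hne hpure
  -- strong induction on `k - count s₀ v`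
  have key : ∀ n : ℕ, ∀ v : List σ, v.length = k → k - v.count s₀ = n → q v = 0 := by
    intro n
    induction n using Nat.strong_induction_on with
    | _ n ih =>
    intro v hv hn
    by_cases hvh : v.head? = some s₀
    · exact hstart v hvh
    by_cases hv0 : v = []
    · subst hv0
      simp at hv
      subst hv
      exact hpure
    have h1 := hc (v ++ List.replicate i s₀) (by simp; omega)
    unfold cyc at h1
    rw [Finset.sum_eq_single 0] at h1
    · rw [List.rotate_zero, mul_lin_pow_take g k i q _ (by simp; omega), ← hv] at h1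
      simpa [hg] using h1
    · intro r hr hr0
      have hrlt : r < k + i := by
        have := Finset.mem_range.mp hr
        simp at this; omega
      rw [mul_lin_pow_take g k i q _ (by simp; omega)]
      have hz : q (((v ++ List.replicate i s₀).rotate r).take k) = 0 := by
        rw [List.rotate_eq_drop_append_take (by simp; omega)]
        by_cases hrk : k ≤ r
        · apply hstart
          have h2 : (v ++ List.replicate i s₀).drop r = List.replicate (k + i - r) s₀ := by
            rw [List.drop_append, List.drop_eq_nil_of_le (by omega), List.nil_append,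
              List.drop_replicate]
            congr 1; omega
          rw [h2]
          obtain ⟨m, hm⟩ : ∃ m, k + i - r = m + 1 := ⟨k + i - r - 1, by omega⟩
          obtain ⟨k', hk'⟩ : ∃ k', k = k' + 1 := ⟨k - 1, by
            have : 0 < v.length := List.length_pos_of_ne_nil hv0
            omega⟩
          rw [hm, List.replicate_succ, List.cons_append]
          rw [hk', List.take_succ_cons]
          rfl
        · push Not at hrk
          have h2 : (((v ++ List.replicate i s₀).drop r) ++
              ((v ++ List.replicate i s₀).take r)).take k = v.drop r ++ List.replicate r s₀ := by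
            rw [List.take_append_of_le_length (by simp; omega), List.drop_append_of_le_length
              (by omega), List.take_append, List.take_of_length_le (by simp; omega),
              List.take_replicate]
            congr 2
            simp; omega
          rw [h2]
          apply ih (k - (v.drop r ++ List.replicate r s₀).count s₀) _ _ (by simp; omega) rfl
          have h3 : (v.take r).count s₀ < r := by
            obtain ⟨x, v', hx⟩ := List.exists_cons_of_ne_nil hv0
            obtain ⟨r', hr'⟩ : ∃ r', r = r' + 1 := ⟨r - 1, by omega⟩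
            subst hx
            have hxs : x ≠ s₀ := by simpa using hvh
            rw [hr', List.take_succ_cons, List.count_cons_of_ne hxs]
            have := List.count_le_length (a := s₀) (l := v'.take r')
            simp at this
            omega
          have h4 : v.count s₀ = (v.take r).count s₀ + (v.drop r).count s₀ := by
            rw [← List.count_append, List.take_append_drop]
          have h5 : (v.drop r ++ List.replicate r s₀).count s₀ = (v.drop r).count s₀ + r := by
            rw [List.count_append, List.count_replicate_self]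
          have h6 := List.count_le_length (a := s₀) (l := v.drop r ++ List.replicate r s₀)
          simp only [List.length_append, List.length_drop, List.length_replicate] at h6
          omega
      rw [hz, smul_zero]
    · intro h0
      simp at h0
      omega
  apply ext'; intro v
  by_cases hv : v.length = k
  · exact key _ v hv rfl
  · by_contra hne
    exact hv (hq v hne).1

/-- NF separation when `g s₀ = 1`. -/
theorem nfsep_one [CharZero Φ] (hg : g s₀ = 1) (k i : ℕ) (hik : k ≤ i) (hi : 0 < i)
    (p : NC σ Γ) (hp : Hom k p) (hB : ∀ w, p w ∈ B)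
    (hc : ∀ w : List σ, w.length = k + i → cyc (p * (linS g : NC σ Γ) ^ i) w = 0) :
    ∃ b : NC σ Γ, Hom (k - 1) b ∧ (∀ w, b w ∈ B) ∧ p = b * linS g - linS g * b := by
  obtain ⟨b, h, h1, h2, h3, h4, h5⟩ := RR.of_hom B g s₀ hg k p hp hB
  have hh : h = 0 := by
    refine Nrm.eq_zero g s₀ hg k i hik hi h h3 fun w hw => ?_
    have h6 := hc w hw
    rw [h5, add_mul, cyc_add, cyc_bracket, zero_add] at h6
    exact h6
  exact ⟨b, h1, h2, by rw [h5, hh, add_zero]⟩

/-- **Normal form separation.** `γ₁ = linS g ≠ 0`, `p` homogeneous of degree `k` with coefficients in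
the `Φ`-subspace `B`; if the cyclic sums of `p * γ₁ ^ i` vanish for one `i ≥ k`, `i > 0`, then
`p = [b, γ₁]` with `b` homogeneous of degree `k - 1` with coefficients in `B`. -/
theorem nfsep [CharZero Φ] (hg : g ≠ 0) (k i : ℕ) (hik : k ≤ i) (hi : 0 < i)
    (p : NC σ Γ) (hp : Hom k p) (hB : ∀ w, p w ∈ B)
    (hc : ∀ w : List σ, w.length = k + i → cyc (p * (linS g : NC σ Γ) ^ i) w = 0) :
    ∃ b : NC σ Γ, Hom (k - 1) b ∧ (∀ w, b w ∈ B) ∧ p = b * linS g - linS g * b := by
  obtain ⟨s₀, hs₀⟩ : ∃ s, g s ≠ 0 := by
    by_contra h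
    push Not at h
    exact hg (funext h)
  set c := g s₀ with hcdef
  have hl : (linS g : NC σ Γ) = c • linS (c⁻¹ • g) := by
    apply ext'; intro w
    rw [smul_apply]
    match w with
    | [] => simp
    | [s] =>
      rw [lin_single, lin_single, Pi.smul_apply, smul_eq_mul, Algebra.smul_def, ← map_mul,
        mul_inv_cancel_left₀ hs₀]
    | _ :: _ :: _ => simp
  have hl' : (linS (c⁻¹ • g) : NC σ Γ) = c⁻¹ • linS g := by
    rw [hl, smul_smul, inv_mul_cancel₀ hs₀, one_smul]
  obtain ⟨b, h1, h2, h3⟩ := nfsep_one B (c⁻¹ • g) s₀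
    (by rw [Pi.smul_apply, smul_eq_mul, ← hcdef, inv_mul_cancel₀ hs₀]) k i hik hi p hp hB
    (fun w hw => by
      rw [hl', smul_pow, mul_smul_comm]
      unfold cyc
      simp only [smul_apply, ← Finset.smul_sum]
      have := hc w hw
      unfold cyc at this
      rw [this, smul_zero])
  refine ⟨c⁻¹ • b, ?_, ?_, ?_⟩
  · intro w hw; rw [smul_apply, h1 w hw, smul_zero]
  · intro w; rw [smul_apply]; exact B.smul_mem _ (h2 w)
  · rw [h3, hl', mul_smul_comm, smul_mul_assoc, smul_mul_assoc, mul_smul_comm]

end Mono

end NC

end Crest.Agent.R180
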