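import Crest.Agent.R180.Basic

set_option autoImplicit false

/-!
# Row 180: normalisation of a power series into the centraliser of its constant term (helper881)

* `NC.mul_apply_sum` : the Cauchy product as a sum over the splittings of a word;
* `ad K α`, `cpi K α`, `adInv K α` : the decomposition `Γ = C(α) ⊕ [α, Γ]`;
* `exists_norm` : `B * A = A' * B` with `A'` in the centraliser, explicit in orders 1 and 2.
-/

namespace Crest.Agent.R180

open Finset

namespace NC
variable {σ K : Type} [Ring K]

theorem mul_apply_sum (f g : NC σ K) (w : List σ) :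
    (f * g) w = ∑ i ∈ Finset.range (w.length + 1), f (w.take i) * g (w.drop i) := by
  induction w generalizing f with
  | nil => simp
  | cons s w ih =>
    rw [mul_cons, ih, List.length_cons, Finset.sum_range_succ' _ (w.length + 1)]
    simp

theorem mul_apply_single (f g : NC σ K) (s : σ) :
    (f * g) [s] = f [] * g [s] + f [s] * g [] := by
  rw [mul_apply_sum]
  simp [Finset.sum_range_succ]

theorem mul_apply_pair (f g : NC σ K) (s t : σ) :
    (f * g) [s, t] = f [] * g [s, t] + f [s] * g [t] + f [s, t] * g [] := by
  rw [mul_apply_sum]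
  simp [Finset.sum_range_succ]

/-- the middle part of the Cauchy product -/
theorem mul_apply_of_ne (f g : NC σ K) {w : List σ} (hw : w ≠ []) :
    (f * g) w = f [] * g w + (∑ i : Fin (w.length - 1), f (w.take (i + 1)) * g (w.drop (i + 1)))
      + f w * g [] := by
  obtain ⟨n, hn⟩ : ∃ n, w.length = n + 1 := by
    cases w with
    | nil => exact absurd rfl hw
    | cons s w => exact ⟨w.length, by simp⟩
  rw [mul_apply_sum, hn, Finset.sum_range_succ, Finset.sum_range_succ']
  have h1 : w.take (n + 1) = w := by rw [← hn]; simp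
  have h2 : w.drop (n + 1) = [] := by rw [← hn]; simp
  have hs : ∑ i : Fin (n + 1 - 1), f (w.take (i + 1)) * g (w.drop (i + 1))
      = ∑ i ∈ Finset.range n, f (w.take (i + 1)) * g (w.drop (i + 1)) := by
    rw [Finset.sum_range]
    rfl
  rw [h1, h2, hs]
  simp only [List.take_zero, List.drop_zero]
  abel

end NC

section ad
variable (K : Type) {Γ : Type} [Field K] [Ring Γ] [Algebra K Γ]

/-- `ad K α x = α x - x α` -/
def ad (α : Γ) : Γ →ₗ[K] Γ := LinearMap.mulLeft K α - LinearMap.mulRight K α

@[simp] theorem ad_apply (α x : Γ) : ad K α x = α * x - x * α := rfl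

theorem mem_ker_ad {α x : Γ} : x ∈ LinearMap.ker (ad K α) ↔ Commute α x := by
  rw [LinearMap.mem_ker, ad_apply, sub_eq_zero]
  rfl

/-- if `c = [α, x]` commutes with `α` then `[p(α), x] = p'(α) c`. -/
theorem aeval_commutator {α x c : Γ} (hc : α * x - x * α = c) (hcc : Commute α c)
    (p : Polynomial K) :
    Polynomial.aeval α p * x - x * Polynomial.aeval α p
      = Polynomial.aeval α (Polynomial.derivative p) * c := by
  induction p using Polynomial.induction_on' with
  | add p q hp hq =>
    rw [map_add, Polynomial.derivative_add, map_add, add_mul, mul_add, add_mul, ← hp, ← hq]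
    abel
  | monomial n a =>
    have key : ∀ n : ℕ, α ^ n * x - x * α ^ n = (n : Γ) * α ^ (n - 1) * c := by
      intro n
      induction n with
      | zero => simp
      | succ n ih =>
        have h1 : α ^ (n + 1) * x - x * α ^ (n + 1)
            = α * (α ^ n * x - x * α ^ n) + (α * x - x * α) * α ^ n := by
          rw [pow_succ']
          noncomm_ring
        rw [h1, ih, hc]
        have h2 : c * α ^ n = α ^ n * c := ((hcc.pow_left n).eq).symm
        rw [h2]
        rcases Nat.eq_zero_or_pos n with rfl | hn
        · simp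
        · have h3 : α * ((n : Γ) * α ^ (n - 1) * c) = (n : Γ) * α ^ n * c := by
            have h4 : α * (n : Γ) = (n : Γ) * α := (Nat.cast_commute n α).eq.symm
            rw [← mul_assoc, ← mul_assoc, h4, mul_assoc (n : Γ) α, ← pow_succ',
              Nat.sub_add_cancel hn]
          rw [h3]
          simp only [Nat.add_sub_cancel, Nat.cast_add, Nat.cast_one]
          noncomm_ring
    have h5 : x * (algebraMap K Γ a * α ^ n) = algebraMap K Γ a * (x * α ^ n) := by
      rw [← mul_assoc, ← Algebra.commutes, mul_assoc]
    rw [Polynomial.aeval_monomial, Polynomial.derivative_monomial, Polynomial.aeval_monomial,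
      mul_assoc, h5, ← mul_sub, key n, map_mul, map_natCast]
    noncomm_ring

section dom
variable [CharZero K] [IsDomain Γ] [FiniteDimensional K Γ]

theorem ad_disjoint (α : Γ) :
    Disjoint (LinearMap.ker (ad K α)) (LinearMap.range (ad K α)) := by
  rw [Submodule.disjoint_def]
  rintro c hc ⟨x, hx⟩
  rw [mem_ker_ad] at hc
  have hint : IsIntegral K α := IsIntegral.of_finite K α
  set p := minpoly K α with hp
  have h1 := aeval_commutator K (α := α) (x := x) (c := c) hx hc p
  rw [hp, minpoly.aeval, zero_mul, mul_zero, sub_zero] at h1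
  rcases mul_eq_zero.1 h1.symm with h2 | h2
  · exfalso
    have hd : Polynomial.derivative (minpoly K α) ≠ 0 := by
      intro h0
      have := Polynomial.natDegree_eq_zero_of_derivative_eq_zero h0
      have h3 := minpoly.natDegree_pos hint
      omega
    have h4 := minpoly.degree_le_of_ne_zero K α hd h2
    have h5 := Polynomial.degree_derivative_lt (minpoly.ne_zero hint)
    exact absurd (lt_of_le_of_lt h4 h5) (lt_irrefl _)
  · exact h2

theorem ad_isCompl (α : Γ) :
    IsCompl (LinearMap.ker (ad K α)) (LinearMap.range (ad K α)) := by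
  rw [Submodule.isCompl_iff_disjoint]
  · exact ad_disjoint K α
  · rw [add_comm, LinearMap.finrank_range_add_finrank_ker]

/-- the projection onto the centraliser `C(α)` along `[α, Γ]` -/
noncomputable def cpi (α : Γ) : Γ →ₗ[K] Γ :=
  (LinearMap.ker (ad K α)).projection (LinearMap.range (ad K α)) (ad_isCompl K α)

/-- `ad α` restricted to its range is bijective -/
noncomputable def adEquiv (α : Γ) : LinearMap.range (ad K α) ≃ₗ[K] LinearMap.range (ad K α) :=
  LinearEquiv.ofInjectiveEndo
    ((ad K α).restrict (p := LinearMap.range (ad K α)) (q := LinearMap.range (ad K α))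
      (fun x _ => LinearMap.mem_range_self _ x)) (by
    rw [← LinearMap.ker_eq_bot, LinearMap.ker_eq_bot']
    rintro ⟨x, hx⟩ h
    have h1 : ad K α x = 0 := congrArg Subtype.val h
    have h2 := (Submodule.disjoint_def.1 (ad_disjoint K α)) x (LinearMap.mem_ker.2 h1) hx
    exact Subtype.ext h2)

/-- the inverse of `ad α` on `[α, Γ]`, zero on `C(α)` -/
noncomputable def adInv (α : Γ) : Γ →ₗ[K] Γ :=
  (LinearMap.range (ad K α)).subtype ∘ₗ (adEquiv K α).symm.toLinearMap ∘ₗ
    (LinearMap.range (ad K α)).projectionOnto (LinearMap.ker (ad K α)) (ad_isCompl K α).symm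

theorem adInv_mem (α y : Γ) : adInv K α y ∈ LinearMap.range (ad K α) := by
  simp only [adInv, LinearMap.comp_apply, Submodule.subtype_apply]
  exact Subtype.mem _

theorem cpi_mem (α y : Γ) : cpi K α y ∈ LinearMap.ker (ad K α) :=
  Submodule.projection_apply_mem _ _

theorem commute_cpi (α y : Γ) : Commute α (cpi K α y) := mem_ker_ad K |>.1 (cpi_mem K α y)

theorem cpi_of_commute {α y : Γ} (h : Commute α y) : cpi K α y = y :=
  Submodule.projection_apply_of_mem_left _ ((mem_ker_ad K).2 h)

theorem cpi_of_mem_range {α y : Γ} (h : y ∈ LinearMap.range (ad K α)) : cpi K α y = 0 := by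
  rw [cpi, Submodule.projection_apply]
  rw [(Submodule.projectionOnto_apply_eq_zero_iff _).2 h]
  rfl

@[simp] theorem cpi_ad (α y : Γ) : cpi K α (ad K α y) = 0 :=
  cpi_of_mem_range K (LinearMap.mem_range_self _ y)

@[simp] theorem cpi_adInv (α y : Γ) : cpi K α (adInv K α y) = 0 :=
  cpi_of_mem_range K (adInv_mem K α y)

theorem ad_adInv (α y : Γ) : ad K α (adInv K α y) = y - cpi K α y := by
  have h1 : ad K α (adInv K α y) = ((LinearMap.range (ad K α)).projectionOnto
      (LinearMap.ker (ad K α)) (ad_isCompl K α).symm y : Γ) := by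
    simp only [adInv, LinearMap.comp_apply, Submodule.subtype_apply, LinearEquiv.coe_coe]
    have := (adEquiv K α).apply_symm_apply ((LinearMap.range (ad K α)).projectionOnto
      (LinearMap.ker (ad K α)) (ad_isCompl K α).symm y)
    exact congrArg Subtype.val this
  rw [h1, cpi]
  have h2 := Submodule.projection_add_projection_eq_self (ad_isCompl K α) y
  rw [eq_sub_iff_add_eq, add_comm]
  exact h2

theorem adInv_of_commute {α y : Γ} (h : Commute α y) : adInv K α y = 0 := by
  have h1 : (LinearMap.range (ad K α)).projectionOnto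
      (LinearMap.ker (ad K α)) (ad_isCompl K α).symm y = 0 :=
    (Submodule.projectionOnto_apply_eq_zero_iff _).2 ((mem_ker_ad K).2 h)
  simp only [adInv, LinearMap.comp_apply, h1, map_zero]

/-- uniqueness of the decomposition -/
theorem eq_of_ad_eq {α b c : Γ} (hb : b ∈ LinearMap.range (ad K α))
    (hc : c ∈ LinearMap.range (ad K α)) (h : ad K α b = ad K α c) : b = c := by
  have h1 : b - c ∈ LinearMap.ker (ad K α) := by rw [LinearMap.mem_ker, map_sub, h, sub_self]
  have h2 := (Submodule.disjoint_def.1 (ad_disjoint K α)) _ h1 (Submodule.sub_mem _ hb hc)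
  exact sub_eq_zero.1 h2

theorem adInv_ad {α b : Γ} (hb : b ∈ LinearMap.range (ad K α)) : adInv K α (ad K α b) = b :=
  eq_of_ad_eq K (adInv_mem K α _) hb (by rw [ad_adInv, cpi_ad, sub_zero])

theorem ad_mul_left {α c : Γ} (hc : Commute α c) (x : Γ) : ad K α (c * x) = c * ad K α x := by
  rw [ad_apply, ad_apply, mul_sub, ← mul_assoc, hc.eq, mul_assoc, mul_assoc]

theorem ad_mul_right {α c : Γ} (hc : Commute α c) (x : Γ) : ad K α (x * c) = ad K α x * c := by
  rw [ad_apply, ad_apply, sub_mul, mul_assoc x c α, ← hc.eq, mul_assoc, mul_assoc]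

theorem mul_mem_range_ad {α c x : Γ} (hc : Commute α c) (hx : x ∈ LinearMap.range (ad K α)) :
    c * x ∈ LinearMap.range (ad K α) := by
  obtain ⟨y, rfl⟩ := hx
  exact ⟨c * y, ad_mul_left K hc y⟩

theorem mem_range_ad_mul {α c x : Γ} (hc : Commute α c) (hx : x ∈ LinearMap.range (ad K α)) :
    x * c ∈ LinearMap.range (ad K α) := by
  obtain ⟨y, rfl⟩ := hx
  exact ⟨y * c, ad_mul_right K hc y⟩

theorem cpi_add_ad (α y : Γ) : cpi K α y + ad K α (adInv K α y) = y := by
  rw [ad_adInv]; abel

theorem cpi_mul_left {α c : Γ} (hc : Commute α c) (x : Γ) : cpi K α (c * x) = c * cpi K α x := by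
  conv_lhs => rw [← cpi_add_ad K α x, mul_add, map_add, ← ad_mul_left K hc, cpi_ad, add_zero]
  exact cpi_of_commute K (hc.mul_right (commute_cpi K α x))

theorem cpi_mul_right {α c : Γ} (hc : Commute α c) (x : Γ) : cpi K α (x * c) = cpi K α x * c := by
  conv_lhs => rw [← cpi_add_ad K α x, add_mul, map_add, ← ad_mul_right K hc, cpi_ad, add_zero]
  exact cpi_of_commute K ((commute_cpi K α x).mul_right hc)

theorem adInv_mul_left {α c : Γ} (hc : Commute α c) (x : Γ) :
    adInv K α (c * x) = c * adInv K α x := by
  refine eq_of_ad_eq K (adInv_mem K α _) (mul_mem_range_ad K hc (adInv_mem K α x)) ?_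
  rw [ad_adInv, ad_mul_left K hc, ad_adInv, cpi_mul_left K hc, mul_sub]

theorem adInv_mul_right {α c : Γ} (hc : Commute α c) (x : Γ) :
    adInv K α (x * c) = adInv K α x * c := by
  refine eq_of_ad_eq K (adInv_mem K α _) (mem_range_ad_mul K hc (adInv_mem K α x)) ?_
  rw [ad_adInv, ad_mul_right K hc, ad_adInv, cpi_mul_right K hc, sub_mul]

/-! ### normalisation -/

section norm
variable {σ : Type}

/-- auxiliary recursion for the normalisation: the right-hand side at the word `w` -/
noncomputable def normX (A : NC σ Γ) (w : List σ) : Γ :=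
  A w + ∑ i : Fin (w.length - 1),
    (adInv K (A []) (normX A (w.take (i + 1))) * A (w.drop (i + 1))
      - cpi K (A []) (normX A (w.take (i + 1))) * adInv K (A []) (normX A (w.drop (i + 1))))
termination_by w.length
decreasing_by
  all_goals
    have h1 := i.2
    simp only [List.length_take, List.length_drop]
    omega

/-- the normalising unit -/
noncomputable def normB (A : NC σ Γ) : NC σ Γ :=
  ⟨fun w => match w with
    | [] => 1
    | (s :: w) => adInv K (A []) (normX K A (s :: w))⟩

/-- the normalised series -/
noncomputable def normA (A : NC σ Γ) : NC σ Γ :=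
  ⟨fun w => match w with
    | [] => A []
    | (s :: w) => cpi K (A []) (normX K A (s :: w))⟩

theorem normB_nil (A : NC σ Γ) : normB K A [] = 1 := rfl
theorem normA_nil (A : NC σ Γ) : normA K A [] = A [] := rfl

theorem normB_of_ne (A : NC σ Γ) {w : List σ} (hw : w ≠ []) :
    normB K A w = adInv K (A []) (normX K A w) := by
  cases w with
  | nil => exact absurd rfl hw
  | cons s w => rfl

theorem normA_of_ne (A : NC σ Γ) {w : List σ} (hw : w ≠ []) :
    normA K A w = cpi K (A []) (normX K A w) := by
  cases w with
  | nil => exact absurd rfl hw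
  | cons s w => rfl

theorem normB_mem (A : NC σ Γ) {w : List σ} (hw : w ≠ []) :
    normB K A w ∈ LinearMap.range (ad K (A [])) := by
  rw [normB_of_ne K A hw]; exact adInv_mem K _ _

theorem commute_normA (A : NC σ Γ) (w : List σ) : Commute (A []) (normA K A w) := by
  cases w with
  | nil => exact Commute.refl _
  | cons s w => exact commute_cpi K _ _

theorem normX_eq (A : NC σ Γ) (w : List σ) :
    normX K A w = A w + ∑ i : Fin (w.length - 1),
      (normB K A (w.take (i + 1)) * A (w.drop (i + 1))
        - normA K A (w.take (i + 1)) * normB K A (w.drop (i + 1))) := by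
  rw [normX]
  congr 1
  refine Finset.sum_congr rfl fun i _ => ?_
  have h1 := i.2
  have h2 : w.take ((i : ℕ) + 1) ≠ [] := by
    intro h
    have := congrArg List.length h
    simp only [List.length_take, List.length_nil] at this
    omega
  have h3 : w.drop ((i : ℕ) + 1) ≠ [] := by
    intro h
    have := congrArg List.length h
    simp only [List.length_drop, List.length_nil] at this
    omega
  rw [normB_of_ne K A h2, normB_of_ne K A h3, normA_of_ne K A h2]

/-- `B A = A' B` -/
theorem normB_mul (A : NC σ Γ) : normB K A * A = normA K A * normB K A := by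
  apply NC.ext'
  intro w
  by_cases hw : w = []
  · subst hw
    simp [normB_nil, normA_nil]
  · rw [NC.mul_apply_of_ne _ _ hw, NC.mul_apply_of_ne _ _ hw, normB_nil, normA_nil, one_mul,
      mul_one]
    have h1 := cpi_add_ad K (A []) (normX K A w)
    rw [← normB_of_ne K A hw, ← normA_of_ne K A hw, normX_eq K A w, ad_apply,
      Finset.sum_sub_distrib] at h1
    have h2 : A w + ∑ i : Fin (w.length - 1), normB K A (w.take (i + 1)) * A (w.drop (i + 1))
        + normB K A w * A []
        = (A w + (∑ i : Fin (w.length - 1), normB K A (w.take (i + 1)) * A (w.drop (i + 1))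
          - ∑ i : Fin (w.length - 1), normA K A (w.take (i + 1)) * normB K A (w.drop (i + 1))))
          + ∑ i : Fin (w.length - 1), normA K A (w.take (i + 1)) * normB K A (w.drop (i + 1))
          + normB K A w * A [] := by abel
    rw [h2, ← h1]
    abel

theorem normA_single (A : NC σ Γ) (s : σ) : normA K A [s] = cpi K (A []) (A [s]) := by
  rw [normA_of_ne K A (by simp), normX_eq]
  simp

theorem normB_single (A : NC σ Γ) (s : σ) : normB K A [s] = adInv K (A []) (A [s]) := by
  rw [normB_of_ne K A (by simp), normX_eq]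
  simp

theorem normA_pair (A : NC σ Γ) (s t : σ) :
    normA K A [s, t] = cpi K (A []) (A [s, t] + adInv K (A []) (A [s]) * A [t]) := by
  rw [normA_of_ne K A (by simp), normX_eq]
  have h : ∀ f : Fin ([s, t].length - 1) → Γ, ∑ i, f i = f ⟨0, by simp⟩ := by
    intro f
    exact Fin.sum_univ_one f
  rw [h]
  simp only [zero_add, List.take_succ_cons, List.take_zero, List.drop_succ_cons, List.drop_zero]
  rw [normB_single, normA_single, normB_single, map_add, map_add, map_sub,
    cpi_mul_left K (commute_cpi K _ _), cpi_adInv, mul_zero, sub_zero]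

/-- Normalisation into the centraliser of the constant term. -/
theorem exists_norm (A : NC σ Γ) : ∃ B A' : NC σ Γ, B [] = 1 ∧ A' [] = A [] ∧
    (∀ w, w ≠ [] → B w ∈ LinearMap.range (ad K (A []))) ∧ (∀ w, Commute (A []) (A' w)) ∧
    B * A = A' * B ∧ (∀ s, A' [s] = cpi K (A []) (A [s])) ∧
    (∀ s, B [s] = adInv K (A []) (A [s])) ∧
    (∀ s t, A' [s, t] = cpi K (A []) (A [s, t] + adInv K (A []) (A [s]) * A [t])) :=
  ⟨normB K A, normA K A, normB_nil K A, normA_nil K A, fun _ hw => normB_mem K A hw,
    commute_normA K A, normB_mul K A, normA_single K A, normB_single K A, normA_pair K A⟩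

end norm

end dom

end ad

end Crest.Agent.R180
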