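import Crest.Agent.R180.NCFacts

set_option autoImplicit false
set_option linter.unusedSectionVars false

/-!
# Row 180, Phase 2: word combinatorics

`o` is a distinguished letter (`γ₁ = o` after a linear change of letters).
`runSum o g w n = ∑_{a+b=n} g (o^a w o^b)`.
If `k • g - o · ∂_o g` has vanishing run sums (i.e. lies in `[·, o] `), so has `g`, and
a series with vanishing run sums is `[b, o] + c o^k`.
-/

namespace Crest.Agent.R180

namespace P2Word

open Finset

variable {σ B : Type} [DecidableEq σ] [AddCommGroup B]

/-- core word: nonempty, does not start or end with `o` -/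
def Core (o : σ) (w : List σ) : Prop := w ≠ [] ∧ w.head? ≠ some o ∧ w.getLast? ≠ some o

/-- outer run sum -/
def runSum (o : σ) (g : List σ → B) (w : List σ) (n : ℕ) : B :=
  ∑ a ∈ range (n + 1), g (List.replicate a o ++ (w ++ List.replicate (n - a) o))

/-- the derivation `o ↦ 1`, other letters `↦ 0` -/
def dd (o : σ) (g : List σ → B) (v : List σ) : B :=
  ∑ i ∈ range (v.length + 1), g (v.insertIdx i o)

/-- `o · ∂_o g` -/
def odd (o : σ) (g : List σ → B) : List σ → B
  | [] => 0
  | s :: v => if s = o then dd o g v else 0

theorem insertIdx_append_left (u v : List σ) (i : ℕ) (hi : i ≤ u.length) (o : σ) :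
    (u ++ v).insertIdx i o = u.insertIdx i o ++ v := by
  induction u generalizing i with
  | nil =>
    have : i = 0 := by simpa using hi
    subst this; simp
  | cons s u ih =>
    cases i with
    | zero => simp
    | succ i =>
      simp only [List.cons_append, List.insertIdx_succ_cons]
      rw [ih i (by simpa using hi)]

theorem insertIdx_append_right (u v : List σ) (i : ℕ) (o : σ) :
    (u ++ v).insertIdx (u.length + i) o = u ++ v.insertIdx i o := by
  induction u with
  | nil => simp
  | cons s u ih =>
    have : (s :: u).length + i = (u.length + i) + 1 := by simp; omega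
    rw [this, List.cons_append, List.insertIdx_succ_cons, ih, List.cons_append]

theorem replicate_insertIdx (a i : ℕ) (hi : i ≤ a) (o : σ) :
    (List.replicate a o).insertIdx i o = List.replicate (a + 1) o := by
  induction a generalizing i with
  | zero =>
    have : i = 0 := by simpa using hi
    subst this; simp
  | succ a ih =>
    cases i with
    | zero => simp [List.replicate_succ]
    | succ i =>
      rw [List.replicate_succ, List.insertIdx_succ_cons, ih i (by simpa using hi),
        ← List.replicate_succ]

/-- sum over the insertions strictly inside `w` -/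
def insSum (o : σ) (F : List σ → B) (w : List σ) : B :=
  ∑ i ∈ range (w.length - 1), F (w.insertIdx (i + 1) o)

theorem dd_run (o : σ) (g : List σ → B) (w : List σ) (hw : w ≠ []) (a b : ℕ) :
    dd o g (List.replicate a o ++ (w ++ List.replicate b o)) =
      (a + 1) • g (List.replicate (a + 1) o ++ (w ++ List.replicate b o)) +
      insSum o (fun w' => g (List.replicate a o ++ (w' ++ List.replicate b o))) w +
      (b + 1) • g (List.replicate a o ++ (w ++ List.replicate (b + 1) o)) := by
  obtain ⟨l, hl⟩ : ∃ l, w.length = l + 1 := ⟨w.length - 1, by
    have := List.length_pos_iff.mpr hw; omega⟩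
  have hlen : (List.replicate a o ++ (w ++ List.replicate b o)).length + 1
      = ((a + 1) + l) + (b + 1) := by simp [hl]; omega
  unfold dd insSum
  rw [hlen, sum_range_add, sum_range_add]
  have e1 : ∑ x ∈ range (a + 1), g ((List.replicate a o ++ (w ++ List.replicate b o)).insertIdx x o)
      = (a + 1) • g (List.replicate (a + 1) o ++ (w ++ List.replicate b o)) := by
    rw [sum_congr rfl (g := fun _ => g (List.replicate (a + 1) o ++ (w ++ List.replicate b o)))]
    · rw [sum_const, card_range]
    · intro x hx
      have hx' : x ≤ a := by have := mem_range.mp hx; omega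
      rw [insertIdx_append_left _ _ _ (by simpa using hx'), replicate_insertIdx _ _ hx']
  have e2 : ∑ x ∈ range l,
        g ((List.replicate a o ++ (w ++ List.replicate b o)).insertIdx (a + 1 + x) o)
      = ∑ i ∈ range (w.length - 1),
          g (List.replicate a o ++ (w.insertIdx (i + 1) o ++ List.replicate b o)) := by
    have : w.length - 1 = l := by omega
    rw [this]
    refine sum_congr rfl fun x hx => ?_
    have hx' := mem_range.mp hx
    have h1 : a + 1 + x = (List.replicate a o).length + (x + 1) := by simp; omega
    rw [h1, insertIdx_append_right, insertIdx_append_left _ _ _ (by omega)]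
  have e3 : ∑ x ∈ range (b + 1),
        g ((List.replicate a o ++ (w ++ List.replicate b o)).insertIdx (a + 1 + l + x) o)
      = (b + 1) • g (List.replicate a o ++ (w ++ List.replicate (b + 1) o)) := by
    rw [sum_congr rfl (g := fun _ => g (List.replicate a o ++ (w ++ List.replicate (b + 1) o)))]
    · rw [sum_const, card_range]
    · intro x hx
      have hx' : x ≤ b := by have := mem_range.mp hx; omega
      have h1 : a + 1 + l + x = (List.replicate a o).length + (w.length + x) := by
        simp [hl]; omega
      rw [h1, insertIdx_append_right, insertIdx_append_right, replicate_insertIdx _ _ hx']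
  rw [e1, e2, e3]

theorem odd_run (o : σ) (g : List σ → B) (w : List σ) (hw : w ≠ []) (a b : ℕ) :
    odd o g (List.replicate (a + 1) o ++ (w ++ List.replicate b o)) =
      (a + 1) • g (List.replicate (a + 1) o ++ (w ++ List.replicate b o)) +
      insSum o (fun w' => g (List.replicate a o ++ (w' ++ List.replicate b o))) w +
      (b + 1) • g (List.replicate a o ++ (w ++ List.replicate (b + 1) o)) := by
  rw [← dd_run o g w hw a b, List.replicate_succ, List.cons_append]
  simp [odd]

theorem odd_core (o : σ) (g : List σ → B) (w : List σ) (hw : Core o w) (b : ℕ) :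
    odd o g (w ++ List.replicate b o) = 0 := by
  cases w with
  | nil => exact absurd rfl hw.1
  | cons s w =>
    have : s ≠ o := fun h => hw.2.1 (by simp [h])
    simp [odd, this]

theorem insSum_add_range (o : σ) (F : ℕ → List σ → B) (w : List σ) (n : ℕ) :
    ∑ a ∈ range n, insSum o (F a) w = insSum o (fun w' => ∑ a ∈ range n, F a w') w := by
  unfold insSum
  rw [sum_comm]

/-- run sum of `o ∂_o g` -/
theorem runSum_odd (o : σ) (g : List σ → B) (w : List σ) (hw : Core o w) (n : ℕ) :
    runSum o (odd o g) w (n + 1) =
      (n + 1) • runSum o g w (n + 1) + insSum o (fun w' => runSum o g w' n) w := by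
  have h0 : runSum o (odd o g) w (n + 1) = ∑ a ∈ range (n + 1),
      odd o g (List.replicate (a + 1) o ++ (w ++ List.replicate (n - a) o)) := by
    unfold runSum
    rw [sum_range_succ']
    simp only [List.replicate_zero, List.nil_append, odd_core o g w hw, add_zero]
    refine sum_congr rfl fun a ha => ?_
    have : n + 1 - (a + 1) = n - a := by omega
    rw [this]
  rw [h0]
  have h1 : ∀ a ∈ range (n + 1),
      odd o g (List.replicate (a + 1) o ++ (w ++ List.replicate (n - a) o)) =
      (a + 1) • g (List.replicate (a + 1) o ++ (w ++ List.replicate (n + 1 - (a + 1)) o)) +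
      insSum o (fun w' => g (List.replicate a o ++ (w' ++ List.replicate (n - a) o))) w +
      (n + 1 - a) • g (List.replicate a o ++ (w ++ List.replicate (n + 1 - a) o)) := by
    intro a ha
    have ha' := mem_range.mp ha
    rw [odd_run o g w hw.1]
    have h2 : n + 1 - (a + 1) = n - a := by omega
    have h3 : n - a + 1 = n + 1 - a := by omega
    rw [h2, h3]
  rw [sum_congr rfl h1, sum_add_distrib, sum_add_distrib, insSum_add_range]
  -- the two weighted sums
  set G : ℕ → B := fun a => g (List.replicate a o ++ (w ++ List.replicate (n + 1 - a) o)) with hG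
  have e1 : ∑ a ∈ range (n + 1), (a + 1) • G (a + 1) = ∑ a ∈ range (n + 2), a • G a := by
    rw [sum_range_succ' (fun a => a • G a) (n + 1)]; simp
  have e2 : ∑ a ∈ range (n + 1), (n + 1 - a) • G a = ∑ a ∈ range (n + 2), (n + 1 - a) • G a := by
    rw [sum_range_succ _ (n + 1)]; simp
  have e3 : ∑ a ∈ range (n + 2), a • G a + ∑ a ∈ range (n + 2), (n + 1 - a) • G a
      = (n + 1) • ∑ a ∈ range (n + 2), G a := by
    rw [← sum_add_distrib, smul_sum]
    refine sum_congr rfl fun a ha => ?_
    have ha' := mem_range.mp ha
    rw [← add_smul]; congr 1; omega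
  have e4 : runSum o g w (n + 1) = ∑ a ∈ range (n + 2), G a := rfl
  rw [e4, ← e3, ← e1, ← e2]
  change ∑ a ∈ range (n + 1), (a + 1) • G (a + 1) + insSum o (fun w' => runSum o g w' n) w
    + ∑ a ∈ range (n + 1), (n + 1 - a) • G a = _
  abel

theorem core_insertIdx (o : σ) (w : List σ) (hw : Core o w) (i : ℕ) (hi : i < w.length - 1) :
    Core o (w.insertIdx (i + 1) o) ∧ (w.insertIdx (i + 1) o).length = w.length + 1 := by
  obtain ⟨hne, hh, hl⟩ := hw
  have hlen : (w.insertIdx (i + 1) o).length = w.length + 1 :=
    List.length_insertIdx_of_le_length (show i + 1 ≤ w.length by omega) o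
  refine ⟨⟨?_, ?_, ?_⟩, hlen⟩
  · intro h; rw [h] at hlen; simp at hlen
  · cases w with
    | nil => exact absurd rfl hne
    | cons s w => rw [List.insertIdx_succ_cons]; simpa using hh
  · rcases List.eq_nil_or_concat w with h | ⟨u, s, rfl⟩
    · exact absurd h hne
    · have hi' : i + 1 ≤ u.length := by simp at hi; omega
      rw [List.concat_eq_append] at hl ⊢
      rw [insertIdx_append_left _ _ _ hi']
      simpa using hl

variable [IsAddTorsionFree B]

/-- Key lemma of Phase 2 (word part). -/
theorem runSum_eq_zero (o : σ) (g : List σ → B) (k : ℕ)
    (h : ∀ (w : List σ) (n : ℕ), Core o w → w.length + n = k →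
      runSum o (fun v => k • g v - odd o g v) w n = 0) :
    ∀ (n : ℕ) (w : List σ), Core o w → w.length + n = k → runSum o g w n = 0 := by
  have key : ∀ (w : List σ) (n : ℕ), runSum o (fun v => k • g v - odd o g v) w n
      = k • runSum o g w n - runSum o (odd o g) w n := by
    intro w n
    unfold runSum
    rw [sum_sub_distrib, smul_sum]
  intro n
  induction n with
  | zero =>
    intro w hw hk
    have h1 := h w 0 hw hk
    rw [key] at h1
    have h2 : runSum o (odd o g) w 0 = 0 := by
      unfold runSum
      simp only [zero_add, range_one, sum_singleton, List.replicate_zero, List.nil_append]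
      exact odd_core o g w hw _
    rw [h2, sub_zero] at h1
    have hk0 : k ≠ 0 := by
      have := List.length_pos_iff.mpr hw.1; omega
    exact (smul_eq_zero_iff_right hk0).mp h1
  | succ n ih =>
    intro w hw hk
    have h1 := h w (n + 1) hw hk
    rw [key, runSum_odd o g w hw n] at h1
    have h2 : insSum o (fun w' => runSum o g w' n) w = 0 := by
      unfold insSum
      refine sum_eq_zero fun i hi => ?_
      obtain ⟨hc, hlen⟩ := core_insertIdx o w hw i (mem_range.mp hi)
      exact ih _ hc (by omega)
    rw [h2, add_zero] at h1
    have hpos := List.length_pos_iff.mpr hw.1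
    have hk' : k = w.length + (n + 1) := hk.symm
    rw [hk', add_smul, add_sub_cancel_right] at h1
    exact (smul_eq_zero_iff_right hpos.ne').mp h1

omit [IsAddTorsionFree B] in
theorem strip_last (o : σ) (v : List σ) :
    ∃ (w : List σ) (m : ℕ), v = w ++ List.replicate m o ∧ w.getLast? ≠ some o := by
  induction v using List.reverseRecOn with
  | nil => exact ⟨[], 0, by simp, by simp⟩
  | append_singleton u s ih =>
    by_cases hs : s = o
    · obtain ⟨w, m, h, hw⟩ := ih
      refine ⟨w, m + 1, ?_, hw⟩
      rw [h, hs, List.append_assoc, List.replicate_succ']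
    · exact ⟨u ++ [s], 0, by simp, by simpa using hs⟩

omit [IsAddTorsionFree B] in
theorem decomp (o : σ) (u : List σ) :
    u = List.replicate u.length o ∨
      ∃ (a : ℕ) (w : List σ) (m : ℕ), Core o w ∧
        u = List.replicate a o ++ (w ++ List.replicate m o) := by
  induction u with
  | nil => left; simp
  | cons s u ih =>
    by_cases hs : s = o
    · subst hs
      rcases ih with h | ⟨a, w, m, hw, h⟩
      · left
        rw [List.length_cons, List.replicate_succ, ← h]
      · right
        refine ⟨a + 1, w, m, hw, ?_⟩
        rw [List.replicate_succ, List.cons_append, ← h]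
    · right
      obtain ⟨w, m, h, hw⟩ := strip_last o (s :: u)
      have hne : w ≠ [] := by
        intro h0
        rw [h0, List.nil_append] at h
        cases m with
        | zero => simp at h
        | succ m => rw [List.replicate_succ] at h; exact hs (List.cons.inj h).1
      refine ⟨0, w, m, ⟨hne, ?_, hw⟩, by simpa using h⟩
      cases w with
      | nil => exact absurd rfl hne
      | cons s' w' =>
        rw [List.cons_append] at h
        rw [← (List.cons.inj h).1]
        simpa using hs

/-- coefficients of `[b, o] = b·o - o·b` -/
def comm (o : σ) (b : List σ → B) (w : List σ) : B :=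
  (if w.getLast? = some o then b w.dropLast else 0) - (if w.head? = some o then b w.tail else 0)

omit [IsAddTorsionFree B] in
theorem comm_run (o : σ) (b : List σ → B) (w : List σ) (hw : Core o w) (a c : ℕ) :
    comm o b (List.replicate a o ++ (w ++ List.replicate c o)) =
      (if c = 0 then 0 else b (List.replicate a o ++ (w ++ List.replicate (c - 1) o))) -
      (if a = 0 then 0 else b (List.replicate (a - 1) o ++ (w ++ List.replicate c o))) := by
  unfold comm
  obtain ⟨hne, hh, hl⟩ := hw
  congr 1
  · cases c with
    | zero =>
      have : (List.replicate a o ++ (w ++ List.replicate 0 o)).getLast? = w.getLast? := by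
        simp only [List.replicate_zero, List.append_nil]
        rw [List.getLast?_append_of_ne_nil _ hne]
      rw [this, if_neg hl, if_pos rfl]
    | succ c =>
      have e : List.replicate a o ++ (w ++ List.replicate (c + 1) o)
          = (List.replicate a o ++ (w ++ List.replicate c o)) ++ [o] := by
        rw [List.replicate_succ']; simp
      rw [e]
      simp
  · cases a with
    | zero =>
      have : (List.replicate 0 o ++ (w ++ List.replicate c o)).head? = w.head? := by
        cases w with
        | nil => exact absurd rfl hne
        | cons s w => simp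
      rw [this, if_neg hh, if_pos rfl]
    | succ a =>
      rw [List.replicate_succ]
      simp

omit [IsAddTorsionFree B] in
theorem comm_replicate (o : σ) (b : List σ → B) (k : ℕ) : comm o b (List.replicate k o) = 0 := by
  unfold comm
  cases k with
  | zero => simp
  | succ k =>
    have h1 : (List.replicate (k + 1) o).dropLast = List.replicate k o := by
      rw [List.replicate_succ']; simp
    have h2 : (List.replicate (k + 1) o).getLast? = some o := by
      rw [List.replicate_succ']; simp
    rw [h1, h2]
    simp [List.replicate_succ]

omit [IsAddTorsionFree B] in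
theorem runSum_comm (o : σ) (b : List σ → B) (w : List σ) (hw : Core o w) (n : ℕ) :
    runSum o (comm o b) w n = 0 := by
  unfold runSum
  rw [sum_congr rfl fun a _ => comm_run o b w hw a (n - a), sum_sub_distrib]
  rw [sum_range_succ, sum_range_succ' (fun a => if a = 0 then (0 : B) else
    b (List.replicate (a - 1) o ++ (w ++ List.replicate (n - a) o)))]
  simp only [Nat.sub_self, if_true, add_zero, Nat.add_sub_cancel]
  rw [sub_eq_zero]
  refine sum_congr rfl fun a ha => ?_
  have ha' := mem_range.mp ha
  rw [if_neg (by omega), if_neg (by omega)]
  have : n - a - 1 = n - (a + 1) := by omega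
  rw [this]

/-- the primitive -/
def bfun (o : σ) (g : List σ → B) (k : ℕ) (u : List σ) : B :=
  if u.length + 1 = k ∧ u ≠ List.replicate u.length o then
    ∑ j ∈ range ((u.takeWhile (· = o)).length + 1), g (u.drop j ++ List.replicate (j + 1) o)
  else 0

omit [IsAddTorsionFree B] in
theorem core_ne_replicate (o : σ) (w : List σ) (hw : Core o w) (a m : ℕ) :
    List.replicate a o ++ (w ++ List.replicate m o) ≠
      List.replicate (List.replicate a o ++ (w ++ List.replicate m o)).length o := by
  intro h
  have : ∀ x ∈ w, x = o := by
    intro x hx
    have hx' : x ∈ List.replicate a o ++ (w ++ List.replicate m o) := by simp [hx]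
    rw [h] at hx'
    exact (List.mem_replicate.mp hx').2
  cases w with
  | nil => exact hw.1 rfl
  | cons s w => exact hw.2.1 (by simp [this s (by simp)])

omit [IsAddTorsionFree B] in
theorem bfun_run (o : σ) (g : List σ → B) (k : ℕ) (w : List σ) (hw : Core o w) (a m : ℕ)
    (hk : a + (w.length + m) + 1 = k) :
    bfun o g k (List.replicate a o ++ (w ++ List.replicate m o)) =
      ∑ j ∈ range (a + 1), g (List.replicate j o ++ (w ++ List.replicate (m + 1 + a - j) o)) := by
  have hlen : (List.replicate a o ++ (w ++ List.replicate m o)).length + 1 = k := by simp; omega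
  have htw : ((List.replicate a o ++ (w ++ List.replicate m o)).takeWhile (· = o)).length = a := by
    have h1 : (w ++ List.replicate m o).takeWhile (fun x => decide (x = o)) = [] := by
      cases w with
      | nil => exact absurd rfl hw.1
      | cons s w =>
        have : s ≠ o := fun h => hw.2.1 (by simp [h])
        simp [this]
    rw [List.takeWhile_append_of_pos (by intro x hx; simp [(List.mem_replicate.mp hx).2]), h1]
    simp
  unfold bfun
  rw [if_pos ⟨hlen, core_ne_replicate o w hw a m⟩, htw, ← sum_range_reflect]
  refine sum_congr rfl fun j hj => ?_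
  have hj' := mem_range.mp hj
  have e1 : a + 1 - 1 - j = a - j := by omega
  rw [e1]
  have e2 : (List.replicate a o ++ (w ++ List.replicate m o)).drop (a - j)
      = List.replicate j o ++ (w ++ List.replicate m o) := by
    rw [List.drop_append_of_le_length (by simp)]
    rw [List.drop_replicate]
    congr 2; omega
  rw [e2]
  congr 1
  rw [List.append_assoc, List.append_assoc, List.replicate_append_replicate]
  congr 3
  omega

omit [IsAddTorsionFree B] in
/-- A function on words of length `k` with vanishing run sums is `[b, o] + g(o^k) o^k`. -/
theorem eq_comm_bfun (o : σ) (g : List σ → B) (k : ℕ)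
    (h : ∀ (w : List σ) (n : ℕ), Core o w → w.length + n = k → runSum o g w n = 0)
    (u : List σ) (hu : u.length = k) (hne : u ≠ List.replicate k o) :
    g u = comm o (bfun o g k) u := by
  rcases decomp o u with h0 | ⟨a, w, c, hw, rfl⟩
  · rw [hu] at h0; exact absurd h0 hne
  · have hlen : a + (w.length + c) = k := by simpa using hu
    rw [comm_run o _ w hw]
    have hpos := List.length_pos_iff.mpr hw.1
    -- partial sums
    set S : ℕ → B := fun j => g (List.replicate j o ++ (w ++ List.replicate (c + a - j) o)) with hS
    have hc : c ≠ 0 → bfun o g k (List.replicate a o ++ (w ++ List.replicate (c - 1) o))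
        = ∑ j ∈ range (a + 1), S j := by
      intro hc
      rw [bfun_run o g k w hw a (c - 1) (by omega)]
      refine sum_congr rfl fun j _ => ?_
      have : c - 1 + 1 + a - j = c + a - j := by omega
      rw [this]
    have ha : a ≠ 0 → bfun o g k (List.replicate (a - 1) o ++ (w ++ List.replicate c o))
        = ∑ j ∈ range a, S j := by
      intro ha
      rw [bfun_run o g k w hw (a - 1) c (by omega)]
      have e : a - 1 + 1 = a := by omega
      rw [e]
      refine sum_congr rfl fun j _ => ?_
      have : c + 1 + (a - 1) - j = c + a - j := by omega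
      rw [this]
    have hS' : g (List.replicate a o ++ (w ++ List.replicate c o)) = S a := by
      simp only [hS]
      congr 4; omega
    have htot : ∑ j ∈ range (c + a + 1), S j = 0 := by
      have := h w (c + a) hw (by omega)
      exact this
    rw [hS']
    by_cases hc0 : c = 0
    · subst hc0
      rw [if_pos rfl, zero_sub]
      rw [zero_add] at htot
      by_cases ha0 : a = 0
      · subst ha0
        rw [if_pos rfl, neg_zero]
        simpa using htot
      · rw [if_neg ha0, ha ha0, eq_neg_iff_add_eq_zero]
        rw [sum_range_succ] at htot
        rw [add_comm]; exact htot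
    · rw [if_neg hc0, hc hc0, sum_range_succ]
      by_cases ha0 : a = 0
      · subst ha0; simp
      · rw [if_neg ha0, ha ha0]; abel

omit [IsAddTorsionFree B] in
theorem bfun_mem (o : σ) (g : List σ → B) (k : ℕ) (S : AddSubgroup B) (hg : ∀ w, g w ∈ S)
    (u : List σ) : bfun o g k u ∈ S := by
  unfold bfun
  split_ifs
  · exact S.sum_mem fun _ _ => hg _
  · exact S.zero_mem

omit [IsAddTorsionFree B] in
theorem bfun_supp (o : σ) (g : List σ → B) (k : ℕ) (u : List σ) (hu : u.length + 1 ≠ k) :
    bfun o g k u = 0 := by
  unfold bfun
  rw [if_neg (fun h => hu h.1)]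

end P2Word

end Crest.Agent.R180
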