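import Crest.Agent.R180.P2NF
import Crest.Agent.R180.P2Word

set_option autoImplicit false
set_option linter.unusedSectionVars false

/-!
# Row 180, Phase 2: the degree argument (helper164)

`dO o` = derivation `o ↦ 1`, other letters `↦ 0`.  If `h` is homogeneous of degree `k ≥ 1`,
supported on words not starting with `o`, and `k • h - γ₁ * dO o h` is a commutator `[b, γ₁]`,
then `h = 0`.
-/

namespace Crest.Agent.R180.P2Deg

open NC Finset P2NF

variable {σ Γ : Type} [Ring Γ]

/-- the derivation `o ↦ 1` -/
def dO (o : σ) (x : NC σ Γ) : NC σ Γ :=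
  ⟨fun v => ∑ i ∈ range (v.length + 1), x (v.insertIdx i o)⟩

theorem dO_apply (o : σ) (x : NC σ Γ) (v : List σ) :
    dO o x v = ∑ i ∈ range (v.length + 1), x (v.insertIdx i o) := rfl

theorem dO_nil (o : σ) (x : NC σ Γ) : dO o x [] = x [o] := by
  rw [dO_apply]; simp

theorem dO_nsmul (o : σ) (k : ℕ) (x : NC σ Γ) : dO o (k • x) = k • dO o x := by
  have hs : ∀ (k : ℕ) (f : NC σ Γ) (w : List σ), (k • f) w = k • f w := by
    intro k f w
    exact map_nsmul (coeffHom w) k f
  apply ext'; intro v
  rw [hs, dO_apply, dO_apply, smul_sum]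
  exact sum_congr rfl fun i _ => hs _ _ _

theorem dO_mul_lf (g : σ → Γ) (o : σ) (ho : g o = 1) (x : NC σ Γ) :
    dO o (x * lf g) = dO o x * lf g + x := by
  classical
  apply ext'; intro v
  rw [NC.add_apply]
  rcases List.eq_nil_or_concat v with rfl | ⟨u, s, rfl⟩
  · rw [mul_lf_nil, zero_add, dO_nil]
    have := mul_lf_append g x [] o
    rw [List.nil_append, ho, mul_one] at this
    exact this
  · rw [List.concat_eq_append, mul_lf_append, dO_apply, dO_apply]
    have hl : (u ++ [s]).length = u.length + 1 := by simp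
    rw [hl, sum_range_succ, sum_mul]
    congr 1
    · refine sum_congr rfl fun i hi => ?_
      have hi' := mem_range.mp hi
      rw [P2Word.insertIdx_append_left _ _ _ (by omega), mul_lf_append]
    · have h1 : (u ++ [s]).insertIdx (u.length + 1) o = (u ++ [s]) ++ [o] := by
        rw [List.append_assoc, P2Word.insertIdx_append_right]
        simp
      rw [h1, mul_lf_append, ho, mul_one]

/-- no coefficient at words starting with `o` -/
def Nst (o : σ) (x : NC σ Γ) : Prop := ∀ v, x (o :: v) = 0

theorem dO_nst (o : σ) (x : NC σ Γ) (hx : Nst o x) : Nst o (dO o x) := by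
  intro v
  rw [dO_apply]
  refine sum_eq_zero fun i _ => ?_
  cases i with
  | zero => rw [List.insertIdx_zero]; exact hx _
  | succ i => rw [List.insertIdx_succ_cons]; exact hx _

/-- homogeneous of degree `k` -/
def Hg (k : ℕ) (x : NC σ Γ) : Prop := ∀ w : List σ, w.length ≠ k → x w = 0

theorem dO_hg (o : σ) (k : ℕ) (x : NC σ Γ) (hx : Hg (k + 1) x) : Hg k (dO o x) := by
  intro w hw
  rw [dO_apply]
  refine sum_eq_zero fun i hi => hx _ ?_
  have hi' := mem_range.mp hi
  rw [List.length_insertIdx_of_le_length (by omega)]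
  omega

theorem nsmul_apply (k : ℕ) (f : NC σ Γ) (w : List σ) : (k • f) w = k • f w :=
  map_nsmul (coeffHom w) k f

theorem eq_zero_of_eq [IsAddTorsionFree Γ] (g : σ → Γ) (o : σ) (ho : g o = 1) (k : ℕ) :
    ∀ h : NC σ Γ, Hg (k + 1) h → Nst o h → (k + 1) • h = dO o h * lf g → h = 0 := by
  induction k with
  | zero =>
    intro h hh ho' he
    have h1 : dO o h = 0 := by
      apply ext'; intro w
      by_cases hw : w = []
      · subst hw; rw [dO_nil]; exact ho' []
      · exact dO_hg o 0 h hh w (by simpa using hw)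
    rw [h1, zero_mul, zero_add, one_smul] at he
    exact he
  | succ k ih =>
    intro h hh ho' he
    have h1 : (k + 1) • dO o h = dO o (dO o h) * lf g := by
      have h2 := congrArg (dO o) he
      rw [dO_nsmul, dO_mul_lf g o ho, add_smul (k + 1) 1, one_smul] at h2
      exact add_right_cancel h2
    have h3 := ih (dO o h) (dO_hg o (k + 1) h hh) (dO_nst o h ho') h1
    rw [h3, zero_mul] at he
    apply ext'; intro w
    have h4 := congrArg (fun f : NC σ Γ => f w) he
    simp only [nsmul_apply, NC.zero_apply] at h4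
    exact (smul_eq_zero_iff_right (by omega)).mp h4

/-- **Main statement.** -/
theorem eq_zero_of_comm_deg [IsAddTorsionFree Γ] (g : σ → Γ) (hg : ∀ i a, a * g i = g i * a)
    (o : σ) (ho : g o = 1) (k : ℕ) (h : NC σ Γ) (hh : Hg (k + 1) h) (hn : Nst o h)
    (b : NC σ Γ) (hb : (k + 1) • h - lf g * dO o h = b * lf g - lf g * b) : h = 0 := by
  refine eq_zero_of_eq g o ho k h hh hn ?_
  rw [← sub_eq_zero]
  refine eq_zero_of_comm g hg o ho (b - dO o h) _ ?_ ?_
  · have : (b - dO o h) * lf g - lf g * (b - dO o h) =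
        (b * lf g - lf g * b) - dO o h * lf g + lf g * dO o h := by noncomm_ring
    rw [this, ← hb]; abel
  · intro v
    rw [NC.sub_apply, nsmul_apply, hn v, smul_zero, zero_sub, neg_eq_zero]
    rcases List.eq_nil_or_concat v with rfl | ⟨u, s, rfl⟩
    · have := mul_lf_append g (dO o h) [] o
      rw [List.nil_append, dO_nil, ho, mul_one] at this
      rw [this]; exact hn []
    · rw [List.concat_eq_append, ← List.cons_append, mul_lf_append, dO_nst o h hn u, zero_mul]

/-- version for functions on `Fin (k+1) → σ`, in the form of `exists_regular_point`: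
the form `p w = (k+1) h(w) - γ₁(w 0) · (∂_o h)(w 1 … w k)` is not a commutator with `γ₁`. -/
theorem not_comm_fin [IsAddTorsionFree Γ] (g : σ → Γ) (hg : ∀ i a, a * g i = g i * a)
    (o : σ) (ho : g o = 1) (k : ℕ) (h : NC σ Γ) (hh : Hg (k + 1) h) (hn : Nst o h) (hne : h ≠ 0) :
    ¬ ∃ b : (Fin k → σ) → Γ, ∀ w : Fin (k + 1) → σ,
      (k + 1) • h (List.ofFn w) - g (w 0) * dO o h (List.ofFn fun j : Fin k => w j.succ) =
        b (fun j => w j.castSucc) * g (w (Fin.last k)) - g (w 0) * b (fun j => w j.succ) := by
  classical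
  rintro ⟨b, hb⟩
  apply hne
  -- homogeneous extension of `b`
  set B : NC σ Γ := ⟨fun v => if hv : v.length = k then b (fun j => v.get (j.cast hv.symm)) else 0⟩
    with hB
  have hBfn : ∀ u : Fin k → σ, B (List.ofFn u) = b u := by
    intro u
    change (if hv : (List.ofFn u).length = k then
      b (fun j => (List.ofFn u).get (j.cast hv.symm)) else 0) = b u
    rw [dif_pos (by simp)]
    congr 1
    funext j
    simp
  refine eq_zero_of_comm_deg g hg o ho k h hh hn B ?_
  apply ext'; intro v
  by_cases hv : v.length = k + 1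
  · obtain ⟨w, rfl⟩ : ∃ w : Fin (k + 1) → σ, List.ofFn w = v := by
      refine ⟨fun j => v.get (j.cast hv.symm), ?_⟩
      apply List.ext_getElem
      · simp [hv]
      · intro n h1 h2
        rw [List.getElem_ofFn]
        rfl
    rw [NC.sub_apply, NC.sub_apply, nsmul_apply]
    have e1 : List.ofFn w = w 0 :: List.ofFn (fun j : Fin k => w j.succ) := by
      rw [List.ofFn_succ]
    have e2 : List.ofFn w = List.ofFn (fun j : Fin k => w j.castSucc) ++ [w (Fin.last k)] := by
      rw [List.ofFn_succ']; simp
    have e3 : (lf g * dO o h) (List.ofFn w) =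
        g (w 0) * dO o h (List.ofFn fun j : Fin k => w j.succ) := by
      rw [e1, lf_mul_cons]
    have e4 : (B * lf g) (List.ofFn w) = b (fun j => w j.castSucc) * g (w (Fin.last k)) := by
      rw [e2, mul_lf_append, hBfn]
    have e5 : (lf g * B) (List.ofFn w) = g (w 0) * b (fun j => w j.succ) := by
      rw [e1, lf_mul_cons, hBfn]
    rw [e3, e4, e5]
    exact hb w
  · rw [NC.sub_apply, NC.sub_apply, nsmul_apply, hh v hv, smul_zero]
    have e1 : (lf g * dO o h) v = 0 := by
      cases v with
      | nil => rw [lf_mul_nil]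
      | cons s v => rw [lf_mul_cons, dO_hg o k h hh v (by simpa using hv), mul_zero]
    have hB0 : ∀ u : List σ, u.length ≠ k → B u = 0 := by
      intro u hu
      change (if hv : u.length = k then b (fun j => u.get (j.cast hv.symm)) else 0) = 0
      rw [dif_neg hu]
    have e2 : (lf g * B) v = 0 := by
      cases v with
      | nil => rw [lf_mul_nil]
      | cons s v => rw [lf_mul_cons, hB0 v (by simpa using hv), mul_zero]
    have e3 : (B * lf g) v = 0 := by
      rcases List.eq_nil_or_concat v with rfl | ⟨u, s, rfl⟩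
      · rw [mul_lf_nil]
      · rw [List.concat_eq_append] at hv ⊢
        rw [mul_lf_append, hB0 u (by simpa using hv), zero_mul]
    rw [e1, e2, e3]

end Crest.Agent.R180.P2Deg
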