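import Crest.Agent.R180.ConjNF

set_option autoImplicit false
set_option linter.unusedSectionVars false

/-!
# Row 180, Phase 2: eigenvalue expansion (helper164)

`A` a ring, `θ ∈ B ≤ A`, `f = θ + ε f₁ + ⋯` with `f_n ∈ B` for `n < m`; `Ξ : A → A` a `B`-bimodule
map vanishing on `B`.  `U f V = λ` has coefficients in `C(θ)`, `Ξ(λ_m) = π(Ξ(f_m))`, etc.
-/

namespace Crest.Agent.R180.P2Eig

open Finset

local notation "PS" => PowerSeries

section Transport

variable {A : Type} [Ring A]

/-- power series in one (central) variable as series in one noncommutative letter -/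
noncomputable def toPS : NC Unit A →+* PowerSeries A where
  toFun f := PowerSeries.mk fun n => f (List.replicate n ())
  map_one' := by
    ext n
    rw [PowerSeries.coeff_mk, PowerSeries.coeff_one]
    cases n with
    | zero => simp
    | succ n => simp [List.replicate_succ]
  map_zero' := by
    ext n
    rw [PowerSeries.coeff_mk]; simp
  map_add' f g := by
    ext n
    simp [PowerSeries.coeff_mk]
  map_mul' f g := by
    ext n
    rw [PowerSeries.coeff_mk, PowerSeries.coeff_mul, ConjNF.mul_apply, List.length_replicate,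
      Finset.Nat.sum_antidiagonal_eq_sum_range_succ_mk]
    refine sum_congr rfl fun i hi => ?_
    have hi' := mem_range.mp hi
    rw [PowerSeries.coeff_mk, PowerSeries.coeff_mk, List.take_replicate, List.drop_replicate]
    have : min i n = i := by omega
    rw [this]

theorem coeff_toPS (f : NC Unit A) (n : ℕ) :
    PowerSeries.coeff n (toPS f) = f (List.replicate n ()) :=
  PowerSeries.coeff_mk n (fun n => f (List.replicate n ()))

/-- inverse map -/
noncomputable def frPS (p : PowerSeries A) : NC Unit A := ⟨fun w => PowerSeries.coeff w.length p⟩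

theorem toPS_frPS (p : PowerSeries A) : toPS (frPS p) = p := by
  ext n
  rw [coeff_toPS]
  change PowerSeries.coeff (List.replicate n ()).length p = _
  rw [List.length_replicate]

theorem replicate_eq (w : List Unit) : List.replicate w.length () = w := by
  symm
  rw [List.eq_replicate_iff]
  exact ⟨rfl, fun _ _ => rfl⟩

end Transport

section Split

variable {F A : Type} [Field F] [Ring A] [Algebra F A] {θ : A} (S : ConjNF.SplitData F θ)

/-- the splitting data preserve subalgebras containing `θ` -/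
theorem split_mem [CharZero F] [FiniteDimensional F A] [IsDomain A] (B : Subalgebra F A)
    (hθ : θ ∈ B) : (∀ x ∈ B, S.π x ∈ B) ∧ (∀ x ∈ B, S.κ x ∈ B) := by
  obtain ⟨T⟩ := ConjNF.exists_splitData (F := F) (⟨θ, hθ⟩ : B)
  have key : ∀ x : B, S.π (x : A) = (T.π x : A) ∧ S.κ (x : A) = (T.κ x : A) - S.π (T.κ x : A) := by
    intro x
    apply S.eq_of_split
    · have := congrArg (Subtype.val) (T.comm x)
      simpa using this
    · have := congrArg (Subtype.val) (T.split x)
      simpa using this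
  have h1 : ∀ x ∈ B, S.π x ∈ B := fun x hx => by
    rw [(key ⟨x, hx⟩).1]; exact (T.π ⟨x, hx⟩).2
  refine ⟨h1, fun x hx => ?_⟩
  rw [(key ⟨x, hx⟩).2]
  exact B.sub_mem (T.κ ⟨x, hx⟩).2 (h1 _ (T.κ ⟨x, hx⟩).2)

variable (B : Subring A) (Ξ : A →+ A)

/-- bimodule maps over `B ∋ θ` commute with the projection -/
theorem split_bimod (hθ : θ ∈ B) (hl : ∀ a ∈ B, ∀ x, Ξ (a * x) = a * Ξ x)
    (hr : ∀ a ∈ B, ∀ x, Ξ (x * a) = Ξ x * a) (x : A) : S.π (Ξ x) = Ξ (S.π x) := by
  refine (S.eq_of_split (u := Ξ (S.κ x)) ?_ ?_).1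
  · rw [← hl θ hθ, ← hr θ hθ, S.comm]
  · conv_lhs => rw [S.split x]
    rw [map_add, map_sub, hl θ hθ, hr θ hθ]

theorem π_one : S.π 1 = 1 := S.π_of_comm 1 (by simp)

end Split

section Main

variable {F A : Type} [Field F] [Ring A] [Algebra F A] {θ : A} (S : ConjNF.SplitData F θ)
  (B : Subring A) (Ξ : A →+ A)

/-- **Eigenvalue expansion.** -/
theorem exists_eig (hθ : θ ∈ B) (hπ : ∀ x ∈ B, S.π x ∈ B) (hκ : ∀ x ∈ B, S.κ x ∈ B)
    (hl : ∀ a ∈ B, ∀ x, Ξ (a * x) = a * Ξ x) (hr : ∀ a ∈ B, ∀ x, Ξ (x * a) = Ξ x * a)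
    (h0 : ∀ a ∈ B, Ξ a = 0) (f : PowerSeries A) (hf0 : PowerSeries.coeff 0 f = θ) (m : ℕ)
    (hm : 1 ≤ m) (hf : ∀ n < m, PowerSeries.coeff n f ∈ B) :
    ∃ U V : PowerSeries A, U * V = 1 ∧ V * U = 1 ∧ PowerSeries.coeff 0 U = 1 ∧
      (∀ n < m, PowerSeries.coeff n U ∈ B) ∧ PowerSeries.coeff 0 (U * f * V) = θ ∧
      (∀ n, θ * PowerSeries.coeff n (U * f * V) = PowerSeries.coeff n (U * f * V) * θ) ∧
      (∀ n < m, PowerSeries.coeff n (U * f * V) ∈ B) ∧
      Ξ (PowerSeries.coeff m (U * f * V)) = S.π (Ξ (PowerSeries.coeff m f)) := by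
  set φ : NC Unit A := frPS f with hφ
  have hφ0 : φ [] = θ := hf0
  have hφm : ∀ w : List Unit, w.length < m → φ w ∈ B := fun w hw => hf _ hw
  set U := ConjNF.cU θ S.π S.κ φ with hU
  set G := ConjNF.cG θ S.π S.κ φ with hG
  have hUG : U * φ = G * U := ConjNF.cU_mul θ S.π S.κ S.split φ hφ0
  obtain ⟨V, hV1, hV2, hV3⟩ := ConjNF.exists_inv U (ConjNF.cU_nil θ S.π S.κ φ)
  have e : U * φ * V = G := by rw [hUG, mul_assoc, hV1, mul_one]
  -- membership
  have hmem : ∀ n, ∀ w : List Unit, w.length = n → n < m → U w ∈ B ∧ G w ∈ B := by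
    intro n
    induction n using Nat.strong_induction_on with
    | _ n ih =>
    intro w hw hn
    cases w with
    | nil =>
      rw [hU, hG, ConjNF.cU_nil, ConjNF.cG_nil]
      exact ⟨B.one_mem, hθ⟩
    | cons s w =>
      have hR : ConjNF.rest θ S.π S.κ φ s w ∈ B := by
        rw [ConjNF.rest_eq]
        refine B.add_mem (hφm _ (by omega)) (B.sum_mem fun i hi => ?_)
        have hi' := mem_range.mp hi
        rw [List.length_cons] at hw
        have h1 : ((s :: w).take (i + 1)).length < n := by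
          rw [List.length_take, List.length_cons]; omega
        have h2 : ((s :: w).drop (i + 1)).length < n := by
          rw [List.length_drop, List.length_cons]; omega
        refine B.sub_mem (B.mul_mem (ih _ h1 _ rfl (by omega)).1 (hφm _ (by omega)))
          (B.mul_mem (ih _ h1 _ rfl (by omega)).2 (ih _ h2 _ rfl (by omega)).1)
      rw [hU, hG, ConjNF.cU_cons, ConjNF.cG_cons]
      exact ⟨hκ _ hR, hπ _ hR⟩
  have hcomm : ∀ w, θ * G w = G w * θ := by
    intro w
    cases w with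
    | nil => rw [hG, ConjNF.cG_nil]
    | cons s w => rw [hG, ConjNF.cG_cons]; exact S.comm _
  have hΞ : ∀ w : List Unit, w.length = m → Ξ (G w) = S.π (Ξ (φ w)) := by
    intro w hw
    cases w with
    | nil => simp at hw; omega
    | cons s w =>
      rw [hG, ConjNF.cG_cons, ← split_bimod S B Ξ hθ hl hr]
      congr 1
      rw [ConjNF.rest_eq, map_add]
      have : Ξ (∑ i ∈ range w.length, (ConjNF.cU θ S.π S.κ φ ((s :: w).take (i + 1)) *
          φ ((s :: w).drop (i + 1)) - ConjNF.cG θ S.π S.κ φ ((s :: w).take (i + 1)) *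
            ConjNF.cU θ S.π S.κ φ ((s :: w).drop (i + 1)))) = 0 := by
        apply h0
        refine B.sum_mem fun i hi => ?_
        have hi' := mem_range.mp hi
        rw [List.length_cons] at hw
        have h1 : ((s :: w).take (i + 1)).length < m := by
          rw [List.length_take, List.length_cons]; omega
        have h2 : ((s :: w).drop (i + 1)).length < m := by
          rw [List.length_drop, List.length_cons]; omega
        exact B.sub_mem (B.mul_mem (hmem _ _ rfl h1).1 (hφm _ h2))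
          (B.mul_mem (hmem _ _ rfl h1).2 (hmem _ _ rfl h2).1)
      rw [this, add_zero]
  have hfφ : toPS φ = f := toPS_frPS f
  have eG : toPS U * f * toPS V = toPS G := by
    rw [← hfφ, ← map_mul, ← map_mul, e]
  refine ⟨toPS U, toPS V, ?_, ?_, ?_, ?_, ?_, ?_, ?_, ?_⟩
  · rw [← map_mul, hV1, map_one]
  · rw [← map_mul, hV2, map_one]
  · rw [coeff_toPS]; exact ConjNF.cU_nil θ S.π S.κ φ
  · intro n hn
    rw [coeff_toPS]
    exact (hmem n _ (by simp) hn).1
  · rw [eG, coeff_toPS]; exact ConjNF.cG_nil θ S.π S.κ φ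
  · intro n
    rw [eG, coeff_toPS]; exact hcomm _
  · intro n hn
    rw [eG, coeff_toPS]
    exact (hmem n _ (by simp) hn).2
  · rw [eG, coeff_toPS, hΞ _ (by simp)]
    congr 2
    change PowerSeries.coeff (List.replicate m ()).length f = _
    rw [List.length_replicate]

/-- coefficients of the inverse -/
theorem inv_mem (U V : PowerSeries A) (hUV : U * V = 1) (hU0 : PowerSeries.coeff 0 U = 1) (m : ℕ)
    (hU : ∀ n < m, PowerSeries.coeff n U ∈ B) : ∀ n < m, PowerSeries.coeff n V ∈ B := by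
  intro n
  induction n using Nat.strong_induction_on with
  | _ n ih =>
  intro hn
  have h1 := congrArg (PowerSeries.coeff n) hUV
  rw [PowerSeries.coeff_mul, Finset.Nat.sum_antidiagonal_eq_sum_range_succ_mk,
    sum_range_succ'] at h1
  simp only [hU0, one_mul, Nat.sub_zero] at h1
  have h2 : PowerSeries.coeff n V = PowerSeries.coeff n (1 : PowerSeries A) -
      ∑ k ∈ range n, PowerSeries.coeff (k + 1) U * PowerSeries.coeff (n - (k + 1)) V := by
    rw [← h1]; abel
  rw [h2]
  refine B.sub_mem ?_ (B.sum_mem fun k hk => ?_)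
  · rw [PowerSeries.coeff_one]
    split_ifs
    · exact B.one_mem
    · exact B.zero_mem
  · have hk' := mem_range.mp hk
    exact B.mul_mem (hU _ (by omega)) (ih _ (by omega) (by omega))

/-- coefficients of products -/
theorem mul_mem_lt (x y : PowerSeries A) (m : ℕ) (hx : ∀ n < m, PowerSeries.coeff n x ∈ B)
    (hy : ∀ n < m, PowerSeries.coeff n y ∈ B) : ∀ n < m, PowerSeries.coeff n (x * y) ∈ B := by
  intro n hn
  rw [PowerSeries.coeff_mul]
  refine B.sum_mem fun p hp => ?_
  have hp' := mem_antidiagonal.mp hp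
  exact B.mul_mem (hx _ (by omega)) (hy _ (by omega))

include Ξ in
/-- `Ξ` of the `m`-th coefficient of a product, one factor without constant term -/
theorem Xi_mul_left (hl : ∀ a ∈ B, ∀ x, Ξ (a * x) = a * Ξ x) (h0 : ∀ a ∈ B, Ξ a = 0)
    (x y : PowerSeries A) (m : ℕ) (hy0 : PowerSeries.coeff 0 y = 0)
    (hx : ∀ n < m, PowerSeries.coeff n x ∈ B)
    (hy : ∀ n < m, PowerSeries.coeff n y ∈ B) (hx0 : PowerSeries.coeff 0 x = 1) :
    Ξ (PowerSeries.coeff m (x * y)) = Ξ (PowerSeries.coeff m y) := by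
  rw [PowerSeries.coeff_mul, Finset.Nat.sum_antidiagonal_eq_sum_range_succ_mk,
    sum_range_succ']
  simp only [hx0, one_mul, Nat.sub_zero]
  rw [map_add]
  have : Ξ (∑ k ∈ range m, PowerSeries.coeff (k + 1) x * PowerSeries.coeff (m - (k + 1)) y) = 0 := by
    rw [map_sum]
    refine sum_eq_zero fun k hk => ?_
    have hk' := mem_range.mp hk
    by_cases hkm : k + 1 = m
    · rw [hkm, Nat.sub_self, hy0, mul_zero, map_zero]
    · rw [hl _ (hx _ (by omega)), h0 _ (hy _ (by omega)), mul_zero]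
  rw [this, zero_add]

include Ξ in
theorem Xi_mul_right (hr : ∀ a ∈ B, ∀ x, Ξ (x * a) = Ξ x * a) (h0 : ∀ a ∈ B, Ξ a = 0)
    (x y : PowerSeries A) (m : ℕ) (hx0 : PowerSeries.coeff 0 x = 0)
    (hx : ∀ n < m, PowerSeries.coeff n x ∈ B)
    (hy : ∀ n < m, PowerSeries.coeff n y ∈ B) (hy0 : PowerSeries.coeff 0 y = 1) :
    Ξ (PowerSeries.coeff m (x * y)) = Ξ (PowerSeries.coeff m x) := by
  rw [PowerSeries.coeff_mul, Finset.Nat.sum_antidiagonal_eq_sum_range_succ_mk,
    sum_range_succ]
  simp only [Nat.sub_self, hy0, mul_one]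
  rw [map_add]
  have : Ξ (∑ k ∈ range m, PowerSeries.coeff k x * PowerSeries.coeff (m - k) y) = 0 := by
    rw [map_sum]
    refine sum_eq_zero fun k hk => ?_
    have hk' := mem_range.mp hk
    by_cases hk0 : k = 0
    · rw [hk0, hx0, zero_mul, map_zero]
    · rw [hr _ (hy _ (by omega)), h0 _ (hx _ (by omega)), zero_mul]
  rw [this, zero_add]

/-- conjugate of a tangent vector `x = 1 + ⋯` -/
theorem conj_tangent (hl : ∀ a ∈ B, ∀ x, Ξ (a * x) = a * Ξ x)
    (hr : ∀ a ∈ B, ∀ x, Ξ (x * a) = Ξ x * a) (h0 : ∀ a ∈ B, Ξ a = 0)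
    (U V x : PowerSeries A) (hUV : U * V = 1) (hU0 : PowerSeries.coeff 0 U = 1) (m : ℕ)
    (hU : ∀ n < m, PowerSeries.coeff n U ∈ B) (hx0 : PowerSeries.coeff 0 x = 1)
    (hx : ∀ n < m, PowerSeries.coeff n x ∈ B) :
    PowerSeries.coeff 0 (U * x * V) = 1 ∧ (∀ n < m, PowerSeries.coeff n (U * x * V) ∈ B) ∧
      Ξ (PowerSeries.coeff m (U * x * V)) = Ξ (PowerSeries.coeff m x) := by
  have hV := inv_mem B U V hUV hU0 m hU
  have hV0 : PowerSeries.coeff 0 V = 1 := by
    have := congrArg (PowerSeries.coeff 0) hUV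
    rw [PowerSeries.coeff_mul] at this
    simpa [hU0] using this
  have hc0 : ∀ a b : PowerSeries A, PowerSeries.coeff 0 (a * b) =
      PowerSeries.coeff 0 a * PowerSeries.coeff 0 b := by
    intro a b
    rw [PowerSeries.coeff_mul]; simp
  refine ⟨?_, ?_, ?_⟩
  · rw [hc0, hc0, hU0, hx0, hV0, one_mul, one_mul]
  · exact mul_mem_lt B _ _ m (mul_mem_lt B _ _ m hU hx) hV
  · have hxd : U * x * V = 1 + U * (x - 1) * V := by
      rw [mul_sub, sub_mul, mul_one, hUV]; abel
    have hx1 : PowerSeries.coeff 0 (x - 1) = 0 := by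
      rw [map_sub, hx0]; simp
    have hx1m : ∀ n < m, PowerSeries.coeff n (x - 1) ∈ B := by
      intro n hn
      rw [map_sub]
      refine B.sub_mem (hx n hn) ?_
      rw [PowerSeries.coeff_one]
      split_ifs
      · exact B.one_mem
      · exact B.zero_mem
    have hone : ∀ n, Ξ (PowerSeries.coeff n (1 : PowerSeries A)) = 0 := by
      intro n
      rw [PowerSeries.coeff_one]
      split_ifs
      · exact h0 _ B.one_mem
      · exact map_zero _
    rw [hxd, map_add, map_add, hone, zero_add,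
      Xi_mul_right B Ξ hr h0 _ V m (by rw [hc0, hx1, mul_zero])
        (mul_mem_lt B _ _ m hU hx1m) hV hV0,
      Xi_mul_left B Ξ hl h0 U _ m hx1 hU hx1m hU0, map_sub, map_sub, hone, sub_zero]

/-- the operator `ε d/dε` -/
noncomputable def eul (f : PowerSeries A) : PowerSeries A :=
  PowerSeries.mk fun n => n • PowerSeries.coeff n f

theorem coeff_eul (f : PowerSeries A) (n : ℕ) :
    PowerSeries.coeff n (eul f) = n • PowerSeries.coeff n f := PowerSeries.coeff_mk _ _

theorem eul_mul (f g : PowerSeries A) : eul (f * g) = eul f * g + f * eul g := by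
  ext n
  rw [coeff_eul, map_add, PowerSeries.coeff_mul, PowerSeries.coeff_mul, PowerSeries.coeff_mul,
    smul_sum, ← sum_add_distrib]
  refine sum_congr rfl fun p hp => ?_
  have hp' := mem_antidiagonal.mp hp
  rw [coeff_eul, coeff_eul, smul_mul_assoc, mul_smul_comm, ← add_smul, hp']

theorem eul_one : eul (1 : PowerSeries A) = 0 := by
  ext n
  rw [coeff_eul, PowerSeries.coeff_one]
  by_cases h : n = 0 <;> simp [h]

/-- conjugate of the Euler direction -/
theorem conj_eul (U V f : PowerSeries A) (hUV : U * V = 1) (hVU : V * U = 1) :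
    U * eul f * V = eul (U * f * V) - (eul U * V * (U * f * V) - U * f * V * (eul U * V)) := by
  have h1 : eul U * V + U * eul V = 0 := by
    rw [← eul_mul, hUV, eul_one]
  have h2 : eul (U * f * V) = eul U * f * V + U * eul f * V + U * f * eul V := by
    rw [eul_mul, eul_mul, add_mul]
  have h3 : eul U * V * (U * f * V) = eul U * f * V := by
    calc eul U * V * (U * f * V) = eul U * (V * U) * f * V := by simp only [mul_assoc]
      _ = _ := by rw [hVU, mul_one]
  have h4 : U * f * V * (eul U * V) = - (U * f * eul V) := by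
    have h5 : eul U * V = - (U * eul V) := eq_neg_of_add_eq_zero_left h1
    rw [h5, mul_neg]
    congr 1
    calc U * f * V * (U * eul V) = U * f * (V * U) * eul V := by simp only [mul_assoc]
      _ = _ := by rw [hVU, mul_one]
  rw [h2, h3, h4]; abel

/-- coefficientwise projection -/
noncomputable def πPS (y : PowerSeries A) : PowerSeries A :=
  PowerSeries.mk fun n => S.π (PowerSeries.coeff n y)

theorem coeff_πPS (y : PowerSeries A) (n : ℕ) :
    PowerSeries.coeff n (πPS S y) = S.π (PowerSeries.coeff n y) := PowerSeries.coeff_mk _ _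

theorem πPS_add (x y : PowerSeries A) : πPS S (x + y) = πPS S x + πPS S y := by
  ext n; rw [coeff_πPS, map_add, map_add, map_add, coeff_πPS, coeff_πPS]

theorem πPS_sub (x y : PowerSeries A) : πPS S (x - y) = πPS S x - πPS S y := by
  ext n; rw [coeff_πPS, map_sub, map_sub, map_sub, coeff_πPS, coeff_πPS]

theorem πPS_of_comm (y : PowerSeries A)
    (hy : ∀ n, θ * PowerSeries.coeff n y = PowerSeries.coeff n y * θ) : πPS S y = y := by
  ext n; rw [coeff_πPS, S.π_of_comm _ (hy n)]

theorem πPS_mul_left (c y : PowerSeries A)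
    (hc : ∀ n, θ * PowerSeries.coeff n c = PowerSeries.coeff n c * θ) :
    πPS S (c * y) = c * πPS S y := by
  ext n
  rw [coeff_πPS, PowerSeries.coeff_mul, PowerSeries.coeff_mul, map_sum]
  refine sum_congr rfl fun p _ => ?_
  rw [(S.π_mul_left (hc _) _).1, coeff_πPS]

theorem πPS_mul_right (c y : PowerSeries A)
    (hc : ∀ n, θ * PowerSeries.coeff n c = PowerSeries.coeff n c * θ) :
    πPS S (y * c) = πPS S y * c := by
  ext n
  rw [coeff_πPS, PowerSeries.coeff_mul, PowerSeries.coeff_mul, map_sum]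
  refine sum_congr rfl fun p _ => ?_
  rw [(S.π_mul_right (hc _) _).1, coeff_πPS]

/-- power series with coefficients in the commutative centralizer commute -/
theorem ps_comm (hcomm : ∀ x y : A, θ * x = x * θ → θ * y = y * θ → x * y = y * x)
    (x y : PowerSeries A) (hx : ∀ n, θ * PowerSeries.coeff n x = PowerSeries.coeff n x * θ)
    (hy : ∀ n, θ * PowerSeries.coeff n y = PowerSeries.coeff n y * θ) : x * y = y * x := by
  ext n
  rw [PowerSeries.coeff_mul, PowerSeries.coeff_mul, ← Finset.Nat.sum_antidiagonal_swap]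
  refine sum_congr rfl fun p _ => ?_
  exact hcomm _ _ (hx _) (hy _)

/-- projection of the Euler direction -/
theorem πPS_eul (hcomm : ∀ x y : A, θ * x = x * θ → θ * y = y * θ → x * y = y * x)
    (U V f : PowerSeries A) (hUV : U * V = 1) (hVU : V * U = 1)
    (hlam : ∀ n, θ * PowerSeries.coeff n (U * f * V) = PowerSeries.coeff n (U * f * V) * θ) :
    πPS S (U * (f + eul f) * V) = U * f * V + eul (U * f * V) := by
  have h1 : U * (f + eul f) * V = U * f * V + U * eul f * V := by rw [mul_add, add_mul]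
  have h2 : ∀ n, θ * PowerSeries.coeff n (eul (U * f * V)) =
      PowerSeries.coeff n (eul (U * f * V)) * θ := by
    intro n
    rw [coeff_eul, mul_smul_comm, smul_mul_assoc, hlam]
  have h3 : πPS S (eul U * V * (U * f * V) - U * f * V * (eul U * V)) = 0 := by
    rw [πPS_sub, πPS_mul_right S _ _ hlam, πPS_mul_left S _ _ hlam, sub_eq_zero]
    apply ps_comm hcomm
    · intro n; rw [coeff_πPS]; exact S.comm _
    · exact hlam
  rw [h1, πPS_add, conj_eul U V f hUV hVU, πPS_sub, h3, πPS_of_comm S _ hlam,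
    πPS_of_comm S _ h2, sub_zero]

/-- projection of the tangent vector `1 + ⋯` -/
theorem πPS_tangent (hθ : θ ∈ B) (hπ : ∀ x ∈ B, S.π x ∈ B)
    (hl : ∀ a ∈ B, ∀ x, Ξ (a * x) = a * Ξ x)
    (hr : ∀ a ∈ B, ∀ x, Ξ (x * a) = Ξ x * a) (h0 : ∀ a ∈ B, Ξ a = 0)
    (U V x : PowerSeries A) (hUV : U * V = 1) (hU0 : PowerSeries.coeff 0 U = 1) (m : ℕ)
    (hU : ∀ n < m, PowerSeries.coeff n U ∈ B) (hx0 : PowerSeries.coeff 0 x = 1)
    (hx : ∀ n < m, PowerSeries.coeff n x ∈ B) :
    PowerSeries.coeff 0 (πPS S (U * x * V)) = 1 ∧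
      (∀ n < m, PowerSeries.coeff n (πPS S (U * x * V)) ∈ B) ∧
      Ξ (PowerSeries.coeff m (πPS S (U * x * V))) = S.π (Ξ (PowerSeries.coeff m x)) := by
  obtain ⟨h1, h2, h3⟩ := conj_tangent B Ξ hl hr h0 U V x hUV hU0 m hU hx0 hx
  refine ⟨?_, ?_, ?_⟩
  · rw [coeff_πPS, h1, π_one]
  · intro n hn
    rw [coeff_πPS]; exact hπ _ (h2 n hn)
  · rw [coeff_πPS, ← split_bimod S B Ξ hθ hl hr, h3]

/-- **The ratio.**  `ρ = (λ + ε λ')/τ₀` has `Ξ(ρ_m) = π((m+1) Ξ(f_m) - θ Ξ(x_m))`. -/
theorem ratio (hθ : θ ∈ B)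
    (hl : ∀ a ∈ B, ∀ x, Ξ (a * x) = a * Ξ x) (h0 : ∀ a ∈ B, Ξ a = 0) (m : ℕ) (hm : 1 ≤ m)
    (lam τ₀ ρ : PowerSeries A) (hl0 : PowerSeries.coeff 0 lam = θ)
    (hlB : ∀ n < m, PowerSeries.coeff n lam ∈ B)
    (hτ0 : PowerSeries.coeff 0 τ₀ = 1) (hτB : ∀ n < m, PowerSeries.coeff n τ₀ ∈ B)
    (hρ : ρ * τ₀ = lam + eul lam) (fm xm : A)
    (h1 : Ξ (PowerSeries.coeff m lam) = S.π (Ξ fm))
    (h2 : Ξ (PowerSeries.coeff m τ₀) = S.π (Ξ xm)) :
    PowerSeries.coeff 0 ρ = θ ∧
      Ξ (PowerSeries.coeff m ρ) = S.π ((m + 1) • Ξ fm - θ * Ξ xm) := by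
  have hρB : ∀ n < m, PowerSeries.coeff n ρ ∈ B := by
    intro n
    induction n using Nat.strong_induction_on with
    | _ n ih =>
    intro hn
    have e1 := congrArg (PowerSeries.coeff n) hρ
    rw [PowerSeries.coeff_mul, Finset.Nat.sum_antidiagonal_eq_sum_range_succ_mk,
      sum_range_succ, Nat.sub_self, hτ0, mul_one, map_add, coeff_eul] at e1
    have e2 : PowerSeries.coeff n ρ = PowerSeries.coeff n lam + n • PowerSeries.coeff n lam -
        ∑ k ∈ range n, PowerSeries.coeff k ρ * PowerSeries.coeff (n - k) τ₀ := by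
      rw [← e1]; abel
    rw [e2]
    refine B.sub_mem (B.add_mem (hlB n hn) (B.nsmul_mem (hlB n hn) n)) (B.sum_mem fun k hk => ?_)
    have hk' := mem_range.mp hk
    exact B.mul_mem (ih k hk' (by omega)) (hτB _ (by omega))
  have hρ0 : PowerSeries.coeff 0 ρ = θ := by
    have e1 := congrArg (PowerSeries.coeff 0) hρ
    rw [PowerSeries.coeff_mul, Finset.Nat.sum_antidiagonal_eq_sum_range_succ_mk,
      sum_range_succ, Nat.sub_self, hτ0, mul_one, map_add, coeff_eul, hl0] at e1
    simpa using e1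
  refine ⟨hρ0, ?_⟩
  have e1 := congrArg (PowerSeries.coeff m) hρ
  rw [PowerSeries.coeff_mul, Finset.Nat.sum_antidiagonal_eq_sum_range_succ_mk,
    sum_range_succ, Nat.sub_self, hτ0, mul_one, map_add, coeff_eul] at e1
  obtain ⟨j, rfl⟩ : ∃ j, m = j + 1 := ⟨m - 1, by omega⟩
  rw [sum_range_succ'] at e1
  simp only [Nat.sub_zero, hρ0] at e1
  have e2 : PowerSeries.coeff (j + 1) ρ = (j + 1 + 1) • PowerSeries.coeff (j + 1) lam
      - θ * PowerSeries.coeff (j + 1) τ₀ -
        ∑ k ∈ range j, PowerSeries.coeff (k + 1) ρ * PowerSeries.coeff (j + 1 - (k + 1)) τ₀ := by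
    rw [add_smul (j + 1) 1, one_smul, add_comm ((j + 1) • PowerSeries.coeff (j + 1) lam), ← e1]
    abel
  rw [e2, map_sub, map_sub, map_nsmul, hl θ hθ, h1, h2]
  have e3 : Ξ (∑ k ∈ range j,
      PowerSeries.coeff (k + 1) ρ * PowerSeries.coeff (j + 1 - (k + 1)) τ₀) = 0 := by
    apply h0
    refine B.sum_mem fun k hk => ?_
    have hk' := mem_range.mp hk
    exact B.mul_mem (hρB _ (by omega)) (hτB _ (by omega))
  rw [e3, sub_zero, map_sub, map_nsmul, (S.π_mul_left rfl _).1]

end Main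

end Crest.Agent.R180.P2Eig
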