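import Crest.Agent.R180.ConjNF
import Crest.Agent.R180.NCFacts

set_option autoImplicit false
set_option linter.unusedSectionVars false

/-!
# Row 180: one-shot normal form with respect to a central linear form (helper164)

`γ₁ = lf g = ∑ g s • t_s` with central coefficients and `g o = 1`.
Every series is `[b, γ₁] + h + ∑ c_k γ₁^k` with `h` supported on words not starting with `o`
(explicit formulas `bet`, `eta`, `chi`).  Consequence (`exists_nf`): every `γ` with linear part
`γ₁` is conjugate to `∑ c_k γ₁^k + h`.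
-/

namespace Crest.Agent.R180.P2NF

open NC Finset

variable {σ Γ : Type} [Ring Γ]

/-- underlying function of a linear form -/
def lfFun (g : σ → Γ) : List σ → Γ
  | [] => 0
  | [s] => g s
  | (_ :: _ :: _) => 0

/-- the linear form `∑ g s • t_s` -/
def lf (g : σ → Γ) : NC σ Γ := ⟨lfFun g⟩

@[simp] theorem lf_nil (g : σ → Γ) : lf g [] = 0 := rfl
@[simp] theorem lf_single (g : σ → Γ) (s : σ) : lf g [s] = g s := rfl
@[simp] theorem lf_cons_cons (g : σ → Γ) (s r : σ) (w : List σ) : lf g (s :: r :: w) = 0 := rfl

theorem lf_of_length (g : σ → Γ) (w : List σ) (hw : w.length ≠ 1) : lf g w = 0 := by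
  match w with
  | [] => rfl
  | [s] => exact absurd rfl hw
  | _ :: _ :: _ => rfl

theorem ld_lf (g : σ → Γ) (s : σ) : ld s (lf g) = C (g s) := by
  apply ext'; intro w; cases w <;> rfl

theorem lf_mul_nil (g : σ → Γ) (f : NC σ Γ) : (lf g * f) [] = 0 := by simp

theorem lf_mul_cons (g : σ → Γ) (f : NC σ Γ) (s : σ) (w : List σ) :
    (lf g * f) (s :: w) = g s * f w := by
  rw [mul_cons, ld_lf, C_mul_apply, lf_nil, zero_mul, add_zero]

theorem mul_lf_nil (g : σ → Γ) (f : NC σ Γ) : (f * lf g) [] = 0 := by simp

theorem mul_lf_append (g : σ → Γ) (f : NC σ Γ) (w : List σ) (s : σ) :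
    (f * lf g) (w ++ [s]) = f w * g s := by
  induction w generalizing f with
  | nil => rw [List.nil_append, mul_cons, mul_nil, lf_nil, mul_zero, zero_add, lf_single]
  | cons a w ih =>
    have h0 : lf g (a :: (w ++ [s])) = 0 := by cases w <;> rfl
    rw [List.cons_append, mul_cons, ih, h0, mul_zero, add_zero, ld_apply]

/-- product of the coefficients -/
def wp (g : σ → Γ) (w : List σ) : Γ := (w.map g).prod

@[simp] theorem wp_nil (g : σ → Γ) : wp g [] = 1 := by simp [wp]
theorem wp_append (g : σ → Γ) (u v : List σ) : wp g (u ++ v) = wp g u * wp g v := by simp [wp]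
theorem wp_single (g : σ → Γ) (s : σ) : wp g [s] = g s := by simp [wp]
theorem wp_cons (g : σ → Γ) (s : σ) (v : List σ) : wp g (s :: v) = g s * wp g v := by simp [wp]

theorem wp_central (g : σ → Γ) (hg : ∀ i a, a * g i = g i * a) (w : List σ) (a : Γ) :
    a * wp g w = wp g w * a := by
  induction w with
  | nil => simp
  | cons s w ih => rw [wp_cons, ← mul_assoc, hg, mul_assoc, ih, mul_assoc]

theorem wp_replicate (g : σ → Γ) (o : σ) (ho : g o = 1) (n : ℕ) :
    wp g (List.replicate n o) = 1 := by
  simp [wp, ho]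

/-- powers of the linear form -/
theorem lf_pow_apply (g : σ → Γ) (n : ℕ) (w : List σ) :
    (lf g ^ n) w = if w.length = n then wp g w else 0 := by
  induction n generalizing w with
  | zero => cases w <;> simp
  | succ n ih =>
    rw [pow_succ']
    cases w with
    | nil => rw [lf_mul_nil]; simp
    | cons s w =>
      rw [lf_mul_cons, ih, wp_cons]
      by_cases h : w.length = n <;> simp [h]

/-- the partial terms -/
def Sj (g : σ → Γ) (o : σ) (p : List σ → Γ) (w : List σ) (j : ℕ) : Γ :=
  p (List.replicate j o ++ w.take (w.length - j)) * wp g (w.drop (w.length - j))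

theorem Sj_zero (g : σ → Γ) (o : σ) (p : List σ → Γ) (w : List σ) : Sj g o p w 0 = p w := by
  simp [Sj]

theorem Sj_length (g : σ → Γ) (o : σ) (p : List σ → Γ) (w : List σ) :
    Sj g o p w w.length = p (List.replicate w.length o) * wp g w := by
  simp [Sj]

/-- the primitive -/
def bet (g : σ → Γ) (o : σ) (p : NC σ Γ) : NC σ Γ :=
  ⟨fun v => - ∑ j ∈ range (v.length + 1),
    p (List.replicate (j + 1) o ++ v.take (v.length - j)) * wp g (v.drop (v.length - j))⟩

/-- the pure part -/
def chi (g : σ → Γ) (o : σ) (p : NC σ Γ) : NC σ Γ :=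
  ⟨fun w => p (List.replicate w.length o) * wp g w⟩

/-- the normal part -/
def eta (g : σ → Γ) (o : σ) (p : NC σ Γ) : NC σ Γ :=
  p - chi g o p - (bet g o p * lf g - lf g * bet g o p)

theorem bet_apply (g : σ → Γ) (o : σ) (p : NC σ Γ) (v : List σ) :
    bet g o p v = - ∑ j ∈ range (v.length + 1),
      p (List.replicate (j + 1) o ++ v.take (v.length - j)) * wp g (v.drop (v.length - j)) := rfl

theorem chi_apply (g : σ → Γ) (o : σ) (p : NC σ Γ) (w : List σ) :
    chi g o p w = p (List.replicate w.length o) * wp g w := rfl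

theorem decomp (g : σ → Γ) (o : σ) (p : NC σ Γ) :
    p = (bet g o p * lf g - lf g * bet g o p) + eta g o p + chi g o p := by
  unfold eta; abel

theorem bet_mul_lf (g : σ → Γ) (o : σ) (p : NC σ Γ) (w : List σ) :
    (bet g o p * lf g) w = - ∑ j ∈ range w.length, Sj g o p w (j + 1) := by
  rcases List.eq_nil_or_concat w with rfl | ⟨v, s, rfl⟩
  · rw [mul_lf_nil]; simp
  · rw [List.concat_eq_append, mul_lf_append, bet_apply, neg_mul, sum_mul]
    have hl : (v ++ [s]).length = v.length + 1 := by simp
    rw [hl]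
    congr 1
    refine sum_congr rfl fun j hj => ?_
    have hj' := mem_range.mp hj
    unfold Sj
    rw [hl]
    have h1 : v.length + 1 - (j + 1) = v.length - j := by omega
    rw [h1, List.take_append_of_le_length (by omega), List.drop_append_of_le_length (by omega),
      wp_append, wp_single, mul_assoc]

theorem lf_mul_bet (g : σ → Γ) (o : σ) (ho : g o = 1) (p : NC σ Γ) (v : List σ) :
    (lf g * bet g o p) (o :: v) = - ∑ j ∈ range (o :: v).length, Sj g o p (o :: v) j := by
  rw [lf_mul_cons, ho, one_mul, bet_apply]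
  congr 1
  rw [List.length_cons]
  refine sum_congr rfl fun j hj => ?_
  have hj' := mem_range.mp hj
  unfold Sj
  have h1 : (o :: v).length - j = (v.length - j) + 1 := by simp; omega
  rw [h1, List.take_succ_cons, List.drop_succ_cons]
  congr 2
  rw [List.replicate_succ', List.append_assoc, List.singleton_append]

theorem eta_cons (g : σ → Γ) (o : σ) (ho : g o = 1) (p : NC σ Γ) (v : List σ) :
    eta g o p (o :: v) = 0 := by
  unfold eta
  rw [NC.sub_apply, NC.sub_apply, NC.sub_apply, bet_mul_lf, lf_mul_bet g o ho, chi_apply]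
  have h1 := sum_range_succ (fun j => Sj g o p (o :: v) j) (o :: v).length
  have h2 := sum_range_succ' (fun j => Sj g o p (o :: v) j) (o :: v).length
  rw [h1, Sj_zero, Sj_length] at h2
  have h3 : ∑ x ∈ range (o :: v).length, Sj g o p (o :: v) x =
      ∑ k ∈ range (o :: v).length, Sj g o p (o :: v) (k + 1) + p (o :: v) -
        p (List.replicate (o :: v).length o) * wp g (o :: v) := by
    rw [← h2]; abel
  rw [h3]; abel

theorem eta_nil (g : σ → Γ) (o : σ) (p : NC σ Γ) : eta g o p [] = 0 := by
  unfold eta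
  simp [chi_apply]

/-! ### locality -/

theorem bet_local (g : σ → Γ) (o : σ) (p q : NC σ Γ) (n : ℕ)
    (h : ∀ w : List σ, w.length < n + 1 → p w = q w) (v : List σ) (hv : v.length < n) :
    bet g o p v = bet g o q v := by
  rw [bet_apply, bet_apply]
  congr 1
  refine sum_congr rfl fun j hj => ?_
  have hj' := mem_range.mp hj
  rw [h]
  simp; omega

/-! ### uniqueness -/

/-- a commutator with `γ₁` supported on words not starting with `o` vanishes -/
theorem eq_zero_of_comm (g : σ → Γ) (hg : ∀ i a, a * g i = g i * a) (o : σ) (ho : g o = 1)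
    (b h : NC σ Γ) (hb : h = b * lf g - lf g * b) (hh : ∀ v, h (o :: v) = 0) : h = 0 := by
  have h1 : ∀ v, b v = (b * lf g) (o :: v) := by
    intro v
    have := hh v
    rw [hb, NC.sub_apply, lf_mul_cons, ho, one_mul, sub_eq_zero] at this
    exact this.symm
  have h2 : ∀ (w u : List σ), b (u ++ w) = b (List.replicate w.length o ++ u) * wp g w := by
    intro w
    induction w using List.reverseRecOn with
    | nil => intro u; simp
    | append_singleton w s ih =>
      intro u
      rw [← List.append_assoc, h1, ← List.cons_append, mul_lf_append, ← List.cons_append, ih,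
        wp_append, wp_single, mul_assoc]
      congr 2
      rw [List.length_append, List.length_singleton, List.replicate_succ', List.append_assoc,
        List.singleton_append]
  have h3 : ∀ w, b w = b (List.replicate w.length o) * wp g w := by
    intro w
    have := h2 w []
    simpa using this
  apply ext'
  intro w
  rw [hb, NC.sub_apply, NC.zero_apply]
  rcases List.eq_nil_or_concat w with rfl | ⟨v, s, rfl⟩
  · rw [lf_mul_nil, mul_lf_nil, sub_zero]
  · rw [List.concat_eq_append, mul_lf_append, h3]
    cases v with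
    | nil =>
      rw [List.nil_append, lf_mul_cons]
      simp [hg]
    | cons r v =>
      rw [List.cons_append, lf_mul_cons, h3 (v ++ [s])]
      have : (v ++ [s]).length = (r :: v).length := by simp
      have e : ∀ c x y : Γ, c * (g r * x) * y = g r * (c * (x * y)) := by
        intro c x y
        rw [← mul_assoc c, hg r c]
        simp only [mul_assoc]
      rw [this, wp_append, wp_single, wp_cons, e, sub_self]

/-! ### the conjugation normal form -/

/-- fixed points of contracting maps on pairs of functions on words -/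
theorem exists_fix {A B : Type} (T : (List σ → A) × (List σ → B) → (List σ → A) × (List σ → B))
    (x0 : (List σ → A) × (List σ → B)) (h0 : ∀ w : List σ, w.length < 1 → (T x0).2 w = x0.2 w)
    (hT : ∀ (n : ℕ) (x y : (List σ → A) × (List σ → B)),
      (∀ w : List σ, w.length < n → x.1 w = y.1 w) →
      (∀ w : List σ, w.length < n + 1 → x.2 w = y.2 w) →
      (∀ w : List σ, w.length < n + 1 → (T x).1 w = (T y).1 w) ∧
        (∀ w : List σ, w.length < n + 2 → (T x).2 w = (T y).2 w)) :
    ∃ x, T x = x := by
  set x : ℕ → (List σ → A) × (List σ → B) := fun k => T^[k] x0 with hx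
  have hxs : ∀ k, x (k + 1) = T (x k) := fun k => Function.iterate_succ_apply' T k x0
  have c1 : ∀ k, (∀ w : List σ, w.length < k → (x k).1 w = (x (k + 1)).1 w) ∧
      (∀ w : List σ, w.length < k + 1 → (x k).2 w = (x (k + 1)).2 w) := by
    intro k
    induction k with
    | zero =>
      refine ⟨fun w hw => absurd hw (Nat.not_lt_zero _), fun w hw => ?_⟩
      rw [hxs]
      exact (h0 w hw).symm
    | succ k ih =>
      obtain ⟨h1, h2⟩ := hT k (x k) (x (k + 1)) ih.1 ih.2
      exact ⟨fun w hw => by rw [hxs k, hxs (k + 1)]; exact h1 w hw,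
        fun w hw => by rw [hxs k, hxs (k + 1)]; exact h2 w hw⟩
  have c2 : ∀ k m, (∀ w : List σ, w.length < k → (x k).1 w = (x (k + m)).1 w) ∧
      (∀ w : List σ, w.length < k + 1 → (x k).2 w = (x (k + m)).2 w) := by
    intro k m
    induction m with
    | zero => exact ⟨fun _ _ => rfl, fun _ _ => rfl⟩
    | succ m ih =>
      refine ⟨fun w hw => ?_, fun w hw => ?_⟩
      · rw [ih.1 w hw]
        exact (c1 (k + m)).1 w (by omega)
      · rw [ih.2 w hw]
        exact (c1 (k + m)).2 w (by omega)
  set y : (List σ → A) × (List σ → B) :=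
    (fun w => (x (w.length + 1)).1 w, fun w => (x (w.length + 1)).2 w) with hy
  have c3 : ∀ k, (∀ w : List σ, w.length < k → y.1 w = (x k).1 w) ∧
      (∀ w : List σ, w.length < k + 1 → y.2 w = (x k).2 w) := by
    intro k
    refine ⟨fun w hw => ?_, fun w hw => ?_⟩
    · obtain ⟨m, hm⟩ : ∃ m, k = (w.length + 1) + m := ⟨k - (w.length + 1), by omega⟩
      rw [hm]
      exact (c2 (w.length + 1) m).1 w (by omega)
    · by_cases hk : w.length < k
      · obtain ⟨m, hm⟩ : ∃ m, k = (w.length + 1) + m := ⟨k - (w.length + 1), by omega⟩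
        rw [hm]
        exact (c2 (w.length + 1) m).2 w (by omega)
      · have hk' : w.length = k := by omega
        change (x (w.length + 1)).2 w = (x k).2 w
        rw [hk']
        exact ((c1 k).2 w hw).symm
  refine ⟨y, ?_⟩
  have c4 : ∀ k, (∀ w : List σ, w.length < k + 1 → (T y).1 w = y.1 w) ∧
      (∀ w : List σ, w.length < k + 2 → (T y).2 w = y.2 w) := by
    intro k
    obtain ⟨h1, h2⟩ := hT k y (x k) (c3 k).1 (c3 k).2
    rw [← hxs k] at h1 h2
    exact ⟨fun w hw => (h1 w hw).trans ((c3 (k + 1)).1 w hw).symm,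
      fun w hw => (h2 w hw).trans ((c3 (k + 1)).2 w hw).symm⟩
  exact Prod.ext (funext fun w => (c4 w.length).1 w (by omega))
    (funext fun w => (c4 w.length).2 w (by omega))

section exists_nf

variable (g : σ → Γ) (o : σ) (γ' : NC σ Γ)

open Classical in
/-- kill the constant term -/
noncomputable def cut1 (b : List σ → Γ) : NC σ Γ := ⟨fun w => if w.length < 1 then 0 else b w⟩
open Classical in
/-- kill the terms of degree at most `1` -/
noncomputable def cut2 (b : List σ → Γ) : NC σ Γ := ⟨fun w => if w.length < 2 then 0 else b w⟩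

/-- the remainder -/
noncomputable def Rem (x : (List σ → Γ) × (List σ → Γ)) : NC σ Γ :=
  γ' + cut1 x.1 * γ' - cut2 x.2 * cut1 x.1

/-- the contraction -/
noncomputable def Tmap (x : (List σ → Γ) × (List σ → Γ)) : (List σ → Γ) × (List σ → Γ) :=
  ((- bet g o (Rem γ' x)).coeff,
    (Rem γ' x - (bet g o (Rem γ' x) * lf g - lf g * bet g o (Rem γ' x))).coeff)

theorem cut1_local {b b' : List σ → Γ} {n : ℕ} (h : ∀ w : List σ, w.length < n → b w = b' w)
    (w : List σ) (hw : w.length < n) : cut1 b w = cut1 b' w := by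
  change (if w.length < 1 then (0 : Γ) else b w) = (if w.length < 1 then 0 else b' w)
  rw [h w hw]

theorem cut2_local {b b' : List σ → Γ} {n : ℕ} (h : ∀ w : List σ, w.length < n → b w = b' w)
    (w : List σ) (hw : w.length < n) : cut2 b w = cut2 b' w := by
  change (if w.length < 2 then (0 : Γ) else b w) = (if w.length < 2 then 0 else b' w)
  rw [h w hw]

theorem cut1_short (b : List σ → Γ) (w : List σ) (hw : w.length < 1) : cut1 b w = 0 := by
  change (if w.length < 1 then (0 : Γ) else b w) = 0
  rw [if_pos hw]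

theorem cut2_short (b : List σ → Γ) (w : List σ) (hw : w.length < 2) : cut2 b w = 0 := by
  change (if w.length < 2 then (0 : Γ) else b w) = 0
  rw [if_pos hw]

theorem cut1_eq (b : List σ → Γ) (hb : b [] = 0) : cut1 b = ⟨b⟩ := by
  apply ext'; intro w
  change (if w.length < 1 then (0 : Γ) else b w) = b w
  split_ifs with h
  · have : w = [] := by simpa using h
    rw [this, hb]
  · rfl

theorem cut2_eq (b : List σ → Γ) (hb : ∀ w : List σ, w.length < 2 → b w = 0) : cut2 b = ⟨b⟩ := by
  apply ext'; intro w
  change (if w.length < 2 then (0 : Γ) else b w) = b w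
  split_ifs with h
  · rw [hb w h]
  · rfl

theorem mul_local {f f' h h' : NC σ Γ} {a b n : ℕ} (hf : ∀ w : List σ, w.length < a → f w = f' w)
    (hh : ∀ w : List σ, w.length < b → h w = h' w)
    (ha : ∀ w : List σ, w.length + a ≤ n → h w = 0 ∧ h' w = 0)
    (hb : ∀ w : List σ, w.length + b ≤ n → f w = 0 ∧ f' w = 0)
    (w : List σ) (hw : w.length ≤ n) : (f * h) w = (f' * h') w := by
  rw [ConjNF.mul_apply, ConjNF.mul_apply]
  refine sum_congr rfl fun i hi => ?_
  have hi' := mem_range.mp hi
  have h1 : (w.take i).length = i := by rw [List.length_take]; omega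
  have h2 : (w.drop i).length = w.length - i := by rw [List.length_drop]
  by_cases hia : i < a
  · rw [hf _ (by omega)]
    by_cases hib : w.length - i < b
    · rw [hh _ (by omega)]
    · obtain ⟨_, h4⟩ := hb (w.take i) (by omega)
      rw [h4, zero_mul, zero_mul]
  · obtain ⟨h3, h4⟩ := ha (w.drop i) (by omega)
    rw [h3, h4, mul_zero, mul_zero]

theorem Rem_local (hγ : ∀ w : List σ, w.length < 2 → γ' w = 0) {n : ℕ}
    {x y : (List σ → Γ) × (List σ → Γ)}
    (h1 : ∀ w : List σ, w.length < n → x.1 w = y.1 w)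
    (h2 : ∀ w : List σ, w.length < n + 1 → x.2 w = y.2 w) (w : List σ) (hw : w.length < n + 2) :
    Rem γ' x w = Rem γ' y w := by
  unfold Rem
  rw [NC.sub_apply, NC.sub_apply, NC.add_apply, NC.add_apply]
  have e1 : (cut1 x.1 * γ') w = (cut1 y.1 * γ') w := by
    refine mul_local (a := n) (b := n + 2) (n := n + 1) (cut1_local h1) (fun _ _ => rfl) ?_ ?_ w
      (by omega)
    · intro v hv
      have := hγ v (by omega)
      exact ⟨this, this⟩
    · intro v hv; omega
  have e2 : (cut2 x.2 * cut1 x.1) w = (cut2 y.2 * cut1 y.1) w := by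
    refine mul_local (a := n + 1) (b := n) (n := n + 1) (cut2_local h2) (cut1_local h1) ?_ ?_ w
      (by omega)
    · intro v hv
      exact ⟨cut1_short _ v (by omega), cut1_short _ v (by omega)⟩
    · intro v hv
      exact ⟨cut2_short _ v (by omega), cut2_short _ v (by omega)⟩
  rw [e1, e2]

theorem comm_local {p q : NC σ Γ} {n : ℕ} (h : ∀ w : List σ, w.length < n + 1 → p w = q w)
    (w : List σ) (hw : w.length < n + 2) :
    (p * lf g - lf g * p) w = (q * lf g - lf g * q) w := by
  rw [NC.sub_apply, NC.sub_apply]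
  congr 1
  · rcases List.eq_nil_or_concat w with rfl | ⟨v, s, rfl⟩
    · rw [mul_lf_nil, mul_lf_nil]
    · rw [List.concat_eq_append] at hw ⊢
      rw [mul_lf_append, mul_lf_append, h v (by simp at hw; omega)]
  · cases w with
    | nil => rw [lf_mul_nil, lf_mul_nil]
    | cons s v =>
      rw [lf_mul_cons, lf_mul_cons, h v (by simp at hw; omega)]

theorem Rem_short (hγ : ∀ w : List σ, w.length < 2 → γ' w = 0)
    (x : (List σ → Γ) × (List σ → Γ)) (w : List σ) (hw : w.length < 2) : Rem γ' x w = 0 := by
  unfold Rem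
  rw [NC.sub_apply, NC.add_apply, hγ w hw, zero_add]
  have e1 : (cut1 x.1 * γ') w = 0 := mul_eq_zero_of_short _ _ 2 hγ w hw
  have e2 : (cut2 x.2 * cut1 x.1) w = 0 := by
    rw [ConjNF.mul_apply]
    refine sum_eq_zero fun i _ => ?_
    rw [cut2_short _ _ (by rw [List.length_take]; omega), zero_mul]
  rw [e1, e2, sub_zero]

theorem comm_bet_short (hg : ∀ i a, a * g i = g i * a) (p : NC σ Γ) (w : List σ)
    (hw : w.length < 2) : (bet g o p * lf g - lf g * bet g o p) w = 0 := by
  rw [NC.sub_apply]
  match w, hw with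
  | [], _ => rw [mul_lf_nil, lf_mul_nil, sub_zero]
  | [s], _ =>
    have : (bet g o p * lf g) [s] = bet g o p [] * g s := mul_lf_append g _ [] s
    rw [this, lf_mul_cons, hg, sub_self]

/-- **Normal form with respect to a central linear form.** -/
theorem exists_nf_aux (hg : ∀ i a, a * g i = g i * a) (ho : g o = 1)
    (hγ : ∀ w : List σ, w.length < 2 → γ' w = 0) :
    ∃ b h : NC σ Γ, ∃ c : ℕ → Γ, b [] = 0 ∧ (∀ w : List σ, w.length < 2 → h w = 0) ∧
      (∀ v, h (o :: v) = 0) ∧ c 0 = 0 ∧ c 1 = 0 ∧
      (1 + b) * (lf g + γ') = (lf g + (h + ⟨fun w => c w.length * wp g w⟩)) * (1 + b) := by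
  classical
  obtain ⟨x, hx⟩ := exists_fix (Tmap g o γ') (fun _ => 0, fun _ => 0) (by
    intro w hw
    change (Rem γ' _ - (bet g o (Rem γ' _) * lf g - lf g * bet g o (Rem γ' _))) w = 0
    rw [NC.sub_apply, Rem_short γ' hγ _ w (by omega), comm_bet_short g o hg _ w (by omega),
      sub_zero]) (by
    intro n x y h1 h2
    have hR := Rem_local γ' hγ h1 h2
    have hB : ∀ w : List σ, w.length < n + 1 → bet g o (Rem γ' x) w = bet g o (Rem γ' y) w :=
      fun w hw => bet_local g o _ _ (n + 1) hR w hw
    refine ⟨fun w hw => ?_, fun w hw => ?_⟩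
    · change (- bet g o (Rem γ' x)) w = (- bet g o (Rem γ' y)) w
      rw [NC.neg_apply, NC.neg_apply, hB w hw]
    · change (Rem γ' x - (bet g o (Rem γ' x) * lf g - lf g * bet g o (Rem γ' x))) w =
        (Rem γ' y - (bet g o (Rem γ' y) * lf g - lf g * bet g o (Rem γ' y))) w
      have e := comm_local g hB w hw
      rw [NC.sub_apply (Rem γ' x), NC.sub_apply (Rem γ' y), hR w hw, e])
  set R := Rem γ' x with hR
  set b : NC σ Γ := ⟨x.1⟩ with hb
  set ν : NC σ Γ := ⟨x.2⟩ with hν
  have hx1 : b = - bet g o R := by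
    have := congrArg (fun z => (⟨z.1⟩ : NC σ Γ)) hx
    exact this.symm
  have hx2 : ν = R - (bet g o R * lf g - lf g * bet g o R) := by
    have := congrArg (fun z => (⟨z.2⟩ : NC σ Γ)) hx
    exact this.symm
  have hRs := Rem_short γ' hγ x
  rw [← hR] at hRs
  have hb0 : b [] = 0 := by
    rw [hx1, NC.neg_apply, bet_apply]
    simp [hRs [o] (by simp)]
  have hν0 : ∀ w : List σ, w.length < 2 → ν w = 0 := by
    intro w hw
    rw [hx2, NC.sub_apply, hRs w hw, comm_bet_short g o hg _ w hw, sub_zero]
  have hR' : R = γ' + b * γ' - ν * b := by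
    rw [hR]
    unfold Rem
    rw [cut1_eq x.1 hb0, cut2_eq x.2 hν0]
  have hdec := decomp g o R
  refine ⟨b, eta g o R, fun n => R (List.replicate n o), hb0, ?_, eta_cons g o ho R, ?_, ?_, ?_⟩
  · intro w hw
    unfold eta
    rw [NC.sub_apply, NC.sub_apply, comm_bet_short g o hg _ w hw, hRs w hw, chi_apply,
      hRs _ (by simpa using hw)]
    simp
  · exact hRs _ (by simp)
  · exact hRs _ (by simp)
  · have hchi : (⟨fun w => R (List.replicate w.length o) * wp g w⟩ : NC σ Γ) = chi g o R := rfl
    have hν' : ν = eta g o R + chi g o R := by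
      rw [hx2]
      conv_lhs => rw [hdec]
      have : ∀ (z e c : NC σ Γ), z + e + c - z = e + c := by intro z e c; abel
      rw [← hdec]
      unfold eta
      abel
    change (1 + b) * (lf g + γ') = (lf g + (eta g o R + chi g o R)) * (1 + b)
    rw [← hν']
    have h1 : ν = R + (b * lf g - lf g * b) := by
      rw [hx2, hx1]; noncomm_ring
    have h2 : (1 + b) * (lf g + γ') - (lf g + ν) * (1 + b)
        = (b * lf g - lf g * b) + (γ' + b * γ' - ν * b) - ν := by noncomm_ring
    rw [← sub_eq_zero, h2, ← hR', h1]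
    abel

end exists_nf

/-- powers of a series without constant term -/
theorem pow_short (γ : NC σ Γ) (h0 : γ [] = 0) (m : ℕ) :
    (∀ w : List σ, w.length < m → (γ ^ m) w = 0) ∧
    (∀ w : List σ, w.length = m → (γ ^ m) w = wp (fun s => γ [s]) w) := by
  induction m with
  | zero =>
    refine ⟨fun w hw => absurd hw (Nat.not_lt_zero _), fun w hw => ?_⟩
    have : w = [] := by simpa using hw
    subst this
    simp
  | succ m ih =>
    refine ⟨fun w hw => ?_, fun w hw => ?_⟩
    · rw [pow_succ']
      cases w with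
      | nil => rw [mul_nil, h0, zero_mul]
      | cons s w =>
        rw [mul_cons, h0, zero_mul, add_zero]
        exact mul_eq_zero_of_short _ _ m ih.1 w (by simp at hw; omega)
    · rw [pow_succ']
      cases w with
      | nil => simp at hw
      | cons s w =>
        have hw' : w.length = m := by simpa using hw
        rw [mul_cons, h0, zero_mul, add_zero, mul_eq_of_short _ _ m ih.1 w hw'.le, ih.2 w hw',
          ld_apply, wp_cons]

section Comm

variable {Φ : Type} [CommRing Φ]

/-- restriction to the powers of the letter `o` -/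
noncomputable def pureHom (o : σ) : NC σ Φ →+* PowerSeries Φ where
  toFun f := PowerSeries.mk fun n => f (List.replicate n o)
  map_one' := by
    ext n
    rw [PowerSeries.coeff_mk, PowerSeries.coeff_one]
    cases n with
    | zero => simp
    | succ n => simp [List.replicate_succ]
  map_zero' := by
    ext n
    rw [PowerSeries.coeff_mk]; simp
  map_add' f g := by
    ext n
    simp [PowerSeries.coeff_mk]
  map_mul' f g := by
    ext n
    rw [PowerSeries.coeff_mk, PowerSeries.coeff_mul, ConjNF.mul_apply, List.length_replicate,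
      Finset.Nat.sum_antidiagonal_eq_sum_range_succ_mk]
    refine sum_congr rfl fun i hi => ?_
    have hi' := mem_range.mp hi
    rw [PowerSeries.coeff_mk, PowerSeries.coeff_mk, List.take_replicate, List.drop_replicate]
    have : min i n = i := by omega
    rw [this]

theorem coeff_pureHom (o : σ) (f : NC σ Φ) (n : ℕ) :
    PowerSeries.coeff n (pureHom o f) = f (List.replicate n o) :=
  PowerSeries.coeff_mk n (fun n => f (List.replicate n o))

/-- coefficients of the compositional inverse of the pure part -/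
noncomputable def Hrec (γ : NC σ Φ) (o : σ) (m : ℕ) : Φ :=
  (if m = 1 then 1 else 0) - ∑ n : Fin m, Hrec γ o n * (γ ^ (n : ℕ)) (List.replicate m o)
termination_by m
decreasing_by exact n.2

theorem Hrec_zero (γ : NC σ Φ) (o : σ) : Hrec γ o 0 = 0 := by
  rw [Hrec]; simp

theorem Hrec_one (γ : NC σ Φ) (o : σ) : Hrec γ o 1 = 1 := by
  rw [Hrec]; simp [Hrec_zero]

/-- value at `γ` of a power series with coefficients `H` -/
noncomputable def hval (H : ℕ → Φ) (γ : NC σ Φ) : NC σ Φ :=
  ⟨fun w => ∑ n ∈ range (w.length + 1), H n * (γ ^ n) w⟩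

theorem hval_apply (H : ℕ → Φ) (γ : NC σ Φ) (w : List σ) :
    hval H γ w = ∑ n ∈ range (w.length + 1), H n * (γ ^ n) w := rfl

theorem hval_Hrec (γ : NC σ Φ) (h0 : γ [] = 0) (o : σ) (ho : γ [o] = 1) (m : ℕ) :
    hval (Hrec γ o) γ (List.replicate m o) = if m = 1 then 1 else 0 := by
  rw [hval_apply, List.length_replicate, sum_range_succ,
    (pow_short γ h0 m).2 _ (by simp)]
  have h1 : wp (fun s => γ [s]) (List.replicate m o) = 1 :=
    wp_replicate (fun s => γ [s]) o ho m
  rw [h1, mul_one, Hrec, sum_range (fun n => Hrec γ o n * (γ ^ n) (List.replicate m o))]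
  ring

theorem pureHom_of_normal (o : σ) (h : NC σ Φ) (hn : h [] = 0) (ho : ∀ v, h (o :: v) = 0) :
    pureHom o h = 0 := by
  ext n
  rw [coeff_pureHom, map_zero]
  cases n with
  | zero => exact hn
  | succ n => rw [List.replicate_succ]; exact ho _

/-- **normal form, commutative coefficients** -/
theorem exists_nf_comm (γ : NC σ Φ) (h0 : γ [] = 0) (o : σ) (ho : γ [o] = 1) :
    ∃ H : ℕ → Φ, H 0 = 0 ∧ H 1 = 1 ∧ ∃ U V h : NC σ Φ, U * V = 1 ∧ V * U = 1 ∧ U [] = 1 ∧
      (∀ w : List σ, w.length < 2 → h w = 0) ∧ (∀ v, h (o :: v) = 0) ∧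
      U * hval H γ * V = lf (fun s => γ [s]) + h := by
  set g : σ → Φ := fun s => γ [s] with hg
  set H := Hrec γ o with hH
  set γ₂ := hval H γ with hγ₂
  have hl : ∀ w : List σ, w.length < 2 → (γ₂ - lf g) w = 0 := by
    intro w hw
    rw [NC.sub_apply, hγ₂, hval_apply]
    match w, hw with
    | [], _ => simp [hH, Hrec_zero]
    | [s], _ =>
      rw [List.length_singleton, sum_range_succ, sum_range_succ]
      simp [hH, Hrec_zero, Hrec_one, hg]
  obtain ⟨b, h, c, hb0, hh2, hho, hc0, hc1, he⟩ :=
    exists_nf_aux g o (γ₂ - lf g) (fun i a => mul_comm _ _) ho hl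
  rw [add_sub_cancel] at he
  obtain ⟨V, hV1, hV2, hV3⟩ := ConjNF.exists_inv (1 + b) (by simp [hb0])
  have hc : ∀ n, c n = 0 := by
    have h1 : pureHom o γ₂ = pureHom o (lf g + (h + ⟨fun w => c w.length * wp g w⟩)) := by
      have h2 := congrArg (pureHom o) he
      rw [map_mul, map_mul] at h2
      have h3 : pureHom o (1 + b) * pureHom o V = 1 := by rw [← map_mul, hV1, map_one]
      calc pureHom o γ₂ = (pureHom o (1 + b) * pureHom o V) * pureHom o γ₂ := by rw [h3, one_mul]
        _ = (pureHom o (1 + b) * pureHom o γ₂) * pureHom o V := by ring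
        _ = _ := by rw [h2, mul_assoc, h3, mul_one]
    intro n
    have h4 := congrArg (PowerSeries.coeff n) h1
    rw [map_add, map_add, map_add, map_add,
      pureHom_of_normal o h (hh2 _ (by simp)) hho, map_zero, zero_add, coeff_pureHom,
      coeff_pureHom, coeff_pureHom, hγ₂, hH, hval_Hrec γ h0 o ho] at h4
    change (if n = 1 then (1 : Φ) else 0) = lf g (List.replicate n o) +
      c (List.replicate n o).length * wp g (List.replicate n o) at h4
    rw [List.length_replicate, wp_replicate g o ho, mul_one] at h4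
    by_cases hn : n = 1
    · subst hn; exact hc1
    · rw [if_neg hn, lf_of_length g _ (by simpa using hn), zero_add] at h4
      exact h4.symm
  refine ⟨H, Hrec_zero γ o, Hrec_one γ o, 1 + b, V, h, hV1, hV2, by simp [hb0], hh2, hho, ?_⟩
  have h5 : (⟨fun w => c w.length * wp g w⟩ : NC σ Φ) = 0 := by
    apply ext'; intro w
    change c w.length * wp g w = 0
    rw [hc, zero_mul]
  rw [h5, add_zero] at he
  rw [he, mul_assoc, hV1, mul_one]

end Comm

end Crest.Agent.R180.P2NF
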