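import Crest.Agent.R180.P2Dim

set_option autoImplicit false
set_option linter.unusedSectionVars false

/-!
# Row 180, Phase 2: functionals relative to a subfield (helper164)
-/

noncomputable section
namespace Crest.Agent.R180

open scoped TensorProduct

namespace P2Xi

section xi

variable {K Φ : Type} [Field K] [CommRing Φ] [IsDomain Φ] [Algebra K Φ] [FiniteDimensional K Φ]

/-- an `L`-linear functional `Φ → L` killing `L` and not killing `x ∉ L` -/
theorem exists_xi (L : Subalgebra K Φ) (x : Φ) (hx : x ∉ L) :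
    ∃ ξ : Φ →ₗ[K] Φ, (∀ a ∈ L, ∀ y, ξ (a * y) = a * ξ y) ∧ (∀ a ∈ L, ξ a = 0) ∧
      (∀ y, ξ y ∈ L) ∧ ξ x ≠ 0 := by
  let _ : Field L := fieldOfFiniteDimensional K L
  let p : Submodule L Φ :=
    { L.toSubmodule.toAddSubmonoid with
      smul_mem' := fun s y hy => L.mul_mem s.2 hy }
  have hxp : x ∉ p := hx
  obtain ⟨f, hf, hfp⟩ := Submodule.exists_dual_map_eq_bot_of_notMem hxp inferInstance
  refine ⟨{ toFun := fun y => (f y : Φ), map_add' := ?_, map_smul' := ?_ }, ?_, ?_, ?_, ?_⟩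
  · intro y z; rw [map_add]; rfl
  · intro c y
    have h1 : c • y = (algebraMap K L c : L) • y := by
      rw [Algebra.smul_def]; rfl
    have h2 : f (c • y) = (algebraMap K L c : L) * f y := by
      rw [h1, map_smul]; rfl
    rw [h2, RingHom.id_apply, Algebra.smul_def]
    rfl
  · intro a ha y
    change (f (a * y) : Φ) = a * (f y : Φ)
    have h1 : a * y = (⟨a, ha⟩ : L) • y := rfl
    rw [h1, map_smul]
    rfl
  · intro a ha
    change (f a : Φ) = 0
    have h1 : f a ∈ p.map f := ⟨a, ha, rfl⟩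
    rw [hfp, Submodule.mem_bot] at h1
    rw [h1]; rfl
  · intro y
    exact (f y).2
  · intro h
    apply hf
    exact Subtype.ext h

end xi

section tensor

variable {K K₁ E Φ : Type} [Field K] [Field K₁] [Algebra K K₁] [Ring E] [Algebra K₁ E]
  [Algebra K E] [IsScalarTower K K₁ E] [CommRing Φ] [Algebra K Φ]

/-- `id ⊗ ξ` -/
def Xi (K₁ : Type) {K E Φ : Type} [Field K] [Field K₁] [Algebra K K₁] [Ring E] [Algebra K₁ E]
    [Algebra K E] [IsScalarTower K K₁ E] [CommRing Φ] [Algebra K Φ] (ξ : Φ →ₗ[K] Φ) :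
    E ⊗[K] Φ →ₗ[K₁] E ⊗[K] Φ :=
  TensorProduct.AlgebraTensorModule.map LinearMap.id ξ

@[simp] theorem Xi_tmul (ξ : Φ →ₗ[K] Φ) (e : E) (y : Φ) :
    Xi K₁ ξ (e ⊗ₜ[K] y) = e ⊗ₜ[K] ξ y := rfl

/-- the subalgebra `E ⊗ L` -/
def A1 (K₁ E : Type) {K Φ : Type} [Field K] [Field K₁] [Algebra K K₁] [Ring E] [Algebra K₁ E]
    [Algebra K E] [IsScalarTower K K₁ E] [CommRing Φ] [Algebra K Φ] (L : Subalgebra K Φ) :
    Subalgebra K₁ (E ⊗[K] Φ) :=
  (Algebra.TensorProduct.map (AlgHom.id K₁ E) L.val : E ⊗[K] L →ₐ[K₁] E ⊗[K] Φ).range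

theorem tmul_mem_A1 (L : Subalgebra K Φ) (e : E) {a : Φ} (ha : a ∈ L) :
    (e ⊗ₜ[K] a : E ⊗[K] Φ) ∈ A1 K₁ E L :=
  ⟨e ⊗ₜ[K] (⟨a, ha⟩ : L), rfl⟩

theorem A1_induction (L : Subalgebra K Φ) {p : E ⊗[K] Φ → Prop} (h0 : p 0)
    (hadd : ∀ x y, p x → p y → p (x + y)) (ht : ∀ (e : E) (a : Φ), a ∈ L → p (e ⊗ₜ[K] a))
    (x : E ⊗[K] Φ) (hx : x ∈ A1 K₁ E L) : p x := by
  obtain ⟨y, rfl⟩ := hx
  induction y using TensorProduct.induction_on with
  | zero => simpa using h0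
  | tmul e a => exact ht e a a.2
  | add y z hy hz => rw [map_add]; exact hadd _ _ hy hz

variable (L : Subalgebra K Φ) (ξ : Φ →ₗ[K] Φ) (hL : ∀ a ∈ L, ∀ y, ξ (a * y) = a * ξ y)
include hL

theorem Xi_mul_left (a : E ⊗[K] Φ) (ha : a ∈ A1 K₁ E L) (x : E ⊗[K] Φ) :
    Xi K₁ ξ (a * x) = a * Xi K₁ ξ x := by
  refine A1_induction (K₁ := K₁) L (p := fun a => Xi K₁ ξ (a * x) = a * Xi K₁ ξ x) ?_ ?_ ?_ a ha
  · simp
  · intro y z hy hz
    rw [add_mul, map_add, hy, hz, add_mul]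
  · intro e b hb
    induction x using TensorProduct.induction_on with
    | zero => simp
    | tmul e' y =>
      rw [Algebra.TensorProduct.tmul_mul_tmul, Xi_tmul, Xi_tmul,
        Algebra.TensorProduct.tmul_mul_tmul, hL b hb]
    | add y z hy hz => rw [mul_add, map_add, hy, hz, map_add, mul_add]

theorem Xi_mul_right (a : E ⊗[K] Φ) (ha : a ∈ A1 K₁ E L) (x : E ⊗[K] Φ) :
    Xi K₁ ξ (x * a) = Xi K₁ ξ x * a := by
  refine A1_induction (K₁ := K₁) L (p := fun a => Xi K₁ ξ (x * a) = Xi K₁ ξ x * a) ?_ ?_ ?_ a ha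
  · simp
  · intro y z hy hz
    rw [mul_add, map_add, hy, hz, mul_add]
  · intro e b hb
    induction x using TensorProduct.induction_on with
    | zero => simp
    | tmul e' y =>
      rw [Algebra.TensorProduct.tmul_mul_tmul, Xi_tmul, Xi_tmul,
        Algebra.TensorProduct.tmul_mul_tmul, mul_comm y, hL b hb, mul_comm b]
    | add y z hy hz => rw [add_mul, map_add, hy, hz, map_add, add_mul]

omit hL in
theorem Xi_zero (h0 : ∀ a ∈ L, ξ a = 0) (a : E ⊗[K] Φ) (ha : a ∈ A1 K₁ E L) :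
    Xi K₁ ξ a = 0 := by
  refine A1_induction (K₁ := K₁) L (p := fun a => Xi K₁ ξ a = 0) ?_ ?_ ?_ a ha
  · simp
  · intro y z hy hz
    rw [map_add, hy, hz, add_zero]
  · intro e b hb
    rw [Xi_tmul, h0 b hb, TensorProduct.tmul_zero]

end tensor

section dims

variable {K K₁ E Φ : Type} [Field K] [Field K₁] [Algebra K K₁] [Ring E] [Algebra K₁ E]
  [Algebra K E] [IsScalarTower K K₁ E] [CommRing Φ] [IsDomain Φ] [Algebra K Φ]
  [FiniteDimensional K Φ]

theorem one_tmul_comm (g : Φ) (x : E ⊗[K] Φ) :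
    ((1 : E) ⊗ₜ[K] g) * x = x * ((1 : E) ⊗ₜ[K] g) := by
  induction x using TensorProduct.induction_on with
  | zero => simp
  | tmul e y =>
    rw [Algebra.TensorProduct.tmul_mul_tmul, Algebra.TensorProduct.tmul_mul_tmul, one_mul, mul_one,
      mul_comm]
  | add y z hy hz => rw [mul_add, hy, hz, add_mul]

/-- `K₁[θ, 1 ⊗ Φ]` is generated by few elements over `K₁[θ, 1 ⊗ L]` -/
theorem finrank_le (L : Subalgebra K Φ) (r : ℕ)
    (hr : Module.finrank K Φ ≤ r * Module.finrank K L) (θ : E ⊗[K] Φ)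
    [FiniteDimensional K₁ (E ⊗[K] Φ)] :
    Module.finrank K₁ (Algebra.adjoin K₁ (insert θ (Set.range fun g : Φ => (1 : E) ⊗ₜ[K] g))) ≤
      r * Module.finrank K₁ (Algebra.adjoin K₁
        (insert θ ((fun g : Φ => ((1 : E) ⊗ₜ[K] g : E ⊗[K] Φ)) '' (L : Set Φ)))) := by
  classical
  set Ψ1 := Algebra.adjoin K₁
    (insert θ ((fun g : Φ => ((1 : E) ⊗ₜ[K] g : E ⊗[K] Φ)) '' (L : Set Φ))) with hΨ1
  let _ : Field L := fieldOfFiniteDimensional K L
  have hfin : Module.Finite L Φ := Module.Finite.of_restrictScalars_finite K L Φ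
  set n := Module.finrank L Φ with hn
  have hn' : Module.finrank K L * n = Module.finrank K Φ := Module.finrank_mul_finrank K L Φ
  have hL0 : 0 < Module.finrank K L := Module.finrank_pos
  have hnr : n ≤ r := by
    apply Nat.le_of_mul_le_mul_right _ hL0
    rw [mul_comm n]
    rw [hn']; exact hr
  set b := Module.finBasis L Φ with hb
  -- the span
  set W : Submodule K₁ (E ⊗[K] Φ) := LinearMap.range
    (∑ i : Fin n, (LinearMap.mulLeft K₁ ((1 : E) ⊗ₜ[K] b i)) ∘ₗ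
      ((Subalgebra.toSubmodule Ψ1).subtype ∘ₗ LinearMap.proj i) :
      (Fin n → Subalgebra.toSubmodule Ψ1) →ₗ[K₁] E ⊗[K] Φ) with hW
  have hWmem : ∀ x, x ∈ W ↔ ∃ c : Fin n → Subalgebra.toSubmodule Ψ1,
      ∑ i, ((1 : E) ⊗ₜ[K] b i) * (c i : E ⊗[K] Φ) = x := by
    intro x
    rw [hW, LinearMap.mem_range]
    simp only [LinearMap.sum_apply, LinearMap.comp_apply, LinearMap.mulLeft_apply,
      LinearMap.proj_apply, Submodule.subtype_apply]
    rfl
  have hterm : ∀ (g : Φ) (c : E ⊗[K] Φ), c ∈ Ψ1 → ((1 : E) ⊗ₜ[K] g) * c ∈ W := by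
    intro g c hc
    rw [hWmem]
    have hmem : ∀ i, ((1 : E) ⊗ₜ[K] ((b.repr g i : L) : Φ) : E ⊗[K] Φ) ∈ Ψ1 := fun i =>
      Algebra.subset_adjoin (Set.mem_insert_of_mem _ ⟨_, (b.repr g i).2, rfl⟩)
    refine ⟨fun i => ⟨((1 : E) ⊗ₜ[K] ((b.repr g i : L) : Φ)) * c, Ψ1.mul_mem (hmem i) hc⟩, ?_⟩
    have h1 : g = ∑ i, b i * ((b.repr g i : L) : Φ) := by
      conv_lhs => rw [← b.sum_repr g]
      refine Finset.sum_congr rfl fun i _ => ?_
      rw [mul_comm]; rfl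
    conv_rhs => rw [h1]
    rw [TensorProduct.tmul_sum, Finset.sum_mul]
    refine Finset.sum_congr rfl fun i _ => ?_
    rw [← mul_assoc, Algebra.TensorProduct.tmul_mul_tmul, one_mul]
  have hWg : ∀ (g : Φ), ∀ x ∈ W, ((1 : E) ⊗ₜ[K] g) * x ∈ W := by
    intro g x hx
    obtain ⟨c, rfl⟩ := (hWmem x).mp hx
    rw [Finset.mul_sum]
    refine W.sum_mem fun i _ => ?_
    rw [← mul_assoc, Algebra.TensorProduct.tmul_mul_tmul, one_mul]
    exact hterm _ _ (c i).2
  have hWθ : ∀ x ∈ W, θ * x ∈ W := by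
    intro x hx
    obtain ⟨c, rfl⟩ := (hWmem x).mp hx
    rw [Finset.mul_sum]
    refine W.sum_mem fun i _ => ?_
    rw [← mul_assoc, ← one_tmul_comm, mul_assoc]
    exact hterm _ _ (Ψ1.mul_mem (Algebra.subset_adjoin (Set.mem_insert _ _)) (c i).2)
  have h1W : (1 : E ⊗[K] Φ) ∈ W := by
    have := hterm 1 1 Ψ1.one_mem
    rwa [mul_one] at this
  have hle : Subalgebra.toSubmodule
      (Algebra.adjoin K₁ (insert θ (Set.range fun g : Φ => ((1 : E) ⊗ₜ[K] g : E ⊗[K] Φ)))) ≤ W := by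
    intro x hx
    have key : ∀ y ∈ W, x * y ∈ W := by
      refine Algebra.adjoin_induction (p := fun x _ => ∀ y ∈ W, x * y ∈ W) ?_ ?_ ?_ ?_ hx
      · intro x hx y hy
        rcases hx with rfl | ⟨g, rfl⟩
        · exact hWθ y hy
        · exact hWg g y hy
      · intro c y hy
        rw [← Algebra.smul_def]; exact W.smul_mem c hy
      · intro x z _ _ h1 h2 y hy
        rw [add_mul]; exact W.add_mem (h1 y hy) (h2 y hy)
      · intro x z _ _ h1 h2 y hy
        rw [mul_assoc]; exact h1 _ (h2 y hy)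
    have := key 1 h1W
    rwa [mul_one] at this
  calc Module.finrank K₁ (Algebra.adjoin K₁
        (insert θ (Set.range fun g : Φ => (1 : E) ⊗ₜ[K] g)))
      ≤ Module.finrank K₁ W := Submodule.finrank_mono hle
    _ ≤ Module.finrank K₁ (Fin n → Subalgebra.toSubmodule Ψ1) := LinearMap.finrank_range_le _
    _ = n * Module.finrank K₁ Ψ1 := by
      rw [Module.finrank_pi_fintype]
      simp
    _ ≤ r * Module.finrank K₁ Ψ1 := Nat.mul_le_mul_right _ hnr

end dims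

end P2Xi

end Crest.Agent.R180
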