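import Crest.Agent.R180.Subst

set_option autoImplicit false

/-! # Row 180: units in complete filtered rings and in `NC σ E` -/

namespace Crest.Agent.R180

namespace CFilt

variable {S : Type*} [Ring S] (F : CFilt S)

theorem one_mem_zero : (1 : S) ∈ F.I 0 := F.top 1

theorem pow_mem {a : S} (ha : a ∈ F.I 1) (n : ℕ) : a ^ n ∈ F.I n := by
  induction n with
  | zero => exact F.top _
  | succ n ih => rw [pow_succ]; exact F.mul ih ha

/-- geometric series -/
theorem exists_inv_one_sub {a : S} (ha : a ∈ F.I 1) :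
    ∃ b : S, (1 - a) * b = 1 ∧ b * (1 - a) = 1 ∧ b - 1 ∈ F.I 1 := by
  obtain ⟨b, hb⟩ := F.complete (fun n => ∑ k ∈ Finset.range n, a ^ k) (fun n => by
    rw [Finset.sum_range_succ, add_sub_cancel_left]; exact F.pow_mem ha n)
  refine ⟨b, F.eq_of_sub_mem fun n => ?_, F.eq_of_sub_mem fun n => ?_, ?_⟩
  · have h1 : (1 - a) * b - 1 = (1 - a) * (b - ∑ k ∈ Finset.range n, a ^ k) - a ^ n := by
      have h := mul_neg_geom_sum a n
      rw [mul_sub, h]; abel
    rw [h1]
    exact AddSubgroup.sub_mem _ (F.mul_left (hb n)) (F.pow_mem ha n)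
  · have h1 : b * (1 - a) - 1 = (b - ∑ k ∈ Finset.range n, a ^ k) * (1 - a) - a ^ n := by
      have h := geom_sum_mul_neg a n
      rw [sub_mul, h]; abel
    rw [h1]
    exact AddSubgroup.sub_mem _ (F.mul_right (hb n)) (F.pow_mem ha n)
  · have := hb 1
    simpa using this

theorem isUnit_one_sub {a : S} (ha : a ∈ F.I 1) : IsUnit (1 - a) := by
  obtain ⟨b, h1, h2, _⟩ := F.exists_inv_one_sub ha
  exact ⟨⟨1 - a, b, h1, h2⟩, rfl⟩

theorem isUnit_one_add {a : S} (ha : a ∈ F.I 1) : IsUnit (1 + a) := by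
  have := F.isUnit_one_sub (AddSubgroup.neg_mem _ ha)
  simpa using this

theorem inv_one_add_mem {a : S} (ha : a ∈ F.I 1) (u : Sˣ) (hu : (u : S) = 1 + a) :
    ((u⁻¹ : Sˣ) : S) - 1 ∈ F.I 1 := by
  have h : ((u⁻¹ : Sˣ) : S) - 1 = -(((u⁻¹ : Sˣ) : S) * a) := by
    have : ((u⁻¹ : Sˣ) : S) * (1 + a) = 1 := by rw [← hu]; exact Units.inv_mul u
    rw [mul_add, mul_one] at this
    rw [← this]; abel
  rw [h]
  exact AddSubgroup.neg_mem _ (F.mul_left ha)

/-- Congruent elements: limits are unique. -/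
theorem lim_unique {s : ℕ → S} {a b : S} (ha : ∀ n, a - s n ∈ F.I n) (hb : ∀ n, b - s n ∈ F.I n) :
    a = b := by
  refine F.eq_of_sub_mem fun n => ?_
  have := AddSubgroup.sub_mem _ (ha n) (hb n)
  simpa using this

end CFilt

namespace NC

variable {σ E : Type} [Ring E]

/-- `f` is a unit iff its constant coefficient is. -/
theorem isUnit_iff (f : NC σ E) : IsUnit f ↔ IsUnit (f []) := by
  constructor
  · intro h; exact h.map (res : NC σ E →+* E)
  · intro h
    obtain ⟨u, hu⟩ := h
    set v : NC σ E := C ((u⁻¹ : Eˣ) : E) * f with hv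
    have hv0 : v - 1 ∈ (CFilt.nc (CFilt.discrete E) : CFilt (NC σ E)).I 1 := by
      rw [CFilt.mem_nc_one, CFilt.mem_discrete]
      right
      rw [hv, sub_apply, C_mul_apply, ← hu]
      simp
    have h1 : IsUnit v := by
      have := CFilt.isUnit_one_add _ hv0
      simpa using this
    have hC : IsUnit (C (u : E) : NC σ E) := (Units.isUnit u).map (C : E →+* NC σ E)
    have : f = C (u : E) * v := by
      rw [hv, ← mul_assoc, ← map_mul, Units.mul_inv, map_one, one_mul]
    rw [this]
    exact hC.mul h1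

/-- length filtration membership in `NC σ E` -/
theorem mem_len {n : ℕ} {f : NC σ E} :
    f ∈ (CFilt.nc (CFilt.discrete E) : CFilt (NC σ E)).I n ↔
      ∀ w : List σ, w.length < n → f w = 0 := by
  rw [CFilt.mem_nc]
  constructor
  · intro h w hw
    have := h w
    rw [CFilt.mem_discrete] at this
    rcases this with h0 | h0
    · omega
    · exact h0
  · intro h w
    rw [CFilt.mem_discrete]
    by_cases hw : w.length < n
    · right; exact h w hw
    · left; omega

end NC

end Crest.Agent.R180
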