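import Crest.Agent.R180.ND
import Crest.Agent.R180.Units

set_option autoImplicit false
set_option linter.unusedSectionVars false
set_option linter.unusedTactic false

/-!
# Row 180, Phase 3: conjugation of `γ(t (z + x))` into `C(η)⟦t⟧` (helper881)

`t⁻¹ γ(t (z₀ + t z₁ + Σ u_s x_s))` is lifted to a series in the letters `J ∪ {t}` over `A`,
normalised there (`exists_norm`) and specialised (`p3pi`).
-/

namespace Crest.Agent.R180

section pi
variable (A : Type) [Ring A] (J : Type) [Fintype J] [DecidableEq J]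

/-- letters: `none ↦ t`, `some s ↦ X s` -/
noncomputable def p3X : Option J → NC J (PowerSeries A)
  | none => NC.C PowerSeries.X
  | some s => NC.X s

/-- the filtration by total degree -/
noncomputable abbrev p3F : CFilt (NC J (PowerSeries A)) := CFilt.nc (CFilt.powerSeries A)

/-- the constants -/
noncomputable def p3phi : A →+* NC J (PowerSeries A) := NC.C.comp PowerSeries.C

variable {A J}

@[simp] theorem p3phi_nil (a : A) : p3phi A J a [] = PowerSeries.C a := rfl
@[simp] theorem p3phi_cons (a : A) (s : J) (w : List J) : p3phi A J a (s :: w) = 0 := rfl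

theorem p3X_mem (o : Option J) : p3X A J o ∈ (p3F A J).I 1 := by
  rw [CFilt.mem_nc_one, CFilt.mem_powerSeries]
  intro j hj
  have : j = 0 := by omega
  subst this
  cases o with
  | none => simp [p3X]
  | some s => simp [p3X]

theorem p3X_comm (a : A) (o : Option J) :
    p3phi A J a * p3X A J o = p3X A J o * p3phi A J a := by
  cases o with
  | none =>
    simp only [p3X, p3phi, RingHom.comp_apply, ← map_mul]
    congr 1
    exact (PowerSeries.commute_X _).eq
  | some s =>
    apply NC.ext'
    intro w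
    simp only [p3X, p3phi, RingHom.comp_apply, NC.C_mul_apply, NC.mul_C_apply]
    match w with
    | [] => simp
    | [r] => by_cases h : r = s <;> simp [h]
    | _ :: _ :: _ => simp

variable (A J)

/-- the specialisation hom -/
noncomputable def p3pi : NC (Option J) A →+* NC J (PowerSeries A) :=
  NC.subst (p3F A J) (p3phi A J) (p3X A J) p3X_mem p3X_comm

variable {A J}

theorem p3pi_eq (f : NC (Option J) A) :
    p3pi A J f = p3phi A J (f []) + (NC.C PowerSeries.X * p3pi A J (NC.ld none f)
      + ∑ s, NC.X s * p3pi A J (NC.ld (some s) f)) := by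
  conv_lhs => rw [p3pi, NC.subst_eq, Fintype.sum_option]
  rfl

@[simp] theorem p3pi_C (a : A) : p3pi A J (NC.C a) = p3phi A J a := NC.subst_C _ _ _ _ _ _

@[simp] theorem p3pi_X_none : p3pi A J (NC.X none) = NC.C PowerSeries.X :=
  NC.subst_X _ _ _ _ _ _

@[simp] theorem p3pi_X_some (s : J) : p3pi A J (NC.X (some s)) = NC.X s :=
  NC.subst_X _ _ _ _ _ _

theorem X_mul_cons' {R : Type} [Ring R] (s r : J) (z : NC J R) (v : List J) :
    ((NC.X s : NC J R) * z) (r :: v) = if r = s then z v else 0 := by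
  rw [NC.mul_cons, NC.X_nil, zero_mul, add_zero, NC.ld_X]
  split_ifs
  · rw [one_mul]
  · rw [zero_mul, NC.zero_apply]

/-- constant coefficients of the specialisation -/
theorem p3pi_coeff0 (f : NC (Option J) A) (w : List J) :
    PowerSeries.constantCoeff (p3pi A J f w) = f (w.map some) := by
  induction w generalizing f with
  | nil =>
    rw [p3pi_eq]
    simp [NC.sum_apply]
  | cons s w ih =>
    rw [p3pi_eq]
    simp only [NC.add_apply, p3phi_cons, zero_add, NC.C_mul_apply, NC.sum_apply, X_mul_cons',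
      map_add, map_mul, PowerSeries.constantCoeff_X, zero_mul, Finset.sum_ite_eq,
      Finset.mem_univ, if_true]
    rw [ih]
    rfl

/-- naturality of the specialisation -/
theorem p3pi_map {A' : Type} [Ring A'] (φ : A' →+* A) (f : NC (Option J) A') :
    p3pi A J (NC.map φ f) = NC.map (PowerSeries.map φ) (p3pi A' J f) := by
  have hc : ∀ (k : A') (o : Option J), ((p3phi A J).comp φ) k * p3X A J o
      = p3X A J o * ((p3phi A J).comp φ) k := fun k o => p3X_comm (φ k) o
  have h1 := NC.subst_unique (p3F A J) ((p3phi A J).comp φ) (p3X A J) p3X_mem hc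
    (fun f => p3pi A J (NC.map φ f)) (fun f => by
      change p3pi A J (NC.map φ f) = _
      conv_lhs => rw [p3pi, NC.subst_eq]
      rfl) f
  have h2 := NC.subst_unique (p3F A J) ((p3phi A J).comp φ) (p3X A J) p3X_mem hc
    (fun f => NC.map (PowerSeries.map φ) (p3pi A' J f)) (fun f => by
      change NC.map (PowerSeries.map φ) (p3pi A' J f) = _
      conv_lhs => rw [p3pi, NC.subst_eq, map_add, map_sum]
      congr 1
      · apply NC.ext'
        intro w
        cases w with
        | nil => simp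
        | cons s w => simp
      · refine Finset.sum_congr rfl fun o _ => ?_
        rw [map_mul]
        congr 1
        cases o with
        | none =>
          apply NC.ext'; intro w
          cases w with
          | nil => simp [p3X]
          | cons s w => simp [p3X]
        | some s => simp [p3X]) f
  exact h1.trans h2.symm

end pi

section lift
variable {A J : Type} [Ring A] {ι : Type} (z0 z1 : ι → A) (u : J → ι → A)

/-- underlying function of `Yh` -/
def YhFun (z0 z1 : A) (u : J → A) : List (Option J) → A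
  | [] => z0
  | [none] => z1
  | [some s] => u s
  | (_ :: _ :: _) => 0

/-- `z₀ i + t z₁ i + Σ u_s i x_s` as a series in the letters `J ∪ {t}` -/
def Yh (i : ι) : NC (Option J) A := ⟨YhFun (z0 i) (z1 i) (fun s => u s i)⟩

@[simp] theorem Yh_nil (i : ι) : Yh z0 z1 u i [] = z0 i := rfl
@[simp] theorem Yh_none (i : ι) : Yh z0 z1 u i [none] = z1 i := rfl
@[simp] theorem Yh_some (i : ι) (s : J) : Yh z0 z1 u i [some s] = u s i := rfl
@[simp] theorem Yh_cons (i : ι) (o o' : Option J) (w : List (Option J)) :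
    Yh z0 z1 u i (o :: o' :: w) = 0 := by
  change YhFun (z0 i) (z1 i) (fun s => u s i) (o :: o' :: w) = 0
  cases o <;> rfl

theorem ld_Yh_none (i : ι) : NC.ld none (Yh z0 z1 u i) = NC.C (z1 i) := by
  apply NC.ext'; intro w
  cases w with
  | nil => rfl
  | cons s w => simp

theorem ld_Yh_some (i : ι) (s : J) : NC.ld (some s) (Yh z0 z1 u i) = NC.C (u s i) := by
  apply NC.ext'; intro w
  cases w with
  | nil => rfl
  | cons s w => simp

variable [Fintype J] [DecidableEq J]

/-- `t * Yh i` -/
noncomputable def Xh (i : ι) : NC (Option J) A := NC.X none * Yh z0 z1 u i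

theorem Xh_nil (i : ι) : Xh z0 z1 u i [] = 0 := by simp [Xh]

/-- the letters of the move: `t (z₀ i + t z₁ i + Σ u_s i x_s)` -/
noncomputable def Zl (i : ι) : NC J (PowerSeries A) :=
  NC.C PowerSeries.X * (p3phi A J (z0 i) + (NC.C PowerSeries.X * p3phi A J (z1 i)
      + ∑ s, NC.X s * p3phi A J (u s i)))

theorem p3pi_Yh (i : ι) : p3pi A J (Yh z0 z1 u i) =
    p3phi A J (z0 i) + (NC.C PowerSeries.X * p3phi A J (z1 i)
      + ∑ s, NC.X s * p3phi A J (u s i)) := by
  rw [p3pi_eq]
  simp only [Yh_nil, ld_Yh_none, ld_Yh_some, p3pi_C]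

theorem p3pi_Xh (i : ι) : p3pi A J (Xh z0 z1 u i) = Zl z0 z1 u i := by
  rw [Xh, map_mul, p3pi_X_none, p3pi_Yh]
  rfl

variable {Φ : Type} [Ring Φ] (j : Φ →+* A) [Fintype ι]

theorem Xh_mem (i : ι) :
    Xh z0 z1 u i ∈ (CFilt.nc (CFilt.discrete A) : CFilt (NC (Option J) A)).I 1 := by
  rw [CFilt.mem_nc_one, CFilt.mem_discrete]
  right
  exact Xh_nil z0 z1 u i

/-- commutation hypotheses -/
structure P3Comm : Prop where
  c0 : ∀ φ i, j φ * z0 i = z0 i * j φ
  c1 : ∀ φ i, j φ * z1 i = z1 i * j φ
  cu : ∀ φ s i, j φ * u s i = u s i * j φ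

variable {z0 z1 u j} (hc : P3Comm z0 z1 u j)
include hc

theorem Yh_comm (φ : Φ) (i : ι) :
    (NC.C.comp j) φ * Yh z0 z1 u i = Yh z0 z1 u i * (NC.C.comp j) φ := by
  apply NC.ext'; intro w
  simp only [RingHom.comp_apply, NC.C_mul_apply, NC.mul_C_apply]
  match w with
  | [] => exact hc.c0 φ i
  | [none] => exact hc.c1 φ i
  | [some s] => exact hc.cu φ s i
  | (o :: o' :: w) => simp

theorem Xh_comm (φ : Φ) (i : ι) :
    (NC.C.comp j) φ * Xh z0 z1 u i = Xh z0 z1 u i * (NC.C.comp j) φ := by
  have h1 : (NC.C.comp j) φ * (NC.X none : NC (Option J) A)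
      = NC.X none * (NC.C.comp j) φ := by
    apply NC.ext'; intro w
    simp only [RingHom.comp_apply, NC.C_mul_apply, NC.mul_C_apply]
    match w with
    | [] => simp
    | [r] => by_cases h : r = none <;> simp [h]
    | _ :: _ :: _ => simp
  rw [Xh, ← mul_assoc, h1, mul_assoc, Yh_comm hc, mul_assoc]

/-- the lift of the move -/
noncomputable def gh : NC ι Φ →+* NC (Option J) A :=
  NC.subst (CFilt.nc (CFilt.discrete A)) (NC.C.comp j) (Xh z0 z1 u) (Xh_mem z0 z1 u)
    (Xh_comm hc)

/-- `t⁻¹ γ(..)` -/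
noncomputable def fh (γ : NC ι Φ) : NC (Option J) A := ∑ i, Yh z0 z1 u i * gh hc (NC.ld i γ)

theorem gh_eq (γ : NC ι Φ) : gh hc γ = NC.C (j (γ [])) + NC.X none * fh hc γ := by
  rw [gh, NC.subst_eq, fh, Finset.mul_sum]
  congr 1
  refine Finset.sum_congr rfl fun i _ => ?_
  rw [← mul_assoc]
  rfl

theorem gh_nil (γ : NC ι Φ) : gh hc γ [] = j (γ []) := by
  rw [gh_eq]; simp

theorem gh_some (γ : NC ι Φ) (s : J) : gh hc γ [some s] = 0 := by
  rw [gh_eq, NC.add_apply, X_mul_cons']
  simp

theorem fh_nil (γ : NC ι Φ) : fh hc γ [] = ∑ i, z0 i * j (γ [i]) := by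
  rw [fh, NC.sum_apply]
  refine Finset.sum_congr rfl fun i _ => ?_
  rw [NC.mul_nil, gh_nil]
  rfl

theorem fh_some (γ : NC ι Φ) (s : J) : fh hc γ [some s] = ∑ i, u s i * j (γ [i]) := by
  rw [fh, NC.sum_apply]
  refine Finset.sum_congr rfl fun i _ => ?_
  rw [NC.mul_apply_single, gh_nil, gh_some, mul_zero, zero_add]
  rfl

theorem fh_pair (γ : NC ι Φ) (s s' : J) : fh hc γ [some s, some s'] = 0 := by
  rw [fh, NC.sum_apply]
  refine Finset.sum_eq_zero fun i _ => ?_
  have h : gh hc (NC.ld i γ) [some s, some s'] = 0 := by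
    rw [gh_eq, NC.add_apply, X_mul_cons']
    simp
  rw [NC.mul_apply_pair, gh_some, h]
  simp

/-- specialisation of the lift: functional equation of the move -/
theorem p3pi_gh_eq (γ : NC ι Φ) : p3pi A J (gh hc γ) =
    ((p3phi A J).comp j) (γ []) + ∑ i, Zl z0 z1 u i * p3pi A J (gh hc (NC.ld i γ)) := by
  conv_lhs => rw [gh, NC.subst_eq, map_add, map_sum]
  congr 1
  · exact p3pi_C _
  · refine Finset.sum_congr rfl fun i _ => ?_
    rw [map_mul, p3pi_Xh]
    rfl

theorem p3pi_gh (γ : NC ι Φ) (h0 : γ [] = 0) :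
    p3pi A J (gh hc γ) = NC.C PowerSeries.X * p3pi A J (fh hc γ) := by
  rw [gh_eq, h0, map_zero, map_zero, zero_add, map_mul, p3pi_X_none]

end lift

section main
variable {k A J : Type} [Field k] [CharZero k] [Ring A] [IsDomain A] [Algebra k A]
  [FiniteDimensional k A] [Fintype J] [DecidableEq J] {ι : Type} [Fintype ι]
  {z0 z1 : ι → A} {u : J → ι → A} {Φ : Type} [Ring Φ] {j : Φ →+* A} (hc : P3Comm z0 z1 u j)

/-- **Normal form at the Phase 3 point.** -/
theorem p3_norm (γ : NC ι Φ) (h0 : γ [] = 0) (η : A) (hη : ∑ i, z0 i * j (γ [i]) = η) :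
    ∃ (B B' : NC J (PowerSeries A)) (e : NC J (PowerSeries (Subalgebra.centralizer k {η}))),
      B * B' = 1 ∧ B' * B = 1 ∧
      B * p3pi A J (gh hc γ) * B' =
        NC.map (PowerSeries.map ((Subalgebra.centralizer k {η}).val : _ →+* A))
          (NC.C PowerSeries.X * e) ∧
      ∀ s s', ((PowerSeries.constantCoeff (e [s, s']) : Subalgebra.centralizer k {η}) : A) =
        cpi k η (adInv k η (∑ i, u s i * j (γ [i])) * ∑ i, u s' i * j (γ [i])) := by
  obtain ⟨B, g, hB1, hg1, _, hgc, hBg, _, _, hg2⟩ := exists_norm k (fh hc γ)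
  have hf0 : fh hc γ [] = η := by rw [fh_nil, hη]
  rw [hf0] at hg2
  simp only [hf0] at hgc
  have hgmem : ∀ w, g w ∈ Subalgebra.centralizer k {η} := by
    intro w
    rw [Subalgebra.mem_centralizer_iff]
    intro x hx
    rw [Set.mem_singleton_iff] at hx
    subst hx
    exact (hgc w).eq
  let g' : NC (Option J) (Subalgebra.centralizer k {η}) := ⟨fun w => ⟨g w, hgmem w⟩⟩
  have hg' : NC.map ((Subalgebra.centralizer k {η}).val : _ →+* A) g' = g := by
    apply NC.ext'; intro w
    rfl
  obtain ⟨b, hb⟩ : IsUnit B := (NC.isUnit_iff B).2 (by rw [hB1]; exact isUnit_one)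
  refine ⟨p3pi A J B, p3pi A J (↑b⁻¹ : NC (Option J) A), p3pi _ J g', ?_, ?_, ?_, ?_⟩
  · rw [← map_mul, ← hb, Units.mul_inv, map_one]
  · rw [← map_mul, ← hb, Units.inv_mul, map_one]
  · have h1 : NC.map (PowerSeries.map ((Subalgebra.centralizer k {η}).val : _ →+* A))
        (p3pi _ J g') = p3pi A J g := by
      rw [← p3pi_map, hg']
    have h2 : NC.map (PowerSeries.map ((Subalgebra.centralizer k {η}).val : _ →+* A))
        (NC.C PowerSeries.X : NC J (PowerSeries (Subalgebra.centralizer k {η})))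
        = NC.C PowerSeries.X := by
      rw [NC.map_C, PowerSeries.map_X]
    have h3 : ∀ f : NC J (PowerSeries A), f * NC.C PowerSeries.X = NC.C PowerSeries.X * f := by
      intro f
      apply NC.ext'; intro w
      rw [NC.C_mul_apply, NC.mul_C_apply]
      exact (PowerSeries.commute_X _).eq
    rw [map_mul, h1, h2, p3pi_gh hc γ h0, ← mul_assoc, h3, mul_assoc, mul_assoc]
    congr 1
    rw [← mul_assoc, ← map_mul, hBg, map_mul, mul_assoc, ← map_mul, ← hb, Units.mul_inv, map_one,
      mul_one]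
  · intro s s'
    rw [p3pi_coeff0]
    change g [some s, some s'] = _
    rw [hg2, fh_pair, fh_some, fh_some, zero_add]

end main

end Crest.Agent.R180
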