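import Crest.Agent.R180.ND

set_option autoImplicit false
set_option linter.unusedSectionVars false

/-!
# Row 180, Phase 3: cyclic data for `E ⊗[K] Φ`, `E = ⊕ L u^i` a cyclic algebra (helper881)
-/

open scoped TensorProduct

namespace Crest.Agent.R180

/-- unbundled cyclic algebra with a generic element `l0` -/
structure CycAlg (K k E L : Type) [Field K] [Field k] [Algebra K k] [Ring E] [Algebra k E]
    [Field L] [Algebra k L] [Algebra K L] (N : ℕ) (j : L →ₐ[k] E) (τ : L ≃ₐ[k] L) (u : E) (T : k)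
    (l0 : L) : Prop where
  hN : 1 < N
  fr : Module.finrank k L = N
  uN : u ^ N = algebraMap k E T
  T_ne : T ≠ 0
  conj : ∀ y : L, u * j y = j (τ y) * u
  decomp : ∀ e : E, ∃! c : Fin N → L, e = ∑ i, j (c i) * u ^ (i : ℕ)
  inj : ∀ i < N, ∀ i' < N, (τ ^ i) l0 = (τ ^ i') l0 → i = i'
  nc : ∀ (i : ℕ) (c : K), l0 + (τ ^ i) l0 ≠ algebraMap K L c

namespace CycAlg

variable {K k E L : Type} [Field K] [Field k] [Algebra K k] [Ring E] [Algebra k E]
    [Field L] [Algebra k L] [Algebra K L] {N : ℕ} {j : L →ₐ[k] E} {τ : L ≃ₐ[k] L} {u : E} {T : k}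
    {l0 : L} (C : CycAlg K k E L N j τ u T l0)
include C

theorem N0 : 0 < N := lt_trans Nat.zero_lt_one C.hN

theorem pow_conj (i : ℕ) (y : L) : u ^ i * j y = j ((τ ^ i) y) * u ^ i := by
  induction i generalizing y with
  | zero => simp
  | succ i ih =>
    rw [pow_succ, mul_assoc, C.conj, ← mul_assoc, ih, mul_assoc, ← pow_succ, pow_succ τ,
      AlgEquiv.mul_apply]

theorem nontrivialE : Nontrivial E := by
  by_contra h
  rw [not_nontrivial_iff_subsingleton] at h
  obtain ⟨c, _, hc⟩ := C.decomp 0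
  have h1 := hc (fun _ => 0) (Subsingleton.elim _ _)
  have h2 := hc (fun _ => 1) (Subsingleton.elim _ _)
  have h3 := congrFun (h1.trans h2.symm) ⟨0, C.N0⟩
  exact zero_ne_one h3

theorem li : LinearIndependent k fun i : Fin N => l0 ^ (i : ℕ) := by
  classical
  rw [Fintype.linearIndependent_iff]
  intro g hg
  let p : Polynomial k := ∑ i : Fin N, Polynomial.monomial (i : ℕ) (g i)
  have hp : ∀ i : ℕ, Polynomial.aeval ((τ ^ i) l0) p = 0 := by
    intro i
    have h1 : Polynomial.aeval l0 p = 0 := by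
      simp only [p, map_sum, Polynomial.aeval_monomial]
      rw [← hg]
      exact Finset.sum_congr rfl fun i _ => by rw [Algebra.smul_def]
    have h2 := congrArg (τ ^ i) h1
    rw [map_zero] at h2
    rw [← h2]
    exact (Polynomial.aeval_algHom_apply ((τ ^ i : L ≃ₐ[k] L) : L →ₐ[k] L) l0 p)
  have hdeg : p.degree < N := by
    refine lt_of_le_of_lt (Polynomial.degree_sum_le _ _) ?_
    rw [Finset.sup_lt_iff (by exact_mod_cast WithBot.bot_lt_coe N)]
    intro i _
    refine lt_of_le_of_lt (Polynomial.degree_monomial_le _ _) ?_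
    exact_mod_cast i.2
  have hp0 : p = 0 := by
    have h1 : (p.map (algebraMap k L)) = 0 := by
      refine Polynomial.eq_zero_of_degree_lt_of_eval_finset_eq_zero
        ((Finset.range N).image fun i => (τ ^ i) l0) ?_ ?_
      · rw [Polynomial.degree_map, Finset.card_image_of_injOn, Finset.card_range]
        · exact hdeg
        · intro i hi i' hi' h
          exact C.inj i (Finset.mem_range.1 hi) i' (Finset.mem_range.1 hi') h
      · intro x hx
        obtain ⟨i, _, rfl⟩ := Finset.mem_image.1 hx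
        rw [Polynomial.eval_map_algebraMap]
        exact hp i
    exact (Polynomial.map_eq_zero _).1 h1
  intro i
  have h1 := congrArg (fun q => Polynomial.coeff q (i : ℕ)) hp0
  simp only [p, Polynomial.finsetSum_coeff, Polynomial.coeff_monomial, Polynomial.coeff_zero] at h1
  rw [Finset.sum_eq_single i] at h1
  · simpa using h1
  · intro i' _ hne
    rw [if_neg]
    intro h
    exact hne (Fin.ext h)
  · intro h; exact absurd (Finset.mem_univ i) h

theorem span_eq : Submodule.span k (Set.range fun i : Fin N => l0 ^ (i : ℕ)) = ⊤ := by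
  haveI : FiniteDimensional k L := FiniteDimensional.of_finrank_pos (by rw [C.fr]; exact C.N0)
  exact C.li.span_eq_top_of_card_eq_finrank' (by rw [Fintype.card_fin, C.fr])

theorem adjoin_eq : Algebra.adjoin k {l0} = ⊤ := by
  rw [eq_top_iff]
  intro x _
  have h1 : x ∈ Submodule.span k (Set.range fun i : Fin N => l0 ^ (i : ℕ)) := by
    rw [C.span_eq]; trivial
  refine Submodule.span_induction (p := fun x _ => x ∈ Algebra.adjoin k {l0}) ?_ ?_ ?_ ?_ h1
  · rintro _ ⟨i, rfl⟩
    exact Subalgebra.pow_mem _ (Algebra.subset_adjoin (Set.mem_singleton l0)) _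
  · exact Subalgebra.zero_mem _
  · intro x y _ _ hx hy; exact Subalgebra.add_mem _ hx hy
  · intro c x _ hx; exact Subalgebra.smul_mem _ hx c

theorem injJ : Function.Injective j := by
  have := C.nontrivialE
  exact (j : L →+* E).injective

/-- `l0` and `u^(N-1)` generate `E` -/
theorem mem_of (S : Subalgebra k E) (h1 : j l0 ∈ S) (h2 : u ^ (N - 1) ∈ S) (x : E) : x ∈ S := by
  have hj : ∀ y : L, j y ∈ S := by
    intro y
    have hy : y ∈ Algebra.adjoin k {l0} := by rw [C.adjoin_eq]; trivial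
    rw [Algebra.adjoin_singleton_eq_range_aeval] at hy
    obtain ⟨p, rfl⟩ := hy
    change j (Polynomial.aeval l0 p) ∈ S
    rw [← Polynomial.aeval_algHom_apply, Polynomial.aeval_eq_sum_range]
    exact Subalgebra.sum_mem _ fun i _ => Subalgebra.smul_mem _ (Subalgebra.pow_mem _ h1 _) _
  have hu : u ∈ S := by
    have h3 : (u ^ (N - 1)) ^ (N - 1) ∈ S := Subalgebra.pow_mem _ h2 _
    obtain ⟨n, rfl⟩ : ∃ n, N = n + 2 := ⟨N - 2, by have := C.hN; omega⟩
    have h4 : (u ^ (n + 2 - 1)) ^ (n + 2 - 1) = T ^ n • u := by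
      rw [← pow_mul]
      have : (n + 2 - 1) * (n + 2 - 1) = (n + 2) * n + 1 := by
        have : n + 2 - 1 = n + 1 := by omega
        rw [this]; ring
      rw [this, pow_succ, pow_mul, C.uN, ← map_pow, ← Algebra.smul_def]
    rw [h4] at h3
    have h5 := Subalgebra.smul_mem S h3 (T ^ n)⁻¹
    rwa [smul_smul, inv_mul_cancel₀ (pow_ne_zero _ C.T_ne), one_smul] at h5
  obtain ⟨c, hc, _⟩ := C.decomp x
  rw [hc]
  exact Subalgebra.sum_mem _ fun i _ => Subalgebra.mul_mem _ (hj _) (Subalgebra.pow_mem _ hu _)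

theorem span_E (x : E) : x ∈ Submodule.span k
    (Set.range fun p : Fin N × Fin N => (j l0) ^ (p.1 : ℕ) * u ^ (p.2 : ℕ)) := by
  obtain ⟨c, hc, _⟩ := C.decomp x
  rw [hc]
  refine Submodule.sum_mem _ fun i _ => ?_
  have h1 : c i ∈ Submodule.span k (Set.range fun i : Fin N => l0 ^ (i : ℕ)) := by
    rw [C.span_eq]; trivial
  refine Submodule.span_induction (p := fun y _ => j y * u ^ (i : ℕ) ∈ Submodule.span k
    (Set.range fun p : Fin N × Fin N => (j l0) ^ (p.1 : ℕ) * u ^ (p.2 : ℕ))) ?_ ?_ ?_ ?_ h1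
  · rintro _ ⟨i', rfl⟩
    refine Submodule.subset_span ⟨(i', i), ?_⟩
    simp
  · rw [map_zero, zero_mul]; exact Submodule.zero_mem _
  · intro x y _ _ hx hy
    rw [map_add, add_mul]; exact Submodule.add_mem _ hx hy
  · intro c x _ hx
    rw [map_smul, smul_mul_assoc]; exact Submodule.smul_mem _ _ hx

/-- linear independence of `l0^i u^i'` -/
theorem li_E : LinearIndependent k fun p : Fin N × Fin N => (j l0) ^ (p.1 : ℕ) * u ^ (p.2 : ℕ) := by
  classical
  rw [Fintype.linearIndependent_iff]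
  intro g hg ⟨a, b⟩
  have h1 : ∑ i : Fin N, j (∑ a : Fin N, g (a, i) • l0 ^ (a : ℕ)) * u ^ (i : ℕ) = 0 := by
    rw [← hg, Fintype.sum_prod_type_right]
    refine Finset.sum_congr rfl fun i _ => ?_
    rw [map_sum, Finset.sum_mul]
    refine Finset.sum_congr rfl fun a _ => ?_
    rw [map_smul, map_pow, smul_mul_assoc]
  obtain ⟨c, _, hc⟩ := C.decomp 0
  have h2 := hc (fun _ => 0) (by simp)
  have h3 := hc (fun i => ∑ a : Fin N, g (a, i) • l0 ^ (a : ℕ)) h1.symm
  have h4 := congrFun (h3.trans h2.symm) b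
  have h5 := C.li
  rw [Fintype.linearIndependent_iff] at h5
  exact h5 (fun a => g (a, b)) h4 a

/-- `[v, u^(N-1)]` for `v` commuting with `l0` has no components `u^i`, `i < N-1`. -/
theorem commutator_form (v : E) (hv : v * j l0 = j l0 * v) :
    ∃ y : L, v * u ^ (N - 1) - u ^ (N - 1) * v = j y * u ^ (N - 1) := by
  classical
  -- `v ∈ j L`
  obtain ⟨c, hc, _⟩ := C.decomp v
  have h1 : ∑ i : Fin N, j (c i * (τ ^ (i : ℕ)) l0 - l0 * c i) * u ^ (i : ℕ) = 0 := by
    have h2 : v * j l0 - j l0 * v = 0 := sub_eq_zero.2 hv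
    rw [hc, Finset.sum_mul, Finset.mul_sum, ← Finset.sum_sub_distrib] at h2
    rw [← h2]
    refine Finset.sum_congr rfl fun i _ => ?_
    rw [mul_assoc, C.pow_conj, map_sub, map_mul, map_mul, sub_mul]
    noncomm_ring
  obtain ⟨c0, _, hc0⟩ := C.decomp 0
  have h2 := (hc0 (fun i => c i * (τ ^ (i : ℕ)) l0 - l0 * c i) h1.symm).trans
    (hc0 (fun _ => 0) (by simp)).symm
  have h3 : ∀ i : Fin N, (i : ℕ) ≠ 0 → c i = 0 := by
    intro i hi
    have h4 := congrFun h2 i
    have h5 : c i * ((τ ^ (i : ℕ)) l0 - l0) = 0 := by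
      rw [← h4]; ring
    rcases mul_eq_zero.1 h5 with h6 | h6
    · exact h6
    · exfalso
      have := C.inj i i.2 0 C.N0 (by
        rw [sub_eq_zero] at h6
        rw [h6]; rfl)
      exact hi this
  have h4 : v = j (c ⟨0, C.N0⟩) := by
    rw [hc, Finset.sum_eq_single ⟨0, C.N0⟩]
    · simp
    · intro i _ hi
      rw [h3 i (fun h => hi (Fin.ext h)), map_zero, zero_mul]
    · intro h; exact absurd (Finset.mem_univ _) h
  refine ⟨c ⟨0, C.N0⟩ - (τ ^ (N - 1)) (c ⟨0, C.N0⟩), ?_⟩
  rw [map_sub, sub_mul, ← C.pow_conj, ← h4]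

end CycAlg

section tensor
variable {K k E Φ L : Type} [Field K] [Field k] [Algebra K k] [Ring E] [Algebra k E] [Algebra K E]
  [IsScalarTower K k E] [Ring Φ] [Algebra K Φ] [Field L] [Algebra k L] [Algebra K L]
  [IsScalarTower K k L]
  {N : ℕ} {j : L →ₐ[k] E} {τ : L ≃ₐ[k] L} {u : E} {T : k} {l0 : L}

/-- inclusion of `E` -/
def inclE (K k : Type) {E Φ : Type} [Field K] [Field k] [Algebra K k] [Ring E] [Algebra k E]
    [Algebra K E] [IsScalarTower K k E] [Ring Φ] [Algebra K Φ] : E →ₐ[k] E ⊗[K] Φ :=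
  Algebra.TensorProduct.includeLeft

theorem CycAlg.toData [Nontrivial Φ] {d : ℕ} (C : CycAlg K k E L N j τ u T l0) (κ : Φ)
    (hcomm : ∀ x : Φ, κ * x = x * κ)
    (hspan : ∀ x : Φ, x ∈ Submodule.span K (Set.range fun n : Fin d => κ ^ (n : ℕ))) :
    CycData k N d (j l0 ⊗ₜ[K] (1 : Φ)) (u ⊗ₜ[K] (1 : Φ)) ((1 : E) ⊗ₜ[K] κ)
      (fun i => j ((τ ^ i) l0) ⊗ₜ[K] (1 : Φ)) T where
  hm := C.hN
  hb := C.T_ne
  hY := by
    rw [Algebra.TensorProduct.tmul_pow, C.uN, one_pow]
    rfl
  hYX := by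
    intro i
    rw [Algebra.TensorProduct.tmul_pow, Algebra.TensorProduct.tmul_mul_tmul,
      Algebra.TensorProduct.tmul_mul_tmul, C.pow_conj, one_pow, mul_one]
  hXj := by
    intro i
    have h1 : (τ ^ i) l0 ∈ Algebra.adjoin k {l0} := by rw [C.adjoin_eq]; trivial
    have h2 : ((inclE K k : E →ₐ[k] E ⊗[K] Φ).comp j) ((τ ^ i) l0)
        ∈ (Algebra.adjoin k {l0}).map ((inclE K k : E →ₐ[k] E ⊗[K] Φ).comp j) :=
      Subalgebra.mem_map.2 ⟨_, h1, rfl⟩
    rw [AlgHom.map_adjoin, Set.image_singleton] at h2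
    exact h2
  inj := by
    intro i hi i' hi' h
    have hE := C.nontrivialE
    have h1 : Function.Injective (inclE K k : E →ₐ[k] E ⊗[K] Φ) :=
      Algebra.TensorProduct.includeLeft_injective (R := K) (S := k) (A := E) (B := Φ)
        (algebraMap K Φ).injective
    exact C.inj i hi i' hi' (C.injJ (h1 h))
  hκ := by
    intro x
    induction x using TensorProduct.induction_on with
    | zero => exact Commute.zero_right _
    | tmul e φ =>
      rw [Commute, SemiconjBy, Algebra.TensorProduct.tmul_mul_tmul,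
        Algebra.TensorProduct.tmul_mul_tmul, one_mul, mul_one, hcomm]
    | add x y hx hy => exact hx.add_right hy
  hq := by
    intro i h
    have hE := C.nontrivialE
    have hEinj : Function.Injective (algebraMap K E) := (algebraMap K E).injective
    have hΦinj : Function.Injective (algebraMap K Φ) := (algebraMap K Φ).injective
    set e : E := j (l0 + (τ ^ i) l0) with he
    have h1 : (1 : E) ⊗ₜ[K] κ + e ⊗ₜ[K] (1 : Φ) = 0 := by
      rw [he, map_add, TensorProduct.add_tmul]; exact h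
    by_cases hκK : ∃ c : K, κ = algebraMap K Φ c
    · obtain ⟨c, hc⟩ := hκK
      have h2 : (1 : E) ⊗ₜ[K] κ = (algebraMap K E c) ⊗ₜ[K] (1 : Φ) := by
        rw [hc, Algebra.algebraMap_eq_smul_one, Algebra.algebraMap_eq_smul_one,
          TensorProduct.tmul_smul, TensorProduct.smul_tmul']
      rw [h2, ← TensorProduct.add_tmul] at h1
      have h3 : Function.Injective (Algebra.TensorProduct.includeLeft : E →ₐ[K] E ⊗[K] Φ) :=
        Algebra.TensorProduct.includeLeft_injective (R := K) (S := K) (A := E) (B := Φ) hΦinj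
      have h4 : algebraMap K E c + e = 0 := h3 (by rw [map_zero]; exact h1)
      have h5 : l0 + (τ ^ i) l0 = algebraMap K L (-c) := by
        apply C.injJ
        rw [← he]
        have h6 : j (algebraMap K L (-c)) = algebraMap K E (-c) := by
          rw [IsScalarTower.algebraMap_apply K k L, AlgHom.commutes,
            ← IsScalarTower.algebraMap_apply K k E]
        rw [h6, map_neg]
        exact (neg_eq_of_add_eq_zero_right h4).symm
      exact C.nc i (-c) h5
    · -- a functional with `f 1 = 0`, `f κ ≠ 0`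
      push Not at hκK
      have hmem : κ ∉ Submodule.span K {(1 : Φ)} := by
        intro hm
        obtain ⟨c, hc⟩ := Submodule.mem_span_singleton.1 hm
        exact hκK c (by rw [← hc, Algebra.algebraMap_eq_smul_one])
      obtain ⟨f, hf1, hf2⟩ := Submodule.exists_le_ker_of_notMem hmem
      have hf3 : f 1 = 0 := hf2 (Submodule.mem_span_singleton_self 1)
      have h3 := congrArg (TensorProduct.rid K E) (congrArg (LinearMap.lTensor E f) h1)
      rw [map_add, LinearMap.lTensor_tmul, LinearMap.lTensor_tmul, hf3, TensorProduct.tmul_zero,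
        add_zero, TensorProduct.rid_tmul, map_zero, map_zero] at h3
      rcases smul_eq_zero.1 h3 with h4 | h4
      · exact hf1 h4
      · exact one_ne_zero h4
  span := by
    have key : ∀ (e : E) (φ : Φ), e ⊗ₜ[K] φ ∈ Submodule.span k
        (Set.range fun p : Fin d × Fin N × Fin N => ((1 : E) ⊗ₜ[K] κ) ^ (p.1 : ℕ) *
          (j l0 ⊗ₜ[K] (1 : Φ)) ^ (p.2.1 : ℕ) * (u ⊗ₜ[K] (1 : Φ)) ^ (p.2.2 : ℕ)) := by
      intro e φ
      refine Submodule.span_induction (p := fun e _ => e ⊗ₜ[K] φ ∈ Submodule.span k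
        (Set.range fun p : Fin d × Fin N × Fin N => ((1 : E) ⊗ₜ[K] κ) ^ (p.1 : ℕ) *
          (j l0 ⊗ₜ[K] (1 : Φ)) ^ (p.2.1 : ℕ) * (u ⊗ₜ[K] (1 : Φ)) ^ (p.2.2 : ℕ))) ?_ ?_ ?_ ?_
        (C.span_E e)
      · rintro _ ⟨⟨a, b⟩, rfl⟩
        refine Submodule.span_induction (p := fun φ _ => (j l0 ^ (a : ℕ) * u ^ (b : ℕ)) ⊗ₜ[K] φ ∈
          Submodule.span k
          (Set.range fun p : Fin d × Fin N × Fin N => ((1 : E) ⊗ₜ[K] κ) ^ (p.1 : ℕ) *
          (j l0 ⊗ₜ[K] (1 : Φ)) ^ (p.2.1 : ℕ) * (u ⊗ₜ[K] (1 : Φ)) ^ (p.2.2 : ℕ))) ?_ ?_ ?_ ?_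
          (hspan φ)
        · rintro _ ⟨n, rfl⟩
          refine Submodule.subset_span ⟨(n, a, b), ?_⟩
          simp only [Algebra.TensorProduct.tmul_pow, Algebra.TensorProduct.tmul_mul_tmul, one_pow,
            one_mul, mul_one]
        · rw [TensorProduct.tmul_zero]; exact Submodule.zero_mem _
        · intro x y _ _ hx hy
          rw [TensorProduct.tmul_add]; exact Submodule.add_mem _ hx hy
        · intro c x _ hx
          have : (j l0 ^ (a : ℕ) * u ^ (b : ℕ)) ⊗ₜ[K] (c • x)
              = (algebraMap K k c) • ((j l0 ^ (a : ℕ) * u ^ (b : ℕ)) ⊗ₜ[K] x) := by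
            rw [TensorProduct.tmul_smul, algebraMap_smul]
          rw [this]
          exact Submodule.smul_mem _ _ hx
      · rw [TensorProduct.zero_tmul]; exact Submodule.zero_mem _
      · intro x y _ _ hx hy
        rw [TensorProduct.add_tmul]; exact Submodule.add_mem _ hx hy
      · intro c x _ hx
        rw [← TensorProduct.smul_tmul']; exact Submodule.smul_mem _ _ hx
    intro x
    induction x using TensorProduct.induction_on with
    | zero => exact Submodule.zero_mem _
    | tmul e φ => exact key e φ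
    | add x y hx hy => exact Submodule.add_mem _ hx hy
  liX := by
    have hE := C.nontrivialE
    have h1 := C.li.map' j.toLinearMap (LinearMap.ker_eq_bot.2 C.injJ)
    have hf : Function.Injective (inclE K k : E →ₐ[k] E ⊗[K] Φ) :=
      Algebra.TensorProduct.includeLeft_injective (R := K) (S := k) (A := E) (B := Φ)
        (algebraMap K Φ).injective
    have h2 := h1.map' (inclE K k : E →ₐ[k] E ⊗[K] Φ).toLinearMap (LinearMap.ker_eq_bot.2 hf)
    have h3 : ((inclE K k : E →ₐ[k] E ⊗[K] Φ).toLinearMap ∘ j.toLinearMap ∘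
        fun i : Fin N => l0 ^ (i : ℕ)) = fun i : Fin N => (j l0 ⊗ₜ[K] (1 : Φ)) ^ (i : ℕ) := by
      funext i
      change (j (l0 ^ (i : ℕ))) ⊗ₜ[K] (1 : Φ) = _
      rw [map_pow, Algebra.TensorProduct.tmul_pow, one_pow]
    rw [h3] at h2
    exact h2
  spX := by
    intro l hl
    have h1 : Algebra.adjoin k {j l0 ⊗ₜ[K] (1 : Φ)}
        = (Algebra.adjoin k {l0}).map ((inclE K k : E →ₐ[k] E ⊗[K] Φ).comp j) := by
      rw [AlgHom.map_adjoin, Set.image_singleton]
      rfl
    rw [h1] at hl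
    obtain ⟨y, _, rfl⟩ := Subalgebra.mem_map.1 hl
    have h2 : y ∈ Submodule.span k (Set.range fun i : Fin N => l0 ^ (i : ℕ)) := by
      rw [C.span_eq]; trivial
    refine Submodule.span_induction (p := fun y _ =>
      ((inclE K k : E →ₐ[k] E ⊗[K] Φ).comp j) y ∈ Submodule.span k
      (Set.range fun i : Fin N => (j l0 ⊗ₜ[K] (1 : Φ)) ^ (i : ℕ))) ?_ ?_ ?_ ?_ h2
    · rintro _ ⟨i, rfl⟩
      refine Submodule.subset_span ⟨i, ?_⟩
      rw [map_pow]
      rfl
    · rw [map_zero]; exact Submodule.zero_mem _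
    · intro x y _ _ hx hy
      rw [map_add]; exact Submodule.add_mem _ hx hy
    · intro c x _ hx
      rw [map_smul]; exact Submodule.smul_mem _ _ hx

end tensor

end Crest.Agent.R180
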