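import Crest.Agent.R180.P3Pt

set_option autoImplicit false
set_option linter.unusedSectionVars false
set_option linter.unusedVariables false

/-!
# Row 180, Phase 3: the move is good (helper881)
-/

noncomputable section
namespace Crest.Agent.R180

open TensorProduct

theorem ofPS_X_mul {A : Type} [Ring A] (f : PowerSeries A) :
    (LD.ofPS (PowerSeries.X * f) : LD A) = LD.tp 1 * LD.ofPS f := by
  rw [map_mul]
  congr 1
  exact HahnSeries.ofPowerSeries_X

theorem ofPS_C {A : Type} [Ring A] (a : A) : (LD.ofPS (PowerSeries.C a) : LD A) = LD.C a := rfl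

theorem LD_comm {W : Type} [Ring W] (hW : ∀ x y : W, x * y = y * x) (x y : LD W) :
    x * y = y * x := by
  let cr : CommRing W := { (inferInstance : Ring W) with mul_comm := hW }
  exact @mul_comm (HahnSeries ℤ W) _ x y

theorem map_ofPS {A B : Type} [Ring A] [Ring B] (φ : A →+* B) (f : PowerSeries A) :
    (LD.ofPS (PowerSeries.map φ f) : LD B) = LD.map φ (LD.ofPS f) := by
  apply LD.ext
  intro n
  rw [LD.co_map]
  rcases lt_or_ge n 0 with h | h
  · rw [LD.co_ofPS_neg _ _ h, LD.co_ofPS_neg _ _ h, map_zero]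
  · obtain ⟨j, rfl⟩ : ∃ j : ℕ, n = (j : ℤ) := ⟨n.toNat, by omega⟩
    rw [LD.co_ofPS, LD.co_ofPS, PowerSeries.coeff_map]

section move
variable {K : Type} [Field K] [CharZero K] {N : ℕ} (C : CycG K N (Fin 1)) {m : ℕ}
  (w1 w2 : Fin m → K)

theorem p3L_nil (i : Fin m) : (LD.ofPS (p3L C w1 w2 i []) : LD C.E) =
    LD.tp 1 * (LD.C (p3z0 C w1 w2 i) + LD.tp 1 * LD.C (p3z1 C w1 i)) := by
  rw [p3L, Zl_nil, ofPS_X_mul, map_add, ofPS_X_mul, ofPS_C, ofPS_C]

theorem p3L_single (i : Fin m) (s : Fin (N * (N - 1))) :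
    (LD.ofPS (p3L C w1 w2 i [s]) : LD C.E) = LD.tp 1 * LD.C (p3u C w1 s i) := by
  rw [p3L, Zl_single, ofPS_X_mul, ofPS_C]

theorem p3_gen (hN : 1 < N) (i₀ i₁ : Fin m) (hi : i₁ ≠ i₀) (hw1 : w1 = Pi.single i₀ 1)
    (hw2 : w2 i₁ ≠ 0) :
    Algebra.adjoin (LF C.K₁) (Set.range fun j => (LD.ofPS (p3L C w1 w2 j []) : LD C.E)) = ⊤ := by
  have CA := C.cycAlg hN
  set S := Algebra.adjoin (LF C.K₁) (Set.range fun j => (LD.ofPS (p3L C w1 w2 j []) : LD C.E))
    with hS
  have htp : ∀ (n : ℤ) (x : LD C.E), x ∈ S → LD.tp n * x ∈ S := by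
    intro n x hx
    rw [← LD.toLD_tp (F := C.K₁), ← LD.smul_def]
    exact S.smul_mem hx _
  have htp' : ∀ (n : ℤ) (x : LD C.E), LD.tp n * x ∈ S → x ∈ S := by
    intro n x hx
    have h1 := htp (-n) _ hx
    rw [← mul_assoc, LD.tp_mul_tp, neg_add_cancel, LD.tp_zero, one_mul] at h1
    exact h1
  let T : Subalgebra C.K₁ C.E :=
    { carrier := {x | LD.C x ∈ S}
      mul_mem' := fun {a b} ha hb => by
        change LD.C (a * b) ∈ S
        rw [map_mul]; exact S.mul_mem ha hb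
      add_mem' := fun {a b} ha hb => by
        change LD.C (a + b) ∈ S
        rw [map_add]; exact S.add_mem ha hb
      algebraMap_mem' := fun c => by
        change LD.C (algebraMap C.K₁ C.E c) ∈ S
        rw [← LD.toLD_C (F := C.K₁)]
        exact S.algebraMap_mem _ }
  have hKs : ∀ (c : K) (x : C.E), x ∈ T → c • x ∈ T := by
    intro c x hx
    rw [← algebraMap_smul C.K₁ c x]
    exact T.smul_mem hx _
  have hKs' : ∀ (c : K) (x : C.E), c ≠ 0 → c • x ∈ T → x ∈ T := by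
    intro c x hc hx
    have := hKs c⁻¹ _ hx
    rwa [smul_smul, inv_mul_cancel₀ hc, one_smul] at this
  have hθ : C.θE ∈ T := by
    have h1 : (LD.ofPS (p3L C w1 w2 i₁ []) : LD C.E) ∈ S := Algebra.subset_adjoin ⟨i₁, rfl⟩
    have h2 : w1 i₁ = 0 := by rw [hw1, Pi.single_eq_of_ne hi]
    rw [p3L_nil, p3z0, p3z1, h2, zero_smul, zero_smul, add_zero, map_zero, mul_zero, add_zero] at h1
    exact hKs' _ _ hw2 (htp' 1 _ h1)
  have hu : C.u ^ (N - 1) ∈ T := by
    have h1 : (LD.ofPS (p3L C w1 w2 i₀ []) : LD C.E) ∈ S := Algebra.subset_adjoin ⟨i₀, rfl⟩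
    have h2 : w1 i₀ = 1 := by rw [hw1, Pi.single_eq_same]
    rw [p3L_nil] at h1
    have h3 := htp' 1 _ h1
    have h4 : LD.C (p3z0 C w1 w2 i₀) ∈ S := by
      change p3z0 C w1 w2 i₀ ∈ T
      rw [p3z0]
      exact T.add_mem (hKs _ _ hθ) (hKs _ _ (T.pow_mem hθ 2))
    have h5 := S.sub_mem h3 h4
    rw [add_sub_cancel_left] at h5
    have h6 := htp' 1 _ h5
    rw [p3z1, h2, one_smul] at h6
    exact h6
  exact LD.eq_top_of_C_mem S fun x => CA.mem_of T hθ hu x

theorem p3_indep (hN : 1 < N) (i₀ i₁ : Fin m) (hi : i₁ ≠ i₀) (hw1 : w1 = Pi.single i₀ 1)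
    (hw2 : w2 i₁ ≠ 0) (l : Fin (N * (N - 1)) → LF C.K₁) (g : LD C.E)
    (h : ∀ j, ∑ i, l i • (LD.ofPS (p3L C w1 w2 j [i]) : LD C.E)
      = g * LD.ofPS (p3L C w1 w2 j []) - LD.ofPS (p3L C w1 w2 j []) * g) : l = 0 := by
  classical
  have CA := C.cycAlg hN
  have h1i : w1 i₁ = 0 := by rw [hw1, Pi.single_eq_of_ne hi]
  have h1i0 : w1 i₀ = 1 := by rw [hw1, Pi.single_eq_same]
  -- `g` commutes with `θ`
  have hg : ∀ n : ℤ, g.co n * C.θE = C.θE * g.co n := by
    intro n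
    have h2 := h i₁
    have h3 : ∑ i, l i • (LD.ofPS (p3L C w1 w2 i₁ [i]) : LD C.E) = 0 := by
      refine Finset.sum_eq_zero fun s _ => ?_
      rw [p3L_single, p3u, h1i, zero_smul, map_zero, mul_zero, smul_zero]
    rw [h3, p3L_nil, p3z0, p3z1, h1i, zero_smul, zero_smul, add_zero, map_zero, mul_zero,
      add_zero] at h2
    have h4 := congrArg (fun x : LD C.E => x.co (n + 1)) h2
    simp only [LD.co_zero, LD.co_sub] at h4
    rw [← mul_assoc, LD.mul_C_co, LD.co_mul_tp, mul_assoc (LD.tp 1), LD.co_tp_mul, LD.C_mul_co,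
      add_sub_cancel_right, mul_smul_comm, smul_mul_assoc, ← smul_sub] at h4
    have h5 := (smul_eq_zero.1 h4.symm).resolve_left hw2
    exact sub_eq_zero.1 h5
  -- the relation at `i₀`
  have hrel : ∀ n : ℤ, ∃ y : C.L, ∑ s, (l s).co n • (C.θE ^ ((p3e N s).1 : ℕ) *
      C.u ^ ((p3e N s).2 : ℕ)) = C.j y * C.u ^ (N - 1) := by
    intro n
    have h2 := h i₀
    have hz0 : ∀ n : ℤ, g.co n * p3z0 C w1 w2 i₀ = p3z0 C w1 w2 i₀ * g.co n := by
      intro n
      have hc : Commute (g.co n) C.θE := hg n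
      have : Commute (g.co n) (p3z0 C w1 w2 i₀) := by
        rw [p3z0]
        exact (hc.smul_right _).add_right ((hc.pow_right 2).smul_right _)
      exact this.eq
    obtain ⟨y, hy⟩ := CA.commutator_form (g.co (n - 1)) (hg (n - 1))
    refine ⟨y, ?_⟩
    rw [← hy]
    have h4 := congrArg (fun x : LD C.E => x.co (n + 1)) h2
    simp only [LD.co_sub] at h4
    have hR : (g * LD.ofPS (p3L C w1 w2 i₀ [])).co (n + 1)
        - (LD.ofPS (p3L C w1 w2 i₀ []) * g).co (n + 1) = g.co (n - 1) * C.u ^ (N - 1)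
          - C.u ^ (N - 1) * g.co (n - 1) := by
      rw [p3L_nil]
      have e1 : g * (LD.tp 1 * (LD.C (p3z0 C w1 w2 i₀) + LD.tp 1 * LD.C (p3z1 C w1 i₀)))
          = g * LD.tp 1 * LD.C (p3z0 C w1 w2 i₀)
            + g * (LD.tp 1 * LD.tp 1) * LD.C (p3z1 C w1 i₀) := by noncomm_ring
      have e2 : LD.tp 1 * (LD.C (p3z0 C w1 w2 i₀) + LD.tp 1 * LD.C (p3z1 C w1 i₀)) * g
          = LD.tp 1 * (LD.C (p3z0 C w1 w2 i₀) * g)
            + LD.tp 1 * LD.tp 1 * (LD.C (p3z1 C w1 i₀) * g) := by noncomm_ring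
      rw [e1, e2, LD.co_add, LD.co_add, LD.tp_mul_tp, LD.mul_C_co, LD.mul_C_co, LD.co_mul_tp,
        LD.co_mul_tp, LD.co_tp_mul, LD.co_tp_mul, LD.C_mul_co, LD.C_mul_co, hz0, p3z1, h1i0,
        one_smul]
      have e3 : n + 1 - (1 + 1) = n - 1 := by ring
      rw [e3]
      abel
    rw [hR] at h4
    rw [← h4, LD.co_sum]
    refine Finset.sum_congr rfl fun s _ => ?_
    rw [p3L_single, p3u, h1i0, one_smul]
    have e4 : l s • (LD.tp 1 * LD.C (C.θE ^ ((p3e N s).1 : ℕ) * C.u ^ ((p3e N s).2 : ℕ)) :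
        LD C.E) = LD.tp 1 * (l s • LD.C (C.θE ^ ((p3e N s).1 : ℕ) * C.u ^ ((p3e N s).2 : ℕ))) := by
      rw [mul_smul_comm]
    rw [e4, LD.co_tp_mul, add_sub_cancel_right, LD.co_smul_C]
  -- coordinates
  funext s0
  apply LF.ext
  intro n
  obtain ⟨y, hy⟩ := hrel n
  let b := Module.Basis.mk CA.li_E (fun x _ => CA.span_E x)
  have hN0 : 0 < N := by omega
  set a0 : Fin N := (p3e N s0).1 with ha0
  have hb0lt : ((p3e N s0).2 : ℕ) < N := by have := (p3e N s0).2.2; omega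
  let b0 : Fin N := ⟨(p3e N s0).2, hb0lt⟩
  have hb : ∀ p : Fin N × Fin N, b p = C.θE ^ (p.1 : ℕ) * C.u ^ (p.2 : ℕ) := by
    intro p
    simp only [b, Module.Basis.mk_apply]
  have hlast : b.coord (a0, b0) (C.j y * C.u ^ (N - 1)) = 0 := by
    have h1 : y ∈ Submodule.span C.K₁ (Set.range fun i : Fin N => (C.gen 0) ^ (i : ℕ)) := by
      rw [CA.span_eq]; trivial
    refine Submodule.span_induction (p := fun y _ => b.coord (a0, b0) (C.j y * C.u ^ (N - 1)) = 0)
      ?_ ?_ ?_ ?_ h1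
    · rintro _ ⟨i, rfl⟩
      have h2 : C.j (C.gen 0 ^ (i : ℕ)) * C.u ^ (N - 1) = b (i, ⟨N - 1, by omega⟩) := by
        rw [hb, map_pow]
      dsimp only
      rw [h2, Module.Basis.coord_apply, Module.Basis.repr_self, Finsupp.single_apply, if_neg]
      intro h3
      have h4 := congrArg (fun p : Fin N × Fin N => (p.2 : ℕ)) h3
      simp only [b0] at h4
      have := (p3e N s0).2.2
      omega
    · simp
    · intro x y _ _ hx hy
      rw [map_add, add_mul, map_add, hx, hy, add_zero]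
    · intro c x _ hx
      rw [map_smul, smul_mul_assoc, map_smul, hx, smul_zero]
  have h5 := congrArg (b.coord (a0, b0)) hy
  rw [hlast, map_sum, Finset.sum_eq_single s0] at h5
  · have h6 : C.θE ^ ((p3e N s0).1 : ℕ) * C.u ^ ((p3e N s0).2 : ℕ) = b (a0, b0) := by
      rw [hb]
    rw [map_smul, h6, Module.Basis.coord_apply, Module.Basis.repr_self,
      Finsupp.single_eq_same, smul_eq_mul, mul_one] at h5
    rw [h5]; rfl
  · intro s _ hs
    have hblt : ((p3e N s).2 : ℕ) < N := by have := (p3e N s).2.2; omega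
    have h6 : C.θE ^ ((p3e N s).1 : ℕ) * C.u ^ ((p3e N s).2 : ℕ)
        = b ((p3e N s).1, ⟨(p3e N s).2, hblt⟩) := by
      rw [hb]
    rw [map_smul, h6, Module.Basis.coord_apply, Module.Basis.repr_self, Finsupp.single_apply,
      if_neg, smul_zero]
    intro h7
    apply hs
    apply (p3e N).injective
    have h8 := Prod.mk.inj h7
    refine Prod.ext h8.1 (Fin.ext ?_)
    have h9 := congrArg Fin.val h8.2
    exact h9
  · intro h6; exact absurd (Finset.mem_univ _) h6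

theorem p3_good (hN : 1 < N) (i₀ i₁ : Fin m) (hi : i₁ ≠ i₀) (hw1 : w1 = Pi.single i₀ 1)
    (hw2 : w2 i₁ ≠ 0) : C.GoodX (p3L C w1 w2) where
  x0 := p3L_x0 C w1 w2
  gen := p3_gen C w1 w2 hN i₀ i₁ hi hw1 hw2
  indep := p3_indep C w1 w2 hN i₀ i₁ hi hw1 hw2

end move

end Crest.Agent.R180
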