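import Mathlib

set_option autoImplicit false

/-!
# Row 180, Phase 3: a primitive element in the span of generators (helper881)
-/

namespace Crest.Agent.R180

theorem exists_primitive_comb {K Φ : Type} [Field K] [CharZero K] [Field Φ] [Algebra K Φ]
    [FiniteDimensional K Φ] {ι : Type} [Fintype ι] (g : ι → Φ) (i₀ i₁ : ι) (hi : i₁ ≠ i₀)
    (hgen : Algebra.adjoin K (Set.range g) = ⊤) :
    ∃ w : ι → K, Algebra.adjoin K {∑ i, w i • g i} = ⊤ ∧ ∃ i, i ≠ i₀ ∧ w i ≠ 0 := by
  classical
  have hfin : Finite (IntermediateField K Φ) :=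
    Field.finite_intermediateField_of_exists_primitive_element K Φ
      (Field.exists_primitive_element K Φ)
  let f : (ι → K) →ₗ[K] Φ := ∑ i, (LinearMap.proj i : (ι → K) →ₗ[K] K).smulRight (g i)
  have hf : ∀ w, f w = ∑ i, w i • g i := by intro w; simp [f]
  let V : Option {F : IntermediateField K Φ // F ≠ ⊤} → Submodule K (ι → K) := fun o =>
    match o with
    | none => LinearMap.ker (LinearMap.funLeft K K (fun i : {i : ι // i ≠ i₀} => (i : ι)))
    | some F => (Subalgebra.toSubmodule F.1.toSubalgebra).comap f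
  have hV : ∀ o, V o ≠ ⊤ := by
    intro o
    cases o with
    | none =>
      intro h
      have h1 : (Pi.single i₁ 1 : ι → K) ∈ V none := by rw [h]; trivial
      have h2 := congrFun (LinearMap.mem_ker.1 h1) ⟨i₁, hi⟩
      rw [LinearMap.funLeft_apply, Pi.zero_apply, Pi.single_eq_same] at h2
      exact one_ne_zero h2
    | some F =>
      intro h
      apply F.2
      rw [eq_top_iff]
      have h1 : ∀ i, g i ∈ F.1 := by
        intro i
        have h2 : (Pi.single i 1 : ι → K) ∈ V (some F) := by rw [h]; trivial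
        have h3 : f (Pi.single i 1) ∈ F.1 := h2
        rw [hf, Finset.sum_eq_single i] at h3
        · simpa using h3
        · intro j _ hj
          rw [Pi.single_eq_of_ne hj, zero_smul]
        · intro h; exact absurd (Finset.mem_univ i) h
      intro x _
      have h4 : x ∈ Algebra.adjoin K (Set.range g) := by rw [hgen]; trivial
      have h5 : Algebra.adjoin K (Set.range g) ≤ F.1.toSubalgebra := by
        refine Algebra.adjoin_le ?_
        rintro _ ⟨i, rfl⟩
        exact h1 i
      exact h5 h4
  have hne : (⋃ o, (V o : Set (ι → K))) ≠ Set.univ := by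
    intro h
    obtain ⟨o, ho⟩ := Subspace.exists_eq_top_of_iUnion_eq_univ (p := V) h
    exact hV o ho
  obtain ⟨w, hw⟩ := (Set.ne_univ_iff_exists_notMem _).1 hne
  rw [Set.mem_iUnion] at hw
  push Not at hw
  refine ⟨w, ?_, ?_⟩
  · rw [← hf]
    have h1 : IntermediateField.adjoin K {f w} = ⊤ := by
      by_contra h
      exact hw (some ⟨_, h⟩) (IntermediateField.mem_adjoin_simple_self K (f w))
    have h2 := IntermediateField.adjoin_simple_toSubalgebra_of_isAlgebraic
      (Algebra.IsAlgebraic.isAlgebraic (R := K) (f w))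
    rw [← h2, h1, IntermediateField.top_toSubalgebra]
  · by_contra h
    push Not at h
    apply hw none
    change w ∈ LinearMap.ker _
    rw [LinearMap.mem_ker]
    funext i
    rw [LinearMap.funLeft_apply, h i i.2, Pi.zero_apply]

theorem span_pow_of_adjoin {K Φ : Type} [Field K] [Ring Φ] [Algebra K Φ]
    [FiniteDimensional K Φ] [Nontrivial Φ] (κ : Φ) (h : Algebra.adjoin K {κ} = ⊤) (x : Φ) :
    x ∈ Submodule.span K (Set.range fun n : Fin (Module.finrank K Φ) => κ ^ (n : ℕ)) := by
  have hint : IsIntegral K κ := IsIntegral.of_finite K κ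
  have hx : x ∈ Algebra.adjoin K {κ} := by rw [h]; trivial
  rw [Algebra.adjoin_singleton_eq_range_aeval] at hx
  obtain ⟨p, rfl⟩ := hx
  change Polynomial.aeval κ p ∈ _
  have h1 : Polynomial.aeval κ p = Polynomial.aeval κ (p %ₘ minpoly K κ) := by
    rw [Polynomial.aeval_modByMonic_eq_self_of_root (minpoly.aeval K κ)]
  rw [h1, Polynomial.aeval_eq_sum_range' (n := Module.finrank K Φ)]
  · refine Submodule.sum_mem _ fun i hi => Submodule.smul_mem _ _ (Submodule.subset_span ?_)
    exact ⟨⟨i, Finset.mem_range.1 hi⟩, rfl⟩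
  · have h2 : (minpoly K κ).natDegree ≤ Module.finrank K Φ := minpoly.natDegree_le κ
    have h3 : (minpoly K κ).natDegree ≠ 0 := (minpoly.natDegree_pos hint).ne'
    have h4 := Polynomial.natDegree_modByMonic_lt p (minpoly.monic hint)
      (fun h => h3 (by rw [h, Polynomial.natDegree_one]))
    omega

/-- version for a commutative ring given by a `Ring` structure -/
theorem exists_primitive_comb' {K Φ : Type} [Field K] [CharZero K] [Ring Φ] [IsDomain Φ]
    [Algebra K Φ] [FiniteDimensional K Φ] (hc : ∀ a b : Φ, a * b = b * a)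
    {ι : Type} [Fintype ι] (g : ι → Φ) (i₀ i₁ : ι) (hi : i₁ ≠ i₀)
    (hgen : Algebra.adjoin K (Set.range g) = ⊤) :
    ∃ w : ι → K, Algebra.adjoin K {∑ i, w i • g i} = ⊤ ∧ ∃ i, i ≠ i₀ ∧ w i ≠ 0 := by
  classical
  let cr : CommRing Φ := { (inferInstance : Ring Φ) with mul_comm := hc }
  let fl : Field Φ := fieldOfFiniteDimensional K Φ
  exact exists_primitive_comb g i₀ i₁ hi hgen

end Crest.Agent.R180
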