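import Crest.Agent.R180.P3Core
import Crest.Agent.R180.LaurentLemmas

set_option autoImplicit false
set_option linter.unusedSectionVars false

/-!
# Row 180, Phase 3: rank of the second order form (helper881)
-/

namespace Crest.Agent.R180

open Finset

section rows

theorem card_le_rank_of_rows {F S I J : Type} [Field F] [Fintype S] [Fintype I] [Fintype J]
    (M : Matrix I J F) (f : S → I)
    (h : LinearIndependent F fun s => M (f s)) : Fintype.card S ≤ M.rank := by
  rw [Matrix.rank_eq_finrank_span_row, ← finrank_span_eq_card h]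
  refine Submodule.finrank_mono (Submodule.span_mono ?_)
  rintro _ ⟨s, rfl⟩
  exact ⟨f s, rfl⟩

end rows

section lead
variable {k W : Type} [Field k] [Ring W] [Algebra k W] [Module.Finite k W]

/-- leading coefficient of a functional on `W((t))` -/
theorem exists_lead (H : LD W →ₗ[LF k] LF k) (hH : H ≠ 0) :
    ∃ (r : ℤ) (h0 : W →ₗ[k] k), h0 ≠ 0 ∧ ∀ x : LD W, LD.IsInt x →
      LF.IsInt (LF.tp r * H x) ∧ (LF.tp r * H x).co 0 = h0 (x.co 0) := by
  classical
  let b := Module.finBasis k W
  have hne : ∃ i ∈ (Finset.univ : Finset (Fin (Module.finrank k W))), H (LD.C (b i)) ≠ 0 := by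
    by_contra hcon
    push Not at hcon
    apply hH
    refine (LD.basis b).ext fun i => ?_
    rw [LD.basis_apply, hcon i (Finset.mem_univ i), LinearMap.zero_apply]
  obtain ⟨r, hr1, i0, _, hr2⟩ := LD.exists_min_order Finset.univ (fun i => H (LD.C (b i))) hne
  let h0 : W →ₗ[k] k := b.constr k fun i => (H (LD.C (b i))).co r
  refine ⟨-r, h0, ?_, ?_⟩
  · intro h
    apply hr2
    have h1 : h0 (b i0) = (H (LD.C (b i0))).co r := by simp [h0]
    rw [← h1, h, LinearMap.zero_apply]
  · intro x hx
    have hint : ∀ i, LF.IsInt ((LD.basis b).repr x i) := by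
      intro i n hn
      rw [LD.basis_repr_co, hx n hn, map_zero, Finsupp.zero_apply]
    have hint2 : ∀ i, LF.IsInt (LF.tp (-r) * H (LD.C (b i))) := by
      intro i n hn
      rw [LF.co_tp_mul]
      exact hr1 i (Finset.mem_univ i) _ (by omega)
    have hx1 : LF.tp (-r) * H x
        = ∑ i, (LD.basis b).repr x i * (LF.tp (-r) * H (LD.C (b i))) := by
      conv_lhs => rw [← (LD.basis b).sum_repr x]
      rw [map_sum, Finset.mul_sum]
      refine Finset.sum_congr rfl fun i _ => ?_
      rw [map_smul, LD.basis_apply, smul_eq_mul]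
      ring
    rw [hx1]
    constructor
    · exact LF.IsInt.sum fun i _ => (hint i).mul (hint2 i)
    · rw [LF.co_sum]
      conv_rhs => rw [← b.sum_repr (x.co 0), map_sum]
      refine Finset.sum_congr rfl fun i _ => ?_
      rw [LF.co_mul_zero (hint i) (hint2 i), LD.basis_repr_co, LF.co_tp_mul, map_smul, smul_eq_mul]
      simp [h0]

end lead

namespace CycData

variable {k A : Type} [Field k] [Ring A] [Algebra k A] {m d : ℕ} {X Y κ : A} {Xj : ℕ → A} {b : k}
  (D : CycData k m d X Y κ Xj b)
include D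
variable [CharZero k] [IsDomain A] [FiniteDimensional k A]

theorem finrank_W :
    Module.finrank k (Subalgebra.centralizer k {eta X κ}) ≤ d * m := by
  have h1 : Subalgebra.toSubmodule (Subalgebra.centralizer k {eta X κ}) ≤ Submodule.span k
      (Set.range fun p : Fin d × Fin m => κ ^ (p.1 : ℕ) * X ^ (p.2 : ℕ)) := by
    intro x hx
    refine D.mem_of_commute (D.commute_of_commute_eta ?_)
    have h2 := (Subalgebra.mem_centralizer_iff k).1 hx (eta X κ) (Set.mem_singleton _)
    exact h2.symm
  have h2 := (Submodule.finrank_mono h1).trans (finrank_range_le_card _)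
  rw [Fintype.card_prod, Fintype.card_fin, Fintype.card_fin] at h2
  exact h2

theorem W_comm (x y : Subalgebra.centralizer k {eta X κ}) : x * y = y * x := by
  have hX : ∀ x : Subalgebra.centralizer k {eta X κ}, Commute (x : A) X := by
    intro x
    refine D.commute_of_commute_eta ?_
    have h2 := (Subalgebra.mem_centralizer_iff k).1 x.2 (eta X κ) (Set.mem_singleton _)
    exact h2.symm
  apply Subtype.ext
  change (x : A) * y = y * x
  have h1 := D.mem_of_commute (hX y)
  refine Submodule.span_induction (p := fun y _ => (x : A) * y = y * x) ?_ ?_ ?_ ?_ h1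
  · rintro _ ⟨⟨n, i⟩, rfl⟩
    have h3 : Commute (x : A) (κ ^ (n : ℕ) * X ^ (i : ℕ)) :=
      ((D.hκ (x : A)).symm.pow_right _).mul_right ((hX x).pow_right _)
    exact h3.eq
  · simp
  · intro y z _ _ hy hz
    rw [mul_add, add_mul, hy, hz]
  · intro r y _ hy
    rw [mul_smul_comm, hy, smul_mul_assoc]

/-- the letters of the Phase 3 point -/
def _root_.Crest.Agent.R180.p3x (m : ℕ) {A : Type} [Ring A] (X Y : A) (s : Fin m × Fin (m - 1)) :
    A := X ^ (s.1 : ℕ) * Y ^ (s.2 : ℕ)

/-- rank of the residue form -/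
theorem rank_residue (h0 : Subalgebra.centralizer k {eta X κ} →ₗ[k] k) (hh : h0 ≠ 0)
    (g : Fin m × Fin (m - 1) → Fin m × Fin (m - 1) → Subalgebra.centralizer k {eta X κ})
    (hg : ∀ s s', (g s s' : A) =
      cpi k (eta X κ) (adInv k (eta X κ) (p3x m X Y s) * p3x m X Y s')) :
    m * (m - d - 2) ≤ (Matrix.of fun s s' => h0 (g s s')).rank := by
  classical
  -- the functional on `A`
  let f : A →ₗ[k] k := h0 ∘ₗ (LinearMap.codRestrict
    (Subalgebra.toSubmodule (Subalgebra.centralizer k {eta X κ})) (cpi k (eta X κ)) (fun x => by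
      change cpi k (eta X κ) x ∈ Subalgebra.centralizer k {eta X κ}
      rw [Subalgebra.mem_centralizer_iff]
      rintro y rfl
      exact (commute_cpi k (eta X κ) x).eq))
  have hf : ∀ (x : A) (w : Subalgebra.centralizer k {eta X κ}),
      (w : A) = cpi k (eta X κ) x → f x = h0 w := by
    intro x w hw
    change h0 _ = h0 w
    congr 1
    exact Subtype.ext hw.symm
  obtain ⟨c, hc⟩ := exists_ltr_eq (k := k) f
  have hc0 : c ≠ 0 := by
    rintro rfl
    apply hh
    ext w
    rw [LinearMap.zero_apply, ← hf (w : A) w (by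
      rw [cpi_of_commute]
      have h2 := (Subalgebra.mem_centralizer_iff k).1 w.2 (eta X κ) (Set.mem_singleton _)
      exact h2), hc, zero_mul, map_zero]
  have hcη : Commute c (eta X κ) := by
    have h1 : c * eta X κ - eta X κ * c = 0 := by
      refine ltr_nondeg (k := k) fun y => ?_
      have h2 : f (ad k (eta X κ) y) = 0 := by
        rw [hf _ 0 (by rw [cpi_ad]; rfl), map_zero]
      rw [hc, ad_apply, mul_sub, map_sub] at h2
      rw [sub_mul, map_sub, ← h2]
      congr 1
      · rw [mul_assoc]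
      · rw [mul_assoc, ltr_mul_comm, mul_assoc]
    exact sub_eq_zero.1 h1
  obtain ⟨G, hG1, hG2, hG3⟩ := D.nd_rows hc0 hcη
  have hrow : ∀ s s', (Matrix.of fun s s' => h0 (g s s')) s s'
      = ltr k A (c * adInv k (eta X κ) (p3x m X Y s) * p3x m X Y s') := by
    intro s s'
    rw [Matrix.of_apply, ← hf _ _ (hg s s'), hc, mul_assoc]
  -- index map
  let S := {j // j ∈ G} × Fin m
  let φ : S → Fin m × Fin (m - 1) := fun p => (p.2, ⟨p.1, by have := hG1 p.1 p.1.2; omega⟩)
  have hli : LinearIndependent k fun s : S => (Matrix.of fun s s' => h0 (g s s')) (φ s) := by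
    rw [Fintype.linearIndependent_iff]
    intro c' hc' ⟨j, i⟩
    let g' : ℕ → ℕ → k := fun i j =>
      if h : j ∈ G ∧ i < m then c' (⟨j, h.1⟩, ⟨i, h.2⟩) else 0
    have h1 := hG3 g' (fun i' hi' j' hj' => by
      have h2 := congrFun hc' (⟨i', hi'⟩, ⟨j', hj'⟩)
      rw [Finset.sum_apply, Pi.zero_apply] at h2
      rw [← h2]
      have h3 : ∑ j ∈ G, ∑ i ∈ range m, g' i j • (X ^ i * Y ^ j)
          = ∑ s : S, c' s • p3x m X Y (φ s) := by
        rw [Fintype.sum_prod_type, ← Finset.sum_coe_sort G]
        refine Finset.sum_congr rfl fun j _ => ?_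
        rw [Finset.sum_range]
        refine Finset.sum_congr rfl fun i _ => ?_
        have h4 : g' (i : ℕ) (j : ℕ) = c' (j, i) := by
          simp only [g']
          rw [dif_pos ⟨j.2, i.2⟩]
        rw [h4]
        rfl
      rw [h3, map_sum, Finset.mul_sum, Finset.sum_mul, map_sum]
      refine Finset.sum_congr rfl fun s _ => ?_
      rw [Pi.smul_apply, hrow, map_smul, mul_smul_comm, smul_mul_assoc, map_smul]
      rfl) j j.2 i i.2
    simp only [g'] at h1
    rw [dif_pos ⟨j.2, i.2⟩] at h1
    exact h1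
  have h1 := card_le_rank_of_rows _ φ hli
  refine le_trans ?_ h1
  rw [Fintype.card_prod, Fintype.card_coe, Fintype.card_fin, mul_comm]
  exact Nat.mul_le_mul_right _ (by omega)

/-- **rank bound of Phase 3** -/
theorem rank_p3 (H : LD (Subalgebra.centralizer k {eta X κ}) →ₗ[LF k] LF k) (hH : H ≠ 0)
    (e : Fin m × Fin (m - 1) → Fin m × Fin (m - 1) →
      PowerSeries (Subalgebra.centralizer k {eta X κ}))
    (he : ∀ s s', ((PowerSeries.constantCoeff (e s s') :
      Subalgebra.centralizer k {eta X κ}) : A) =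
      cpi k (eta X κ) (adInv k (eta X κ) (p3x m X Y s) * p3x m X Y s')) :
    m * (m - d - 2) ≤ (Matrix.of fun s s' => H (LD.ofPS (PowerSeries.X * e s s'))).rank := by
  classical
  obtain ⟨r, h0, hh, hr⟩ := exists_lead H hH
  have h1 := D.rank_residue h0 hh (fun s s' => PowerSeries.constantCoeff (e s s')) he
  have htp : ∀ x : PowerSeries (Subalgebra.centralizer k {eta X κ}),
      H (LD.ofPS (PowerSeries.X * x)) = LF.tp 1 * H (LD.ofPS x) := by
    intro x
    rw [← smul_eq_mul (LF.tp 1), ← map_smul H]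
    congr 1
    apply LD.ext
    intro n
    rw [LD.co_tp_smul]
    rcases lt_or_ge n 1 with hn | hn
    · rw [LD.co_ofPS_neg x (n - 1) (by omega)]
      rcases lt_or_ge n 0 with hn' | hn'
      · exact LD.co_ofPS_neg _ _ hn'
      · have : n = ((0 : ℕ) : ℤ) := by omega
        rw [this, LD.co_ofPS]
        simp
    · obtain ⟨j, rfl⟩ : ∃ j : ℕ, n = ((j + 1 : ℕ) : ℤ) := ⟨(n - 1).toNat, by omega⟩
      rw [LD.co_ofPS]
      have h2 : ((j + 1 : ℕ) : ℤ) - 1 = ((j : ℕ) : ℤ) := by omega
      rw [h2, LD.co_ofPS, PowerSeries.coeff_succ_X_mul]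
  -- normalised matrix
  set M : Matrix (Fin m × Fin (m - 1)) (Fin m × Fin (m - 1)) (LF k) :=
    Matrix.of fun s s' => H (LD.ofPS (PowerSeries.X * e s s')) with hM
  have h2 : ((LF.tp (r - 1) : LF k) • M) = Matrix.of fun s s' => LF.tp r * H (LD.ofPS (e s s')) := by
    ext s s'
    rw [Matrix.smul_apply, hM, Matrix.of_apply, Matrix.of_apply, htp, smul_eq_mul, ← mul_assoc,
      LF.tp_mul_tp]
    congr 2
    ring
  have h3 : ((LF.tp (r - 1) : LF k) • M).rank = M.rank :=
    Matrix.rank_smul_of_mem_nonZeroDivisors M (mem_nonZeroDivisors_of_ne_zero (LF.tp_ne_zero _))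
  have hco : ∀ x : PowerSeries (Subalgebra.centralizer k {eta X κ}),
      (LD.ofPS x).co 0 = PowerSeries.constantCoeff x := by
    intro x
    have := LD.co_ofPS x 0
    rw [Nat.cast_zero] at this
    rw [this, PowerSeries.coeff_zero_eq_constantCoeff_apply]
  have h4 := LF.rank_residue_le ((LF.tp (r - 1) : LF k) • M) (fun s s' => by
    rw [h2, Matrix.of_apply]
    exact (hr _ (LD.isInt_ofPS _)).1)
  have h5 : ((LF.tp (r - 1) : LF k) • M).map (fun x => x.co 0)
      = Matrix.of fun s s' => h0 (PowerSeries.constantCoeff (e s s')) := by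
    ext s s'
    rw [Matrix.map_apply, h2, Matrix.of_apply, Matrix.of_apply, (hr _ (LD.isInt_ofPS _)).2, hco]
  rw [h5, h3] at h4
  exact h1.trans h4

end CycData

end Crest.Agent.R180
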