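import Crest.Agent.R180.CycFacts
import Crest.Agent.R180.P3Rank
import Crest.Agent.R180.P3Cyc
import Crest.Agent.R180.P3Prim
import Crest.Agent.R180.Euler

set_option autoImplicit false
set_option linter.unusedSectionVars false

/-!
# Row 180, Phase 3: the move (helper881)
-/

noncomputable section
namespace Crest.Agent.R180

open TensorProduct

section cyc
variable {K : Type} [Field K] [CharZero K] {N : ℕ}

theorem CycG.pow_mod {I : Type} (C : CycG K N I) (i : ℕ) (y : C.L) :
    (C.τ ^ i) y = (C.τ ^ (i % N)) y := by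
  have h : ∀ q : ℕ, ∀ y : C.L, (C.τ ^ (N * q)) y = y := by
    intro q
    induction q with
    | zero => intro y; simp
    | succ q ih =>
      intro y
      rw [Nat.mul_succ, pow_add, AlgEquiv.mul_apply, C.τN, ih]
  conv_lhs => rw [← Nat.mod_add_div i N, pow_add, AlgEquiv.mul_apply, h]

theorem CycG.nc (C : CycG K N (Fin 1)) (hN : 1 < N) (i : ℕ) (c : K) :
    C.gen 0 + (C.τ ^ i) (C.gen 0) ≠ algebraMap K C.L c := by
  classical
  intro h
  rw [C.pow_mod i] at h
  have hN0 : 0 < N := lt_trans Nat.zero_lt_one hN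
  have hr : i % N < N := Nat.mod_lt _ hN0
  set r := i % N with hrdef
  have h0 := C.indep_value₁ ((0 : Fin 1), (⟨0, hN0⟩ : Fin N))
  have h1 := C.indep_value₁ ((0 : Fin 1), (⟨r, hr⟩ : Fin N))
  have hind := C.indep
  rw [Algebra.algebraMap_eq_smul_one] at h
  set v := (fun p : ℕ × ((Fin 1 × Fin N) →₀ ℕ) =>
    (algebraMap C.K₁ C.L C.T) ^ p.1 * p.2.prod fun is n => ((C.τ ^ (is.2 : ℕ)) (C.gen is.1)) ^ n)
    with hv
  have hv0 : v (0, 0) = 1 := by simp [hv]
  have h0' : v (0, Finsupp.single ((0 : Fin 1), (⟨0, hN0⟩ : Fin N)) 1) = C.gen 0 := by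
    rw [h0]; simp
  have h1' : v (0, Finsupp.single ((0 : Fin 1), (⟨r, hr⟩ : Fin N)) 1) = (C.τ ^ r) (C.gen 0) := h1
  have hne0 : ∀ a : Fin 1 × Fin N, ((0 : ℕ), (0 : (Fin 1 × Fin N) →₀ ℕ)) ≠
      (0, Finsupp.single a 1) := by
    intro a h
    exact Finsupp.single_ne_zero.2 one_ne_zero (Prod.mk.inj h).2.symm
  clear_value v
  by_cases hr0 : r = 0
  · have h2 := hind.comp (fun b : Bool => if b then
      ((0 : ℕ), Finsupp.single ((0 : Fin 1), (⟨0, hN0⟩ : Fin N)) 1) else (0, 0)) (by
        intro b b' hbb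
        match b, b' with
        | true, true => rfl
        | false, false => rfl
        | true, false => exact absurd hbb.symm (hne0 _)
        | false, true => exact absurd hbb (hne0 _))
    rw [Fintype.linearIndependent_iff] at h2
    have h3 := h2 (fun b => if b then (2 : K) else -c) (by
      simp only [Fintype.sum_bool, Function.comp_apply, if_true, Bool.false_eq_true, if_false]
      rw [h0', hv0]
      rw [hr0, pow_zero, AlgEquiv.one_apply] at h
      rw [neg_smul, ← h, two_smul]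
      abel) true
    simp at h3
  · have h2 := hind.comp (fun b : Option Bool => match b with
      | none => ((0 : ℕ), (0 : (Fin 1 × Fin N) →₀ ℕ))
      | some true => (0, Finsupp.single ((0 : Fin 1), (⟨0, hN0⟩ : Fin N)) 1)
      | some false => (0, Finsupp.single ((0 : Fin 1), (⟨r, hr⟩ : Fin N)) 1)) (by
        intro b b' hbb
        have hne : (⟨0, hN0⟩ : Fin N) ≠ ⟨r, hr⟩ := by
          intro h
          exact hr0 (Fin.mk.inj h).symm
        match b, b' with
        | none, none => rfl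
        | none, some true => exact absurd hbb (hne0 _)
        | none, some false => exact absurd hbb (hne0 _)
        | some true, none => exact absurd hbb.symm (hne0 _)
        | some false, none => exact absurd hbb.symm (hne0 _)
        | some true, some true => rfl
        | some false, some false => rfl
        | some true, some false =>
          simp only [Prod.mk.injEq, true_and] at hbb
          have := (Finsupp.single_left_inj one_ne_zero).1 hbb
          exact absurd (Prod.mk.inj this).2 hne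
        | some false, some true =>
          simp only [Prod.mk.injEq, true_and] at hbb
          have := (Finsupp.single_left_inj one_ne_zero).1 hbb
          exact absurd (Prod.mk.inj this).2 (Ne.symm hne))
    rw [Fintype.linearIndependent_iff] at h2
    have h3 := h2 (fun b => match b with | none => -c | some _ => (1 : K)) (by
      rw [Fintype.sum_option, Fintype.sum_bool]
      simp only [Function.comp_apply]
      rw [h0', hv0, h1', one_smul, one_smul, neg_smul, h]
      abel) (some true)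
    exact one_ne_zero h3

theorem CycG.cycAlg (C : CycG K N (Fin 1)) (hN : 1 < N) :
    CycAlg K C.K₁ C.E C.L N C.j C.τ C.u C.T (C.gen 0) where
  hN := hN
  fr := C.finrankL
  uN := C.uN
  T_ne := C.T_ne
  conj := C.conj
  decomp := C.decomp
  inj := by
    have key : ∀ i i' : ℕ, i < i' → i' < N → (C.τ ^ i) (C.gen 0) ≠ (C.τ ^ i') (C.gen 0) := by
      intro i i' hlt hi' h
      have h1 : (C.τ ^ i') (C.gen 0) = (C.τ ^ i) ((C.τ ^ (i' - i)) (C.gen 0)) := by
        rw [← AlgEquiv.mul_apply, ← pow_add]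
        congr 2
        omega
      rw [h1] at h
      exact C.gen_conj_ne 0 (i' - i) (by omega) (by omega) ((C.τ ^ i).injective h).symm
    intro i hi i' hi' h
    rcases lt_trichotomy i i' with h1 | h1 | h1
    · exact absurd h (key i i' h1 hi')
    · exact h1
    · exact absurd h.symm (key i' i h1 hi)
  nc := C.nc hN

end cyc

section letters
variable {A J : Type} [Ring A] [Fintype J] [DecidableEq J] {ι : Type} (z0 z1 : ι → A)
  (u : J → ι → A)

theorem Zl_nil (i : ι) : (Zl z0 z1 u i : NC J (PowerSeries A)) [] =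
    PowerSeries.X * (PowerSeries.C (z0 i) + PowerSeries.X * PowerSeries.C (z1 i)) := by
  simp [Zl, NC.sum_apply]

theorem Zl_single (i : ι) (s : J) : (Zl z0 z1 u i : NC J (PowerSeries A)) [s] =
    PowerSeries.X * PowerSeries.C (u s i) := by
  simp only [Zl, NC.C_mul_apply, NC.add_apply, p3phi_cons, mul_zero, zero_add, NC.sum_apply,
    X_mul_cons', p3phi_nil, Finset.sum_ite_eq, Finset.mem_univ, if_true]

theorem map_Zl {B : Type} [Ring B] (φ : A →+* B) (i : ι) :
    NC.map (PowerSeries.map φ) (Zl z0 z1 u i : NC J (PowerSeries A)) =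
      Zl (fun i => φ (z0 i)) (fun i => φ (z1 i)) (fun s i => φ (u s i)) i := by
  have h : ∀ a : A, NC.map (PowerSeries.map φ) (p3phi A J a) = p3phi B J (φ a) := by
    intro a
    simp only [p3phi, RingHom.comp_apply, NC.map_C, PowerSeries.map_C]
  simp only [Zl, map_mul, map_add, map_sum, NC.map_C, PowerSeries.map_X, NC.map_X, h]

end letters

section move
variable {K : Type} [Field K] [CharZero K] {N : ℕ} (C : CycG K N (Fin 1)) {m : ℕ}
  (w1 w2 : Fin m → K)

/-- the generic element in `E` -/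
abbrev CycG.θE : C.E := C.j (C.gen 0)

def p3z0 (i : Fin m) : C.E := w2 i • C.θE + w1 i • C.θE ^ 2
def p3z1 (i : Fin m) : C.E := w1 i • C.u ^ (N - 1)
def p3e (N : ℕ) : Fin (N * (N - 1)) ≃ Fin N × Fin (N - 1) := finProdFinEquiv.symm
def p3u (s : Fin (N * (N - 1))) (i : Fin m) : C.E :=
  w1 i • (C.θE ^ ((p3e N s).1 : ℕ) * C.u ^ ((p3e N s).2 : ℕ))

/-- the letters of the Phase 3 move -/
def p3L (i : Fin m) : NC (Fin (N * (N - 1))) (PowerSeries C.E) :=
  Zl (p3z0 C w1 w2) (p3z1 C w1) (p3u C w1) i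

theorem p3L_x0 (i : Fin m) : PowerSeries.constantCoeff (p3L C w1 w2 i []) = 0 := by
  rw [p3L, Zl_nil]
  simp

variable {Φ : Type} [Ring Φ] [Algebra K Φ]

theorem p3comm : P3Comm (fun i : Fin m => C.jE Φ (p3z0 C w1 w2 i))
    (fun i => C.jE Φ (p3z1 C w1 i)) (fun s i => C.jE Φ (p3u C w1 s i)) (C.jΓ Φ) where
  c0 := fun φ i => (C.jE_jΓ_comm Φ _ φ).symm
  c1 := fun φ i => (C.jE_jΓ_comm Φ _ φ).symm
  cu := fun φ s i => (C.jE_jΓ_comm Φ _ φ).symm

theorem p3mvh0 (γ : NC (Fin m) Φ) : C.mvh0 Φ (p3L C w1 w2) (p3L_x0 C w1 w2) γ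
    = p3pi (C.E ⊗[K] Φ) (Fin (N * (N - 1))) (gh (p3comm C w1 w2) γ) := by
  symm
  refine NC.subst_unique (CFilt.nc (CFilt.powerSeries (C.E ⊗[K] Φ))) (C.phi0 Φ _)
    (C.let0 Φ (p3L C w1 w2)) (C.let0_mem Φ _ (p3L_x0 C w1 w2)) (C.let0_comm Φ _)
    (fun γ => p3pi (C.E ⊗[K] Φ) (Fin (N * (N - 1))) (gh (p3comm C w1 w2) γ)) (fun γ => ?_) γ
  rw [p3pi_gh_eq]
  congr 1
  refine Finset.sum_congr rfl fun i _ => ?_
  congr 1
  rw [GE.let0, p3L, map_Zl]

theorem p3mvh (γ : NC (Fin m) Φ) : C.mvh Φ (p3L C w1 w2) (p3L_x0 C w1 w2) γ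
    = NC.map LD.ofPS (p3pi (C.E ⊗[K] Φ) (Fin (N * (N - 1))) (gh (p3comm C w1 w2) γ)) := by
  rw [← p3mvh0]
  rfl

end move

end Crest.Agent.R180
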