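import Crest.Agent.R180.LaurentLemmas
import Crest.Agent.R180.DCT

set_option autoImplicit false
set_option linter.style.longLine false

/-!
# R180, Phase 1: the algebra of the multiplicity drop

`B0` is a finite-dimensional algebra over a field `K1`, `α = t (θ + t c₁ + ⋯) ∈ B0((t))`.
The centraliser of `α` in `B0((t))` has dimension at most the dimension of the centraliser of `θ`,
strictly smaller if `c_k` is detected by a trace-like map `T`.
-/

noncomputable section
namespace Crest.Agent.R180.P1

open Module

section core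

variable {R : Type*} [Ring R]

/-- Trace argument: `T` an additive map with `T (b x) = T (x b)` for `b ∈ Bz`; `c = θ + ⋯` a power
series whose coefficients below `k` lie in `Bz`; `X` commutes with `c` and `X 0 = g`.  Then
`T ([g, c_k] θ^i) = 0`. -/
theorem core (T : R →+ R) (Bz : Set R) (hT : ∀ b ∈ Bz, ∀ x, T (b * x) = T (x * b))
    (c X : PowerSeries R) (hXc : X * c = c * X) (k : ℕ) (hk : 1 ≤ k)
    (hc : ∀ j < k, PowerSeries.coeff j c ∈ Bz) (i : ℕ) :
    T ((PowerSeries.coeff 0 X * PowerSeries.coeff k c - PowerSeries.coeff k c * PowerSeries.coeff 0 X) *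
      PowerSeries.coeff 0 c ^ i) = 0 := by
  classical
  set b : PowerSeries R := PowerSeries.mk fun j => if j < k then PowerSeries.coeff j c else 0 with hb
  set r : PowerSeries R := c - b with hr
  have hbc : ∀ j, PowerSeries.coeff j b = if j < k then PowerSeries.coeff j c else 0 := by
    intro j; rw [hb, PowerSeries.coeff_mk]
  have hr0 : ∀ j < k, PowerSeries.coeff j r = 0 := by
    intro j hj
    rw [hr, map_sub, hbc, if_pos hj, sub_self]
  have hrk : PowerSeries.coeff k r = PowerSeries.coeff k c := by
    rw [hr, map_sub, hbc, if_neg (lt_irrefl k), sub_zero]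
  have hb0 : PowerSeries.coeff 0 b = PowerSeries.coeff 0 c := by
    rw [hbc, if_pos (by omega)]
  have hcbr : c = b + r := by rw [hr]; abel
  set Y : PowerSeries R := X * b ^ i with hY
  have e1 : Y * b - b * Y = - ((X * r - r * X) * b ^ i) := by
    have h1 : X * b - b * X = -(X * r - r * X) := by
      have := hXc
      rw [hcbr, mul_add, add_mul] at this
      have h2 : X * b - b * X + (X * r - r * X) = (X * b + X * r) - (b * X + r * X) := by abel
      rw [eq_neg_iff_add_eq_zero, h2, this, sub_self]
    calc Y * b - b * Y = (X * b - b * X) * b ^ i := by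
          rw [hY, sub_mul, mul_assoc, mul_assoc, mul_assoc, ← pow_succ, ← pow_succ']
      _ = _ := by rw [h1, neg_mul]
  have e2 : T (PowerSeries.coeff k (Y * b - b * Y)) = 0 := by
    rw [map_sub, PowerSeries.coeff_mul, PowerSeries.coeff_mul, map_sub, map_sum, map_sum, sub_eq_zero]
    refine Finset.sum_nbij' Prod.swap Prod.swap ?_ ?_ ?_ ?_ ?_
    · rintro ⟨u, v⟩ h
      rw [Finset.HasAntidiagonal.mem_antidiagonal] at h ⊢
      simp only [Prod.swap] at h ⊢
      omega
    · rintro ⟨u, v⟩ h
      rw [Finset.HasAntidiagonal.mem_antidiagonal] at h ⊢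
      simp only [Prod.swap] at h ⊢
      omega
    · rintro ⟨u, v⟩ _; rfl
    · rintro ⟨u, v⟩ _; rfl
    · rintro ⟨u, v⟩ _
      simp only [Prod.swap]
      rw [hbc v]
      split_ifs with hv
      · exact (hT _ (hc v hv) _).symm
      · rw [mul_zero, zero_mul]
  have e3 : PowerSeries.coeff k ((X * r - r * X) * b ^ i) =
      (PowerSeries.coeff 0 X * PowerSeries.coeff k c - PowerSeries.coeff k c * PowerSeries.coeff 0 X) *
      PowerSeries.coeff 0 c ^ i := by
    have hord : ∀ j < k, PowerSeries.coeff j (X * r - r * X) = 0 := by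
      intro j hj
      rw [map_sub, PowerSeries.coeff_mul, PowerSeries.coeff_mul]
      rw [Finset.sum_eq_zero, Finset.sum_eq_zero, sub_self]
      · rintro ⟨u, v⟩ h
        rw [Finset.HasAntidiagonal.mem_antidiagonal] at h
        simp only at h ⊢
        rw [hr0 u (by omega), zero_mul]
      · rintro ⟨u, v⟩ h
        rw [Finset.HasAntidiagonal.mem_antidiagonal] at h
        simp only at h ⊢
        rw [hr0 v (by omega), mul_zero]
    have hk' : PowerSeries.coeff k (X * r - r * X) =
        PowerSeries.coeff 0 X * PowerSeries.coeff k c - PowerSeries.coeff k c * PowerSeries.coeff 0 X := by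
      rw [map_sub, PowerSeries.coeff_mul, PowerSeries.coeff_mul]
      rw [Finset.sum_eq_single (0, k), Finset.sum_eq_single (k, 0), hrk]
      · rintro ⟨u, v⟩ h hne
        rw [Finset.HasAntidiagonal.mem_antidiagonal] at h
        simp only at h ⊢
        have : u < k := by
          by_contra hcon
          apply hne
          ext <;> simp only <;> omega
        rw [hr0 u this, zero_mul]
      · intro h
        exact absurd (by rw [Finset.HasAntidiagonal.mem_antidiagonal]; simp) h
      · rintro ⟨u, v⟩ h hne
        rw [Finset.HasAntidiagonal.mem_antidiagonal] at h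
        simp only at h ⊢
        have : v < k := by
          by_contra hcon
          apply hne
          ext <;> simp only <;> omega
        rw [hr0 v this, mul_zero]
      · intro h
        exact absurd (by rw [Finset.HasAntidiagonal.mem_antidiagonal]; simp) h
    rw [PowerSeries.coeff_mul, Finset.sum_eq_single (k, 0)]
    · simp only
      rw [hk', PowerSeries.coeff_zero_eq_constantCoeff_apply (b ^ i), map_pow,
        ← PowerSeries.coeff_zero_eq_constantCoeff_apply b, hb0]
    · rintro ⟨u, v⟩ h hne
      rw [Finset.HasAntidiagonal.mem_antidiagonal] at h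
      simp only at h ⊢
      have : u < k := by
        by_contra hcon
        apply hne
        ext <;> simp only <;> omega
      rw [hord u this, zero_mul]
    · intro h
      exact absurd (by rw [Finset.HasAntidiagonal.mem_antidiagonal]; simp) h
  rw [e1, map_neg, e3, map_neg, neg_eq_zero] at e2
  exact e2

/-- Consequence: `T (c_k θ^i)` commutes with `g = X 0` when `T` is `g`-bilinear. -/
theorem core' (T : R →+ R) (Bz : Set R) (hT : ∀ b ∈ Bz, ∀ x, T (b * x) = T (x * b))
    (c X : PowerSeries R) (hXc : X * c = c * X) (k : ℕ) (hk : 1 ≤ k)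
    (hc : ∀ j < k, PowerSeries.coeff j c ∈ Bz) (g : R) (hg : PowerSeries.coeff 0 X = g)
    (hgl : ∀ x, T (g * x) = g * T x) (hgr : ∀ x, T (x * g) = T x * g)
    (hgθ : g * PowerSeries.coeff 0 c = PowerSeries.coeff 0 c * g) (i : ℕ) :
    g * T (PowerSeries.coeff k c * PowerSeries.coeff 0 c ^ i) =
      T (PowerSeries.coeff k c * PowerSeries.coeff 0 c ^ i) * g := by
  have h := core T Bz hT c X hXc k hk hc i
  rw [hg] at h
  set θ := PowerSeries.coeff 0 c with hθ
  set p := PowerSeries.coeff k c with hp
  have hgi : g * θ ^ i = θ ^ i * g := by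
    have h1 : Commute g θ := hgθ
    exact (h1.pow_right i)
  have h2 : (g * p - p * g) * θ ^ i = g * (p * θ ^ i) - (p * θ ^ i) * g := by
    rw [sub_mul, mul_assoc, mul_assoc, hgi, mul_assoc]
  rw [h2, map_sub, hgl, hgr, sub_eq_zero] at h
  exact h

end core

section dim

variable {K1 B0 : Type} [Field K1] [Ring B0] [Algebra K1 B0] [FiniteDimensional K1 B0]

omit [FiniteDimensional K1 B0] in
/-- integral elements of the centraliser of `α = t c` come from power series commuting with `c` -/
theorem commute_of_centralizer (c : PowerSeries B0) (α : LD B0) (hα : α = LD.tp 1 * LD.ofPS c)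
    (x : LD B0) (hx : x ∈ Subalgebra.centralizer (LF K1) ({α} : Set (LD B0))) (hxi : LD.IsInt x) :
    ∃ X : PowerSeries B0, x = LD.ofPS X ∧ X * c = c * X := by
  obtain ⟨X, rfl⟩ := (LD.isInt_iff x).mp hxi
  refine ⟨X, rfl, ?_⟩
  have h := (Subalgebra.mem_centralizer_iff (LF K1)).mp hx α rfl
  apply LD.ofPS_injective
  rw [map_mul, map_mul]
  rw [hα, mul_assoc, ← mul_assoc (LD.ofPS X), ← LD.tp_commute, mul_assoc] at h
  have h2 := congrArg (fun y => (LD.tp (-1) : LD B0) * y) h
  simp only [← mul_assoc, LD.tp_mul_tp] at h2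
  simp only [neg_add_cancel, LD.tp_zero, one_mul] at h2
  exact h2.symm

/-- the residues of the centraliser of `α = t (θ + ⋯)` centralise `θ` -/
theorem resSp_centralizer_le (c : PowerSeries B0) (α : LD B0) (hα : α = LD.tp 1 * LD.ofPS c)
    (θ : B0) (hθ : PowerSeries.coeff 0 c = θ) :
    LD.resSp (Subalgebra.toSubmodule (Subalgebra.centralizer (LF K1) ({α} : Set (LD B0)))) ≤
      Subalgebra.toSubmodule (Subalgebra.centralizer K1 ({θ} : Set B0)) := by
  rintro v ⟨x, hx, hxi, rfl⟩
  obtain ⟨X, rfl, hX⟩ := commute_of_centralizer (K1 := K1) c α hα x hx hxi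
  rw [Subalgebra.mem_toSubmodule, Subalgebra.mem_centralizer_iff]
  rintro g hg
  rw [Set.mem_singleton_iff] at hg
  subst hg
  have h0 := LD.co_ofPS X 0
  rw [Nat.cast_zero] at h0
  rw [h0, ← hθ]
  simp only [PowerSeries.coeff_zero_eq_constantCoeff_apply]
  rw [← map_mul, ← map_mul, hX]

/-- `[C(α) : K1((t))] ≤ [C(θ) : K1]` -/
theorem finrank_centralizer_le (c : PowerSeries B0) (α : LD B0) (hα : α = LD.tp 1 * LD.ofPS c)
    (θ : B0) (hθ : PowerSeries.coeff 0 c = θ) :
    finrank (LF K1) (Subalgebra.centralizer (LF K1) ({α} : Set (LD B0))) ≤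
      finrank K1 (Subalgebra.centralizer K1 ({θ} : Set B0)) := by
  have h1 := LD.finrank_resSp
    (Subalgebra.toSubmodule (Subalgebra.centralizer (LF K1) ({α} : Set (LD B0))))
  have h2 := Submodule.finrank_mono (resSp_centralizer_le (K1 := K1) c α hα θ hθ)
  rw [h1] at h2
  exact h2

/-- strict version: some `g` commuting with `θ` does not commute with `T (c_k θ^i)`. -/
theorem finrank_centralizer_lt (T : B0 →+ B0) (Bz : Set B0)
    (hT : ∀ b ∈ Bz, ∀ x, T (b * x) = T (x * b)) (c : PowerSeries B0) (α : LD B0)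
    (hα : α = LD.tp 1 * LD.ofPS c) (θ : B0) (hθ : PowerSeries.coeff 0 c = θ) (k : ℕ) (hk : 1 ≤ k)
    (hc : ∀ j < k, PowerSeries.coeff j c ∈ Bz) (g : B0)
    (hgl : ∀ x, T (g * x) = g * T x) (hgr : ∀ x, T (x * g) = T x * g)
    (hgθ : g * θ = θ * g) (i : ℕ)
    (hne : g * T (PowerSeries.coeff k c * θ ^ i) ≠ T (PowerSeries.coeff k c * θ ^ i) * g) :
    finrank (LF K1) (Subalgebra.centralizer (LF K1) ({α} : Set (LD B0))) <
      finrank K1 (Subalgebra.centralizer K1 ({θ} : Set B0)) := by
  have h1 := LD.finrank_resSp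
    (Subalgebra.toSubmodule (Subalgebra.centralizer (LF K1) ({α} : Set (LD B0))))
  have hlt : LD.resSp (Subalgebra.toSubmodule (Subalgebra.centralizer (LF K1) ({α} : Set (LD B0)))) <
      Subalgebra.toSubmodule (Subalgebra.centralizer K1 ({θ} : Set B0)) := by
    refine lt_of_le_of_ne (resSp_centralizer_le (K1 := K1) c α hα θ hθ) fun heq => hne ?_
    have hg : g ∈ Subalgebra.toSubmodule (Subalgebra.centralizer K1 ({θ} : Set B0)) := by
      rw [Subalgebra.mem_toSubmodule, Subalgebra.mem_centralizer_iff]
      rintro y hy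
      rw [Set.mem_singleton_iff] at hy
      subst hy
      exact hgθ.symm
    rw [← heq] at hg
    obtain ⟨x, hx, hxi, hxg⟩ := hg
    obtain ⟨X, rfl, hX⟩ := commute_of_centralizer (K1 := K1) c α hα x hx hxi
    have h0 := LD.co_ofPS X 0
    rw [Nat.cast_zero, hxg] at h0
    have := core' T Bz hT c X hX k hk hc g h0.symm hgl hgr (by rw [hθ]; exact hgθ) i
    rw [hθ] at this
    exact this
  have h2 := Submodule.finrank_lt_finrank_of_lt hlt
  rw [h1] at h2
  exact h2

end dim

end Crest.Agent.R180.P1
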