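import Crest.Agent.R180.RegPoint
import Crest.Agent.R180.Phase1Alg

set_option autoImplicit false
set_option linter.style.longLine false

/-!
# R180, Phase 1: the map `T = τ ⊗ id` and the multiplicity drop at a regular point
-/

noncomputable section
namespace Crest.Agent.R180.P1

open Module RegPt
open scoped TensorProduct

variable {K K₁ E Γ ι : Type} [Field K] [Field K₁] [Algebra K K₁] [Ring E] [Algebra K₁ E]
  [Algebra K E] [IsScalarTower K K₁ E] [Ring Γ] [Algebra K Γ]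

/-- `T = τ ⊗ id : E ⊗ Γ → K₁ ⊗ Γ ⊆ E ⊗ Γ` -/
def TT (K K₁ : Type) {E Γ : Type} [Field K] [Field K₁] [Algebra K K₁] [Ring E] [Algebra K₁ E]
    [Algebra K E] [IsScalarTower K K₁ E] [Ring Γ] [Algebra K Γ] (τ : E →ₗ[K₁] K₁) :
    E ⊗[K] Γ →ₗ[K₁] E ⊗[K] Γ :=
  TensorProduct.AlgebraTensorModule.map ((Algebra.linearMap K₁ E) ∘ₗ τ) (LinearMap.id : Γ →ₗ[K] Γ)

@[simp] theorem TT_tmul (τ : E →ₗ[K₁] K₁) (e : E) (g : Γ) :
    TT K K₁ τ (e ⊗ₜ[K] g) = (algebraMap K₁ E (τ e)) ⊗ₜ[K] g := rfl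

/-- span of the `e ⊗ z`, `z` central -/
def cenSet (K : Type) (E Γ : Type) [Field K] [Ring E] [Algebra K E] [Ring Γ] [Algebra K Γ] :
    AddSubgroup (E ⊗[K] Γ) :=
  AddSubgroup.closure {x | ∃ (e : E) (z : Γ), (∀ a, a * z = z * a) ∧ x = e ⊗ₜ[K] z}

omit [Field K₁] [Algebra K K₁] [Algebra K₁ E] [IsScalarTower K K₁ E] in
theorem tmul_mem_cenSet (e : E) (z : Γ) (hz : ∀ a, a * z = z * a) :
    e ⊗ₜ[K] z ∈ cenSet K E Γ := AddSubgroup.subset_closure ⟨e, z, hz, rfl⟩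

theorem TT_comm (τ : E →ₗ[K₁] K₁) (hτ : ∀ x y, τ (x * y) = τ (y * x)) (b : E ⊗[K] Γ)
    (hb : b ∈ cenSet K E Γ) (x : E ⊗[K] Γ) : TT K K₁ τ (b * x) = TT K K₁ τ (x * b) := by
  induction hb using AddSubgroup.closure_induction with
  | mem b hb =>
    obtain ⟨e, z, hz, rfl⟩ := hb
    induction x using TensorProduct.induction_on with
    | zero => simp
    | add x y hx hy => rw [mul_add, add_mul, map_add, map_add, hx, hy]
    | tmul e' g =>
      rw [Algebra.TensorProduct.tmul_mul_tmul, Algebra.TensorProduct.tmul_mul_tmul, TT_tmul, TT_tmul,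
        hτ, hz]
  | zero => simp
  | add b c _ _ hb hc => rw [add_mul, mul_add, map_add, map_add, hb, hc]
  | neg b _ hb => rw [neg_mul, mul_neg, map_neg, map_neg, hb]

theorem TT_mul_left (τ : E →ₗ[K₁] K₁) (g : Γ) (x : E ⊗[K] Γ) :
    TT K K₁ τ ((1 : E) ⊗ₜ[K] g * x) = (1 : E) ⊗ₜ[K] g * TT K K₁ τ x := by
  induction x using TensorProduct.induction_on with
  | zero => simp
  | add x y hx hy => rw [mul_add, map_add, map_add, mul_add, hx, hy]
  | tmul e g' =>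
    rw [Algebra.TensorProduct.tmul_mul_tmul, TT_tmul, TT_tmul, Algebra.TensorProduct.tmul_mul_tmul,
      one_mul, one_mul]

theorem TT_mul_right (τ : E →ₗ[K₁] K₁) (g : Γ) (x : E ⊗[K] Γ) :
    TT K K₁ τ (x * (1 : E) ⊗ₜ[K] g) = TT K K₁ τ x * (1 : E) ⊗ₜ[K] g := by
  induction x using TensorProduct.induction_on with
  | zero => simp
  | add x y hx hy => rw [add_mul, map_add, map_add, add_mul, hx, hy]
  | tmul e g' =>
    rw [Algebra.TensorProduct.tmul_mul_tmul, TT_tmul, TT_tmul, Algebra.TensorProduct.tmul_mul_tmul,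
      mul_one, mul_one]

omit [Field K₁] [Algebra K K₁] [Algebra K₁ E] [IsScalarTower K K₁ E] in
theorem one_tmul_comm_cenSet (g : Γ) (b : E ⊗[K] Γ) (hb : b ∈ cenSet K E Γ) :
    (1 : E) ⊗ₜ[K] g * b = b * (1 : E) ⊗ₜ[K] g := by
  induction hb using AddSubgroup.closure_induction with
  | mem b hb =>
    obtain ⟨e, z, hz, rfl⟩ := hb
    rw [Algebra.TensorProduct.tmul_mul_tmul, Algebra.TensorProduct.tmul_mul_tmul, one_mul, mul_one,
      hz]
  | zero => simp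
  | add b c _ _ hb hc => rw [add_mul, mul_add, hb, hc]
  | neg b _ hb => rw [neg_mul, mul_neg, hb]

/-- if `τ ⊗ ξ` does not vanish at `x`, neither does `τ ⊗ id` -/
theorem TT_ne_zero [Nontrivial E] (τ : E →ₗ[K₁] K₁) (ξ : Γ →ₗ[K] K) (x : E ⊗[K] Γ)
    (h : tx K K₁ τ ξ x ≠ 0) : TT K K₁ τ x ≠ 0 := by
  intro h0
  apply h
  let χ : E ⊗[K] Γ →ₗ[K] E := TensorProduct.lift
    { toFun := fun e =>
        { toFun := fun g => ξ g • e
          map_add' := fun g g' => by rw [map_add, add_smul]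
          map_smul' := fun c g => by rw [map_smul, smul_eq_mul, mul_smul]; rfl }
      map_add' := fun e e' => by ext g; simp
      map_smul' := fun c e => by
        ext g
        simp only [LinearMap.coe_mk, AddHom.coe_mk, RingHom.id_apply, LinearMap.smul_apply]
        rw [smul_comm] }
  have key : ∀ y : E ⊗[K] Γ, χ (TT K K₁ τ y) = algebraMap K₁ E (tx K K₁ τ ξ y) := by
    intro y
    induction y using TensorProduct.induction_on with
    | zero => simp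
    | add x y hx hy => rw [map_add, map_add, map_add, map_add, hx, hy]
    | tmul e g =>
      rw [TT_tmul, tx_tmul]
      change ξ g • algebraMap K₁ E (τ e) = _
      rw [← IsScalarTower.algebraMap_smul K₁ (ξ g) (algebraMap K₁ E (τ e)),
        ← algebraMap_smul K₁ (ξ g) (τ e), smul_eq_mul, map_mul, Algebra.smul_def]
  have h1 := key x
  rw [h0, map_zero] at h1
  exact ((map_eq_zero_iff (algebraMap K₁ E) (algebraMap K₁ E).injective).mp h1.symm)

variable [Fintype ι]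

omit [Field K₁] [Algebra K K₁] [Algebra K₁ E] [IsScalarTower K K₁ E] in
theorem ev_mem_cenSet (n : ℕ) (q : NC ι Γ) (z : ι → E)
    (hq : ∀ w : List ι, w.length = n → ∀ a, a * q w = q w * a) :
    (ev n q z : E ⊗[K] Γ) ∈ cenSet K E Γ := by
  unfold ev
  refine AddSubgroup.sum_mem _ fun w _ => tmul_mem_cenSet _ _ (hq _ (List.length_ofFn))

/-- **Multiplicity drop**, Case (1b): `δ ∈ NC ι Γ` with central coefficients in degrees `1..k`,
`θ = δ₁(z)` and `c = θ + t δ₂(z) + ⋯`.  If `(τ ⊗ ξ)([y, δ_{k+1}](z) θ^i) ≠ 0` for some tracial `τ`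
then `[C(t c)] < [C(θ)]`. -/
theorem drop [FiniteDimensional K₁ (E ⊗[K] Γ)] [Nontrivial E] (δ : NC ι Γ) (z : ι → E) (k : ℕ)
    (hk : 1 ≤ k)
    (hcen : ∀ w : List ι, 1 ≤ w.length → w.length ≤ k → ∀ a, a * δ w = δ w * a) (y : Γ)
    (τ : E →ₗ[K₁] K₁) (hτ : ∀ x y, τ (x * y) = τ (y * x)) (ξ : Γ →ₗ[K] K) (i : ℕ)
    (hne : tx K K₁ τ ξ ((∑ w : Fin (k + 1) → ι, (List.ofFn fun j => z (w j)).prod ⊗ₜ[K]
      (y * δ (List.ofFn w) - δ (List.ofFn w) * y)) * (ev 1 δ z : E ⊗[K] Γ) ^ i) ≠ 0)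
    (c : PowerSeries (E ⊗[K] Γ)) (hc : ∀ j, PowerSeries.coeff j c = ev (j + 1) δ z)
    (α : LD (E ⊗[K] Γ)) (hα : α = LD.tp 1 * LD.ofPS c) :
    finrank (LF K₁) (Subalgebra.centralizer (LF K₁) ({α} : Set (LD (E ⊗[K] Γ)))) <
      finrank K₁ (Subalgebra.centralizer K₁ ({(ev 1 δ z : E ⊗[K] Γ)} : Set (E ⊗[K] Γ))) := by
  have hgθ : (1 : E) ⊗ₜ[K] y * (ev 1 δ z : E ⊗[K] Γ) = ev 1 δ z * (1 : E) ⊗ₜ[K] y :=
    one_tmul_comm_cenSet y _ (ev_mem_cenSet 1 δ z fun w hw => hcen w (by omega) (by omega))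
  refine finrank_centralizer_lt (K1 := K₁) (TT K K₁ τ : E ⊗[K] Γ →ₗ[K₁] E ⊗[K] Γ).toAddMonoidHom
    (cenSet K E Γ : Set (E ⊗[K] Γ)) (fun b hb x => TT_comm τ hτ b hb x) c α hα (ev 1 δ z) (hc 0) k hk
    ?_ ((1 : E) ⊗ₜ[K] y) (fun x => TT_mul_left τ y x) (fun x => TT_mul_right τ y x) hgθ i ?_
  · intro j hj
    rw [hc]
    exact ev_mem_cenSet (j + 1) δ z fun w hw => hcen w (by omega) (by omega)
  · rw [hc]
    intro heq
    apply TT_ne_zero τ ξ _ hne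
    have h1 : (∑ w : Fin (k + 1) → ι, (List.ofFn fun j => z (w j)).prod ⊗ₜ[K]
        (y * δ (List.ofFn w) - δ (List.ofFn w) * y) : E ⊗[K] Γ) =
        (1 : E) ⊗ₜ[K] y * ev (k + 1) δ z - ev (k + 1) δ z * (1 : E) ⊗ₜ[K] y := by
      unfold ev
      rw [Finset.mul_sum, Finset.sum_mul, ← Finset.sum_sub_distrib]
      refine Finset.sum_congr rfl fun w _ => ?_
      rw [Algebra.TensorProduct.tmul_mul_tmul, Algebra.TensorProduct.tmul_mul_tmul, one_mul, mul_one,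
        TensorProduct.tmul_sub]
    have hcomm : (1 : E) ⊗ₜ[K] y * (ev 1 δ z : E ⊗[K] Γ) ^ i = ev 1 δ z ^ i * (1 : E) ⊗ₜ[K] y :=
      (show Commute ((1 : E) ⊗ₜ[K] y) (ev 1 δ z : E ⊗[K] Γ) from hgθ).pow_right i
    have h2 : ((1 : E) ⊗ₜ[K] y * ev (k + 1) δ z - ev (k + 1) δ z * (1 : E) ⊗ₜ[K] y) *
        (ev 1 δ z : E ⊗[K] Γ) ^ i =
        (1 : E) ⊗ₜ[K] y * (ev (k + 1) δ z * ev 1 δ z ^ i) -
          (ev (k + 1) δ z * ev 1 δ z ^ i) * (1 : E) ⊗ₜ[K] y := by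
      rw [sub_mul, mul_assoc, mul_assoc, hcomm, mul_assoc]
    rw [h1, h2, map_sub, TT_mul_left, TT_mul_right, sub_eq_zero]
    exact heq

end Crest.Agent.R180.P1
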