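import Crest.Agent.R180.Win
import Crest.Agent.R180.HomDefs
import Crest.Agent.R180.ModR
import Crest.Agent.R180.ConjNF

set_option autoImplicit false
noncomputable section
namespace Crest.Agent.R180

open TensorProduct

section
variable {K : Type} [Field K] (G : GE K) {m μ : ℕ} {Γ D : Type} [Ring Γ] [Algebra K Γ]
  [Ring D] [Algebra K D]

/-- `E ⊗ Γ → E ⊗ D` -/
def GE.tmapF (f : Γ →ₐ[K] D) : G.E ⊗[K] Γ →ₐ[G.K₁] G.E ⊗[K] D :=
  Algebra.TensorProduct.map (AlgHom.id G.K₁ G.E) f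

theorem GE.tmapF_tmul (f : Γ →ₐ[K] D) (e : G.E) (x : Γ) :
    G.tmapF f (e ⊗ₜ[K] x) = e ⊗ₜ[K] f x := by
  simp [GE.tmapF]

/-- `E ⊗ Γ ((t)) → E ⊗ D ((t))` -/
def GE.lmapF (f : Γ →ₐ[K] D) : LD (G.E ⊗[K] Γ) →ₐ[LF G.K₁] LD (G.E ⊗[K] D) :=
  { LD.map (G.tmapF f : G.E ⊗[K] Γ →+* G.E ⊗[K] D) with
    commutes' := fun c => by
      apply LD.ext; intro n
      change G.tmapF f ((algebraMap (LF G.K₁) (LD (G.E ⊗[K] Γ)) c).co n) = _
      rw [LD.algebraMap_eq, LD.algebraMap_eq, LF.co_toLD, LF.co_toLD]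
      exact (G.tmapF f).commutes _ }

@[simp] theorem GE.lmapF_co (f : Γ →ₐ[K] D) (x : LD (G.E ⊗[K] Γ)) (n : ℤ) :
    (G.lmapF f x).co n = G.tmapF f (x.co n) := rfl

/-- naturality of the move homomorphism in the coefficient algebra -/
theorem GE.mvh_nat (f : Γ →ₐ[K] D) (X : Fin m → NC (Fin μ) (PowerSeries G.E))
    (hX : ∀ j, PowerSeries.constantCoeff (X j []) = 0) (γ : NC (Fin m) Γ) :
    NC.map (G.lmapF f : LD (G.E ⊗[K] Γ) →+* LD (G.E ⊗[K] D)) (G.mvh Γ X hX γ) =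
      G.mvh D X hX (NC.map (f : Γ →+* D) γ) := by
  -- first at the level of power series
  let ψ : NC (Fin μ) (PowerSeries (G.E ⊗[K] Γ)) →+* NC (Fin μ) (PowerSeries (G.E ⊗[K] D)) :=
    NC.map (PowerSeries.map (G.tmapF f : G.E ⊗[K] Γ →+* G.E ⊗[K] D))
  have hlet : ∀ j, ψ (G.let0 Γ X j) = G.let0 D X j := by
    intro j
    apply NC.ext'; intro w
    simp only [ψ, GE.let0, NC.map_apply]
    ext n
    simp only [PowerSeries.coeff_map, RingHom.coe_coe]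
    change G.tmapF f (PowerSeries.coeff n (X j w) ⊗ₜ[K] (1 : Γ)) = _
    rw [GE.tmapF_tmul, map_one]; rfl
  have hphi : ∀ x : Γ, ψ (G.phi0 Γ μ x) = G.phi0 D μ (f x) := by
    intro x
    simp only [ψ, GE.phi0, RingHom.comp_apply, NC.map_C]
    congr 1
    rw [PowerSeries.map_C]
    exact congrArg _ (GE.tmapF_tmul G f 1 x)
  have key : ∀ γ : NC (Fin m) Γ, ψ (G.mvh0 Γ X hX γ) = G.mvh0 D X hX (NC.map (f : Γ →+* D) γ) := by
    intro γ
    have h1 := NC.map_subst_unique (CFilt.nc (CFilt.powerSeries (G.E ⊗[K] Γ)))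
      (CFilt.nc (CFilt.powerSeries (G.E ⊗[K] D))) (G.phi0 Γ μ) (G.let0 Γ X)
      (G.let0_mem Γ X hX) (G.let0_comm Γ X) ψ
      (fun i => by rw [hlet]; exact G.let0_mem D X hX i) γ
    have hX' : ∀ i, ψ (G.let0 Γ X i) ∈ (CFilt.nc (σ := Fin μ) (CFilt.powerSeries (G.E ⊗[K] D))).I 1 :=
      fun i => by rw [hlet]; exact G.let0_mem D X hX i
    have hc' : ∀ (k : Γ) (i : Fin m), (ψ.comp (G.phi0 Γ μ)) k * ψ (G.let0 Γ X i) =
        ψ (G.let0 Γ X i) * (ψ.comp (G.phi0 Γ μ)) k :=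
      fun k i => by
        rw [RingHom.comp_apply, ← map_mul, ← map_mul, G.let0_comm]
    have h2 := NC.subst_unique (CFilt.nc (σ := Fin μ) (CFilt.powerSeries (G.E ⊗[K] D)))
      (ψ.comp (G.phi0 Γ μ)) (fun i => ψ (G.let0 Γ X i)) hX' hc'
      (fun γ => G.mvh0 D X hX (NC.map (f : Γ →+* D) γ)) (fun γ => by
        change NC.subst _ _ _ _ _ _ = _
        rw [NC.subst_eq]
        congr 1
        · rw [RingHom.comp_apply, hphi, NC.map_apply]; rfl
        · refine Finset.sum_congr rfl fun i _ => ?_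
          rw [hlet]; rfl) γ
    exact h1.trans h2.symm
  apply NC.ext'; intro w
  have h3 := congrArg (fun F : NC (Fin μ) (PowerSeries (G.E ⊗[K] D)) => F w) (key γ)
  simp only [ψ, NC.map_apply] at h3
  change G.lmapF f (LD.ofPS (G.mvh0 Γ X hX γ w)) = LD.ofPS (G.mvh0 D X hX (NC.map (f : Γ →+* D) γ) w)
  rw [← h3]
  apply LD.ext; intro n
  rw [GE.lmapF_co]
  by_cases hn : n < 0
  · rw [LD.co_ofPS_neg _ _ hn, LD.co_ofPS_neg _ _ hn, map_zero]
  · obtain ⟨k, rfl⟩ := Int.eq_ofNat_of_zero_le (not_lt.1 hn)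
    rw [LD.co_ofPS, LD.co_ofPS, PowerSeries.coeff_map]; rfl

end

section
variable {K : Type} [Field K] [CharZero K] (G : GE K) {m μ : ℕ} {Γ : Type} [Ring Γ] [Algebra K Γ]

/-- general move, from `RS.move` and naturality of `mvh` in `Γ` -/
theorem Win.move (X : Fin m → NC (Fin μ) (PowerSeries G.E)) (hX : G.GoodX X)
    (γ : NC (Fin m) Γ) {Γ' : Type} [Ring Γ'] [Algebra (LF G.K₁) Γ']
    (g : Γ' →ₐ[LF G.K₁] LD (G.E ⊗[K] Γ)) (γ' : NC (Fin μ) Γ')
    (w w' : NC (Fin μ) (LD (G.E ⊗[K] Γ))) (c0 : LD (G.E ⊗[K] Γ))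
    (hw : w * w' = 1) (hw' : w' * w = 1) (hγ' : γ' [] = 0)
    (hc : ∀ x : Γ', c0 * g x = g x * c0)
    (h : w * G.mvh Γ X hX.x0 γ * w' = NC.C c0 + NC.map (g : Γ' →+* _) γ')
    (hwin : Win (LF G.K₁) μ Γ' γ') : Win K m Γ γ := by
  intro P hP D _ _ _ _ _ f Λ hΛ hRS
  let A : DA := mkDA K D
  let M : Adm A := G.adm
  let φ := G.lmapF f
  have hcen : Algebra.IsCentral G.K₁ (G.E ⊗[K] D) := cenD0_aux K D G.K₁ G.E
  have hφ : ∀ a ∈ Λ, ∀ x : LD (G.E ⊗[K] Γ),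
      LD.C ((1 : G.E) ⊗ₜ[K] a) * φ x = φ x * LD.C ((1 : G.E) ⊗ₜ[K] a) := by
    intro a ha x
    apply LD.ext; intro n
    rw [LD.C_mul_co, LD.mul_C_co, GE.lmapF_co]
    induction x.co n using TensorProduct.induction_on with
    | zero => simp
    | tmul e y =>
      rw [GE.tmapF_tmul, Algebra.TensorProduct.tmul_mul_tmul, Algebra.TensorProduct.tmul_mul_tmul,
        one_mul, mul_one, hΛ a ha y]
    | add y1 y2 h1 h2 => rw [map_add, mul_add, add_mul, h1, h2]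
  have hmap : NC.map (φ : LD (G.E ⊗[K] Γ) →+* LD (G.E ⊗[K] D)) (G.mvh Γ X hX.x0 γ) =
      M.hX X hX.good'.x0 (NC.map (f : Γ →+* D) γ) := G.mvh_nat f X hX.x0 γ
  have hone : ∀ a b : NC (Fin μ) (LD (G.E ⊗[K] Γ)), a * b = 1 →
      NC.map (φ : LD (G.E ⊗[K] Γ) →+* LD (G.E ⊗[K] D)) a *
        NC.map (φ : LD (G.E ⊗[K] Γ) →+* LD (G.E ⊗[K] D)) b = 1 := by
    intro a b hab
    rw [← map_mul, hab, map_one]
  have hRS' := RS.move hP hRS M X hX.good'
    (NC.map (φ : LD (G.E ⊗[K] Γ) →+* LD (G.E ⊗[K] D)) w)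
    (NC.map (φ : LD (G.E ⊗[K] Γ) →+* LD (G.E ⊗[K] D)) w')
    (NC.map ((φ.comp g : Γ' →ₐ[LF G.K₁] LD (G.E ⊗[K] D)) : Γ' →+* LD (G.E ⊗[K] D)) γ')
    (hone _ _ hw) (hone _ _ hw') (fun v a ha => hφ a ha (w v)) (φ c0)
    (by
      rw [← hmap]
      have h1 := congrArg (NC.map (φ : LD (G.E ⊗[K] Γ) →+* LD (G.E ⊗[K] D))) h
      rw [map_mul, map_mul, map_add, NC.map_C] at h1
      exact h1)
    (by
      rw [NC.map_apply, hγ']
      exact map_zero _)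
    (fun v a ha => hφ a ha (g (γ' v)))
    (fun v => by
      change φ c0 * φ (g (γ' v)) = φ (g (γ' v)) * φ c0
      rw [← map_mul, hc, map_mul])
    (fun a ha => hφ a ha c0)
  refine hwin P hP (LD (G.E ⊗[K] D)) (φ.comp g) _ ?_ hRS'
  intro a ha x
  refine adjoin_comm_elt (R := LF G.K₁) (B := LD (G.E ⊗[K] D)) (y := φ (g x)) ?_ ha
  intro a ha
  rcases ha with ⟨b, hb, rfl⟩ | ha
  · exact hφ b hb (g x)
  · have ha' : a = φ c0 := ha
    subst ha'
    rw [← map_mul, hc, map_mul]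

end

section
variable {K : Type} [Field K] [CharZero K] (G : GE K) {m μ : ℕ} {Γ : Type} [Ring Γ] [Algebra K Γ]

theorem normB_isUnit' {σ F A : Type} [Field F] [Ring A] [Algebra F A] [CharZero F] [IsDomain A]
    [FiniteDimensional F A] (f : NC σ A) :
    ∃ b' : NC σ A, normB F f * b' = 1 ∧ b' * normB F f = 1 := by
  obtain ⟨V, h1, h2, _⟩ := ConjNF.exists_inv (normB F f) (normB_nil F f)
  exact ⟨V, h1, h2⟩

/-- move followed by normalisation (`Norm.lean`) and conjugation by a unit `v` of `D'` -/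
theorem Win.state [IsDomain Γ] [FiniteDimensional K Γ]
    (X : Fin m → NC (Fin μ) (PowerSeries G.E)) (hX : G.GoodX X) (γ : NC (Fin m) Γ)
    (v v' : LD (G.E ⊗[K] Γ)) (hv : v * v' = 1) (hv' : v' * v = 1)
    (B : Subalgebra (LF G.K₁) (LD (G.E ⊗[K] Γ)))
    (hB : ∀ x ∈ B, v * G.mvh Γ X hX.x0 γ [] * v' * x = x * (v * G.mvh Γ X hX.x0 γ [] * v'))
    (γ' : NC (Fin μ) B) (h0 : γ' [] = 0)
    (hγ' : ∀ w : List (Fin μ), w ≠ [] →
      (γ' w : LD (G.E ⊗[K] Γ)) = v * normA (LF G.K₁) (G.mvh Γ X hX.x0 γ) w * v')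
    (hwin : Win (LF G.K₁) μ B γ') : Win K m Γ γ := by
  set A := G.mvh Γ X hX.x0 γ with hA
  obtain ⟨b', hb1, hb2⟩ := normB_isUnit' (F := LF G.K₁) A
  have hBA := normB_mul (LF G.K₁) A
  refine Win.move G X hX γ B.val γ' (NC.C v * normB (LF G.K₁) A) (b' * NC.C v')
    (v * A [] * v') ?_ ?_ h0 (fun x => hB x x.2) ?_ hwin
  · rw [mul_assoc, ← mul_assoc (normB (LF G.K₁) A), hb1, one_mul, ← map_mul, hv, map_one]
  · rw [mul_assoc, ← mul_assoc (NC.C v'), ← map_mul, hv', map_one, one_mul, hb2]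
  · have h1 : NC.C v * normB (LF G.K₁) A * A * (b' * NC.C v') =
        NC.C v * normA (LF G.K₁) A * NC.C v' := by
      rw [mul_assoc (NC.C v), hBA, ← mul_assoc, ← mul_assoc, mul_assoc (NC.C v * normA (LF G.K₁) A),
        hb1, mul_one]
    rw [← hA, h1]
    apply NC.ext'; intro w
    rw [NC.mul_C_apply, NC.C_mul_apply, NC.add_apply, NC.map_apply]
    by_cases hw : w = []
    · subst hw
      rw [h0, map_zero, add_zero, normA_nil]
      simp
    · have hC : (NC.C (v * A [] * v') : NC (Fin μ) (LD (G.E ⊗[K] Γ))) w = 0 := by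
        cases w with
        | nil => exact absurd rfl hw
        | cons s w => simp
      rw [hC, zero_add]
      exact (hγ' w hw).symm

end

end Crest.Agent.R180
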