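import Crest.Agent.R180.CycDef

set_option autoImplicit false
set_option linter.unusedSectionVars false
noncomputable section
namespace Crest.Agent.R180

/-!
# Row 180, MODULE S, STr: the trace functional and the generic pair of a generic cyclic algebra
-/

open Finset

namespace STr

section

variable {A : DA} {N : ℕ} {I : Type} (M : Cyc A N I)

/-- the coordinates of `E = ⊕ L u^i` -/
def coefEquiv : (Fin N → M.L) ≃ₗ[M.F1] M.E :=
  LinearEquiv.ofBijective
    { toFun := fun c => ∑ i : Fin N, M.j (c i) * M.u ^ (i : ℕ)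
      map_add' := fun a b => by
        simp only [Pi.add_apply, map_add, add_mul, Finset.sum_add_distrib]
      map_smul' := fun r a => by
        simp only [Pi.smul_apply, map_smul, smul_mul_assoc, Finset.smul_sum, RingHom.id_apply] }
    ⟨fun a b hab => by
        obtain ⟨c, _, hu⟩ := M.decomp (∑ i : Fin N, M.j (a i) * M.u ^ (i : ℕ))
        exact (hu a rfl).trans (hu b hab).symm,
      fun e => by
        obtain ⟨c, hc, _⟩ := M.decomp e
        exact ⟨c, hc.symm⟩⟩

theorem coefEquiv_apply (c : Fin N → M.L) :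
    coefEquiv M c = ∑ i : Fin N, M.j (c i) * M.u ^ (i : ℕ) := rfl

theorem coefEquiv_single (n : Fin N) (y : M.L) :
    coefEquiv M (Pi.single n y) = M.j y * M.u ^ (n : ℕ) := by
  classical
  rw [coefEquiv_apply, Finset.sum_eq_single n]
  · simp
  · intro b _ hb
    rw [Pi.single_eq_of_ne hb]; simp
  · intro h; exact absurd (Finset.mem_univ _) h

/-- the coefficient of `u^0` -/
def c0 (hN : 0 < N) : M.E →ₗ[M.F1] M.L :=
  (LinearMap.proj ⟨0, hN⟩) ∘ₗ (coefEquiv M).symm.toLinearMap

theorem c0_lt (hN : 0 < N) (n : ℕ) (hn : n < N) (y : M.L) :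
    c0 M hN (M.j y * M.u ^ n) = if n = 0 then y else 0 := by
  classical
  have h := coefEquiv_single M ⟨n, hn⟩ y
  simp only at h
  rw [← h]
  change ((coefEquiv M).symm (coefEquiv M (Pi.single ⟨n, hn⟩ y))) ⟨0, hN⟩ = _
  rw [LinearEquiv.symm_apply_apply, Pi.single_apply]
  simp only [Fin.mk.injEq, eq_comm]

theorem c0_ge (hN : 0 < N) (n : ℕ) (y : M.L) :
    c0 M hN (M.j y * M.u ^ (N + n)) = c0 M hN (M.j (y * algebraMap M.F1 M.L M.T) * M.u ^ n) := by
  have h : M.j y * M.u ^ (N + n) = M.j (y * algebraMap M.F1 M.L M.T) * M.u ^ n := by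
    rw [pow_add, M.uN, map_mul M.j, AlgHom.commutes, mul_assoc]
  rw [h]

theorem pow_conj (n : ℕ) (y : M.L) : M.u ^ n * M.j y = M.j ((M.τ ^ n) y) * M.u ^ n := by
  induction n with
  | zero => simp
  | succ n ih =>
    rw [pow_succ', mul_assoc, ih, ← mul_assoc, M.conj, pow_succ', mul_assoc]
    rfl

/-- the `τ`-trace of the coefficient of `u^0` -/
def tt (hN : 0 < N) : M.E →ₗ[M.F1] M.L :=
  ∑ k ∈ range N, ((M.τ ^ k).toLinearMap ∘ₗ c0 M hN)

theorem tt_apply (hN : 0 < N) (e : M.E) :
    tt M hN e = ∑ k ∈ range N, (M.τ ^ k) (c0 M hN e) := by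
  simp [tt, LinearMap.sum_apply]

theorem sum_tau (y : M.L) : ∑ k ∈ range N, (M.τ ^ k) (M.τ y) = ∑ k ∈ range N, (M.τ ^ k) y := by
  have h1 : ∑ k ∈ range N, (M.τ ^ k) (M.τ y) = ∑ k ∈ range N, (M.τ ^ (k + 1)) y := by
    refine Finset.sum_congr rfl fun k _ => ?_
    rw [pow_succ]; rfl
  have h2 := Finset.sum_range_succ (fun k => (M.τ ^ k) y) N
  have h3 := Finset.sum_range_succ' (fun k => (M.τ ^ k) y) N
  rw [h2] at h3
  rw [h1]
  have h4 : (M.τ ^ N) y = (M.τ ^ 0) y := by rw [M.τN, pow_zero]; rfl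
  rw [h4] at h3
  exact (add_right_cancel h3).symm

theorem sum_tau_pow (l : ℕ) (y : M.L) :
    ∑ k ∈ range N, (M.τ ^ k) ((M.τ ^ l) y) = ∑ k ∈ range N, (M.τ ^ k) y := by
  induction l with
  | zero => rfl
  | succ l ih =>
    rw [← ih, ← sum_tau M ((M.τ ^ l) y), pow_succ']
    rfl

theorem tt_monomial (hN : 0 < N) (a b : M.L) (i l : ℕ) (hi : i < N) (hl : l < N) :
    tt M hN ((M.j a * M.u ^ i) * (M.j b * M.u ^ l)) =
      tt M hN ((M.j b * M.u ^ l) * (M.j a * M.u ^ i)) := by
  have e1 : (M.j a * M.u ^ i) * (M.j b * M.u ^ l) = M.j (a * (M.τ ^ i) b) * M.u ^ (i + l) := by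
    rw [mul_assoc, ← mul_assoc (M.u ^ i), pow_conj, map_mul, pow_add]
    noncomm_ring
  have e2 : (M.j b * M.u ^ l) * (M.j a * M.u ^ i) = M.j (b * (M.τ ^ l) a) * M.u ^ (i + l) := by
    rw [mul_assoc, ← mul_assoc (M.u ^ l), pow_conj, map_mul, add_comm i l, pow_add]
    noncomm_ring
  rw [e1, e2, tt_apply, tt_apply]
  rcases Nat.lt_or_ge (i + l) N with h | h
  · rw [c0_lt M hN _ h, c0_lt M hN _ h]
    by_cases h0 : i + l = 0
    · have hi0 : i = 0 := by omega
      have hl0 : l = 0 := by omega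
      subst hi0; subst hl0
      simp only [pow_zero, AlgEquiv.one_apply, mul_comm a b]
    · rw [if_neg h0, if_neg h0]
  · obtain ⟨n, hn⟩ := Nat.exists_eq_add_of_le h
    rw [hn, c0_ge, c0_ge, c0_lt M hN n (by omega), c0_lt M hN n (by omega)]
    by_cases h0 : n = 0
    · subst h0
      rw [if_pos rfl, if_pos rfl, ← sum_tau_pow M l (a * (M.τ ^ i) b * algebraMap M.F1 M.L M.T)]
      have h5 : (M.τ ^ l) ((M.τ ^ i) b) = b := by
        have h6 : (M.τ ^ l) ((M.τ ^ i) b) = (M.τ ^ (l + i)) b := by rw [pow_add]; rfl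
        rw [h6, add_comm l i, hn, add_zero, M.τN]
      rw [map_mul, map_mul, h5, AlgEquiv.commutes, mul_comm ((M.τ ^ l) a) b]
    · rw [if_neg h0, if_neg h0]

theorem tt_comm (hN : 0 < N) (x y : M.E) : tt M hN (x * y) = tt M hN (y * x) := by
  obtain ⟨a, rfl⟩ := (coefEquiv M).surjective x
  obtain ⟨b, rfl⟩ := (coefEquiv M).surjective y
  rw [coefEquiv_apply, coefEquiv_apply, Finset.sum_mul_sum, Finset.sum_mul_sum, map_sum, map_sum]
  simp only [map_sum]
  rw [Finset.sum_comm]
  refine Finset.sum_congr rfl fun i _ => Finset.sum_congr rfl fun l _ => ?_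
  exact tt_monomial M hN _ _ _ _ l.2 i.2

/-- the generic points -/
def gp (i : I) : M.E := M.j (M.gen i) * M.u

theorem prod_gp (n : ℕ) (v : Fin n → I) :
    (List.ofFn fun k => gp M (v k)).prod =
      M.j (∏ k : Fin n, (M.τ ^ (k : ℕ)) (M.gen (v k))) * M.u ^ n := by
  induction n with
  | zero => simp
  | succ n ih =>
    rw [List.ofFn_succ, List.prod_cons, ih (fun k => v k.succ), Fin.prod_univ_succ]
    have h1 : gp M (v 0) * (M.j (∏ k : Fin n, (M.τ ^ (k : ℕ)) (M.gen (v k.succ))) * M.u ^ n) =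
        M.j (M.gen (v 0)) * (M.u * M.j (∏ k : Fin n, (M.τ ^ (k : ℕ)) (M.gen (v k.succ)))) *
          M.u ^ n := by
      rw [gp]; noncomm_ring
    rw [h1, M.conj, map_prod]
    have h2 : ∀ k : Fin n, M.τ ((M.τ ^ (k : ℕ)) (M.gen (v k.succ))) =
        (M.τ ^ ((k.succ : Fin (n + 1)) : ℕ)) (M.gen (v k.succ)) := by
      intro k
      rw [Fin.val_succ, pow_succ']; rfl
    rw [Finset.prod_congr rfl fun k _ => h2 k]
    rw [map_mul, pow_succ']
    simp only [Fin.val_zero, pow_zero, AlgEquiv.one_apply]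
    noncomm_ring

/-- the monomial of a word of length `N` -/
def mon (v : Fin N → I) : M.L :=
  algebraMap M.F1 M.L M.T * ∏ k : Fin N, (M.τ ^ (k : ℕ)) (M.gen (v k))

theorem mon_indep : LinearIndependent A.F (mon M) := by
  classical
  -- exponents
  let ex : (Fin N → I) → ℕ × ((I × Fin N) →₀ ℕ) := fun v =>
    (1, ∑ k : Fin N, Finsupp.single (v k, k) 1)
  have hex : Function.Injective ex := by
    intro v v' h
    have h2 : ∑ k : Fin N, Finsupp.single (v k, k) 1 = ∑ k : Fin N, Finsupp.single (v' k, k) 1 :=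
      congrArg Prod.snd h
    funext k
    have h3 := DFunLike.congr_fun h2 (v k, k)
    rw [Finsupp.finsetSum_apply, Finsupp.finsetSum_apply] at h3
    rw [Finset.sum_eq_single k] at h3
    · rw [Finset.sum_eq_single k] at h3
      · by_contra hne
        rw [Finsupp.single_eq_same, Finsupp.single_eq_of_ne] at h3
        · exact one_ne_zero h3
        · intro h4
          exact hne (congrArg Prod.fst h4)
      · intro b _ hb
        rw [Finsupp.single_eq_of_ne]
        intro h4
        exact hb (congrArg Prod.snd h4).symm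
      · intro h; exact absurd (Finset.mem_univ _) h
    · intro b _ hb
      rw [Finsupp.single_eq_of_ne]
      intro h4
      exact hb (congrArg Prod.snd h4).symm
    · intro h; exact absurd (Finset.mem_univ _) h
  have h := M.indep.comp ex hex
  convert h using 1
  funext v
  simp only [mon, Function.comp, ex, pow_one]
  congr 1
  rw [← Finsupp.prod_finsetSum_index (h := fun (is : I × Fin N) (n : ℕ) =>
    ((M.τ ^ (is.2 : ℕ)) (M.gen is.1)) ^ n)]
  · refine Finset.prod_congr rfl fun k _ => ?_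
    rw [Finsupp.prod_single_index]
    · simp
    · simp
  · intro a; simp
  · intro a b₁ b₂; rw [pow_add]

theorem tau_mod (k : ℕ) (y : M.L) : (M.τ ^ (k % N)) y = (M.τ ^ k) y := by
  conv_rhs => rw [← Nat.mod_add_div k N]
  rw [pow_add, pow_mul]
  have h1 : ∀ n : ℕ, ((M.τ ^ N) ^ n) y = y := by
    intro n
    induction n with
    | zero => rfl
    | succ n ih => rw [pow_succ']; change (M.τ ^ N) (((M.τ ^ N) ^ n) y) = y; rw [ih, M.τN]
  change _ = (M.τ ^ (k % N)) (((M.τ ^ N) ^ (k / N)) y)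
  rw [h1]

theorem tau_mon [NeZero N] (v : Fin N → I) (r : Fin N) :
    (M.τ ^ (r : ℕ)) (mon M v) = mon M (fun k => v (k - r)) := by
  rw [mon, mon, map_mul, AlgEquiv.commutes, map_prod]
  congr 1
  refine (Finset.prod_congr rfl fun k _ => ?_).trans
    (Equiv.prod_comp (Equiv.addRight r) (fun k => (M.τ ^ (k : ℕ)) (M.gen (v (k - r)))))
  simp only [Equiv.coe_addRight, add_sub_cancel_right]
  rw [Fin.val_add, tau_mod, add_comm (k : ℕ) (r : ℕ), pow_add]
  rfl

theorem rotate_ofFn [NeZero N] (v : Fin N → I) (r : Fin N) :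
    (List.ofFn v).rotate r = List.ofFn (fun k => v (k + r)) := by
  apply List.ext_getElem
  · simp
  · intro n h1 h2
    rw [List.getElem_rotate]
    simp only [List.getElem_ofFn, List.length_ofFn]
    congr 1

/-- the value of the trace on the evaluation of a homogeneous series of degree `N` -/
theorem tt_value (hN : 0 < N) [NeZero N] [Fintype I] [DecidableEq I] (R : List I → A.F) :
    tt M hN (∑ v : Fin N → I, R (List.ofFn v) • (List.ofFn fun k => gp M (v k)).prod) =
      ∑ v : Fin N → I, (∑ r : Fin N, R ((List.ofFn v).rotate r)) • mon M v := by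
  have hsm : ∀ (r : A.F) (y : M.L), M.j (r • y) = r • M.j y := by
    intro r y
    rw [← algebraMap_smul M.F1 r y, map_smul, algebraMap_smul]
  have h1 : ∑ v : Fin N → I, R (List.ofFn v) • (List.ofFn fun k => gp M (v k)).prod =
      M.j (∑ v : Fin N → I, R (List.ofFn v) • ∏ k : Fin N, (M.τ ^ (k : ℕ)) (M.gen (v k))) *
        M.u ^ (N + 0) := by
    rw [map_sum, Finset.sum_mul, add_zero]
    refine Finset.sum_congr rfl fun v _ => ?_
    rw [prod_gp, hsm, smul_mul_assoc]
  rw [h1, tt_apply, c0_ge, c0_lt M hN 0 hN, if_pos rfl]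
  have h2 : (∑ v : Fin N → I, R (List.ofFn v) • ∏ k : Fin N, (M.τ ^ (k : ℕ)) (M.gen (v k))) *
      algebraMap M.F1 M.L M.T = ∑ v : Fin N → I, R (List.ofFn v) • mon M v := by
    rw [Finset.sum_mul]
    refine Finset.sum_congr rfl fun v _ => ?_
    rw [mon, smul_mul_assoc, mul_comm]
  rw [h2]
  have hτ : ∀ (k : ℕ) (r : A.F) (y : M.L), (M.τ ^ k) (r • y) = r • (M.τ ^ k) y := by
    intro k r y
    rw [← algebraMap_smul M.F1 r y, map_smul, algebraMap_smul]
  have h3 : ∀ k ∈ range N, (M.τ ^ k) (∑ v : Fin N → I, R (List.ofFn v) • mon M v) =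
      ∑ v : Fin N → I, R (List.ofFn v) • (M.τ ^ k) (mon M v) := by
    intro k _
    rw [map_sum]
    exact Finset.sum_congr rfl fun v _ => hτ _ _ _
  rw [Finset.sum_congr rfl h3, ← Fin.sum_univ_eq_sum_range
    (fun k => ∑ v : Fin N → I, R (List.ofFn v) • (M.τ ^ k) (mon M v)) N]
  have h4 : ∀ r : Fin N, ∑ v : Fin N → I, R (List.ofFn v) • (M.τ ^ (r : ℕ)) (mon M v) =
      ∑ v : Fin N → I, R ((List.ofFn v).rotate r) • mon M v := by
    intro r
    rw [← Equiv.sum_comp ((Equiv.subRight r).arrowCongr (Equiv.refl I))]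
    refine Finset.sum_congr rfl fun v _ => ?_
    rw [tau_mon, rotate_ofFn]
    have e1 : (fun k => ((Equiv.subRight r).arrowCongr (Equiv.refl I)) v (k - r)) = v := by
      funext k
      simp [Equiv.arrowCongr]
    have e2 : ((Equiv.subRight r).arrowCongr (Equiv.refl I)) v = fun k => v (k + r) := by
      funext k
      simp [Equiv.arrowCongr]
    rw [e1, e2]
  rw [Finset.sum_congr rfl fun r _ => h4 r, Finset.sum_comm]
  refine Finset.sum_congr rfl fun v _ => ?_
  rw [Finset.sum_smul]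

theorem indep_value (a b : I × Fin N) :
    (fun p : ℕ × ((I × Fin N) →₀ ℕ) => (algebraMap M.F1 M.L M.T) ^ p.1 *
      p.2.prod fun is n => ((M.τ ^ (is.2 : ℕ)) (M.gen is.1)) ^ n)
      (0, Finsupp.single a 1 + Finsupp.single b 1) =
      (M.τ ^ (a.2 : ℕ)) (M.gen a.1) * (M.τ ^ (b.2 : ℕ)) (M.gen b.1) := by
  classical
  simp only [pow_zero, one_mul]
  rw [Finsupp.prod_add_index']
  · rw [Finsupp.prod_single_index (by simp), Finsupp.prod_single_index (by simp), pow_one, pow_one]
  · intro c; simp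
  · intro c n₁ n₂; rw [pow_add]

theorem gen_ne_zero [NeZero N] (i : I) : M.gen i ≠ 0 := by
  intro h
  have h1 := M.indep.ne_zero (0, Finsupp.single (i, (0 : Fin N)) 1 + Finsupp.single (i, (0 : Fin N)) 1)
  apply h1
  have h2 := indep_value M (i, (0 : Fin N)) (i, (0 : Fin N))
  simp only at h2
  rw [h2, h]
  simp

theorem tau_ratio_ne [NeZero N] (i l : I) (hil : i ≠ l) (k : ℕ) (hk0 : 0 < k) (hk : k < N) :
    (M.τ ^ k) (M.gen i / M.gen l) ≠ M.gen i / M.gen l := by
  classical
  intro h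
  rw [map_div₀, div_eq_div_iff] at h
  · have h1 := indep_value M (i, ⟨k, hk⟩) (l, (0 : Fin N))
    have h2 := indep_value M (i, (0 : Fin N)) (l, ⟨k, hk⟩)
    have h3 := M.indep.injective (a₁ := (0, Finsupp.single (i, (⟨k, hk⟩ : Fin N)) 1 +
      Finsupp.single (l, (0 : Fin N)) 1)) (a₂ := (0, Finsupp.single (i, (0 : Fin N)) 1 +
      Finsupp.single (l, (⟨k, hk⟩ : Fin N)) 1)) (by
        refine h1.trans (Eq.trans ?_ h2.symm)
        simp only [Fin.val_zero, pow_zero, AlgEquiv.one_apply]
        exact h)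
    have h4 := DFunLike.congr_fun (congrArg Prod.snd h3) (i, (⟨k, hk⟩ : Fin N))
    simp only [Finsupp.add_apply, Finsupp.single_eq_same] at h4
    have hk' : (0 : Fin N) ≠ ⟨k, hk⟩ := by
      intro h5
      have := congrArg Fin.val h5
      simp only [Fin.val_zero] at this
      omega
    rw [Finsupp.single_eq_of_ne (by
        intro h5; exact hil (congrArg Prod.fst h5)),
      Finsupp.single_eq_of_ne (by
        intro h5; exact hk' (congrArg Prod.snd h5).symm),
      Finsupp.single_eq_of_ne (by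
        intro h5; exact hil (congrArg Prod.fst h5))] at h4
    omega
  · intro h5
    exact gen_ne_zero M l ((map_eq_zero_iff _ (M.τ ^ k).injective).mp h5)
  · exact gen_ne_zero M l

theorem adjoin_ratio [NeZero N] (i l : I) (hil : i ≠ l) :
    Algebra.adjoin M.F1 {M.gen i / M.gen l} = ⊤ := by
  classical
  set θ := M.gen i / M.gen l with hθ
  have hint : IsIntegral M.F1 θ := Algebra.IsIntegral.isIntegral θ
  have hinj : Set.InjOn (fun k : ℕ => (M.τ ^ k) θ) (range N : Set ℕ) := by
    have key : ∀ a b : ℕ, a < b → b < N → (M.τ ^ a) θ ≠ (M.τ ^ b) θ := by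
      intro a b hab hb h
      apply tau_ratio_ne M i l hil (b - a) (by omega) (by omega)
      apply (M.τ ^ a).injective
      have h2 : (M.τ ^ a) ((M.τ ^ (b - a)) θ) = (M.τ ^ b) θ := by
        have : b = a + (b - a) := by omega
        conv_rhs => rw [this, pow_add]
        rfl
      rw [h2, ← h]
    intro a ha b hb hab
    simp only [coe_range, Set.mem_Iio] at ha hb
    rcases lt_trichotomy a b with h | h | h
    · exact absurd hab (key a b h hb)
    · exact h
    · exact absurd hab.symm (key b a h ha)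
  have hdeg : N ≤ (minpoly M.F1 θ).natDegree := by
    have hmap := Polynomial.natDegree_map_eq_of_injective (algebraMap M.F1 M.L).injective
      (minpoly M.F1 θ)
    rw [← hmap]
    have hne : (minpoly M.F1 θ).map (algebraMap M.F1 M.L) ≠ 0 :=
      Polynomial.map_ne_zero (minpoly.ne_zero hint)
    have hsub : ((range N).image (fun k : ℕ => (M.τ ^ k) θ)).val ⊆
        ((minpoly M.F1 θ).map (algebraMap M.F1 M.L)).roots := by
      intro y hy
      rw [Finset.mem_val, Finset.mem_image] at hy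
      obtain ⟨k, _, rfl⟩ := hy
      rw [Polynomial.mem_roots hne, Polynomial.IsRoot, Polynomial.eval_map,
        ← Polynomial.aeval_def]
      have h1 : Polynomial.aeval ((M.τ ^ k) θ) (minpoly M.F1 θ) =
          (M.τ ^ k) (Polynomial.aeval θ (minpoly M.F1 θ)) := by
        rw [← Polynomial.aeval_algHom_apply (M.τ ^ k : M.L ≃ₐ[M.F1] M.L) θ]
      rw [h1, minpoly.aeval, map_zero]
    have h2 := Polynomial.card_le_degree_of_subset_roots hsub
    rwa [Finset.card_image_of_injOn hinj, Finset.card_range] at h2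
  have hfr := IntermediateField.adjoin.finrank hint
  have htop : IntermediateField.adjoin M.F1 {θ} = ⊤ := by
    apply IntermediateField.eq_of_le_of_finrank_le le_top
    rw [IntermediateField.finrank_top', hfr, M.finrankL]
    exact hdeg
  have h3 := IntermediateField.adjoin_simple_toSubalgebra_of_isAlgebraic hint.isAlgebraic
  rw [← h3, htop]
  rfl

/-- inverses in subalgebras of finite-dimensional domains -/
theorem exists_inv_mem {K E : Type} [Field K] [Ring E] [IsDomain E] [Algebra K E]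
    [FiniteDimensional K E] (S : Subalgebra K E) {x : E} (hx : x ∈ S) (h0 : x ≠ 0) :
    ∃ y ∈ S, x * y = 1 ∧ y * x = 1 := by
  let f : S →ₗ[K] S := LinearMap.mulLeft K (⟨x, hx⟩ : S)
  have hinj : Function.Injective f := by
    rw [← LinearMap.ker_eq_bot, LinearMap.ker_eq_bot']
    intro m hm
    have h1 : x * (m : E) = 0 := congrArg Subtype.val hm
    rcases mul_eq_zero.mp h1 with h2 | h2
    · exact absurd h2 h0
    · exact Subtype.ext h2
  obtain ⟨y, hy⟩ := (LinearMap.injective_iff_surjective.mp hinj) 1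
  have h1 : x * (y : E) = 1 := congrArg Subtype.val hy
  refine ⟨y, y.2, h1, ?_⟩
  have h2 : x * ((y : E) * x - 1) = 0 := by
    rw [mul_sub, ← mul_assoc, h1, one_mul, mul_one, sub_self]
  rcases mul_eq_zero.mp h2 with h3 | h3
  · exact absurd h3 h0
  · exact sub_eq_zero.mp h3

theorem u_ne_zero : M.u ≠ 0 := by
  intro h
  have := M.uu'
  rw [h, zero_mul] at this
  exact zero_ne_one this

theorem adjoin_gp [NeZero N] (i l : I) (hil : i ≠ l) (S : Subalgebra M.F1 M.E)
    (hi : gp M i ∈ S) (hl : gp M l ∈ S) : S = ⊤ := by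
  have hjl : M.j (M.gen l) ≠ 0 := by
    intro h
    exact gen_ne_zero M l ((map_eq_zero_iff _ (RingHom.injective M.j.toRingHom)).mp h)
  have hpl : gp M l ≠ 0 := mul_ne_zero hjl (u_ne_zero M)
  obtain ⟨y, hy, hy1, _⟩ := exists_inv_mem S hl hpl
  have h1 : M.j (M.gen i / M.gen l) * gp M l = gp M i := by
    rw [gp, gp, ← mul_assoc, ← map_mul, div_mul_cancel₀ _ (gen_ne_zero M l)]
  have h2 : M.j (M.gen i / M.gen l) ∈ S := by
    have : M.j (M.gen i / M.gen l) = gp M i * y := by
      rw [← h1, mul_assoc, hy1, mul_one]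
    rw [this]
    exact S.mul_mem hi hy
  have h3 : ∀ z : M.L, M.j z ∈ S := by
    intro z
    have hz : z ∈ Algebra.adjoin M.F1 {M.gen i / M.gen l} := by
      rw [adjoin_ratio M i l hil]; trivial
    have hle : (Algebra.adjoin M.F1 {M.gen i / M.gen l}).map M.j ≤ S := by
      rw [AlgHom.map_adjoin, Set.image_singleton, Algebra.adjoin_le_iff]
      rintro _ rfl
      exact h2
    exact hle ⟨z, hz, rfl⟩
  have h4 : M.u ∈ S := by
    have : M.u = M.j (M.gen i)⁻¹ * gp M i := by
      rw [gp, ← mul_assoc, ← map_mul, inv_mul_cancel₀ (gen_ne_zero M i), map_one, one_mul]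
    rw [this]
    exact S.mul_mem (h3 _) hi
  rw [eq_top_iff]
  intro e _
  obtain ⟨c, hc, _⟩ := M.decomp e
  rw [hc]
  exact S.sum_mem fun k _ => S.mul_mem (h3 _) (S.pow_mem h4 _)

end

end STr

/-- the trace functional and the generic pair of a generic cyclic algebra: if the
homogeneous series `R` of degree `N` has a nonzero cyclic sum then its value at the generic pair has
nonzero trace; the generic pair generates. -/
theorem Cyc.exists_pair {A : DA} {N : ℕ} (hN : 2 ≤ N) (M : Cyc A N (Fin 2))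
    (R : List (Fin 2) → A.F) (w : List (Fin 2)) (hw : w.length = N)
    (hR : ∑ k ∈ Finset.range N, R (w.rotate k) ≠ 0) :
    ∃ (p : Fin 2 → M.E) (tr : M.E →ₗ[M.F1] M.F1), (∀ x y, tr (x * y) = tr (y * x)) ∧
      Algebra.adjoin M.F1 (Set.range p) = ⊤ ∧
      tr (∑ v : Fin N → Fin 2, R (List.ofFn v) • (List.ofFn fun k => p (v k)).prod) ≠ 0 := by
  classical
  have hN0 : 0 < N := by omega
  have : NeZero N := ⟨by omega⟩
  -- the value of the `τ`-trace is nonzero
  have hval : STr.tt M hN0 (∑ v : Fin N → Fin 2, R (List.ofFn v) •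
      (List.ofFn fun k => STr.gp M (v k)).prod) ≠ 0 := by
    rw [STr.tt_value]
    intro h0
    have hli := Fintype.linearIndependent_iff.mp (STr.mon_indep M) _ h0
    subst hw
    apply hR
    have h1 := hli (fun k => w.get k)
    rw [← Fin.sum_univ_eq_sum_range (fun k => R (w.rotate k)) w.length]
    rw [← h1]
    refine Finset.sum_congr rfl fun r _ => ?_
    rw [List.ofFn_get]
  obtain ⟨ψ, hψ⟩ : ∃ ψ : Module.Dual M.F1 M.L, ψ (STr.tt M hN0 (∑ v : Fin N → Fin 2,
      R (List.ofFn v) • (List.ofFn fun k => STr.gp M (v k)).prod)) ≠ 0 := by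
    by_contra hcon
    push Not at hcon
    exact hval ((Module.forall_dual_apply_eq_zero_iff M.F1 _).mp hcon)
  refine ⟨STr.gp M, ψ ∘ₗ STr.tt M hN0, ?_, ?_, hψ⟩
  · intro x y
    change ψ (STr.tt M hN0 (x * y)) = ψ (STr.tt M hN0 (y * x))
    rw [STr.tt_comm]
  · apply STr.adjoin_gp M 0 1 (by decide)
    · exact Algebra.subset_adjoin ⟨0, rfl⟩
    · exact Algebra.subset_adjoin ⟨1, rfl⟩

end Crest.Agent.R180
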