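import Crest.Agent.R180.STriv
import Crest.Agent.R180.PRS
import Crest.Agent.R180.CycRankFin
import Crest.Agent.R180.STr

set_option autoImplicit false
set_option linter.unusedSectionVars false
set_option linter.unusedVariables false

/-! # Row 180, MODULE S: Theorem S -/

noncomputable section
namespace Crest.Agent.R180

namespace SStep

open Module NC SAlg SDer

variable {P : (A : DA) → (m : ℕ) → NC (Fin m) A.D → Prop}

/-- new plain representation after a good move -/
theorem PRS_new (hP : MoveClosed P) {A : DA} {m : ℕ} {κ : Type} [Fintype κ]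
    {Θ : κ → NC (Fin m) A.F} (h : PRS P A m Θ) (M : Adm A) {μ : ℕ}
    (X : Fin m → NC (Fin μ) (PowerSeries M.E)) (hX : Good' M X) {β : Type} [Fintype β]
    (e : Basis β M.F1 M.E) :
    PRS P (A.mv M) μ (newΘ e X hX.x0 Θ : κ × β → NC (Fin μ) (LF M.F1)) := by
  refine PRS.move hP h M X hX e (newΘ e X hX.x0 Θ) (fun p => rfl) ?_
  intro c w hw
  obtain ⟨i, w', rfl⟩ := List.exists_cons_of_ne_nil hw
  have h1 := (LD.basis e).sum_repr (LD.ofPS (M.hE0 X hX.x0 (Θ c) (i :: w')))
  conv_lhs => rw [← h1]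
  refine Finset.sum_congr rfl fun b _ => ?_
  rw [LD.basis_apply, LD.smul_def]
  rfl

/-- the final move: exact solution of the system -/
theorem final_step (hP : MoveClosed P) {A : DA} {m : ℕ} {κ : Type} [Fintype κ]
    {Θ : κ → NC (Fin m) A.F} (h : PRS P A m Θ) (u₁ u₂ : Fin m → A.F)
    (hu : ∀ α β : A.F, (∀ i, α * u₁ i + β * u₂ i = 0) → α = 0 ∧ β = 0)
    (X' : Fin m → NC (Fin 2) A.F) (hX1 : ∀ i, OrdGE 2 (X' i - X1 u₁ u₂ i))
    (hX' : ∀ c, tsub X' (Θ c) = C (Θ c [])) (M : Adm A)
    (hbij : Function.Bijective (algebraMap M.F1 M.E)) :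
    ∃ (A' : DA) (a' : NC (Fin 2) A'.D), P A' 2 a' ∧ IsAlgebraic A'.F a' := by
  classical
  have hXnil : ∀ j, X' j [] = 0 := by
    intro j
    have h1 := hX1 j [] (by simp)
    rw [NC.sub_apply, sub_eq_zero] at h1
    rw [h1]
    exact ordGE_nil (X1_ordGE j)
  have hXone : ∀ j (i : Fin 2), X' j [i] = X1 u₁ u₂ j [i] := by
    intro j i
    have h1 := hX1 j [i] (by simp)
    rwa [NC.sub_apply, sub_eq_zero] at h1
  have hX0 : ∀ j, X1 u₁ u₂ j [0] = u₁ j := by
    intro j; unfold X1; rw [NC.add_apply, C_mul_apply, C_mul_apply]; simp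
  have hX1' : ∀ j, X1 u₁ u₂ j [1] = u₂ j := by
    intro j; unfold X1; rw [NC.add_apply, C_mul_apply, C_mul_apply]; simp
  obtain ⟨α₁, α₂, ⟨a11, a12⟩, a21, a22⟩ := exists_dual_pair u₁ u₂ hu
  set φ : A.F →+* PowerSeries M.E := (PowerSeries.C (R := M.E)).comp (algebraMap A.F M.E) with hφ
  set X : Fin m → NC (Fin 2) (PowerSeries M.E) := fun j => NC.map φ (X' j) with hXdef
  have hx0 : ∀ j, PowerSeries.constantCoeff (X j []) = 0 := by
    intro j
    rw [hXdef]
    simp only [NC.map_apply, hXnil, map_zero]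
  have hsurj := algebraMap_surj_LD hbij.2
  have hgood : Good' M X := by
    refine ⟨hx0, ?_, ?_⟩
    · rw [eq_top_iff]
      intro y _
      obtain ⟨a, rfl⟩ := hsurj y
      exact Subalgebra.algebraMap_mem _ a
    · intro l g hrel
      obtain ⟨g', rfl⟩ := hsurj g
      have hdir : ∀ i j, M.dir X i j = algebraMap (LF M.F1) (LD M.E)
          (LF.C (algebraMap A.F M.F1 (X' j [i]))) := by
        intro i j
        change LD.ofPS (NC.map φ (X' j) [i]) = _
        rw [NC.map_apply]
        apply LD.ext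
        intro n
        change _ = algebraMap M.F1 M.E ((LF.C (algebraMap A.F M.F1 (X' j [i]))).co n)
        rw [LF.co_C]
        rcases lt_or_ge n 0 with hn | hn
        · rw [LD.co_ofPS_neg _ _ hn, if_neg (by omega), map_zero]
        · obtain ⟨k, rfl⟩ := Int.eq_ofNat_of_zero_le hn
          rw [LD.co_ofPS, hφ, RingHom.comp_apply, PowerSeries.coeff_C]
          by_cases hk : k = 0
          · subst hk
            rw [if_pos rfl, if_pos (by simp), ← IsScalarTower.algebraMap_apply]
          · rw [if_neg hk, if_neg (by omega), map_zero]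
      have hrel' : ∀ j, l 0 * LF.C (algebraMap A.F M.F1 (u₁ j)) +
          l 1 * LF.C (algebraMap A.F M.F1 (u₂ j)) = 0 := by
        intro j
        have h1 := hrel j
        rw [Algebra.commutes, sub_self, Fin.sum_univ_two, hdir, hdir, hXone, hXone, hX0, hX1',
          Algebra.smul_def, Algebra.smul_def, ← map_mul, ← map_mul, ← map_add] at h1
        exact (FaithfulSMul.algebraMap_eq_zero_iff _ _).mp h1
      have hcomb : ∀ α : Fin m → A.F, l 0 * LF.C (algebraMap A.F M.F1 (∑ j, α j * u₁ j)) +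
          l 1 * LF.C (algebraMap A.F M.F1 (∑ j, α j * u₂ j)) = 0 := by
        intro α
        have h1 : ∑ j, LF.C (algebraMap A.F M.F1 (α j)) *
          (l 0 * LF.C (algebraMap A.F M.F1 (u₁ j)) + l 1 * LF.C (algebraMap A.F M.F1 (u₂ j))) = 0 :=
          Finset.sum_eq_zero fun j _ => by rw [hrel', mul_zero]
        rw [← h1]
        simp only [map_sum, map_mul, Finset.mul_sum]
        rw [← Finset.sum_add_distrib]
        refine Finset.sum_congr rfl fun j _ => by ring
      have hl0 := hcomb α₁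
      rw [a11, a12] at hl0
      have hl1 := hcomb α₂
      rw [a21, a22] at hl1
      simp only [map_one, map_zero, mul_one, mul_zero, add_zero, zero_add] at hl0 hl1
      funext i
      fin_cases i
      · exact hl0
      · exact hl1
  -- the image of Θ is zero
  have hval : ∀ c, M.hE0 X hx0 (Θ c) = 0 := by
    intro c
    have h1 : ∀ f : NC (Fin m) A.F, NC.map φ (tsub X' f) = M.hE0 X hx0 f := by
      intro f
      refine NC.subst_unique (CFilt.nc (CFilt.powerSeries M.E)) _ X (hE_mem X hx0) (hE_comm X)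
        (fun f => NC.map φ (tsub X' f)) (fun f => ?_) f
      change NC.map φ (tsub X' f) = _
      rw [tsub_eq X' hXnil f, map_add, map_sum]
      simp only [map_mul]
      congr 1
      apply NC.ext'; intro w
      rw [NC.map_apply]
      cases w with
      | nil => rfl
      | cons i w =>
        simp only [RingHom.comp_apply, NC.C_cons, map_zero]
    rw [← h1, hX', h.zero c, map_zero, map_zero]
  have h2 := PRS.move hP h M X hgood (Module.finBasis M.F1 M.E) (fun _ => 0) (fun _ => rfl)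
    (fun c w hw => by
      rw [hval c, NC.zero_apply, map_zero]
      symm
      refine Finset.sum_eq_zero fun b _ => ?_
      change (LF.toLD (0 : LF M.F1) : LD M.E) * _ = 0
      rw [map_zero, zero_mul])
  obtain ⟨a, ha, halg⟩ := PRS.final h2 (fun _ => rfl)
  exact ⟨A.mv M, a, ha, halg⟩

theorem theoremS_aux (hP : MoveClosed P) (s : ℕ) : ∀ (A : DA) (m : ℕ) (κ : Type) [Fintype κ]
    (Θ : κ → NC (Fin m) A.F), PRS P A m Θ → Inv Θ → finrank A.F (annS Θ) = s →
    ∃ (A' : DA) (a' : NC (Fin 2) A'.D), P A' 2 a' ∧ IsAlgebraic A'.F a' := by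
  classical
  induction s using Nat.strong_induction_on with
  | _ s ih =>
  intro A m κ _ Θ hS hΘ hs
  have hstep : ∀ (M : Adm A), (∃ (μ : ℕ) (X : Fin m → NC (Fin μ) (PowerSeries M.E)),
      StepOut Θ M X (Module.finBasis M.F1 M.E)) →
      ∃ (A' : DA) (a' : NC (Fin 2) A'.D), P A' 2 a' ∧ IsAlgebraic A'.F a' := by
    rintro M ⟨μ, X, hout⟩
    have hlt := hout.lt
    rw [hs] at hlt
    exact ih _ hlt (A.mv M) μ (κ × Fin (finrank M.F1 M.E))
      (newΘ (Module.finBasis M.F1 M.E) X hout.good.x0 Θ)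
      (PRS_new hP hS M X hout.good _) hout.inv rfl
  let hb := Module.finBasis A.F (annS Θ)
  by_cases halt : ∀ (h : annS Θ) (x : LinearMap.ker (th1 Θ)), qV Θ h x x = 0
  · obtain ⟨u₁, u₂, v₁, v₂, D, hu⟩ := exists_data Θ hΘ hb halt
    rcases solve_or_obstruct D with ⟨X', hX1, hX'⟩ | ⟨n, hn, X', hX', a0, w, hw, hcyc⟩
    · obtain ⟨M, -, hbij, -⟩ := exists_trivial_rank A
      exact final_step hP hS u₁ u₂ hu X' hX1 hX' M hbij
    · obtain ⟨M, hM⟩ := exists_cyc_rank A (n + 1) (by omega)
      obtain ⟨p, tr, htrc, hp, htr⟩ := Cyc.exists_pair (by omega) M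
        (fun w => (tsub X' (hc Θ (hb a0 : κ → A.F)) - C (hc Θ (hb a0 : κ → A.F) []) :
          NC (Fin 2) A.F) w) w hw hcyc
      exact hstep M.toAdm (cyc_step Θ hS.zero hΘ hb D hu hn X' hX' a0 M.toAdm p tr htrc hp htr hM)
  · push Not at halt
    obtain ⟨h, x, hx⟩ := halt
    have hx' : ∀ c, ∑ i, Θ c [i] * (x : Fin m → A.F) i = 0 := by
      intro c
      have := x.2
      rw [LinearMap.mem_ker] at this
      exact congrFun this c
    obtain ⟨a0, ha0⟩ : ∃ a0, qf Θ (hb a0 : κ → A.F) (x : Fin m → A.F) x ≠ 0 := by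
      by_contra hcon
      push Not at hcon
      apply hx
      have h1 := hb.sum_repr h
      rw [← h1, map_sum]
      simp only [LinearMap.sum_apply, map_smul, LinearMap.smul_apply]
      refine Finset.sum_eq_zero fun a _ => ?_
      rw [qV_apply, hcon a, smul_zero]
    obtain ⟨M, -, hbij, hM⟩ := exists_trivial_rank A
    exact hstep M (triv_step Θ hΘ hb x hx' a0 ha0 M hbij hM)

end SStep

open SStep in
/-- THEOREM S -/
theorem theoremS {P : (A : DA) → (m : ℕ) → NC (Fin m) A.D → Prop} (hP : MoveClosed P) {A : DA}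
    {m : ℕ} {κ : Type} [Fintype κ]
    {Θ : κ → NC (Fin m) A.F} (h : PRS P A m Θ) (hcard : Fintype.card κ + 2 ≤ m)
    (hR : ∀ h : κ → A.F, h ≠ 0 → (∀ i, ∑ c, h c * Θ c [i] = 0) →
      4 * Fintype.card κ + 4 ≤ (Matrix.of fun i j : Fin m => ∑ c, h c * Θ c [i, j]).rank) :
    ∃ (A' : DA) (a' : NC (Fin 2) A'.D), P A' 2 a' ∧ IsAlgebraic A'.F a' :=
  theoremS_aux hP _ A m κ Θ h ⟨hcard, hR⟩ rfl

end Crest.Agent.R180
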