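import Crest.Agent.R180.WinS0
import Crest.Agent.R180.SMain

set_option autoImplicit false

/-!
# Row 180: Theorem S for `Win`
-/

noncomputable section
namespace Crest.Agent.R180

/-- Theorem S for `Win` -/
theorem Win.of_S {K : Type} [Field K] [CharZero K] {m : ℕ} {Γ : Type} [Ring Γ] [Algebra K Γ]
    [IsDomain Γ] [FiniteDimensional K Γ] (γ : NC (Fin m) Γ)
    (hdim : Module.finrank K Γ + 2 ≤ m)
    (hrank : ∀ h : Γ →ₗ[K] K, h ≠ 0 → (∀ i, h (γ [i]) = 0) →
      4 * Module.finrank K Γ + 4 ≤ (Matrix.of fun i j => h (γ [i, j])).rank) :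
    Win K m Γ γ :=
  Win.of_TheoremS (by intro P hP A m κ _ Θ h hcard hR; exact theoremS hP h hcard hR) γ hdim hrank

end Crest.Agent.R180
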