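import Crest.Agent.R180.Phase3Core
import Crest.Agent.R180.WinMove
import Crest.Agent.R180.WinS
import Crest.Agent.R180.Frame

set_option autoImplicit false
set_option linter.unusedSectionVars false
set_option linter.unusedVariables false

/-!
# Row 180, Phase 3 (helper881)
-/

noncomputable section
namespace Crest.Agent.R180

open TensorProduct

/-- Phase 3 without roots of unity -/
theorem phase3' (K Φ : Type) [Field K] [CharZero K] (m : ℕ) (hm : 2 ≤ m)
    [Ring Φ] [IsDomain Φ] [Algebra K Φ] [FiniteDimensional K Φ]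
    (hc : ∀ a b : Φ, a * b = b * a) (γ : NC (Fin m) Φ) (h0 : γ [] = 0) (i₀ : Fin m)
    (h1 : γ [i₀] = 1) (hgen : Algebra.adjoin K (Set.range fun i => γ [i]) = ⊤) :
    Win K m Φ γ :=
  phase3_core
    (fun {K} _ _ G {m μ Γ} _ _ X hX γ {Γ'} _ _ g γ' w w' c0 hw hw' hγ' hc h hwin =>
      Win.move G X hX γ g γ' w w' c0 hw hw' hγ' hc h hwin)
    (fun {K} _ _ {m Γ} _ _ _ _ γ hdim hrank => Win.of_S γ hdim hrank)
    K Φ m hm hc γ h0 i₀ h1 hgen

end Crest.Agent.R180
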