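import Crest.Agent.R180.GE
import Crest.Agent.R180.Norm

set_option autoImplicit false
noncomputable section
namespace Crest.Agent.R180

open TensorProduct

/-- the central division algebra `D` over `K` as a `DA` -/
abbrev mkDA (K D : Type) [Field K] [CharZero K] [Ring D] [IsDomain D] [Algebra K D]
    [FiniteDimensional K D] [Algebra.IsCentral K D] : DA := { F := K, D := D }

/-- `γ ∈ Γ⟪m letters⟫` wins: whenever `γ` is (over `Λ`) a representation of an element of a
move-closed predicate `P`, inside some central division algebra `D ⊇ Γ`, one reaches by moves an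
algebraic element (with two letters). -/
def Win (K : Type) [Field K] [CharZero K] (m : ℕ) (Γ : Type) [Ring Γ] [Algebra K Γ]
    (γ : NC (Fin m) Γ) : Prop :=
  ∀ (P : (A : DA) → (m : ℕ) → NC (Fin m) A.D → Prop), MoveClosed P →
  ∀ (D : Type) [Ring D] [IsDomain D] [Algebra K D] [FiniteDimensional K D]
    [Algebra.IsCentral K D] (f : Γ →ₐ[K] D) (Λ : Subalgebra K D),
    (∀ a ∈ Λ, ∀ x : Γ, a * f x = f x * a) →
    RS P (mkDA K D) m Λ (NC.map (f : Γ →+* D) γ) →
    ∃ (A' : DA) (a' : NC (Fin 2) A'.D), P A' 2 a' ∧ IsAlgebraic A'.F a'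

/-- the value at `γ` (`γ [] = 0`) of the power series `H`:
the coefficient of the word `w` in `H(γ)` is the finite sum `Σ_{n ≤ |w|} H_n (γ^n)(w)`. -/
def NC.Hval {σ Γ : Type} [Ring Γ] (H : ℕ → Γ) (γ : NC σ Γ) : NC σ Γ :=
  ⟨fun w => ∑ n ∈ Finset.range (w.length + 1), H n * (γ ^ n) w⟩

end Crest.Agent.R180
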