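import Crest.Agent.R180.P3Good
import Crest.Agent.R180.Win

set_option autoImplicit false
set_option linter.unusedSectionVars false
set_option linter.unusedVariables false

/-!
# Row 180, Phase 3 (helper881)

`phase3_core` : Phase 3 from the rule `Win.move` and Theorem S in the form `Win.of_S`.
-/

noncomputable section
namespace Crest.Agent.R180

open TensorProduct

/-- `LD` of an algebra hom -/
def LDmapAlg {k A B : Type} [Field k] [Ring A] [Ring B] [Algebra k A] [Algebra k B]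
    (φ : A →ₐ[k] B) : LD A →ₐ[LF k] LD B :=
  { LD.map (φ : A →+* B) with
    commutes' := fun c => by
      apply LD.ext
      intro n
      change (LD.map (φ : A →+* B) (LF.toLD c)).co n = (LF.toLD c : LD B).co n
      rw [LD.co_map, LF.co_toLD, LF.co_toLD]
      exact φ.commutes _ }

theorem LDmapAlg_apply {k A B : Type} [Field k] [Ring A] [Ring B] [Algebra k A] [Algebra k B]
    (φ : A →ₐ[k] B) (x : LD A) : LDmapAlg φ x = LD.map (φ : A →+* B) x := rfl

/-- statement of `Win.move` -/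
def MoveRule : Prop :=
  ∀ {K : Type} [Field K] [CharZero K] (G : GE K) {m μ : ℕ} {Γ : Type} [Ring Γ] [Algebra K Γ]
    (X : Fin m → NC (Fin μ) (PowerSeries G.E)) (hX : G.GoodX X)
    (γ : NC (Fin m) Γ) {Γ' : Type} [Ring Γ'] [Algebra (LF G.K₁) Γ']
    (g : Γ' →ₐ[LF G.K₁] LD (G.E ⊗[K] Γ)) (γ' : NC (Fin μ) Γ')
    (w w' : NC (Fin μ) (LD (G.E ⊗[K] Γ))) (c0 : LD (G.E ⊗[K] Γ))
    (hw : w * w' = 1) (hw' : w' * w = 1) (hγ' : γ' [] = 0)
    (hc : ∀ x : Γ', c0 * g x = g x * c0)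
    (h : w * G.mvh Γ X hX.x0 γ * w' = NC.C c0 + NC.map (g : Γ' →+* _) γ')
    (hwin : Win (LF G.K₁) μ Γ' γ'), Win K m Γ γ

/-- statement of `Win.of_S` -/
def SRule : Prop :=
  ∀ {K : Type} [Field K] [CharZero K] {m : ℕ} {Γ : Type} [Ring Γ] [Algebra K Γ]
    [IsDomain Γ] [FiniteDimensional K Γ] (γ : NC (Fin m) Γ)
    (hdim : Module.finrank K Γ + 2 ≤ m)
    (hrank : ∀ h : Γ →ₗ[K] K, h ≠ 0 → (∀ i, h (γ [i]) = 0) →
      4 * Module.finrank K Γ + 4 ≤ (Matrix.of fun i j => h (γ [i, j])).rank),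
    Win K m Γ γ

set_option maxHeartbeats 1000000 in
theorem phase3_core (hmove : MoveRule) (hS : SRule)
    (K Φ : Type) [Field K] [CharZero K] (m : ℕ) (hm : 2 ≤ m)
    [Ring Φ] [IsDomain Φ] [Algebra K Φ] [FiniteDimensional K Φ]
    (hc : ∀ a b : Φ, a * b = b * a) (γ : NC (Fin m) Φ) (h0 : γ [] = 0) (i₀ : Fin m)
    (h1 : γ [i₀] = 1) (hgen : Algebra.adjoin K (Set.range fun i => γ [i]) = ⊤) :
    Win K m Φ γ := by
  classical
  obtain ⟨i₁', hi₁'⟩ : ∃ i₁ : Fin m, i₁ ≠ i₀ := by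
    have : Nontrivial (Fin m) := Fin.nontrivial_iff_two_le.2 hm
    exact exists_ne i₀
  obtain ⟨w2, hw2, i₁, hi₁, hw2i⟩ :=
    exists_primitive_comb' hc (fun i => γ [i]) i₀ i₁' hi₁' hgen
  set κ : Φ := ∑ i, w2 i • γ [i] with hκ
  set w1 : Fin m → K := Pi.single i₀ 1 with hw1
  set d := Module.finrank K Φ with hd
  obtain ⟨N, hNd⟩ : ∃ N, N = 5 * d + 7 := ⟨_, rfl⟩
  obtain ⟨C, _⟩ := exists_cycG K N (by omega) (Fin 1)
  have hN : 1 < N := by omega
  have CA := C.cycAlg hN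
  have D := CA.toData κ (fun x => hc κ x) (span_pow_of_adjoin κ hw2)
  have hG := p3_good C w1 w2 hN i₀ i₁ hi₁ hw1 hw2i
  -- the point
  have hsum1 : ∑ i, w1 i • γ [i] = 1 := by
    rw [Finset.sum_eq_single i₀]
    · rw [hw1, Pi.single_eq_same, one_smul, h1]
    · intro i _ hi
      rw [hw1, Pi.single_eq_of_ne hi, zero_smul]
    · intro h; exact absurd (Finset.mem_univ _) h
  have hmix : ∀ (c : Fin m → K) (x : C.E),
      ∑ i, C.jE Φ (c i • x) * C.jΓ Φ (γ [i]) = x ⊗ₜ[K] (∑ i, c i • γ [i]) := by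
    intro c x
    rw [TensorProduct.tmul_sum]
    refine Finset.sum_congr rfl fun i _ => ?_
    rw [GE.jE_apply, GE.jΓ_apply, Algebra.TensorProduct.tmul_mul_tmul, mul_one, one_mul,
      TensorProduct.smul_tmul]
  set η : C.E ⊗[K] Φ := eta (C.θE ⊗ₜ[K] (1 : Φ)) ((1 : C.E) ⊗ₜ[K] κ) with hη
  have hpt : ∑ i, C.jE Φ (p3z0 C w1 w2 i) * C.jΓ Φ (γ [i]) = η := by
    have e1 : ∀ i, C.jE Φ (p3z0 C w1 w2 i) * C.jΓ Φ (γ [i])
        = C.jE Φ (w2 i • C.θE) * C.jΓ Φ (γ [i]) + C.jE Φ (w1 i • C.θE ^ 2) * C.jΓ Φ (γ [i]) := by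
      intro i
      rw [p3z0, map_add, add_mul]
    rw [Finset.sum_congr rfl fun i _ => e1 i, Finset.sum_add_distrib, hmix w2, hmix w1, hsum1,
      hη, eta, Algebra.TensorProduct.tmul_mul_tmul, Algebra.TensorProduct.tmul_pow, one_mul,
      mul_one, one_pow, hκ]
  have hus : ∀ s, ∑ i, C.jE Φ (p3u C w1 s i) * C.jΓ Φ (γ [i])
      = p3x N (C.θE ⊗ₜ[K] (1 : Φ)) (C.u ⊗ₜ[K] (1 : Φ)) (p3e _ s) := by
    intro s
    unfold p3u
    rw [hmix w1, hsum1, p3x, Algebra.TensorProduct.tmul_pow, Algebra.TensorProduct.tmul_pow,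
      Algebra.TensorProduct.tmul_mul_tmul, one_pow, one_pow, one_mul]
  obtain ⟨B, B', e, hB, hB', hBe, he⟩ := p3_norm (k := C.K₁) (p3comm C w1 w2) γ h0 η hpt
  simp only [hus] at he
  -- the new coefficient algebra
  have hWc : ∀ x y : LD (Subalgebra.centralizer C.K₁ {η}), x * y = y * x :=
    LD_comm D.W_comm
  let γ₂ : NC (Fin (N * (N - 1))) (LD (Subalgebra.centralizer C.K₁ {η})) :=
    NC.map LD.ofPS (NC.C PowerSeries.X * e)
  let g : LD (Subalgebra.centralizer C.K₁ {η}) →ₐ[LF C.K₁] LD (C.E ⊗[K] Φ) :=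
    LDmapAlg (Subalgebra.centralizer C.K₁ {η}).val
  obtain ⟨γ', hγ'0, hγ'1⟩ : ∃ γ' : NC (Fin (N * (N - 1)))
      (LD (Subalgebra.centralizer C.K₁ {η})), γ' [] = 0 ∧ ∀ s w, γ' (s :: w) = γ₂ (s :: w) :=
    ⟨⟨fun w => match w with
      | [] => 0
      | (s :: w) => γ₂ (s :: w)⟩, rfl, fun _ _ => rfl⟩
  refine hmove C.toGE (p3L C w1 w2) hG γ g γ'
    (NC.map LD.ofPS B) (NC.map LD.ofPS B') (g (γ₂ [])) ?_ ?_ hγ'0 ?_ ?_ ?_
  · rw [← map_mul, hB, map_one]
  · rw [← map_mul, hB', map_one]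
  · intro x
    rw [← map_mul, hWc, map_mul]
  · rw [p3mvh, ← map_mul, ← map_mul, hBe]
    have h2 : NC.map (LD.ofPS (K := C.E ⊗[K] Φ))
        (NC.map (PowerSeries.map ((Subalgebra.centralizer C.K₁ {η}).val : _ →+* C.E ⊗[K] Φ))
          (NC.C PowerSeries.X * e)) = NC.map (g : _ →+* LD (C.E ⊗[K] Φ)) γ₂ := by
      apply NC.ext'
      intro w
      exact map_ofPS _ _
    rw [h2]
    apply NC.ext'
    intro w
    cases w with
    | nil =>
      rw [NC.add_apply, NC.C_nil]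
      change g (γ₂ []) = g (γ₂ []) + g (γ' [])
      rw [hγ'0, map_zero, add_zero]
    | cons s w =>
      rw [NC.add_apply, NC.C_cons, zero_add]
      change g (γ₂ (s :: w)) = g (γ' (s :: w))
      rw [hγ'1]
  · have hfin : Module.finrank (LF C.K₁) (LD (Subalgebra.centralizer C.K₁ {η}))
        ≤ d * N := by
      rw [LD.finrank_eq]
      exact D.finrank_W
    refine hS _ ?_ ?_
    · have e1 : N - 1 = 5 * d + 6 := by omega
      rw [e1]
      nlinarith
    · intro h hh _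
      have h2 := D.rank_p3 h hh (fun s s' => e [(p3e _).symm s, (p3e _).symm s']) (by
        intro s s'
        rw [he, Equiv.apply_symm_apply, Equiv.apply_symm_apply])
      have h3 : (Matrix.of fun i j => h (γ' [i, j])) =
          (Matrix.of fun s s' => h (LD.ofPS (PowerSeries.X *
            e [(p3e N).symm s, (p3e N).symm s']))).submatrix
            (p3e N) (p3e N) := by
        ext i j
        rw [Matrix.of_apply, Matrix.submatrix_apply, Matrix.of_apply, Equiv.symm_apply_apply,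
          Equiv.symm_apply_apply]
        congr 1
        rw [hγ'1]
        change LD.ofPS ((NC.C PowerSeries.X * e : NC (Fin (N * (N - 1)))
          (PowerSeries (Subalgebra.centralizer C.K₁ {η}))) [i, j]) = _
        rw [NC.C_mul_apply]
      rw [h3, Matrix.rank_submatrix]
      refine le_trans ?_ h2
      have e1 : N - d - 2 = 4 * d + 5 := by omega
      rw [e1]
      nlinarith

end Crest.Agent.R180
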