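import Mathlib

set_option autoImplicit false
set_option linter.unusedSectionVars false

/-!
# Row 180: the auxiliary division algebra (quantum torus), part 1: twisted Hahn rings

`Tw K Γ R` : a family `g : Γ → R` of invertible elements of a `K`-algebra `R` with
`g a * g b ∈ Kˣ g (a + b)`.  `T.E` = Hahn series over `Γ` with coefficients in `R` whose
`a`-th coefficient is a scalar multiple of `g a`.  It is a domain, with valuation
`HahnSeries.orderTop` and *residue field* `K`.
-/

namespace Crest.Agent.R180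

open HahnSeries

/-- a twisting datum -/
structure Tw (K Γ R : Type) [Field K] [AddCommGroup Γ] [Ring R] [Algebra K R] where
  g : Γ → R
  u : ∀ a, IsUnit (g a)
  c : Γ → Γ → K
  mul : ∀ a b, g a * g b = c a b • g (a + b)
  zero : g 0 = 1

namespace Tw

variable {K Γ R : Type} [Field K] [AddCommGroup Γ] [LinearOrder Γ] [IsOrderedAddMonoid Γ]
  [Ring R] [Nontrivial R] [Algebra K R] (T : Tw K Γ R)

theorem c_ne (a b : Γ) : T.c a b ≠ 0 := by
  intro h
  have := T.mul a b
  rw [h, zero_smul] at this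
  have h2 : IsUnit (T.g a * T.g b) := (T.u a).mul (T.u b)
  rw [this] at h2
  exact not_isUnit_zero h2

/-- the twisted Hahn ring, as a subalgebra of `HahnSeries Γ R` -/
def E : Subalgebra K (HahnSeries Γ R) where
  carrier := {F | ∀ a, ∃ k : K, F.coeff a = k • T.g a}
  mul_mem' := by
    intro F G hF hG a
    choose f hf using hF
    choose h hh using hG
    rw [HahnSeries.coeff_mul]
    refine ⟨∑ ij ∈ Finset.antidiagonal F.isPWO_support G.isPWO_support a,
      f ij.1 * h ij.2 * T.c ij.1 ij.2, ?_⟩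
    rw [Finset.sum_smul]
    refine Finset.sum_congr rfl fun ij hij => ?_
    have hij' : ij.1 + ij.2 = a := by
      simp only [Finset.mem_antidiagonal] at hij
      exact hij.2.2
    rw [hf, hh, smul_mul_smul_comm, T.mul, hij', smul_smul]
  add_mem' := by
    intro F G hF hG a
    obtain ⟨f, hf⟩ := hF a
    obtain ⟨h, hh⟩ := hG a
    exact ⟨f + h, by rw [HahnSeries.coeff_add, hf, hh, add_smul]⟩
  algebraMap_mem' := by
    intro k a
    by_cases ha : a = 0
    · subst ha
      refine ⟨k, ?_⟩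
      rw [HahnSeries.algebraMap_apply, HahnSeries.C_apply, HahnSeries.coeff_single_same, T.zero,
        Algebra.algebraMap_eq_smul_one]
    · refine ⟨0, ?_⟩
      rw [HahnSeries.algebraMap_apply, HahnSeries.C_apply, HahnSeries.coeff_single_of_ne ha,
        zero_smul]

theorem mem_E {F : HahnSeries Γ R} : F ∈ T.E ↔ ∀ a, ∃ k : K, F.coeff a = k • T.g a := Iff.rfl

theorem g_ne (a : Γ) : T.g a ≠ 0 := (T.u a).ne_zero

/-- the scalar coefficients -/
noncomputable def sc (F : T.E) (a : Γ) : K := (F.2 a).choose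

theorem coeff_eq (F : T.E) (a : Γ) : F.1.coeff a = T.sc F a • T.g a := (F.2 a).choose_spec

theorem smul_g_inj {k l : K} {a : Γ} (h : k • T.g a = l • T.g a) : k = l := by
  have h' : (k - l) • T.g a = 0 := by rw [sub_smul, h, sub_self]
  by_contra hkl
  rcases smul_eq_zero.mp h' with h0 | h0
  · exact hkl (sub_eq_zero.mp h0)
  · exact T.g_ne a h0

theorem sc_eq_of {F : T.E} {a : Γ} {k : K} (h : F.1.coeff a = k • T.g a) : T.sc F a = k :=
  T.smul_g_inj ((T.coeff_eq F a).symm.trans h)

theorem sc_ext {F G : T.E} (h : ∀ a, T.sc F a = T.sc G a) : F = G := by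
  apply Subtype.ext; apply HahnSeries.ext; funext a
  rw [T.coeff_eq, T.coeff_eq, h]

@[simp] theorem sc_zero (a : Γ) : T.sc 0 a = 0 := T.sc_eq_of (by simp)

@[simp] theorem sc_add (F G : T.E) (a : Γ) : T.sc (F + G) a = T.sc F a + T.sc G a :=
  T.sc_eq_of (by
    rw [show ((F + G : T.E) : HahnSeries Γ R) = F.1 + G.1 from rfl, HahnSeries.coeff_add,
      T.coeff_eq, T.coeff_eq, add_smul])

@[simp] theorem sc_smul (k : K) (F : T.E) (a : Γ) : T.sc (k • F) a = k * T.sc F a :=
  T.sc_eq_of (by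
    rw [show ((k • F : T.E) : HahnSeries Γ R) = k • F.1 from rfl, HahnSeries.coeff_smul,
      T.coeff_eq, smul_smul])

@[simp] theorem sc_neg (F : T.E) (a : Γ) : T.sc (-F) a = - T.sc F a :=
  T.sc_eq_of (by
    rw [show ((-F : T.E) : HahnSeries Γ R) = -F.1 from rfl, HahnSeries.coeff_neg,
      T.coeff_eq, neg_smul])

@[simp] theorem sc_sub (F G : T.E) (a : Γ) : T.sc (F - G) a = T.sc F a - T.sc G a := by
  rw [sub_eq_add_neg, sc_add, sc_neg, sub_eq_add_neg]

theorem sc_eq_zero_iff (F : T.E) (a : Γ) : T.sc F a = 0 ↔ F.1.coeff a = 0 := by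
  rw [T.coeff_eq]
  constructor
  · intro h; rw [h, zero_smul]
  · intro h
    rcases smul_eq_zero.mp h with h0 | h0
    · exact h0
    · exact absurd h0 (T.g_ne a)

/-- the valuation -/
noncomputable def v (F : T.E) : WithTop Γ := F.1.orderTop

theorem v_eq_top {F : T.E} : T.v F = ⊤ ↔ F = 0 := by
  unfold v
  rw [HahnSeries.orderTop_eq_top]
  constructor
  · intro h; exact Subtype.ext h
  · intro h; rw [h]; rfl

theorem leadingCoeff_mul_ne {F G : T.E} (hF : F ≠ 0) (hG : G ≠ 0) :
    F.1.leadingCoeff * G.1.leadingCoeff ≠ 0 := by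
  have hF' : F.1 ≠ 0 := fun h => hF (Subtype.ext h)
  have hG' : G.1 ≠ 0 := fun h => hG (Subtype.ext h)
  have h1 := HahnSeries.leadingCoeff_ne_zero.mpr hF'
  have h2 := HahnSeries.leadingCoeff_ne_zero.mpr hG'
  rw [HahnSeries.leadingCoeff_of_ne_zero hF', T.coeff_eq] at h1 ⊢
  rw [HahnSeries.leadingCoeff_of_ne_zero hG', T.coeff_eq] at h2 ⊢
  rw [smul_mul_smul_comm, T.mul, smul_smul]
  refine smul_ne_zero (mul_ne_zero (mul_ne_zero ?_ ?_) (T.c_ne _ _)) (T.g_ne _)
  · exact fun h => h1 (by rw [h, zero_smul])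
  · exact fun h => h2 (by rw [h, zero_smul])

theorem v_mul (F G : T.E) : T.v (F * G) = T.v F + T.v G := by
  by_cases hF : F = 0
  · subst hF; rw [zero_mul]; rw [(T.v_eq_top).mpr rfl]; simp
  by_cases hG : G = 0
  · subst hG; rw [mul_zero]; rw [(T.v_eq_top).mpr rfl]; simp
  exact HahnSeries.orderTop_mul_of_ne_zero (T.leadingCoeff_mul_ne hF hG)

theorem v_add (F G : T.E) : min (T.v F) (T.v G) ≤ T.v (F + G) :=
  HahnSeries.min_orderTop_le_orderTop_add

instance : NoZeroDivisors T.E where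
  eq_zero_or_eq_zero_of_mul_eq_zero := by
    intro F G h
    by_contra hc
    push Not at hc
    have := (T.v_eq_top (F := F * G)).mpr h
    rw [T.v_mul, WithTop.add_eq_top] at this
    rcases this with h1 | h1
    · exact hc.1 (T.v_eq_top.mp h1)
    · exact hc.2 (T.v_eq_top.mp h1)

instance : Nontrivial T.E := by
  refine ⟨⟨0, 1, fun h => ?_⟩⟩
  have h1 : (0 : HahnSeries Γ R) = 1 := congrArg Subtype.val h
  have h2 := congrArg (fun F : HahnSeries Γ R => F.coeff 0) h1
  simp at h2

instance : IsDomain T.E := NoZeroDivisors.to_isDomain _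

/-- residue field is `K` -/
theorem residue {F G : T.E} (h : T.v F = T.v G) (hG : G ≠ 0) :
    ∃ k : K, T.v G < T.v (F - k • G) := by
  have hG' : G.1 ≠ 0 := fun h => hG (Subtype.ext h)
  have hF' : F.1 ≠ 0 := by
    intro h0
    have : T.v F = ⊤ := T.v_eq_top.mpr (Subtype.ext h0)
    rw [this] at h
    exact hG (T.v_eq_top.mp h.symm)
  obtain ⟨a, ha⟩ := WithTop.ne_top_iff_exists.mp (HahnSeries.orderTop_ne_top.mpr hG')
  have hGa : T.sc G a ≠ 0 := by
    rw [Ne, T.sc_eq_zero_iff]
    exact HahnSeries.coeff_orderTop_ne ha.symm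
  refine ⟨T.sc F a / T.sc G a, ?_⟩
  have hva : T.v G = (a : WithTop Γ) := ha.symm
  rw [hva]
  by_contra hlt
  rw [not_lt] at hlt
  -- order of the difference is ≤ a; look at its leading coefficient
  have hne : (F - (T.sc F a / T.sc G a) • G : T.E) ≠ 0 := by
    intro h0
    rw [T.v_eq_top.mpr h0] at hlt
    exact absurd hlt (by simp)
  set D : T.E := F - (T.sc F a / T.sc G a) • G with hD
  have hD' : D.1 ≠ 0 := fun h => hne (Subtype.ext h)
  obtain ⟨b, hb⟩ := WithTop.ne_top_iff_exists.mp (HahnSeries.orderTop_ne_top.mpr hD')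
  have hba : b ≤ a := by
    have : (b : WithTop Γ) ≤ a := by rw [hb]; exact hlt
    exact WithTop.coe_le_coe.mp this
  have hDb : T.sc D b ≠ 0 := by
    rw [Ne, T.sc_eq_zero_iff]
    exact HahnSeries.coeff_orderTop_ne hb.symm
  apply hDb
  rw [hD, sc_sub, sc_smul]
  rcases hba.lt_or_eq with hlt' | rfl
  · have h1 : T.sc F b = 0 := by
      rw [T.sc_eq_zero_iff]
      apply HahnSeries.coeff_eq_zero_of_lt_orderTop
      change (b : WithTop Γ) < T.v F
      rw [h, hva]; exact WithTop.coe_lt_coe.mpr hlt'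
    have h2 : T.sc G b = 0 := by
      rw [T.sc_eq_zero_iff]
      apply HahnSeries.coeff_eq_zero_of_lt_orderTop
      rw [← ha]; exact WithTop.coe_lt_coe.mpr hlt'
    rw [h1, h2]; simp
  · field_simp
    ring

end Tw

end Crest.Agent.R180
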