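import Crest.Agent.R180.Quantum

set_option autoImplicit false
set_option linter.unusedSectionVars false

/-!
# Row 180: the auxiliary division algebra (quantum torus), part 2: the concrete algebra

`Gm = ℤ ×ₗ ℤ`, `K' = QK K = HahnSeries Gm K` (a field), `QE m hζ` = twisted Hahn ring with
`X^p Y^q = mon (p,q)`, `g (p,q) = u^p v^q` (clock and shift matrices).
`K'` acts through `x^a ↦ x^{m a}`.
-/

namespace Crest.Agent.R180

open HahnSeries

abbrev Gm : Type := ℤ ×ₗ ℤ

/-- the central field -/
abbrev QK (K : Type) [Field K] : Type := HahnSeries Gm K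

section clock

variable {K : Type} [Field K] (m : ℕ) [NeZero m] {ζ : K} (hζ : IsPrimitiveRoot ζ m)

/-- `χ` : the additive character `r ↦ ζ^r` -/
noncomputable abbrev chi : AddChar (ZMod m) K := AddChar.zmodChar m hζ.pow_eq_one

theorem chi_prim : (chi m hζ).IsPrimitive := AddChar.zmodChar_primitive_of_primitive_root m hζ

theorem chi_eq_one {r : ZMod m} : chi m hζ r = 1 ↔ r = 0 := by
  rw [chi, AddChar.zmodChar_apply, hζ.pow_eq_one_iff_dvd]
  constructor
  · intro h
    have := Nat.eq_zero_of_dvd_of_lt h (ZMod.val_lt r)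
    exact (ZMod.val_eq_zero r).mp this
  · rintro rfl; simp

/-- clock and shift monomials -/
noncomputable def cs (i j : ZMod m) : Matrix (ZMod m) (ZMod m) K :=
  Matrix.of fun r s => if r = s + j then chi m hζ (i * r) else 0

theorem cs_apply (i j r s : ZMod m) :
    cs m hζ i j r s = if r = s + j then chi m hζ (i * r) else 0 := rfl

theorem cs_mul (i j k l : ZMod m) :
    cs m hζ i j * cs m hζ k l = chi m hζ (-(k * j)) • cs m hζ (i + k) (j + l) := by
  ext r t
  rw [Matrix.mul_apply, Matrix.smul_apply, cs_apply]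
  simp only [cs_apply]
  rw [Finset.sum_eq_single (r - j)]
  · by_cases h : r = t + (j + l)
    · rw [if_pos (by ring), if_pos (by rw [h]; ring), if_pos h, smul_eq_mul, ← AddChar.map_add_eq_mul,
        ← AddChar.map_add_eq_mul]
      congr 1; ring
    · have h2 : ¬ (r - j = t + l) := fun h' => h (by linear_combination h')
      rw [if_neg h, if_neg h2, mul_zero, smul_zero]
  · intro b _ hb
    have h2 : ¬ (r = b + j) := fun h => hb (by rw [h]; ring)
    rw [if_neg h2, zero_mul]
  · intro h; exact absurd (Finset.mem_univ _) h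

theorem cs_zero : cs m hζ 0 0 = 1 := by
  ext r s
  rw [cs_apply, Matrix.one_apply]
  simp

theorem cs_isUnit (i j : ZMod m) : IsUnit (cs m hζ i j) := by
  have h0 : chi m hζ (-(-i * j)) ≠ 0 := (AddChar.val_isUnit (chi m hζ) _).ne_zero
  have h1 : cs m hζ i j * ((chi m hζ (-(-i * j)))⁻¹ • cs m hζ (-i) (-j)) = 1 := by
    rw [mul_smul_comm, cs_mul, smul_smul, inv_mul_cancel₀ h0, one_smul]
    simp only [add_neg_cancel, cs_zero]
  rw [Matrix.isUnit_iff_isUnit_det]
  have h2 := congrArg Matrix.det h1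
  rw [Matrix.det_mul, Matrix.det_one] at h2
  exact IsUnit.of_mul_eq_one _ h2

/-- trace of a clock-shift monomial -/
theorem cs_trace (i j : ZMod m) :
    (cs m hζ i j).trace = if i = 0 ∧ j = 0 then (m : K) else 0 := by
  rw [Matrix.trace]
  simp only [Matrix.diag_apply, cs_apply, left_eq_add]
  by_cases hj : j = 0
  · simp only [hj, if_true, and_true]
    have := AddChar.sum_mulShift (ψ := chi m hζ) i (chi_prim m hζ)
    simp only [ZMod.card, mul_comm _ i] at this
    rw [this]
    by_cases hi : i = 0 <;> simp [hi]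
  · simp [hj]

end clock

/-- cast of a lattice point -/
def pc (m : ℕ) (a : Gm) : ZMod m × ZMod m := (((ofLex a).1 : ZMod m), ((ofLex a).2 : ZMod m))

theorem pc_add (m : ℕ) (a b : Gm) : pc m (a + b) = pc m a + pc m b := by
  simp [pc]

theorem pc_zero (m : ℕ) : pc m (0 : Gm) = 0 := by simp [pc]

theorem pc_smul (m : ℕ) (a : Gm) : pc m (m • a) = 0 := by
  simp [pc]

section

variable {K : Type} [Field K] (m : ℕ) [NeZero m] {ζ : K} (hζ : IsPrimitiveRoot ζ m)

/-- the twisting datum of the quantum torus -/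
noncomputable def qTw : Tw K Gm (Matrix (ZMod m) (ZMod m) K) where
  g a := cs m hζ (pc m a).1 (pc m a).2
  u a := cs_isUnit m hζ _ _
  c a b := chi m hζ (-((pc m b).1 * (pc m a).2))
  mul a b := by rw [cs_mul, pc_add]; rfl
  zero := by rw [pc_zero]; exact cs_zero m hζ

/-- the quantum torus division algebra -/
noncomputable abbrev QE : Subalgebra K (HahnSeries Gm (Matrix (ZMod m) (ZMod m) K)) := (qTw m hζ).E

@[simp] theorem qTw_g (a : Gm) : (qTw m hζ).g a = cs m hζ (pc m a).1 (pc m a).2 := rfl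

theorem qTw_g_smul (a : Gm) : (qTw m hζ).g (m • a) = 1 := by
  rw [qTw_g, pc_smul]; exact cs_zero m hζ

theorem nsmul_inj : Function.Injective (nsmulAddMonoidHom m : Gm →+ Gm) := by
  intro a b h
  exact (nsmul_right_injective (NeZero.ne m)) h

theorem nsmul_le_iff' (a b : Gm) :
    (nsmulAddMonoidHom m : Gm →+ Gm) a ≤ (nsmulAddMonoidHom m : Gm →+ Gm) b ↔ a ≤ b := by
  have hm : 0 < m := Nat.pos_of_ne_zero (NeZero.ne m)
  constructor
  · intro h
    by_contra hc
    rw [not_le] at hc
    have : m • b < m • a := nsmul_lt_nsmul_right hm.ne' hc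
    exact absurd h (not_le.mpr this)
  · intro h; exact nsmul_le_nsmul_right h m

/-- `x ^ a ↦ x ^ (m a)` -/
noncomputable def emb (R : Type) [Ring R] : HahnSeries Gm R →+* HahnSeries Gm R :=
  HahnSeries.embDomainRingHom (nsmulAddMonoidHom m) (nsmul_inj m) (nsmul_le_iff' m)

theorem emb_coeff_smul {R : Type} [Ring R] (f : HahnSeries Gm R) (a : Gm) :
    (emb m R f).coeff (m • a) = f.coeff a := by
  have := HahnSeries.embDomain_coeff (f := (⟨⟨(nsmulAddMonoidHom m : Gm →+ Gm), nsmul_inj m⟩,
    nsmul_le_iff' m _ _⟩ : Gm ↪o Gm)) (x := f) (a := a)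
  exact this

theorem emb_coeff_of_not {R : Type} [Ring R] (f : HahnSeries Gm R) (b : Gm)
    (hb : ∀ a : Gm, m • a ≠ b) : (emb m R f).coeff b = 0 := by
  refine HahnSeries.embDomain_of_notMem_range (f := (⟨⟨(nsmulAddMonoidHom m : Gm →+ Gm), nsmul_inj m⟩,
    nsmul_le_iff' m _ _⟩ : Gm ↪o Gm)) (x := f) ?_
  rintro ⟨a, ha⟩
  exact hb a ha

/-- coefficientwise ring hom -/
noncomputable def hmap {R S : Type} [Ring R] [Ring S] (φ : R →+* S) :
    HahnSeries Gm R →+* HahnSeries Gm S where
  toFun F := F.map φ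
  map_one' := by
    ext a
    rw [HahnSeries.map_coeff, HahnSeries.coeff_one, HahnSeries.coeff_one]
    by_cases ha : a = 0 <;> simp [ha]
  map_mul' _ _ := HahnSeries.map_mul (φ : R →ₙ+* S)
  map_zero' := by ext a; simp
  map_add' F G := by ext a; simp

theorem hmap_coeff {R S : Type} [Ring R] [Ring S] (φ : R →+* S) (F : HahnSeries Gm R) (a : Gm) :
    (hmap φ F).coeff a = φ (F.coeff a) := rfl

/-- the embedding of the central field, into the ambient Hahn ring -/
noncomputable def kap0 (K : Type) [Field K] : QK K →+* HahnSeries Gm (Matrix (ZMod m) (ZMod m) K) :=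
  (emb m _).comp (hmap (algebraMap K (Matrix (ZMod m) (ZMod m) K)))

theorem kap0_coeff_smul (f : QK K) (a : Gm) :
    (kap0 m K f).coeff (m • a) = algebraMap K _ (f.coeff a) := by
  rw [kap0, RingHom.comp_apply, emb_coeff_smul, hmap_coeff]

theorem kap0_coeff_of_not (f : QK K) (b : Gm) (hb : ∀ a : Gm, m • a ≠ b) :
    (kap0 m K f).coeff b = 0 := by
  rw [kap0, RingHom.comp_apply, emb_coeff_of_not m _ b hb]

theorem kap0_mem (f : QK K) : kap0 m K f ∈ QE m hζ := by
  intro b
  by_cases hb : ∃ a : Gm, m • a = b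
  · obtain ⟨a, rfl⟩ := hb
    refine ⟨f.coeff a, ?_⟩
    rw [kap0_coeff_smul, qTw_g_smul, ← Algebra.algebraMap_eq_smul_one]
  · push Not at hb
    exact ⟨0, by rw [kap0_coeff_of_not m _ b hb, zero_smul]⟩

/-- the embedding of the central field -/
noncomputable def kap : QK K →+* QE m hζ := (kap0 m K).codRestrict (QE m hζ) (kap0_mem m hζ)

@[simp] theorem kap_val (f : QK K) : (kap m hζ f : HahnSeries Gm _) = kap0 m K f := rfl

theorem sc_kap_smul (f : QK K) (a : Gm) : (qTw m hζ).sc (kap m hζ f) (m • a) = f.coeff a :=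
  (qTw m hζ).sc_eq_of (by
    rw [kap_val, kap0_coeff_smul, qTw_g_smul, Algebra.algebraMap_eq_smul_one])

theorem sc_kap_of_not (f : QK K) (b : Gm) (hb : ∀ a : Gm, m • a ≠ b) :
    (qTw m hζ).sc (kap m hζ f) b = 0 :=
  (qTw m hζ).sc_eq_of (by rw [kap_val, kap0_coeff_of_not m _ _ hb, zero_smul])

/-- if all coefficients commute, Hahn series over a commutative exponent group commute -/
theorem hahn_commute {R : Type} [Ring R] (F G : HahnSeries Gm R)
    (h : ∀ a b, F.coeff a * G.coeff b = G.coeff b * F.coeff a) : F * G = G * F := by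
  ext a
  rw [HahnSeries.coeff_mul, HahnSeries.coeff_mul]
  refine Finset.sum_bij' (fun ij _ => ij.swap) (fun ij _ => ij.swap) ?_ ?_ ?_ ?_ ?_
  · intro ij hij
    simp only [Finset.mem_antidiagonal, Prod.fst_swap, Prod.snd_swap] at hij ⊢
    exact ⟨hij.2.1, hij.1, by rw [add_comm]; exact hij.2.2⟩
  · intro ij hij
    simp only [Finset.mem_antidiagonal, Prod.fst_swap, Prod.snd_swap] at hij ⊢
    exact ⟨hij.2.1, hij.1, by rw [add_comm]; exact hij.2.2⟩
  · intro ij _; simp
  · intro ij _; simp
  · intro ij _; simp [h]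

theorem kap_commutes (f : QK K) (F : QE m hζ) : kap m hζ f * F = F * kap m hζ f := by
  apply Subtype.ext
  change kap0 m K f * F.1 = F.1 * kap0 m K f
  apply hahn_commute
  intro a b
  by_cases ha : ∃ c : Gm, m • c = a
  · obtain ⟨c, rfl⟩ := ha
    rw [kap0_coeff_smul]; exact Algebra.commutes _ _
  · push Not at ha
    rw [kap0_coeff_of_not m _ a ha, zero_mul, mul_zero]

noncomputable instance instAlgQ : Algebra (QK K) (QE m hζ) :=
  RingHom.toAlgebra' (kap m hζ) (kap_commutes m hζ)

theorem algebraMap_Q (f : QK K) : algebraMap (QK K) (QE m hζ) f = kap m hζ f := rfl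

/-- the monomial `X ^ p Y ^ q`, `a = (p, q)` -/
noncomputable def mon (a : Gm) : QE m hζ :=
  ⟨HahnSeries.single a ((qTw m hζ).g a), by
    intro b
    by_cases hb : b = a
    · subst hb; exact ⟨1, by rw [HahnSeries.coeff_single_same, one_smul]⟩
    · exact ⟨0, by rw [HahnSeries.coeff_single_of_ne hb, zero_smul]⟩⟩

@[simp] theorem mon_val (a : Gm) :
    (mon m hζ a : HahnSeries Gm _) = HahnSeries.single a ((qTw m hζ).g a) := rfl

theorem mon_mul (a b : Gm) :
    mon m hζ a * mon m hζ b = chi m hζ (-((pc m b).1 * (pc m a).2)) • mon m hζ (a + b) := by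
  apply Subtype.ext
  change HahnSeries.single a ((qTw m hζ).g a) * HahnSeries.single b ((qTw m hζ).g b)
    = chi m hζ (-((pc m b).1 * (pc m a).2)) • HahnSeries.single (a + b) ((qTw m hζ).g (a + b))
  rw [HahnSeries.single_mul_single, (qTw m hζ).mul]
  ext c
  rw [HahnSeries.coeff_smul]
  by_cases hc : c = a + b
  · subst hc; rw [HahnSeries.coeff_single_same, HahnSeries.coeff_single_same]; rfl
  · rw [HahnSeries.coeff_single_of_ne hc, HahnSeries.coeff_single_of_ne hc, smul_zero]

end

end Crest.Agent.R180
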