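import Crest.Agent.R180.Quantum2

set_option autoImplicit false
set_option linter.unusedSectionVars false

/-!
# Row 180: the auxiliary division algebra (quantum torus), part 3:
`QE m hζ` is central of dimension `m²` over `QK K`.
-/

namespace Crest.Agent.R180

open HahnSeries

variable {K : Type} [Field K] (m : ℕ) [NeZero m] {ζ : K} (hζ : IsPrimitiveRoot ζ m)

/-- coset representatives -/
def rp (r : ZMod m × ZMod m) : Gm := toLex ((r.1.val : ℤ), (r.2.val : ℤ))

@[simp] theorem pc_rp (r : ZMod m × ZMod m) : pc m (rp m r) = r := by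
  ext <;> simp [pc, rp]

theorem rp_zero : rp m 0 = 0 := by
  simp [rp]

/-- quotient part -/
def qd (b : Gm) : Gm := toLex ((ofLex b).1 / (m : ℤ), (ofLex b).2 / (m : ℤ))

theorem val_cast_emod (x : ℤ) : ((x : ZMod m).val : ℤ) = x % m := ZMod.val_intCast x

theorem decomp (b : Gm) : m • qd m b + rp m (pc m b) = b := by
  have h1 : ∀ x : ℤ, (m : ℤ) * (x / m) + ((x : ZMod m).val : ℤ) = x := by
    intro x; rw [val_cast_emod]; exact Int.mul_ediv_add_emod x m
  have : ∀ b : ℤ × ℤ, m • qd m (toLex b) + rp m (pc m (toLex b)) = toLex b := by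
    rintro ⟨x, y⟩
    change ((m • (x / (m : ℤ)) + ((x : ZMod m).val : ℤ),
      m • (y / (m : ℤ)) + ((y : ZMod m).val : ℤ)) : ℤ × ℤ) = (x, y)
    rw [nsmul_eq_mul, nsmul_eq_mul, h1, h1]
  exact this (ofLex b)

theorem decomp_unique {a b : Gm} {r : ZMod m × ZMod m} (h : m • a + rp m r = b) :
    r = pc m b ∧ a = qd m b := by
  have h1 : r = pc m b := by
    rw [← h, pc_add, pc_smul, pc_rp, zero_add]
  refine ⟨h1, ?_⟩
  have h2 := decomp m b
  rw [← h1, ← h] at h2
  have h3 := add_right_cancel h2
  rw [h] at h3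
  exact (nsmul_right_injective (NeZero.ne m) h3).symm

theorem sc_kap_mul_mon (f : QK K) (r : ZMod m × ZMod m) (b : Gm) :
    (qTw m hζ).sc (kap m hζ f * mon m hζ (rp m r)) b
      = if pc m b = r then f.coeff (qd m b) else 0 := by
  apply (qTw m hζ).sc_eq_of
  change (kap0 m K f * HahnSeries.single (rp m r) ((qTw m hζ).g (rp m r))).coeff b = _
  by_cases h : pc m b = r
  · rw [if_pos h]
    subst h
    have h1 : b = m • qd m b + rp m (pc m b) := (decomp m b).symm
    have h2 := HahnSeries.coeff_mul_single_add (x := kap0 m K f) (r := (qTw m hζ).g (rp m (pc m b)))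
      (a := m • qd m b) (b := rp m (pc m b))
    rw [← h1, kap0_coeff_smul] at h2
    rw [h2, qTw_g, qTw_g, pc_rp, Algebra.algebraMap_eq_smul_one, smul_mul_assoc, one_mul]
  · rw [if_neg h, zero_smul]
    have h1 : b = (b - rp m r) + rp m r := (sub_add_cancel _ _).symm
    rw [h1, HahnSeries.coeff_mul_single_add, kap0_coeff_of_not, zero_mul]
    intro a ha
    apply h
    have : m • a + rp m r = b := by rw [ha]; abel
    exact (decomp_unique m this).1.symm

/-- the sum map `(c_r) ↦ ∑ c_r • X^r` -/
noncomputable def Smap : (ZMod m × ZMod m → QK K) →ₗ[QK K] QE m hζ where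
  toFun c := ∑ r, c r • mon m hζ (rp m r)
  map_add' c d := by
    rw [← Finset.sum_add_distrib]
    exact Finset.sum_congr rfl fun r _ => add_smul _ _ _
  map_smul' k c := by
    rw [RingHom.id_apply, Finset.smul_sum]
    exact Finset.sum_congr rfl fun r _ => mul_smul _ _ _

theorem sc_sum {ι : Type} (s : Finset ι) (F : ι → QE m hζ) (b : Gm) :
    (qTw m hζ).sc (∑ i ∈ s, F i) b = ∑ i ∈ s, (qTw m hζ).sc (F i) b := by
  classical
  induction s using Finset.induction_on with
  | empty => simp
  | insert i s hi ih => rw [Finset.sum_insert hi, Finset.sum_insert hi, Tw.sc_add, ih]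

theorem sc_Smap (c : ZMod m × ZMod m → QK K) (b : Gm) :
    (qTw m hζ).sc (Smap m hζ c) b = (c (pc m b)).coeff (qd m b) := by
  change (qTw m hζ).sc (∑ r, c r • mon m hζ (rp m r)) b = _
  rw [sc_sum, Finset.sum_eq_single (pc m b)]
  · rw [Algebra.smul_def, algebraMap_Q, sc_kap_mul_mon, if_pos rfl]
  · intro r _ hr
    rw [Algebra.smul_def, algebraMap_Q, sc_kap_mul_mon, if_neg (Ne.symm hr)]
  · intro h; exact absurd (Finset.mem_univ _) h

theorem shift_lt_iff (r : ZMod m × ZMod m) (a b : Gm) :
    m • a + rp m r ≤ m • b + rp m r ↔ a ≤ b := by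
  rw [add_le_add_iff_right]
  exact nsmul_le_iff' m a b

/-- components of an element in the basis `X^r` -/
noncomputable def comp (F : QE m hζ) (r : ZMod m × ZMod m) : QK K where
  coeff a := (qTw m hζ).sc F (m • a + rp m r)
  isPWO_support' := by
    intro f
    have hF := F.1.isPWO_support
    obtain ⟨i, j, hij, hle⟩ := hF (fun n => ⟨m • (f n).1 + rp m r, by
      have := (f n).2
      rw [HahnSeries.mem_support]
      rw [Function.mem_support, Ne, (qTw m hζ).sc_eq_zero_iff] at this
      exact this⟩)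
    exact ⟨i, j, hij, (shift_lt_iff m r _ _).mp hle⟩

@[simp] theorem comp_coeff (F : QE m hζ) (r : ZMod m × ZMod m) (a : Gm) :
    (comp m hζ F r).coeff a = (qTw m hζ).sc F (m • a + rp m r) := rfl

theorem Smap_comp (F : QE m hζ) : Smap m hζ (comp m hζ F) = F := by
  apply (qTw m hζ).sc_ext
  intro b
  rw [sc_Smap, comp_coeff, decomp]

theorem comp_Smap (c : ZMod m × ZMod m → QK K) : comp m hζ (Smap m hζ c) = c := by
  funext r
  apply HahnSeries.ext
  funext a
  rw [comp_coeff, sc_Smap]
  obtain ⟨h1, h2⟩ := decomp_unique m (a := a) (r := r) rfl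
  rw [← h1, ← h2]

/-- `QE` is free over `QK` with basis `X^p Y^q`, `0 ≤ p, q < m` -/
noncomputable def Sequiv : (ZMod m × ZMod m → QK K) ≃ₗ[QK K] QE m hζ :=
  { Smap m hζ with
    invFun := comp m hζ
    left_inv := comp_Smap m hζ
    right_inv := Smap_comp m hζ }

@[simp] theorem Sequiv_symm_apply (F : QE m hζ) : (Sequiv m hζ).symm F = comp m hζ F := rfl
@[simp] theorem Sequiv_apply (c : ZMod m × ZMod m → QK K) : Sequiv m hζ c = Smap m hζ c := rfl

instance instFiniteQ : Module.Finite (QK K) (QE m hζ) := Module.Finite.equiv (Sequiv m hζ)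

theorem finrank_Q : Module.finrank (QK K) (QE m hζ) = m * m := by
  rw [← (Sequiv m hζ).finrank_eq, Module.finrank_fintype_fun_eq_card, Fintype.card_prod, ZMod.card]

theorem comm_coeff (F : QE m hζ) (a b : Gm) (h : mon m hζ a * F = F * mon m hζ a) :
    (qTw m hζ).sc F b = 0 ∨
      chi m hζ (-((pc m b).1 * (pc m a).2)) = chi m hζ (-((pc m a).1 * (pc m b).2)) := by
  have h1 : HahnSeries.single a ((qTw m hζ).g a) * F.1 = F.1 * HahnSeries.single a ((qTw m hζ).g a) :=
    congrArg Subtype.val h
  have h2 := congrArg (fun G => HahnSeries.coeff G (b + a)) h1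
  simp only [HahnSeries.coeff_mul_single_add, HahnSeries.coeff_single_mul_add] at h2
  rw [(qTw m hζ).coeff_eq, mul_smul_comm, smul_mul_assoc, (qTw m hζ).mul, (qTw m hζ).mul, add_comm b a,
    smul_smul, smul_smul] at h2
  have h3 := (qTw m hζ).smul_g_inj h2
  by_cases h0 : (qTw m hζ).sc F b = 0
  · exact Or.inl h0
  · exact Or.inr (mul_left_cancel₀ h0 h3)

instance instCentralQ : Algebra.IsCentral (QK K) (QE m hζ) where
  out := by
    intro F hF
    rw [Subalgebra.mem_center_iff] at hF
    have key : ∀ b : Gm, pc m b ≠ 0 → (qTw m hζ).sc F b = 0 := by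
      intro b hb
      have h1 := comm_coeff m hζ F (toLex (0, 1)) b (hF _)
      have h2 := comm_coeff m hζ F (toLex (1, 0)) b (hF _)
      rcases h1 with h1 | h1
      · exact h1
      rcases h2 with h2 | h2
      · exact h2
      exfalso
      apply hb
      simp only [pc, ofLex_toLex, Int.cast_zero, Int.cast_one, mul_one, zero_mul, neg_zero,
        AddChar.map_zero_eq_one, mul_zero, one_mul] at h1 h2
      have h1' := (chi_eq_one m hζ).mp h1
      have h2' := (chi_eq_one m hζ).mp h2.symm
      ext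
      · simpa [pc] using h1'
      · simpa [pc] using h2'
    rw [Algebra.mem_bot]
    refine ⟨comp m hζ F 0, ?_⟩
    rw [algebraMap_Q]
    apply (qTw m hζ).sc_ext
    intro b
    by_cases hb : pc m b = 0
    · have h1 : b = m • qd m b := by
        conv_lhs => rw [← decomp m b, hb, rp_zero, add_zero]
      rw [h1, sc_kap_smul, comp_coeff, rp_zero, add_zero]
    · rw [key b hb, sc_kap_of_not]
      rintro a rfl
      exact hb (pc_smul m a)

end Crest.Agent.R180
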