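import Crest.Agent.R180.CycFacts
import Crest.Agent.R180.NV

set_option autoImplicit false

/-!
# Row 180: existence of regular points and of nonvanishing points (final form, `GE`)
-/

open scoped TensorProduct

namespace Crest.Agent.R180

/-- existence of a point as in Phases 1 and 2 (trace form included). -/
theorem exists_regular_point_tr (K Γ : Type) [Field K] [CharZero K] (m : ℕ)
    (hm : 2 ≤ m) [Ring Γ] [IsDomain Γ] [Algebra K Γ]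
    [FiniteDimensional K Γ] (γ₁ : Fin m → Γ) (hcen : ∀ i a, a * γ₁ i = γ₁ i * a) (i₀ : Fin m)
    (h1 : γ₁ i₀ = 1) (k : ℕ) (p : (Fin (k + 1) → Fin m) → Γ)
    (hp : ¬ ∃ b : (Fin k → Fin m) → Γ, ∀ w : Fin (k + 1) → Fin m,
      p w = b (fun j => w j.castSucc) * γ₁ (w (Fin.last k)) - γ₁ (w 0) * b (fun j => w j.succ)) :
    ∃ (G : GE K) (z : Fin m → G.E),
      Algebra.adjoin G.K₁ (Set.range z) = ⊤ ∧
      (∀ x : G.E ⊗[K] Γ, x * (∑ i, z i ⊗ₜ[K] γ₁ i) = (∑ i, z i ⊗ₜ[K] γ₁ i) * x →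
        x ∈ Algebra.adjoin G.K₁ (insert (∑ i, z i ⊗ₜ[K] γ₁ i)
          (Set.range fun g : Γ => (1 : G.E) ⊗ₜ[K] g))) ∧
      (¬ ∃ x : G.E ⊗[K] Γ,
        ∑ w : Fin (k + 1) → Fin m, (List.ofFn fun j => z (w j)).prod ⊗ₜ[K] p w =
          x * (∑ i, z i ⊗ₜ[K] γ₁ i) - (∑ i, z i ⊗ₜ[K] γ₁ i) * x) ∧
      (∃ N : ℕ, Module.finrank G.K₁ G.E = N * N ∧
        ∀ x : G.E ⊗[K] Γ, x * (∑ i, z i ⊗ₜ[K] γ₁ i) = (∑ i, z i ⊗ₜ[K] γ₁ i) * x →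
        x ∈ Submodule.span G.K₁ (Set.range fun y : Fin N × Fin (Module.finrank K Γ) =>
          (∑ i, z i ⊗ₜ[K] γ₁ i) ^ (y.1 : ℕ) * ((1 : G.E) ⊗ₜ[K] Module.finBasis K Γ y.2))) ∧
      ∃ (τ : G.E →ₗ[G.K₁] G.K₁) (ξ : Γ →ₗ[K] K), (∀ x y, τ (x * y) = τ (y * x)) ∧
        RegPt.tx K G.K₁ τ ξ
          ((∑ w : Fin (k + 1) → Fin m, (List.ofFn fun j => z (w j)).prod ⊗ₜ[K] p w) *
          (∑ i, z i ⊗ₜ[K] γ₁ i) ^ (k + 1)) ≠ 0 := by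
  obtain ⟨G, P, Q, -, hfin, hg, hli, hc⟩ := exists_regular_pair K ((k + 1) + (k + 1)) (by omega)
  obtain ⟨z, hz1, hz2, hz3, hz4⟩ := RegPt.regular_point_core (K := K) (K₁ := G.K₁) (E := G.E)
    (by simpa using hm) γ₁ hcen i₀ h1 k p hp _ le_rfl hfin P Q hg hli hc
  refine ⟨G, z, hz1, fun x hx => ?_, hz3, ⟨_, hfin, hz2⟩, hz4⟩
  have h2 := hz2 x hx
  have hle : Submodule.span G.K₁ (Set.range fun y : Fin ((k + 1) + (k + 1)) ×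
      Fin (Module.finrank K Γ) =>
      (∑ i, z i ⊗ₜ[K] γ₁ i) ^ (y.1 : ℕ) * ((1 : G.E) ⊗ₜ[K] Module.finBasis K Γ y.2)) ≤
      Subalgebra.toSubmodule (Algebra.adjoin G.K₁ (insert (∑ i, z i ⊗ₜ[K] γ₁ i)
          (Set.range fun g : Γ => (1 : G.E) ⊗ₜ[K] g))) := by
    rw [Submodule.span_le]
    rintro _ ⟨y, rfl⟩
    refine Subalgebra.mul_mem _ (Subalgebra.pow_mem _ (Algebra.subset_adjoin (by simp)) _)
      (Algebra.subset_adjoin (Set.mem_insert_of_mem _ ⟨_, rfl⟩))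
  exact hle h2

/-- the point used in Phases 1 and 2: `γ₁` central linear form with a coefficient `1`, `p` a form
of degree `k + 1` which is not a commutator with `γ₁`.  Then there is a good extension and a
generating point `z` at which `θ = γ₁(z)` is regular and `p(z)` is not in `[θ, E ⊗ Γ]`. -/
theorem exists_regular_point (K Γ : Type) [Field K] [CharZero K] [HasRoots K] (m : ℕ)
    (hm : 2 ≤ m) [Ring Γ] [IsDomain Γ] [Algebra K Γ]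
    [FiniteDimensional K Γ] (γ₁ : Fin m → Γ) (hcen : ∀ i a, a * γ₁ i = γ₁ i * a) (i₀ : Fin m)
    (h1 : γ₁ i₀ = 1) (k : ℕ) (p : (Fin (k + 1) → Fin m) → Γ)
    (hp : ¬ ∃ b : (Fin k → Fin m) → Γ, ∀ w : Fin (k + 1) → Fin m,
      p w = b (fun j => w j.castSucc) * γ₁ (w (Fin.last k)) - γ₁ (w 0) * b (fun j => w j.succ)) :
    ∃ (G : GE K) (z : Fin m → G.E),
      Algebra.adjoin G.K₁ (Set.range z) = ⊤ ∧
      (∀ x : G.E ⊗[K] Γ, x * (∑ i, z i ⊗ₜ[K] γ₁ i) = (∑ i, z i ⊗ₜ[K] γ₁ i) * x →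
        x ∈ Algebra.adjoin G.K₁ (insert (∑ i, z i ⊗ₜ[K] γ₁ i)
          (Set.range fun g : Γ => (1 : G.E) ⊗ₜ[K] g))) ∧
      ¬ ∃ x : G.E ⊗[K] Γ,
        ∑ w : Fin (k + 1) → Fin m, (List.ofFn fun j => z (w j)).prod ⊗ₜ[K] p w =
          x * (∑ i, z i ⊗ₜ[K] γ₁ i) - (∑ i, z i ⊗ₜ[K] γ₁ i) * x := by
  obtain ⟨G, z, h1', h2, h3, -⟩ := exists_regular_point_tr K Γ m hm γ₁ hcen i₀ h1 k p hp
  exact ⟨G, z, h1', h2, h3⟩

/-- nonvanishing at a generating point -/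
theorem exists_nonvanish (K Γ : Type) [Field K] [CharZero K] [HasRoots K] (m : ℕ)
    (hm : 2 ≤ m) [Ring Γ] [Algebra K Γ] [FiniteDimensional K Γ] (k : ℕ)
    (p : (Fin k → Fin m) → Γ) (hp : p ≠ 0) :
    ∃ (G : GE K) (z : Fin m → G.E),
      Algebra.adjoin G.K₁ (Set.range z) = ⊤ ∧
      ∑ w : Fin k → Fin m, (List.ofFn fun j => z (w j)).prod ⊗ₜ[K] p w ≠ 0 := by
  obtain ⟨G, P, Q, -, hfin, hg, -, -⟩ := exists_regular_pair K (k + 1) (by omega)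
  obtain ⟨z₀, hz₀⟩ := NV.exists_gen_tuple (K₁ := G.K₁) (E := G.E) (ι := Fin m) (by simpa using hm)
    P Q hg
  obtain ⟨z, hz1, hz2⟩ := NV.exists_pv_ne_zero_gen (K := K) (K₁ := G.K₁) (E := G.E) k p hp
    (by rw [hfin, sq]) z₀ hz₀
  exact ⟨G, z, hz2, hz1⟩

end Crest.Agent.R180
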