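import Mathlib

set_option autoImplicit false
set_option linter.unusedSectionVars false
set_option linter.unusedSimpArgs false

/-! # Row 180, MODULE S: pure algebra of the residue analysis -/

noncomputable section
namespace Crest.Agent.R180.SAlg

open Module

section Tr

variable {F1 E : Type} [Field F1] [Ring E] [IsDomain E] [Algebra F1 E] [FiniteDimensional F1 E]

variable (F1) in
include F1 in
theorem exists_mul_eq {g : E} (hg : g ≠ 0) (y : E) : ∃ x, g * x = y := by
  have hinj : Function.Injective (LinearMap.mulLeft F1 g) := by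
    intro a b hab
    exact mul_left_cancel₀ hg hab
  exact LinearMap.surjective_of_injective hinj y

theorem tr_nondeg (tr : E →ₗ[F1] F1) (htr : tr ≠ 0) {g : E} (h : ∀ x, tr (g * x) = 0) : g = 0 := by
  by_contra hg
  apply htr
  ext y
  obtain ⟨x, rfl⟩ := exists_mul_eq F1 hg y
  rw [h x, LinearMap.zero_apply]

theorem tr_repr (tr : E →ₗ[F1] F1) (htr : tr ≠ 0) (φ : E →ₗ[F1] F1) :
    ∃ g, ∀ x, φ x = tr (g * x) := by
  let T : E →ₗ[F1] Dual F1 E := (LinearMap.mul F1 E).compr₂ tr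
  have hT : ∀ g x, T g x = tr (g * x) := fun g x => rfl
  have hinj : Function.Injective T := by
    rw [← LinearMap.ker_eq_bot, LinearMap.ker_eq_bot']
    intro g hg
    exact tr_nondeg tr htr fun x => by rw [← hT, hg, LinearMap.zero_apply]
  have hsurj : Function.Surjective T :=
    (LinearMap.injective_iff_surjective_of_finrank_eq_finrank
      (Subspace.dual_finrank_eq (K := F1) (V := E)).symm).mp hinj
  obtain ⟨g, hg⟩ := hsurj φ
  exact ⟨g, fun x => by rw [← hT, hg]⟩

end Tr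

section Phi

variable {K F1 E : Type} [Field K] [Field F1] [Algebra K F1] [Ring E] [IsDomain E] [Algebra F1 E]
  [Algebra K E] [IsScalarTower K F1 E] [FiniteDimensional F1 E]
variable {κ β : Type} [Fintype κ] [Fintype β] (e : Basis β F1 E)

/-- functional on `κ → E` with coordinates `h0` -/
def phi (h0 : κ × β → F1) (r : κ → E) : F1 := ∑ c, ∑ b, h0 (c, b) * e.repr (r c) b

theorem phi_add (h0 : κ × β → F1) (r r' : κ → E) :
    phi e h0 (fun c => r c + r' c) = phi e h0 r + phi e h0 r' := by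
  simp only [phi, map_add, Finsupp.add_apply, mul_add, Finset.sum_add_distrib]

theorem phi_zero (h0 : κ × β → F1) : phi e h0 (fun _ => (0 : E)) = 0 := by
  simp [phi]

theorem phi_smul (h0 : κ × β → F1) (a : F1) (r : κ → E) :
    phi e h0 (fun c => a • r c) = a * phi e h0 r := by
  simp only [phi, map_smul, Finsupp.smul_apply, smul_eq_mul, Finset.mul_sum]
  refine Finset.sum_congr rfl fun c _ => Finset.sum_congr rfl fun b _ => by ring

theorem phi_sum {α : Type*} (s : Finset α) (h0 : κ × β → F1) (r : α → κ → E) :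
    phi e h0 (fun c => ∑ a ∈ s, r a c) = ∑ a ∈ s, phi e h0 (r a) := by
  classical
  induction s using Finset.induction_on with
  | empty => simpa using phi_zero e h0
  | insert a s ha ih =>
    rw [Finset.sum_insert ha, ← ih, ← phi_add]
    congr 1
    funext c
    rw [Finset.sum_insert ha]

/-- the functional in trace form -/
theorem phi_eq_tr (tr : E →ₗ[F1] F1) (htr : tr ≠ 0) (h0 : κ × β → F1) :
    ∃ g : κ → E, ∀ r, phi e h0 r = ∑ c, tr (g c * r c) := by
  have h : ∀ c, ∃ g : E, ∀ x, ∑ b, h0 (c, b) * e.repr x b = tr (g * x) := by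
    intro c
    obtain ⟨g, hg⟩ := tr_repr tr htr (∑ b, h0 (c, b) • e.coord b)
    refine ⟨g, fun x => ?_⟩
    rw [← hg x]
    simp
  choose g hg using h
  exact ⟨g, fun r => Finset.sum_congr rfl fun c _ => hg c (r c)⟩

omit [IsDomain E] [Algebra K F1] [Algebra K E] [IsScalarTower K F1 E] [FiniteDimensional F1 E] in
theorem phi_single [DecidableEq κ] (h0 : κ × β → F1) (c : κ) (b : β) :
    phi e h0 (Pi.single c (e b)) = h0 (c, b) := by
  classical
  unfold phi
  rw [Finset.sum_eq_single c]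
  · rw [Finset.sum_eq_single b]
    · simp
    · intro b' _ hb'
      simp [Finsupp.single_apply, hb'.symm]
    · simp
  · intro c' _ hc'
    refine Finset.sum_eq_zero fun b' _ => ?_
    rw [Pi.single_eq_of_ne hc']
    simp
  · simp

theorem phi_injective {h0 h0' : κ × β → F1} (h : ∀ r : κ → E, phi e h0 r = phi e h0' r) :
    h0 = h0' := by
  classical
  funext ⟨c, b⟩
  rw [← phi_single e h0 c b, ← phi_single e h0' c b, h]

/-- over `E` the annihilator is spanned by the annihilator over `K` -/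
theorem ann_span {s m : ℕ} (Θ1 : κ → Fin m → K) (h : Fin s → κ → K)
    (hli : LinearIndependent K h)
    (hspan : ∀ y : κ → K, (∀ i, ∑ c, y c * Θ1 c i = 0) → y ∈ Submodule.span K (Set.range h))
    (g : κ → E) (hg : ∀ i, ∑ c, Θ1 c i • g c = 0) :
    ∃ g' : Fin s → E, ∀ c, g c = ∑ a, h a c • g' a := by
  classical
  -- dual family
  obtain ⟨T, hT⟩ : ∃ T : (κ → K) →ₗ[K] (Fin s → K), ∀ a, T (h a) = Pi.single a 1 := by
    have hinj : LinearMap.ker (Fintype.linearCombination K h) = ⊥ := by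
      rw [LinearMap.ker_eq_bot']
      intro x hx
      rw [Fintype.linearCombination_apply] at hx
      funext i
      exact (Fintype.linearIndependent_iff.mp hli) x hx i
    obtain ⟨T, hT⟩ := LinearMap.exists_leftInverse_of_injective _ hinj
    refine ⟨T, fun a => ?_⟩
    have h1 : Fintype.linearCombination K h (Pi.single a 1) = h a := by
      simp [Fintype.linearCombination_apply, Pi.single_apply]
    rw [← h1]
    have := LinearMap.congr_fun hT (Pi.single a 1)
    simpa using this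
  -- matrix of T
  let hs : Fin s → κ → K := fun a c => T (Pi.single c 1) a
  have hTx : ∀ (y : κ → K) a, T y a = ∑ c, hs a c * y c := by
    intro y a
    have : y = ∑ c, y c • (Pi.single c (1 : K) : κ → K) := by
      funext c'
      simp [Finset.sum_apply, Pi.single_apply]
    conv_lhs => rw [this, map_sum]
    rw [Finset.sum_apply]
    refine Finset.sum_congr rfl fun c _ => ?_
    rw [map_smul, Pi.smul_apply, smul_eq_mul, mul_comm]
  refine ⟨fun a => ∑ c, hs a c • g c, fun c0 => ?_⟩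
  -- test with functionals
  rw [← sub_eq_zero]
  by_contra hne
  obtain ⟨ξ, hξ⟩ : ∃ ξ : E →ₗ[K] K, ξ (g c0 - ∑ a, h a c0 • ∑ c, hs a c • g c) ≠ 0 := by
    by_contra hcon
    push Not at hcon
    exact hne ((Module.forall_dual_apply_eq_zero_iff K _).mp hcon)
  apply hξ
  have hy : (fun c => ξ (g c)) ∈ Submodule.span K (Set.range h) := by
    apply hspan
    intro i
    have := congrArg ξ (hg i)
    rw [map_sum, map_zero] at this
    rw [← this]
    refine Finset.sum_congr rfl fun c _ => ?_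
    rw [map_smul, smul_eq_mul, mul_comm]
  rw [Submodule.mem_span_range_iff_exists_fun] at hy
  obtain ⟨x, hx⟩ := hy
  have hxT : ∀ a, ∑ c, hs a c * ξ (g c) = x a := by
    intro a
    rw [← hTx (fun c => ξ (g c)) a, ← hx, map_sum, Finset.sum_apply]
    rw [Finset.sum_eq_single a]
    · rw [map_smul, hT]; simp
    · intro b _ hb
      rw [map_smul, hT]; simp [hb.symm]
    · simp
  rw [map_sub, map_sum, sub_eq_zero]
  simp only [map_smul, map_sum, smul_eq_mul, hxT]
  have := congrFun hx c0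
  simp only [Finset.sum_apply, Pi.smul_apply, smul_eq_mul] at this
  rw [← this]
  exact Finset.sum_congr rfl fun a _ => mul_comm _ _

/-- step (i): if the functional kills the image of the linear part then it is of the form
`∑_a tr (g' a * ∑_c h_a(c) r_c)` -/
theorem phi_ann (tr : E →ₗ[F1] F1) (htr : tr ≠ 0) {s m : ℕ} (Θ1 : κ → Fin m → K)
    (h : Fin s → κ → K) (hli : LinearIndependent K h)
    (hspan : ∀ y : κ → K, (∀ i, ∑ c, y c * Θ1 c i = 0) → y ∈ Submodule.span K (Set.range h))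
    (h0 : κ × β → F1)
    (hi : ∀ y : Fin m → E, phi e h0 (fun c => ∑ i, Θ1 c i • y i) = 0) :
    ∃ g' : Fin s → E, ∀ r, phi e h0 r = ∑ a, tr (g' a * ∑ c, h a c • r c) := by
  classical
  obtain ⟨g, hg⟩ := phi_eq_tr e tr htr h0
  have h1 : ∀ i, ∑ c, Θ1 c i • g c = 0 := by
    intro i
    apply tr_nondeg tr htr
    intro x
    have h2 := hi (Pi.single i x)
    rw [hg] at h2
    rw [Finset.sum_mul, map_sum, ← h2]
    refine Finset.sum_congr rfl fun c _ => ?_
    congr 1
    rw [Finset.sum_eq_single i]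
    · rw [Pi.single_eq_same, smul_mul_assoc, mul_smul_comm]
    · intro j _ hj; rw [Pi.single_eq_of_ne hj, smul_zero]
    · simp
  obtain ⟨g', hg'⟩ := ann_span Θ1 h hli hspan g h1
  refine ⟨g', fun r => ?_⟩
  rw [hg r]
  simp only [← map_sum]
  congr 1
  simp only [hg', Finset.sum_mul, Finset.mul_sum]
  rw [Finset.sum_comm]
  refine Finset.sum_congr rfl fun a _ => Finset.sum_congr rfl fun c _ => ?_
  rw [smul_mul_assoc, mul_smul_comm]

/-- bound of the dimension of the space of residues: all coefficients `g'` are scalars and satisfy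
one nontrivial linear condition. -/
theorem finrank_lt (tr : E →ₗ[F1] F1) {s : ℕ} (h : Fin s → κ → K)
    (G0 : Submodule F1 (κ × β → F1)) (θN : κ → E) (a0 : Fin s)
    (hθ : tr (∑ c, h a0 c • θN c) ≠ 0)
    (hG : ∀ h0 ∈ G0, ∃ x : Fin s → F1, (∀ r, phi e h0 r = ∑ a, tr (x a • ∑ c, h a c • r c)) ∧
      phi e h0 θN = 0) :
    finrank F1 G0 < s := by
  classical
  let Ψ : (Fin s → F1) →ₗ[F1] (κ × β → F1) :=
    { toFun := fun x p => ∑ a, x a * (tr (h a p.1 • e p.2))
      map_add' := fun x y => by funext p; simp [add_mul, Finset.sum_add_distrib]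
      map_smul' := fun c x => by funext p; simp [mul_assoc, Finset.mul_sum] }
  let ℓ : (Fin s → F1) →ₗ[F1] F1 :=
    { toFun := fun x => ∑ a, x a * tr (∑ c, h a c • θN c)
      map_add' := fun x y => by simp [add_mul, Finset.sum_add_distrib]
      map_smul' := fun c x => by simp [mul_assoc, Finset.mul_sum] }
  have hℓ : finrank F1 (LinearMap.ker ℓ) < s := by
    have h1 := ℓ.finrank_range_add_finrank_ker
    have h2 : 0 < finrank F1 (LinearMap.range ℓ) := by
      rw [Module.finrank_pos_iff_exists_ne_zero]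
      refine ⟨⟨ℓ (Pi.single a0 1), ⟨_, rfl⟩⟩, fun hcon => hθ ?_⟩
      have := congrArg Subtype.val hcon
      simpa [ℓ, Pi.single_apply] using this
    rw [finrank_fin_fun] at h1
    omega
  have hle : G0 ≤ (LinearMap.ker ℓ).map Ψ := by
    intro h0 hh0
    obtain ⟨x, hx, hx0⟩ := hG h0 hh0
    refine ⟨x, ?_, ?_⟩
    · have := hx θN
      rw [hx0] at this
      simp only [map_smul, smul_eq_mul] at this
      exact this.symm
    · funext ⟨c, b⟩
      rw [← phi_single e h0 c b, hx]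
      change ∑ a, x a * tr (h a c • e b) = _
      refine Finset.sum_congr rfl fun a _ => ?_
      have h3 : tr (x a • ∑ c', h a c' • (Pi.single c (e b) : κ → E) c') =
          x a * tr (∑ c', h a c' • (Pi.single c (e b) : κ → E) c') := by
        rw [map_smul, smul_eq_mul]
      rw [h3]
      congr 2
      symm
      rw [Finset.sum_eq_single c]
      · simp
      · intro c' _ hc'; rw [Pi.single_eq_of_ne hc', smul_zero]
      · simp
  calc finrank F1 G0 ≤ finrank F1 ((LinearMap.ker ℓ).map Ψ) := Submodule.finrank_mono hle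
    _ ≤ finrank F1 (LinearMap.ker ℓ) := Submodule.finrank_map_le _ _
    _ < s := hℓ

/-- the bilinear form attached to `h a` -/
def qa {s m : ℕ} (Θ2 : κ → Fin m → Fin m → K) (h : Fin s → κ → K) (a : Fin s)
    (x y : Fin m → K) : K := ∑ i, ∑ j, (∑ c, h a c * Θ2 c i j) * x i * y j

theorem qa_vec {s m : ℕ} (Θ2 : κ → Fin m → Fin m → K) (h : Fin s → κ → K) (a : Fin s)
    (x y : Fin m → K) (α γ : E) :
    ∑ c, h a c • ∑ i, ∑ j, Θ2 c i j • ((x i • α) * (y j • γ)) = qa Θ2 h a x y • (α * γ) := by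
  unfold qa
  simp only [Finset.sum_smul, Finset.smul_sum, smul_mul_smul_comm, smul_smul, Finset.sum_mul]
  rw [Finset.sum_comm]
  refine Finset.sum_congr rfl fun i _ => ?_
  rw [Finset.sum_comm]
  refine Finset.sum_congr rfl fun j _ => Finset.sum_congr rfl fun c _ => ?_
  congr 1
  ring

theorem central_of_commute [Algebra.IsCentral F1 E] (p : Fin 2 → E)
    (hp : Algebra.adjoin F1 (Set.range p) = ⊤) (g : E) (h0 : g * p 0 = p 0 * g)
    (h1 : g * p 1 = p 1 * g) : ∃ x : F1, algebraMap F1 E x = g := by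
  have h2 : (⊤ : Subalgebra F1 E) ≤ Subalgebra.centralizer F1 {g} := by
    rw [← hp]
    apply Algebra.adjoin_le
    rintro _ ⟨i, rfl⟩
    rw [SetLike.mem_coe, Subalgebra.mem_centralizer_iff]
    intro y hy
    rw [Set.mem_singleton_iff] at hy
    subst hy
    fin_cases i
    · exact h0
    · exact h1
  have h3 : g ∈ Subalgebra.center F1 E := by
    rw [Subalgebra.mem_center_iff]
    intro b
    have := h2 (Algebra.mem_top (x := b))
    rw [Subalgebra.mem_centralizer_iff] at this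
    exact (this g (Set.mem_singleton g)).symm
  have h4 := Algebra.IsCentral.out h3
  rw [Algebra.mem_bot] at h4
  exact h4

/-- the bound in the cyclic case -/
theorem G0_cyc [Algebra.IsCentral F1 E] (tr : E →ₗ[F1] F1)
    (htrc : ∀ x y, tr (x * y) = tr (y * x)) (htr : tr ≠ 0)
    (p : Fin 2 → E) (hp : Algebra.adjoin F1 (Set.range p) = ⊤)
    {s m : ℕ} (Θ1 : κ → Fin m → K) (Θ2 : κ → Fin m → Fin m → K)
    (h : Fin s → κ → K) (hli : LinearIndependent K h)
    (hspan : ∀ y : κ → K, (∀ i, ∑ c, y c * Θ1 c i = 0) → y ∈ Submodule.span K (Set.range h))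
    (u₁ u₂ : Fin m → K) (v₁ v₂ : Fin s → Fin m → K)
    (ku₁ : ∀ c, ∑ i, Θ1 c i * u₁ i = 0) (ku₂ : ∀ c, ∑ i, Θ1 c i * u₂ i = 0)
    (kv₁ : ∀ b c, ∑ i, Θ1 c i * v₁ b i = 0) (kv₂ : ∀ b c, ∑ i, Θ1 c i * v₂ b i = 0)
    (d11 : ∀ a b, qa Θ2 h a u₁ (v₁ b) = if a = b then 1 else 0)
    (d11' : ∀ a b, qa Θ2 h a (v₁ b) u₁ = - if a = b then 1 else 0)
    (d21 : ∀ a b, qa Θ2 h a u₂ (v₁ b) = 0) (d21' : ∀ a b, qa Θ2 h a (v₁ b) u₂ = 0)
    (d12 : ∀ a b, qa Θ2 h a u₁ (v₂ b) = 0) (d12' : ∀ a b, qa Θ2 h a (v₂ b) u₁ = 0)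
    (d22 : ∀ a b, qa Θ2 h a u₂ (v₂ b) = if a = b then 1 else 0)
    (d22' : ∀ a b, qa Θ2 h a (v₂ b) u₂ = - if a = b then 1 else 0)
    (z1 : Fin m → E) (hz1 : ∀ i, z1 i = u₁ i • p 0 + u₂ i • p 1)
    (S0 : Submodule F1 (Fin m → E))
    (hS : ∀ y : Fin m → E, ∃ v ∈ S0, ∃ x0 x1 : E, y = fun i => v i + u₁ i • x0 + u₂ i • x1)
    (hS₁ : ∀ b (x : E), (fun i => v₁ b i • x) ∈ S0)
    (hS₂ : ∀ b (x : E), (fun i => v₂ b i • x) ∈ S0)
    (θN : κ → E) (a0 : Fin s) (hθ : tr (∑ c, h a0 c • θN c) ≠ 0)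
    (G0 : Submodule F1 (κ × β → F1))
    (H1 : ∀ h0 ∈ G0, ∀ v ∈ S0, phi e h0 (fun c => ∑ i, Θ1 c i • v i) = 0)
    (H2 : ∀ h0 ∈ G0, ∀ v ∈ S0, (∀ c, ∑ i, Θ1 c i • v i = 0) →
      phi e h0 (fun c => ∑ i, ∑ j, Θ2 c i j • (v i * z1 j + z1 i * v j)) = 0)
    (H3 : ∀ h0 ∈ G0, phi e h0 θN = 0) :
    finrank F1 G0 < s ∧ ∀ h0 ∈ G0, ∃ g' : Fin s → E, ∀ r,
      phi e h0 r = ∑ a, tr (g' a * ∑ c, h a c • r c) := by
  classical
  have hi : ∀ h0 ∈ G0, ∀ y : Fin m → E, phi e h0 (fun c => ∑ i, Θ1 c i • y i) = 0 := by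
    intro h0 hh0 y
    obtain ⟨v, hv, x0, x1, hy⟩ := hS y
    rw [← H1 h0 hh0 v hv]
    congr 1
    funext c
    rw [hy]
    simp only [smul_add, Finset.sum_add_distrib, smul_smul, ← Finset.sum_smul, ku₁ c, ku₂ c,
      zero_smul, add_zero]
  have hann : ∀ h0 ∈ G0, ∃ g' : Fin s → E, ∀ r,
      phi e h0 r = ∑ a, tr (g' a * ∑ c, h a c • r c) := fun h0 hh0 =>
    phi_ann e tr htr Θ1 h hli hspan h0 (hi h0 hh0)
  refine ⟨?_, hann⟩
  refine finrank_lt e tr h G0 θN a0 hθ fun h0 hh0 => ?_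
  obtain ⟨g', hg'⟩ := hann h0 hh0
  -- evaluation of condition (ii)
  have key : ∀ (v : Fin m → K) (x : E), (fun i => v i • x) ∈ S0 → (∀ c, ∑ i, Θ1 c i * v i = 0) →
      ∑ a, tr (g' a * (qa Θ2 h a v u₁ • (x * p 0) + qa Θ2 h a v u₂ • (x * p 1) +
        (qa Θ2 h a u₁ v • (p 0 * x) + qa Θ2 h a u₂ v • (p 1 * x)))) = 0 := by
    intro v x hv hkv
    have h1 := H2 h0 hh0 (fun i => v i • x) hv (fun c => by
      simp only [smul_smul]
      rw [← Finset.sum_smul, hkv c, zero_smul])
    rw [hg'] at h1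
    rw [← h1]
    refine Finset.sum_congr rfl fun a _ => ?_
    congr 2
    rw [← qa_vec, ← qa_vec, ← qa_vec, ← qa_vec]
    simp only [← Finset.sum_add_distrib, ← smul_add]
    refine Finset.sum_congr rfl fun c _ => ?_
    congr 1
    refine Finset.sum_congr rfl fun i _ => Finset.sum_congr rfl fun j _ => ?_
    congr 1
    rw [hz1 i, hz1 j]
    simp only [mul_add, add_mul]
  have hc0 : ∀ b, g' b * p 0 = p 0 * g' b := by
    intro b
    rw [← sub_eq_zero]
    apply tr_nondeg tr htr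
    intro x
    have h1 := key (v₁ b) x (hS₁ b x) (kv₁ b)
    simp only [d11, d11', d21, d21', zero_smul, add_zero] at h1
    rw [Finset.sum_eq_single b] at h1
    · simp only [if_true, neg_smul, one_smul] at h1
      rw [sub_mul, map_sub]
      rw [mul_add, map_add, mul_neg, map_neg, ← mul_assoc, ← mul_assoc] at h1
      have h2 : tr (p 0 * g' b * x) = tr (g' b * x * p 0) := by
        rw [mul_assoc, htrc]
      rw [h2]
      rw [add_comm, ← sub_eq_add_neg] at h1
      exact h1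
    · intro a _ ha
      simp [ha]
    · simp
  have hc1 : ∀ b, g' b * p 1 = p 1 * g' b := by
    intro b
    rw [← sub_eq_zero]
    apply tr_nondeg tr htr
    intro x
    have h1 := key (v₂ b) x (hS₂ b x) (kv₂ b)
    simp only [d12, d12', d22, d22', zero_smul, add_zero, zero_add] at h1
    rw [Finset.sum_eq_single b] at h1
    · simp only [if_true, neg_smul, one_smul] at h1
      rw [sub_mul, map_sub]
      rw [mul_add, map_add, mul_neg, map_neg, ← mul_assoc, ← mul_assoc] at h1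
      have h2 : tr (p 1 * g' b * x) = tr (g' b * x * p 1) := by
        rw [mul_assoc, htrc]
      rw [h2]
      rw [add_comm, ← sub_eq_add_neg] at h1
      exact h1
    · intro a _ ha
      simp [ha]
    · simp
  have hcen : ∀ b, ∃ x : F1, algebraMap F1 E x = g' b := fun b =>
    central_of_commute p hp (g' b) (hc0 b) (hc1 b)
  choose x hx using hcen
  refine ⟨x, fun r => ?_, H3 h0 hh0⟩
  rw [hg']
  refine Finset.sum_congr rfl fun a _ => ?_
  rw [← hx a, Algebra.smul_def]

/-- the bound in the trivial case `E = F1` -/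
theorem G0_triv (htriv : Function.Surjective (algebraMap F1 E)) (tr : E →ₗ[F1] F1) (htr : tr ≠ 0)
    {s m : ℕ} (Θ1 : κ → Fin m → K)
    (h : Fin s → κ → K) (hli : LinearIndependent K h)
    (hspan : ∀ y : κ → K, (∀ i, ∑ c, y c * Θ1 c i = 0) → y ∈ Submodule.span K (Set.range h))
    (θN : κ → E) (a0 : Fin s) (hθ : tr (∑ c, h a0 c • θN c) ≠ 0)
    (G0 : Submodule F1 (κ × β → F1))
    (H1 : ∀ h0 ∈ G0, ∀ y : Fin m → E, phi e h0 (fun c => ∑ i, Θ1 c i • y i) = 0)
    (H3 : ∀ h0 ∈ G0, phi e h0 θN = 0) :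
    finrank F1 G0 < s ∧ ∀ h0 ∈ G0, ∃ g' : Fin s → E, ∀ r,
      phi e h0 r = ∑ a, tr (g' a * ∑ c, h a c • r c) := by
  have hann : ∀ h0 ∈ G0, ∃ g' : Fin s → E, ∀ r,
      phi e h0 r = ∑ a, tr (g' a * ∑ c, h a c • r c) := fun h0 hh0 =>
    phi_ann e tr htr Θ1 h hli hspan h0 (H1 h0 hh0)
  refine ⟨?_, hann⟩
  refine finrank_lt e tr h G0 θN a0 hθ fun h0 hh0 => ?_
  obtain ⟨g', hg'⟩ := hann h0 hh0
  choose x hx using fun b => htriv (g' b)
  refine ⟨x, fun r => ?_, H3 h0 hh0⟩
  rw [hg']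
  refine Finset.sum_congr rfl fun a _ => ?_
  rw [← hx a, Algebra.smul_def]

end Phi

end Crest.Agent.R180.SAlg
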