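import Crest.Agent.R180.SInv

set_option autoImplicit false
set_option linter.unusedSectionVars false
set_option linter.unusedVariables false

/-! # Row 180, MODULE S: the step of Theorem S when there is an obstruction of degree `≥ 3` -/

noncomputable section
namespace Crest.Agent.R180

namespace SStep

open Module NC SAlg SDer

/-- conclusion of a step -/
structure StepOut {A : DA} {m : ℕ} {κ : Type} [Fintype κ] (Θ : κ → NC (Fin m) A.F) (M : Adm A)
    {μ : ℕ} (X : Fin m → NC (Fin μ) (PowerSeries M.E)) {β : Type} [Fintype β]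
    (e : Basis β M.F1 M.E) : Prop where
  good : Good' M X
  inv : Inv (newΘ e X good.x0 Θ)
  lt : finrank (LF M.F1) (annS (newΘ e X good.x0 Θ)) < finrank A.F (annS Θ)

variable {A : DA} {m : ℕ} {κ : Type} [Fintype κ]

/-- first order coefficients of the point `z = X'(t p)` -/
theorem coeff1_point {E : Type} [Ring E] [Algebra A.F E] (p : Fin 2 → E) {u₁ u₂ : Fin m → A.F}
    {n : ℕ} {Θ : κ → NC (Fin m) A.F} (X' : Fin m → NC (Fin 2) A.F) (hX' : Approx Θ u₁ u₂ n X')
    (j : Fin m) : PowerSeries.coeff 1 (evp p (X' j)) = u₁ j • p 0 + u₂ j • p 1 := by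
  have h1 : ∀ i : Fin 2, X' j [i] = X1 u₁ u₂ j [i] := by
    intro i
    have := hX'.1 j [i] (by simp)
    rw [NC.sub_apply, sub_eq_zero] at this
    exact this
  rw [coeff_evp]
  rw [← (Fin.consEquiv (fun _ : Fin 1 => Fin 2)).sum_comp, Fintype.sum_prod_type]
  simp only [Fin.sum_univ_two, Finset.univ_unique, Finset.sum_singleton]
  simp only [Fin.consEquiv_apply, List.ofFn_succ, List.ofFn_zero, Fin.cons_zero, List.prod_cons,
    List.prod_nil, mul_one, h1, X1]
  simp [NC.add_apply, C_mul_apply]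

set_option maxHeartbeats 800000 in
theorem cyc_step (Θ : κ → NC (Fin m) A.F) (hΘ0 : ∀ c, Θ c [] = 0) (hΘ : Inv Θ) {s : ℕ}
    (hb : Basis (Fin s) A.F (annS Θ)) {u₁ u₂ : Fin m → A.F} {v₁ v₂ : Fin s → Fin m → A.F}
    (D : SolverData Θ s (fun a => (hb a : κ → A.F)) u₁ u₂ v₁ v₂)
    (hu : ∀ α β : A.F, (∀ i, α * u₁ i + β * u₂ i = 0) → α = 0 ∧ β = 0)
    {n : ℕ} (hn : 2 ≤ n) (X' : Fin m → NC (Fin 2) A.F) (hX' : Approx Θ u₁ u₂ n X') (a0 : Fin s)
    (M : Adm A) (p : Fin 2 → M.E) (tr : M.E →ₗ[M.F1] M.F1)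
    (htrc : ∀ x y, tr (x * y) = tr (y * x)) (hp : Algebra.adjoin M.F1 (Set.range p) = ⊤)
    (htr : tr (∑ v : Fin (n + 1) → Fin 2,
      (tsub X' (hc Θ (hb a0 : κ → A.F)) - C (hc Θ (hb a0 : κ → A.F) []) : NC (Fin 2) A.F)
        (List.ofFn v) • (List.ofFn fun k => p (v k)).prod) ≠ 0)
    (hM : M.RankGood) :
    ∃ (μ : ℕ) (X : Fin m → NC (Fin μ) (PowerSeries M.E)),
      StepOut Θ M X (Module.finBasis M.F1 M.E) := by
  classical
  have htr0 : tr ≠ 0 := by
    rintro rfl
    exact htr (LinearMap.zero_apply _)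
  have hp0 : p 0 ≠ 0 ∨ p 1 ≠ 0 := by
    by_contra hcon
    push Not at hcon
    apply htr
    rw [Finset.sum_eq_zero, map_zero]
    intro v _
    have hpz : ∀ i, p i = 0 := by
      intro i; fin_cases i
      · exact hcon.1
      · exact hcon.2
    simp [hpz, List.ofFn_succ]
  -- the point
  have hX1 : ∀ j, OrdGE 1 (X' j) := hX'.ordGE
  have hXnil : ∀ j, X' j [] = 0 := fun j => ordGE_nil (hX1 j)
  set z : Fin m → PowerSeries M.E := fun j => evp p (X' j) with hzdef
  have hz : ∀ j, PowerSeries.constantCoeff (z j) = 0 := by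
    intro j
    rw [← PowerSeries.coeff_zero_eq_constantCoeff_apply]
    exact coeff_evp_of_ordGE p (hX1 j) 0 (by norm_num)
  set z1 : Fin m → M.E := fun j => PowerSeries.coeff 1 (z j) with hz1def
  have hz1 : ∀ j, z1 j = u₁ j • p 0 + u₂ j • p 1 := fun j => coeff1_point p X' hX' j
  obtain ⟨α₁, α₂, ⟨a11, a12⟩, a21, a22⟩ := exists_dual_pair u₁ u₂ hu
  have hαz : ∀ α : Fin m → A.F, ∑ j, α j • z1 j =
      (∑ j, α j * u₁ j) • p 0 + (∑ j, α j * u₂ j) • p 1 := by
    intro α
    simp only [hz1, smul_add, Finset.sum_add_distrib, smul_smul, Finset.sum_smul]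
  have hαz1 : ∑ j, α₁ j • z1 j = p 0 := by
    rw [hαz, a11, a12, one_smul, zero_smul, add_zero]
  have hαz2 : ∑ j, α₂ j • z1 j = p 1 := by
    rw [hαz, a21, a22, one_smul, zero_smul, zero_add]
  -- directions
  set L : Submodule A.F (Fin m → A.F) :=
    Submodule.span A.F (Set.range v₁ ∪ Set.range v₂) with hLdef
  have hL : ∀ v ∈ L, ∀ α β : A.F, (∀ i, v i + α * u₁ i + β * u₂ i = 0) → α = 0 ∧ β = 0 := by
    intro v hv α β hvab
    -- write v in terms of the dual vectors
    rw [hLdef, Submodule.span_union, Submodule.mem_sup] at hv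
    obtain ⟨y, hy, y', hy', hyy⟩ := hv
    rw [Submodule.mem_span_range_iff_exists_fun] at hy hy'
    obtain ⟨x, rfl⟩ := hy
    obtain ⟨x', rfl⟩ := hy'
    have hv2 : v + α • u₁ + β • u₂ = 0 := by
      funext i
      exact hvab i
    rw [← hyy] at hv2
    have hself : ∀ a (y : Fin m → A.F), (∀ c, ∑ i, Θ c [i] * y i = 0) →
        bil (qM Θ (hb a : κ → A.F)) y y = 0 := by
      intro a y hy
      have h1 := D.alt a y y hy hy
      rw [← two_mul] at h1
      exact (mul_eq_zero.mp h1).resolve_left two_ne_zero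
    have h21 : ∀ a, bil (qM Θ (hb a : κ → A.F)) u₂ u₁ = 0 := by
      intro a
      have h1 := D.alt a u₁ u₂ D.ku₁ D.ku₂
      rw [D.q12 a, zero_add] at h1
      exact h1
    have hx : ∀ a, x a = 0 := by
      intro a
      have h1 := congrArg (bil (qM Θ (hb a : κ → A.F)) u₁) hv2
      simp only [map_add, map_sum, map_smul, smul_eq_mul, map_zero] at h1
      have e1 : ∀ i, bil (qM Θ (hb a : κ → A.F)) u₁ (v₁ i) = if a = i then 1 else 0 :=
        fun i => D.d11 a i
      have e2 : ∀ i, bil (qM Θ (hb a : κ → A.F)) u₁ (v₂ i) = 0 := fun i => D.d12 a i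
      have e3 : bil (qM Θ (hb a : κ → A.F)) u₁ u₂ = 0 := D.q12 a
      rw [hself a u₁ D.ku₁, e3] at h1
      simp only [e1, e2, mul_zero, Finset.sum_const_zero, add_zero, mul_ite, mul_one,
        Finset.sum_ite_eq, Finset.mem_univ, if_true] at h1
      exact h1
    have hx' : ∀ a, x' a = 0 := by
      intro a
      have h1 := congrArg (bil (qM Θ (hb a : κ → A.F)) u₂) hv2
      simp only [map_add, map_sum, map_smul, smul_eq_mul, map_zero] at h1
      have e1 : ∀ i, bil (qM Θ (hb a : κ → A.F)) u₂ (v₂ i) = if a = i then 1 else 0 :=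
        fun i => D.d22 a i
      have e2 : ∀ i, bil (qM Θ (hb a : κ → A.F)) u₂ (v₁ i) = 0 := fun i => D.d21 a i
      rw [hself a u₂ D.ku₂, h21 a] at h1
      simp only [e1, e2, mul_zero, Finset.sum_const_zero, add_zero, zero_add, mul_ite, mul_one,
        Finset.sum_ite_eq, Finset.mem_univ, if_true] at h1
      exact h1
    have hv0 : v = 0 := by
      rw [← hyy]
      simp [hx, hx']
    refine hu α β fun i => ?_
    have := hvab i
    rw [hv0] at this
    simpa using this
  obtain ⟨S0, hS, hSL, hS3, hSdim⟩ := exists_S0 (F1 := M.F1) p hp0 u₁ u₂ L hL z1 hz1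
  set k := finrank M.F1 S0 with hk
  let bS := Module.finBasis M.F1 S0
  set b : Fin k → Fin m → M.E := fun l => (bS l : Fin m → M.E) with hbdef
  have hcomb : ∀ v (hv : v ∈ S0), ∀ j, v j = ∑ l, bS.repr ⟨v, hv⟩ l • b l j := by
    intro v hv j
    have h1 := bS.sum_repr ⟨v, hv⟩
    have h2 := congrArg (fun w : S0 => (w : Fin m → M.E) j) h1
    simp only [Submodule.coe_sum, Submodule.coe_smul, Finset.sum_apply, Pi.smul_apply] at h2
    exact h2.symm
  set d := dirs z b with hd
  -- combinations of directions at order zero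
  have hdcomb : ∀ (x : Fin (k + 1) → M.F1) j, ∑ i, x i • PowerSeries.coeff 0 (d i j) =
      x 0 • z1 j + ∑ l, x l.succ • b l j := by
    intro x j
    rw [Fin.sum_univ_succ]
    rw [hd, coeff0_dirs_zero]
    congr 1
    exact Finset.sum_congr rfl fun l _ => by rw [coeff0_dirs_succ]
  have hdind : ∀ (x : Fin (k + 1) → M.F1) (g : M.E), (∀ j, ∑ i, x i • PowerSeries.coeff 0 (d i j) =
      g * z1 j - z1 j * g) → x = 0 := by
    intro x g hx
    set v : Fin m → M.E := ∑ l, x l.succ • b l with hv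
    have hvS : v ∈ S0 := S0.sum_mem fun l _ => S0.smul_mem _ (bS l).2
    have hvj : ∀ j, v j = ∑ l, x l.succ • b l j := by
      intro j; rw [hv, Finset.sum_apply]; rfl
    obtain ⟨hv0, hx0⟩ := hS3 v hvS (x 0) g (fun j => by
      rw [hvj, ← hx j, hdcomb, add_comm])
    have h1 : ∑ l, x l.succ • bS l = 0 := by
      apply Subtype.ext
      rw [Submodule.coe_sum]
      exact hv0
    have h2 := Fintype.linearIndependent_iff.mp bS.linearIndependent _ h1
    funext i
    refine Fin.cases hx0 (fun l => h2 l) i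
  have hdli : LinearIndependent M.F1 (fun i j => PowerSeries.coeff 0 (d i j)) := by
    rw [Fintype.linearIndependent_iff]
    intro x hx
    have := hdind x 0 (fun j => by
      have := congrFun hx j
      rw [Finset.sum_apply] at this
      rw [zero_mul, mul_zero, sub_zero]
      exact this)
    intro i; rw [this]; rfl
  -- centrality
  have hcen : ∀ g : M.E, (∀ j, g * z1 j = z1 j * g) → ∃ c : M.F1, algebraMap M.F1 M.E c = g := by
    intro g hg
    refine central_of_commute p hp g ?_ ?_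
    · rw [← hαz1, Finset.mul_sum, Finset.sum_mul]
      exact Finset.sum_congr rfl fun j _ => by rw [mul_smul_comm, smul_mul_assoc, hg]
    · rw [← hαz2, Finset.mul_sum, Finset.sum_mul]
      exact Finset.sum_congr rfl fun j _ => by rw [mul_smul_comm, smul_mul_assoc, hg]
  -- the move is good
  have hgood : Good' M (stepX z d) := by
    refine ⟨stepX_const z d hz, ?_, ?_⟩
    · refine gen_res p hp fun i => ?_
      have hx : ∀ α : Fin m → A.F, ∃ x ∈ Algebra.adjoin (LF M.F1) (Set.range (M.pt (stepX z d))),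
          LD.IsInt x ∧ x.co 0 = ∑ j, α j • z1 j := by
        intro α
        have hco : ∀ n : ℤ, (∑ j, (LF.C (algebraMap A.F M.F1 (α j)) : LF M.F1) •
            (LD.ofPS (z j) : LD M.E)).co n = ∑ j, α j • (LD.ofPS (z j) : LD M.E).co n := by
          intro n
          rw [LD.co_sum]
          refine Finset.sum_congr rfl fun j _ => ?_
          rw [LD.co_C_smul, algebraMap_smul]
        refine ⟨(LF.tp (-1) : LF M.F1) • ∑ j, (LF.C (algebraMap A.F M.F1 (α j)) : LF M.F1) •
          (LD.ofPS (z j) : LD M.E), ?_, ?_, ?_⟩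
        · refine Subalgebra.smul_mem _ (Subalgebra.sum_mem _ fun j _ => Subalgebra.smul_mem _ ?_ _) _
          exact Algebra.subset_adjoin ⟨j, rfl⟩
        · intro n hn
          rw [LD.co_tp_smul, hco]
          refine Finset.sum_eq_zero fun j _ => ?_
          rcases lt_or_ge (n - -1) 0 with h | h
          · rw [LD.co_ofPS_neg _ _ h, smul_zero]
          · have h0 : n - -1 = ((0 : ℕ) : ℤ) := by push_cast; omega
            rw [h0, LD.co_ofPS, cz0 z hz, smul_zero]
        · rw [LD.co_tp_smul, hco]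
          refine Finset.sum_congr rfl fun j _ => ?_
          have h0 : (0 : ℤ) - -1 = ((1 : ℕ) : ℤ) := by norm_num
          rw [h0, LD.co_ofPS]
      fin_cases i
      · obtain ⟨x, h1, h2, h3⟩ := hx α₁
        exact ⟨x, h1, h2, h3.trans hαz1⟩
      · obtain ⟨x, h1, h2, h3⟩ := hx α₂
        exact ⟨x, h1, h2, h3.trans hαz2⟩
    · intro l g hrel
      exact indep_res z hz d hcen hdind l g hrel
  -- residue analysis
  have hfin : finrank A.F (annS Θ) = s := by
    rw [finrank_eq_card_basis hb, Fintype.card_fin]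
  set h : Fin s → κ → A.F := fun a => (hb a : κ → A.F) with hhdef
  have hli : LinearIndependent A.F h := hb.linearIndependent.map' (Submodule.subtype _)
    (Submodule.ker_subtype _)
  have hspan : ∀ y : κ → A.F, (∀ i, ∑ c, y c * Θ c [i] = 0) →
      y ∈ Submodule.span A.F (Set.range h) := by
    intro y hy
    have h1 := hb.sum_repr ⟨y, hy⟩
    have h2 := congrArg (Subtype.val) h1
    simp only [Submodule.coe_sum, Submodule.coe_smul] at h2
    rw [← h2]
    exact Submodule.sum_mem _ fun a _ => Submodule.smul_mem _ _ (Submodule.subset_span ⟨a, rfl⟩)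
  set e := Module.finBasis M.F1 M.E with he
  obtain ⟨hlt, hann⟩ := res_analysis e Θ h hli hspan D X' hX' a0 tr htrc p hp htr z hz
    (fun j => rfl) hz1 S0 hS
    (fun b x => hSL (v₁ b) (Submodule.subset_span (Or.inl ⟨b, rfl⟩)) x)
    (fun b x => hSL (v₂ b) (Submodule.subset_span (Or.inr ⟨b, rfl⟩)) x) bS
  have hann' : ∀ h0 ∈ LF.resPi (annS (newΘ e (stepX z d) (stepX_const z d hz) Θ)),
      ∃ g' : Fin s → M.E, ∀ r, phi e h0 r = ∑ a, tr (g' a * ∑ c, h a c • r c) := hann
  clear hann
  have hN2 : 0 < finrank M.F1 M.E := finrank_pos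
  obtain ⟨N2, hN2def⟩ : ∃ N2, N2 = finrank M.F1 M.E := ⟨_, rfl⟩
  have hcm : (Fintype.card κ + 2) * N2 ≤ k + N2 := by
    rw [hN2def]
    exact (Nat.mul_le_mul_right _ hΘ.1).trans hSdim
  have hcardeq : Fintype.card (κ × Fin (finrank M.F1 M.E)) = Fintype.card κ * N2 := by
    rw [Fintype.card_prod, Fintype.card_fin, hN2def]
  refine ⟨k + 1, stepX z d, hgood, ⟨?_, ?_⟩, ?_⟩
  · rw [hcardeq]
    rw [← hN2def] at hN2
    nlinarith
  · intro h' hne hh'
    have h1 := inv_rank M hM tr htr0 e Θ (r := 4 * Fintype.card κ + 4) (D := N2 - 1) h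
      (comb_rank Θ hΘ.2 h hli fun a => (hb a).2) z d hz hdli
      (by rw [← hN2def]; rw [← hN2def] at hSdim hN2; omega) hann' h' hne hh'
    rw [hcardeq]
    have key : ∀ R : ℕ, (4 * Fintype.card κ + 4) * finrank M.F1 M.E ≤ R + 2 * (N2 - 1) →
        4 * (Fintype.card κ * N2) + 4 ≤ R := by
      intro R hR
      rw [← hN2def] at hR hN2
      have h2 : (4 * Fintype.card κ + 4) * N2 = 4 * (Fintype.card κ * N2) + 4 * N2 := by ring
      rw [h2] at hR
      generalize Fintype.card κ * N2 = Q at hR ⊢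
      omega
    exact key _ h1
  · rw [hfin]
    have h1 := finrank_annS_new e z d hz Θ
    rw [h1]
    exact hlt

end SStep

end Crest.Agent.R180
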