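import Crest.Agent.R180.SStep
import Crest.Agent.R180.LinSep

set_option autoImplicit false
set_option linter.unusedSectionVars false

/-! # Row 180, MODULE S: existence of the solver data -/

noncomputable section
namespace Crest.Agent.R180

namespace SStep

open Module NC

variable {F : Type} [Field F] {m : ℕ} {κ : Type} [Fintype κ]

/-- invariants of a plain state -/
def Inv (Θ : κ → NC (Fin m) F) : Prop :=
  Fintype.card κ + 2 ≤ m ∧ ∀ h : κ → F, h ≠ 0 → (∀ i, ∑ c, h c * Θ c [i] = 0) →
    4 * Fintype.card κ + 4 ≤ (Matrix.of fun i j : Fin m => ∑ c, h c * Θ c [i, j]).rank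

/-- linear part as a linear map -/
def th1 (Θ : κ → NC (Fin m) F) : (Fin m → F) →ₗ[F] (κ → F) where
  toFun x c := ∑ i, Θ c [i] * x i
  map_add' x y := by funext c; simp [mul_add, Finset.sum_add_distrib]
  map_smul' a x := by
    funext c
    simp only [Pi.smul_apply, smul_eq_mul, RingHom.id_apply, Finset.mul_sum]
    exact Finset.sum_congr rfl fun i _ => by ring

theorem th1_apply (Θ : κ → NC (Fin m) F) (x : Fin m → F) (c : κ) :
    th1 Θ x c = ∑ i, Θ c [i] * x i := rfl

/-- duality: what is annihilated by the annihilator is in the image -/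
theorem exists_preimage (Θ : κ → NC (Fin m) F) (r : κ → F)
    (hr : ∀ h ∈ annS Θ, ∑ c, h c * r c = 0) : ∃ y : Fin m → F, ∀ c, ∑ i, Θ c [i] * y i = r c := by
  classical
  by_contra hcon
  have hnot : r ∉ LinearMap.range (th1 Θ) := by
    rintro ⟨y, hy⟩
    exact hcon ⟨y, fun c => congrFun hy c⟩
  obtain ⟨f, hf, hker⟩ := Submodule.exists_le_ker_of_notMem hnot
  have hmat : ∀ v : κ → F, f v = ∑ c, f (Pi.single c 1) * v c := by
    intro v
    conv_lhs => rw [pi_eq_sum_univ' v]
    rw [map_sum]
    refine Finset.sum_congr rfl fun i _ => ?_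
    rw [map_smul, smul_eq_mul, mul_comm]
  apply hf
  rw [hmat]
  apply hr (fun c => f (Pi.single c 1))
  intro i
  have h1 : th1 Θ (Pi.single i 1) ∈ LinearMap.ker f := hker ⟨_, rfl⟩
  rw [LinearMap.mem_ker, hmat] at h1
  rw [← h1]
  refine Finset.sum_congr rfl fun c _ => ?_
  congr 1
  rw [th1_apply, Finset.sum_eq_single i]
  · simp
  · intro j _ hj; simp [hj]
  · simp

/-- dimension of the annihilator -/
theorem finrank_annS (Θ : κ → NC (Fin m) F) :
    finrank F (annS Θ) + finrank F (LinearMap.range (th1 Θ)) = Fintype.card κ := by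
  classical
  -- annS Θ is the kernel of the transpose
  let T : (κ → F) →ₗ[F] (Fin m → F) :=
    { toFun := fun h i => ∑ c, h c * Θ c [i]
      map_add' := fun x y => by funext c; simp [add_mul, Finset.sum_add_distrib]
      map_smul' := fun a x => by
        funext c
        simp only [Pi.smul_apply, smul_eq_mul, RingHom.id_apply, Finset.mul_sum, mul_assoc] }
  have hker : annS Θ = LinearMap.ker T := by
    ext h
    rw [mem_annS, LinearMap.mem_ker]
    constructor
    · intro hh; funext i; exact hh i
    · intro hh i; exact congrFun hh i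
  let Mx : Matrix κ (Fin m) F := Matrix.of fun c i => Θ c [i]
  have h1 : th1 Θ = Mx.mulVecLin := by
    ext x c
    simp [th1_apply, Mx, Matrix.mulVec, dotProduct]
  have h2 : T = (Mx.transpose).mulVecLin := by
    refine LinearMap.ext fun x => funext fun i => ?_
    change ∑ c, x c * Θ c [i] = ∑ c, Θ c [i] * x c
    exact Finset.sum_congr rfl fun c _ => mul_comm _ _
  have h3 := T.finrank_range_add_finrank_ker
  have h4 : finrank F (LinearMap.range T) = finrank F (LinearMap.range (th1 Θ)) := by
    rw [h1, h2]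
    exact Matrix.rank_transpose Mx
  rw [hker]
  rw [finrank_fintype_fun_eq_card] at h3
  omega

/-- bilinear form of a matrix -/
def bil (Q : Matrix (Fin m) (Fin m) F) : (Fin m → F) →ₗ[F] (Fin m → F) →ₗ[F] F :=
  LinearMap.mk₂ F (fun x y => ∑ i, ∑ j, Q i j * x i * y j)
    (fun x x' y => by simp [mul_add, add_mul, Finset.sum_add_distrib])
    (fun c x y => by
      simp only [Pi.smul_apply, smul_eq_mul, Finset.mul_sum]
      exact Finset.sum_congr rfl fun i _ => Finset.sum_congr rfl fun j _ => by ring)
    (fun x y y' => by simp [mul_add, Finset.sum_add_distrib])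
    (fun c x y => by
      simp only [Pi.smul_apply, smul_eq_mul, Finset.mul_sum]
      exact Finset.sum_congr rfl fun i _ => Finset.sum_congr rfl fun j _ => by ring)

theorem bil_apply (Q : Matrix (Fin m) (Fin m) F) (x y : Fin m → F) :
    bil Q x y = ∑ i, ∑ j, Q i j * x i * y j := rfl

theorem finrank_range_bil (Q : Matrix (Fin m) (Fin m) F) :
    Q.rank ≤ finrank F (LinearMap.range (bil Q)) := by
  classical
  rw [← Matrix.rank_transpose]
  -- evaluate functionals at the standard basis
  let R : ((Fin m → F) →ₗ[F] F) →ₗ[F] (Fin m → F) :=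
    { toFun := fun f j => f (Pi.single j 1)
      map_add' := fun f g => rfl
      map_smul' := fun c f => rfl }
  have h : (Q.transpose).mulVecLin = R ∘ₗ bil Q := by
    refine LinearMap.ext fun x => funext fun j => ?_
    change (Q.transpose).mulVec x j = bil Q x (Pi.single j 1)
    rw [bil_apply, Matrix.mulVec, dotProduct]
    refine Finset.sum_congr rfl fun i _ => ?_
    rw [Finset.sum_eq_single j]
    · simp
    · intro k _ hk; simp [hk]
    · simp
  unfold Matrix.rank
  rw [h, LinearMap.range_comp]
  exact Submodule.finrank_map_le _ _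

/-- rank on a subspace -/
theorem finrank_range_restrict_bil (Q : Matrix (Fin m) (Fin m) F)
    (V : Submodule F (Fin m → F)) :
    Q.rank + 2 * finrank F V ≤
      finrank F (LinearMap.range ((bil Q).domRestrict₁₂ V V)) + 2 * m := by
  classical
  have h1 := finrank_range_bil Q
  let P : Submodule F ((Fin m → F) →ₗ[F] F) := V.dualAnnihilator
  have h2 := LinSep.finrank_range_restrict (bil Q) V P
  have h3 : finrank F V + finrank F P = finrank F (Fin m → F) :=
    Subspace.finrank_add_finrank_dualAnnihilator_eq V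
  have h4 : finrank F (LinearMap.range (P.mkQ ∘ₗ bil Q ∘ₗ V.subtype)) =
      finrank F (LinearMap.range ((bil Q).domRestrict₁₂ V V)) := by
    have e1 := (P.mkQ ∘ₗ bil Q ∘ₗ V.subtype).finrank_range_add_finrank_ker
    have e2 := ((bil Q).domRestrict₁₂ V V).finrank_range_add_finrank_ker
    have e3 : LinearMap.ker (P.mkQ ∘ₗ bil Q ∘ₗ V.subtype) =
        LinearMap.ker ((bil Q).domRestrict₁₂ V V) := by
      ext x
      rw [LinearMap.mem_ker, LinearMap.mem_ker]
      change P.mkQ (bil Q x) = 0 ↔ _
      rw [Submodule.mkQ_apply, Submodule.Quotient.mk_eq_zero]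
      change bil Q x ∈ V.dualAnnihilator ↔ _
      rw [Submodule.mem_dualAnnihilator]
      constructor
      · intro h
        ext y
        exact h y y.2
      · intro h y hy
        exact LinearMap.congr_fun h ⟨y, hy⟩
    rw [e3] at e1
    omega
  rw [finrank_fin_fun] at h2 h3
  omega

/-- the matrix of the form `h` -/
def qM (Θ : κ → NC (Fin m) F) (h : κ → F) : Matrix (Fin m) (Fin m) F :=
  Matrix.of fun i j => ∑ c, h c * Θ c [i, j]

theorem bil_qM (Θ : κ → NC (Fin m) F) (h : κ → F) (x y : Fin m → F) :
    bil (qM Θ h) x y = qf Θ h x y := rfl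

theorem qM_add (Θ : κ → NC (Fin m) F) (h h' : κ → F) : qM Θ (h + h') = qM Θ h + qM Θ h' := by
  ext i j; simp [qM, add_mul, Finset.sum_add_distrib]

theorem qM_smul (Θ : κ → NC (Fin m) F) (a : F) (h : κ → F) : qM Θ (a • h) = a • qM Θ h := by
  ext i j; simp [qM, Finset.mul_sum, mul_assoc]

/-- the family of forms on the kernel of the linear part -/
def qV (Θ : κ → NC (Fin m) F) : annS Θ →ₗ[F] LinearMap.ker (th1 Θ) →ₗ[F]
    LinearMap.ker (th1 Θ) →ₗ[F] F where
  toFun h := (bil (qM Θ (h : κ → F))).domRestrict₁₂ _ _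
  map_add' h h' := by
    refine LinearMap.ext fun x => LinearMap.ext fun y => ?_
    change bil (qM Θ ((h : κ → F) + (h' : κ → F))) x y =
      bil (qM Θ (h : κ → F)) x y + bil (qM Θ (h' : κ → F)) x y
    rw [qM_add]
    simp only [bil_apply, Matrix.add_apply, add_mul, Finset.sum_add_distrib]
  map_smul' a h := by
    refine LinearMap.ext fun x => LinearMap.ext fun y => ?_
    change bil (qM Θ (a • (h : κ → F))) x y = a * bil (qM Θ (h : κ → F)) x y
    rw [qM_smul]
    simp only [bil_apply, Matrix.smul_apply, smul_eq_mul, Finset.mul_sum, mul_assoc]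

theorem qV_apply (Θ : κ → NC (Fin m) F) (h : annS Θ) (x y : LinearMap.ker (th1 Θ)) :
    qV Θ h x y = qf Θ (h : κ → F) (x : Fin m → F) (y : Fin m → F) := rfl

theorem exists_data [CharZero F] (Θ : κ → NC (Fin m) F) (hΘ : Inv Θ) {s : ℕ}
    (hb : Basis (Fin s) F (annS Θ))
    (halt : ∀ (h : annS Θ) (x : LinearMap.ker (th1 Θ)), qV Θ h x x = 0) :
    ∃ (u₁ u₂ : Fin m → F) (v₁ v₂ : Fin s → Fin m → F),
      SolverData Θ s (fun a => (hb a : κ → F)) u₁ u₂ v₁ v₂ ∧
      ∀ α β : F, (∀ i, α * u₁ i + β * u₂ i = 0) → α = 0 ∧ β = 0 := by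
  classical
  have hs : finrank F (annS Θ) = s := by
    rw [finrank_eq_card_basis hb, Fintype.card_fin]
  have hann := finrank_annS Θ
  have hker := (th1 Θ).finrank_range_add_finrank_ker
  rw [finrank_fin_fun] at hker
  obtain ⟨hcard, hrank⟩ := hΘ
  obtain ⟨u₁, u₂, h12, hind, hav⟩ := LinSep.exists_two_avoid (qV Θ) (fun h hh => by
      have h1 := finrank_range_restrict_bil (qM Θ (h : κ → F)) (LinearMap.ker (th1 Θ))
      have h2 := hrank (h : κ → F) (fun hcon => hh (Subtype.ext hcon)) h.2
      have h3 : finrank F (LinearMap.range (qV Θ h)) =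
        finrank F (LinearMap.range ((bil (qM Θ (h : κ → F))).domRestrict₁₂
          (LinearMap.ker (th1 Θ)) (LinearMap.ker (th1 Θ)))) := rfl
      have h4 : (qM Θ (h : κ → F)).rank =
        (Matrix.of fun i j : Fin m => ∑ c, (h : κ → F) c * Θ c [i, j]).rank := rfl
      omega) ⊥ (by rw [finrank_bot]; omega)
  obtain ⟨v₁, v₂, d11, d21, d12, d22⟩ := LinSep.exists_dual_vectors (qV Θ) hb u₁ u₂ hind
  have hkermem : ∀ x : LinearMap.ker (th1 Θ), ∀ c, ∑ i, Θ c [i] * (x : Fin m → F) i = 0 := by
    intro x c
    have := x.2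
    rw [LinearMap.mem_ker] at this
    exact congrFun this c
  refine ⟨u₁, u₂, fun b => v₁ b, fun b => v₂ b, ?_, ?_⟩
  · exact
      { hann := fun a i => (hb a).2 i
        hlin := fun r hr => exists_preimage Θ r (fun h hh => by
          have h1 := hb.sum_repr ⟨h, hh⟩
          have h2 := congrArg Subtype.val h1
          rw [← show ((⟨h, hh⟩ : annS Θ) : κ → F) = h from rfl, ← h2]
          simp only [Submodule.coe_sum, Submodule.coe_smul, Finset.sum_apply, Pi.smul_apply,
            smul_eq_mul, Finset.sum_mul]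
          rw [Finset.sum_comm]
          refine Finset.sum_eq_zero fun a _ => ?_
          simp only [mul_assoc, ← Finset.mul_sum]
          rw [hr a, mul_zero])
        ku₁ := hkermem u₁
        ku₂ := hkermem u₂
        kv₁ := fun b => hkermem (v₁ b)
        kv₂ := fun b => hkermem (v₂ b)
        alt := fun a x y hx hy => by
          have hx' : x ∈ LinearMap.ker (th1 Θ) := by
            rw [LinearMap.mem_ker]; funext c; exact hx c
          have hy' : y ∈ LinearMap.ker (th1 Θ) := by
            rw [LinearMap.mem_ker]; funext c; exact hy c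
          have h1 := halt (hb a) (⟨x, hx'⟩ + ⟨y, hy'⟩)
          simp only [map_add, LinearMap.add_apply] at h1
          have h2 := halt (hb a) ⟨x, hx'⟩
          have h3 := halt (hb a) ⟨y, hy'⟩
          rw [h2, h3, zero_add, add_zero] at h1
          rw [qV_apply, qV_apply] at h1
          rw [add_comm]
          exact h1
        q12 := fun a => h12 (hb a)
        d11 := fun a b => d11 a b
        d21 := fun a b => d21 a b
        d12 := fun a b => d12 a b
        d22 := fun a b => d22 a b }
  · intro α β h
    apply hav α β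
    rw [Submodule.mem_bot]
    apply Subtype.ext
    funext i
    exact h i

end SStep

end Crest.Agent.R180
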