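import Crest.Agent.R180.SOrd
import Crest.Agent.R180.Subst

set_option autoImplicit false

/-!
# Row 180, Theorem S: the degree-by-degree solver over the base field
-/

namespace Crest.Agent.R180

namespace NC

section TSub

variable {ι σ K : Type} [CommRing K] [Fintype ι]

theorem C_mul_comm (k : K) (f : NC σ K) : (C k : NC σ K) * f = f * C k := by
  apply ext'; intro w; rw [C_mul_apply, mul_C_apply, mul_comm]

/-- substitution `NC ι K → NC σ K`, `letter i ↦ X i - X i []` (a total function of `X`). -/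
noncomputable def tsub (X : ι → NC σ K) : NC ι K →+* NC σ K :=
  subst (CFilt.nc (CFilt.discrete K)) (C : K →+* NC σ K) (fun i => X i - C (X i []))
    (fun i => by
      rw [CFilt.mem_nc_one, CFilt.mem_discrete]
      right
      simp)
    (fun k i => C_mul_comm k _)

theorem tsub_eq (X : ι → NC σ K) (hX : ∀ i, X i [] = 0) (f : NC ι K) :
    tsub X f = C (f []) + ∑ i, X i * tsub X (ld i f) := by
  have hX' : ∀ i, X i - (C (X i []) : NC σ K) = X i := fun i => by
    rw [hX i, map_zero, sub_zero]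
  have := subst_eq (CFilt.nc (CFilt.discrete K)) (C : K →+* NC σ K) (fun i => X i - C (X i []))
    (fun i => by
      rw [CFilt.mem_nc_one, CFilt.mem_discrete]
      right
      simp)
    (fun k i => C_mul_comm k _) f
  simp only [hX'] at this
  simpa only [tsub, hX'] using this

@[simp] theorem tsub_C (X : ι → NC σ K) (k : K) : tsub X (C k) = C k :=
  subst_C _ _ _ _ _ k

/-- linear part -/
noncomputable def lin (f : NC ι K) (X : ι → NC σ K) : NC σ K := ∑ i, (C (f [i]) : NC σ K) * X i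

/-- quadratic part -/
noncomputable def quad (f : NC ι K) (X Y : ι → NC σ K) : NC σ K :=
  ∑ i, ∑ j, (C (f [i, j]) : NC σ K) * (X i * Y j)

variable (X Y Z : ι → NC σ K)

omit [Fintype ι] in
theorem ordGE_nil {X : NC σ K} (h : OrdGE 1 X) : X [] = 0 := h [] (by simp)

theorem lin_ordGE {n : ℕ} (f : NC ι K) (hX : ∀ i, OrdGE n (X i)) : OrdGE n (lin f X) :=
  OrdGE.sum _ _ fun i _ => (hX i).mul_left

theorem quad_ordGE {m n : ℕ} (f : NC ι K) (hX : ∀ i, OrdGE m (X i)) (hY : ∀ i, OrdGE n (Y i)) :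
    OrdGE (m + n) (quad f X Y) :=
  OrdGE.sum _ _ fun i _ => OrdGE.sum _ _ fun j _ => ((hX i).mul (hY j)).mul_left

theorem lin_add (f : NC ι K) : lin f (fun i => X i + Y i) = lin f X + lin f Y := by
  simp only [lin, mul_add, Finset.sum_add_distrib]

theorem lin_sub (f : NC ι K) : lin f (fun i => X i - Y i) = lin f X - lin f Y := by
  simp only [lin, mul_sub, Finset.sum_sub_distrib]

theorem quad_add_left (f : NC ι K) :
    quad f (fun i => X i + Y i) Z = quad f X Z + quad f Y Z := by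
  simp only [quad, add_mul, mul_add, Finset.sum_add_distrib]

theorem quad_sub_left (f : NC ι K) :
    quad f (fun i => X i - Y i) Z = quad f X Z - quad f Y Z := by
  simp only [quad, sub_mul, mul_sub, Finset.sum_sub_distrib]

theorem quad_sub_right (f : NC ι K) :
    quad f X (fun i => Y i - Z i) = quad f X Y - quad f X Z := by
  simp only [quad, mul_sub, Finset.sum_sub_distrib]

/-- level 0 -/
theorem tsub_congr0 (m : ℕ) (hX : ∀ i, OrdGE 1 (X i)) (hY : ∀ i, OrdGE 1 (Y i))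
    (h : ∀ i, OrdGE m (X i - Y i)) (f : NC ι K) : OrdGE m (tsub X f - tsub Y f) := by
  have key : ∀ k ≤ m, ∀ f : NC ι K, OrdGE k (tsub X f - tsub Y f) := by
    intro k
    induction k with
    | zero => intro _ f; exact ordGE_zero _
    | succ k ih =>
      intro hk f
      have e : tsub X f - tsub Y f = ∑ i, ((X i - Y i) * tsub X (ld i f) +
          Y i * (tsub X (ld i f) - tsub Y (ld i f))) := by
        rw [tsub_eq X (fun i => ordGE_nil (hX i)) f, tsub_eq Y (fun i => ordGE_nil (hY i)) f,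
          Finset.sum_add_distrib]
        simp only [sub_mul, mul_sub, Finset.sum_sub_distrib]
        abel
      rw [e]
      refine OrdGE.sum _ _ fun i _ => OrdGE.add ((h i).mul_right.mono hk) ?_
      rw [add_comm k 1]
      exact (hY i).mul (ih (by omega) (ld i f))
  exact key m le_rfl f

theorem tsub_sub_C (hX : ∀ i, OrdGE 1 (X i)) (f : NC ι K) : OrdGE 1 (tsub X f - C (f [])) := by
  rw [tsub_eq X (fun i => ordGE_nil (hX i)) f, add_sub_cancel_left]
  exact OrdGE.sum _ _ fun i _ => (hX i).mul_right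

/-- level 1 -/
theorem tsub_congr1 (m : ℕ) (hY : ∀ i, OrdGE 1 (Y i)) (hZ : ∀ i, OrdGE m (Z i)) (hm : 1 ≤ m)
    (f : NC ι K) :
    OrdGE (m + 1) (tsub (fun i => Y i + Z i) f - (tsub Y f + lin f Z)) := by
  have hX : ∀ i, OrdGE 1 (Y i + Z i) := fun i => (hY i).add ((hZ i).mono hm)
  have hd : ∀ i, OrdGE m ((Y i + Z i) - Y i) := fun i => by rw [add_sub_cancel_left]; exact hZ i
  have e : tsub (fun i => Y i + Z i) f - (tsub Y f + lin f Z) =
      ∑ i, (Z i * (tsub (fun i => Y i + Z i) (ld i f) - C (f [i])) +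
          Y i * (tsub (fun i => Y i + Z i) (ld i f) - tsub Y (ld i f))) := by
    rw [tsub_eq _ (fun i => ordGE_nil (hX i)) f, tsub_eq Y (fun i => ordGE_nil (hY i)) f,
      Finset.sum_add_distrib]
    simp only [add_mul, mul_sub, Finset.sum_sub_distrib, Finset.sum_add_distrib, lin, C_mul_comm]
    abel
  rw [e]
  refine OrdGE.sum _ _ fun i _ => OrdGE.add ?_ ?_
  · exact (hZ i).mul (tsub_sub_C _ hX (ld i f))
  · rw [add_comm m 1]
    exact (hY i).mul (tsub_congr0 _ _ m hX hY hd (ld i f))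

theorem tsub_lin (hX : ∀ i, OrdGE 1 (X i)) (f : NC ι K) :
    OrdGE 2 (tsub X f - (C (f []) + lin f X)) := by
  have e : tsub X f - (C (f []) + lin f X) =
      ∑ i, X i * (tsub X (ld i f) - C (f [i])) := by
    rw [tsub_eq _ (fun i => ordGE_nil (hX i)) f]
    simp only [mul_sub, Finset.sum_sub_distrib, lin, C_mul_comm]
    abel
  rw [e]
  exact OrdGE.sum _ _ fun i _ => (hX i).mul (tsub_sub_C _ hX (ld i f))

theorem tsub_quad (hX : ∀ i, OrdGE 1 (X i)) (f : NC ι K) :
    OrdGE 3 (tsub X f - (C (f []) + lin f X + quad f X X)) := by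
  have e : tsub X f - (C (f []) + lin f X + quad f X X) =
      ∑ i, X i * (tsub X (ld i f) - (C ((ld i f) []) + lin (ld i f) X)) := by
    rw [tsub_eq _ (fun i => ordGE_nil (hX i)) f]
    have h : quad f X X = ∑ i, X i * lin (ld i f) X := by
      unfold quad lin
      refine Finset.sum_congr rfl fun i _ => ?_
      rw [Finset.mul_sum]
      refine Finset.sum_congr rfl fun j _ => ?_
      rw [ld_apply, ← mul_assoc, ← mul_assoc, C_mul_comm, ]
    rw [h]
    simp only [mul_sub, mul_add, Finset.sum_sub_distrib, Finset.sum_add_distrib, ld_apply]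
    simp only [lin, C_mul_comm]
    abel
  rw [e]
  exact OrdGE.sum _ _ fun i _ => (hX i).mul (tsub_lin _ hX (ld i f))

/-- level 2 -/
theorem tsub_congr2 (m : ℕ) (hY : ∀ i, OrdGE 1 (Y i)) (hZ : ∀ i, OrdGE m (Z i)) (hm : 2 ≤ m)
    (f : NC ι K) :
    OrdGE (m + 2) (tsub (fun i => Y i + Z i) f - (tsub Y f + lin f Z + quad f Z Y + quad f Y Z)) := by
  have hX : ∀ i, OrdGE 1 (Y i + Z i) := fun i => (hY i).add ((hZ i).mono (by omega))
  have hquad : ∀ A B : ι → NC σ K, quad f A B = ∑ i, A i * lin (ld i f) B := by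
    intro A B
    unfold quad lin
    refine Finset.sum_congr rfl fun i _ => ?_
    rw [Finset.mul_sum]
    refine Finset.sum_congr rfl fun j _ => ?_
    rw [ld_apply, ← mul_assoc, ← mul_assoc, C_mul_comm]
  have e : tsub (fun i => Y i + Z i) f - (tsub Y f + lin f Z + quad f Z Y + quad f Y Z) =
      ∑ i, (Z i * (tsub (fun i => Y i + Z i) (ld i f) - (C (f [i]) + lin (ld i f) Y)) +
          Y i * (tsub (fun i => Y i + Z i) (ld i f) - (tsub Y (ld i f) + lin (ld i f) Z))) := by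
    rw [tsub_eq _ (fun i => ordGE_nil (hX i)) f, tsub_eq Y (fun i => ordGE_nil (hY i)) f, hquad,
      hquad, Finset.sum_add_distrib]
    have h1 : lin f Z = ∑ i, Z i * (C (f [i]) : NC σ K) := by
      unfold lin; exact Finset.sum_congr rfl fun i _ => C_mul_comm _ _
    rw [h1]
    simp only [add_mul, mul_sub, mul_add, Finset.sum_sub_distrib, Finset.sum_add_distrib]
    abel
  rw [e]
  refine OrdGE.sum _ _ fun i _ => OrdGE.add ?_ ?_
  · refine (hZ i).mul ?_
    have h1 := tsub_lin _ hX (ld i f)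
    have h2 : OrdGE 2 (lin (ld i f) Z) := (lin_ordGE Z (ld i f) hZ).mono hm
    have h3 := h1.add h2
    rw [lin_add] at h3
    have e2 : tsub (fun i => Y i + Z i) (ld i f) -
        (C ((ld i f) []) + (lin (ld i f) Y + lin (ld i f) Z)) + lin (ld i f) Z =
        tsub (fun i => Y i + Z i) (ld i f) - (C (f [i]) + lin (ld i f) Y) := by
      rw [ld_apply]; abel
    rwa [e2] at h3
  · have := (hY i).mul (tsub_congr1 Y Z m hY hZ (by omega) (ld i f))
    rwa [show 1 + (m + 1) = m + 2 by omega] at this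

end TSub

section Solver

variable {ι κ K : Type} [Field K] [CharZero K] [Fintype ι] [Fintype κ]

/-- matrix entry of the quadratic form attached to `h` -/
def qco (Θ : κ → NC ι K) (h : κ → K) (i j : ι) : K := ∑ c, h c * Θ c [i, j]

/-- bilinear form attached to `h` -/
def qf (Θ : κ → NC ι K) (h : κ → K) (x y : ι → K) : K := ∑ i, ∑ j, qco Θ h i j * x i * y j

/-- the combination `∑ h_c Θ_c` -/
noncomputable def hc (Θ : κ → NC ι K) (h : κ → K) : NC ι K := ∑ c, (C (h c) : NC ι K) * Θ c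

omit [CharZero K] [Fintype ι] in
theorem hc_apply (Θ : κ → NC ι K) (h : κ → K) (w : List ι) :
    hc Θ h w = ∑ c, h c * Θ c w := by
  unfold hc
  rw [sum_apply]
  exact Finset.sum_congr rfl fun c _ => C_mul_apply _ _ _

omit [CharZero K] in
theorem tsub_hc (Θ : κ → NC ι K) (h : κ → K) {σ : Type} (X : ι → NC σ K) :
    tsub X (hc Θ h) = ∑ c, (C (h c) : NC σ K) * tsub X (Θ c) := by
  unfold hc
  rw [map_sum]
  exact Finset.sum_congr rfl fun c _ => by rw [map_mul, tsub_C]

omit [CharZero K] [Fintype ι] in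
theorem C_hc_nil (Θ : κ → NC ι K) (h : κ → K) {σ : Type} :
    (C (hc Θ h []) : NC σ K) = ∑ c, (C (h c) : NC σ K) * C (Θ c []) := by
  rw [hc_apply, map_sum]
  exact Finset.sum_congr rfl fun c _ => by rw [map_mul]

omit [CharZero K] in
/-- bilinear expansion of `quad` on sums of "scalar vector times series" -/
theorem quad_vec (f : NC ι K) (x y : ι → K) {σ : Type} (A B : NC σ K) :
    quad f (fun i => (C (x i) : NC σ K) * A) (fun i => (C (y i) : NC σ K) * B) =
      (C (∑ i, ∑ j, f [i, j] * x i * y j) : NC σ K) * (A * B) := by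
  unfold quad
  simp only [map_sum, Finset.sum_mul]
  refine Finset.sum_congr rfl fun i _ => Finset.sum_congr rfl fun j _ => ?_
  rw [map_mul, map_mul]
  have h1 : (C (x i) : NC σ K) * A * ((C (y j) : NC σ K) * B) =
      (C (x i) : NC σ K) * C (y j) * (A * B) := by
    rw [mul_assoc (C (x i)) A, ← mul_assoc A (C (y j)), ← C_mul_comm (y j) A]
    simp only [mul_assoc]
  rw [h1]
  simp only [mul_assoc]

omit [CharZero K] in
theorem quad_sum_left (f : NC ι K) {σ α : Type} [Fintype α] (X : α → ι → NC σ K) (Y : ι → NC σ K) :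
    quad f (fun i => ∑ a, X a i) Y = ∑ a, quad f (X a) Y := by
  unfold quad
  simp only [Finset.sum_mul, Finset.mul_sum]
  have h : ∀ i, ∑ j, ∑ a, (C (f [i, j]) : NC σ K) * (X a i * Y j) =
      ∑ a, ∑ j, (C (f [i, j]) : NC σ K) * (X a i * Y j) := fun i => Finset.sum_comm
  simp only [h]
  exact Finset.sum_comm

omit [CharZero K] in
theorem quad_sum_right (f : NC ι K) {σ α : Type} [Fintype α] (X : ι → NC σ K) (Y : α → ι → NC σ K) :
    quad f X (fun i => ∑ a, Y a i) = ∑ a, quad f X (Y a) := by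
  unfold quad
  simp only [Finset.mul_sum]
  have h : ∀ i, ∑ j, ∑ a, (C (f [i, j]) : NC σ K) * (X i * Y a j) =
      ∑ a, ∑ j, (C (f [i, j]) : NC σ K) * (X i * Y a j) := fun i => Finset.sum_comm
  simp only [h]
  exact Finset.sum_comm

omit [CharZero K] in
theorem quad_add_right (f : NC ι K) {σ : Type} (X Y Z : ι → NC σ K) :
    quad f X (fun i => Y i + Z i) = quad f X Y + quad f X Z := by
  simp only [quad, mul_add, Finset.sum_add_distrib]

omit [CharZero K] in
theorem quad_neg_right (f : NC ι K) {σ : Type} (X Y : ι → NC σ K) :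
    quad f X (fun i => - Y i) = - quad f X Y := by
  simp only [quad, mul_neg, Finset.sum_neg_distrib]

omit [CharZero K] in
theorem quad_neg_left (f : NC ι K) {σ : Type} (X Y : ι → NC σ K) :
    quad f (fun i => - X i) Y = - quad f X Y := by
  simp only [quad, mul_neg, neg_mul, Finset.sum_neg_distrib]

/-- The data used by the solver: the annihilator basis `h`, the vectors `u₁ u₂` and the dual
vectors. -/
structure SolverData (Θ : κ → NC ι K) (s : ℕ) (h : Fin s → κ → K) (u₁ u₂ : ι → K)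
    (v₁ v₂ : Fin s → ι → K) : Prop where
  hann : ∀ a i, ∑ c, h a c * Θ c [i] = 0
  hlin : ∀ r : κ → K, (∀ a, ∑ c, h a c * r c = 0) → ∃ y : ι → K, ∀ c, ∑ i, Θ c [i] * y i = r c
  ku₁ : ∀ c, ∑ i, Θ c [i] * u₁ i = 0
  ku₂ : ∀ c, ∑ i, Θ c [i] * u₂ i = 0
  kv₁ : ∀ b c, ∑ i, Θ c [i] * v₁ b i = 0
  kv₂ : ∀ b c, ∑ i, Θ c [i] * v₂ b i = 0
  alt : ∀ a (x y : ι → K), (∀ c, ∑ i, Θ c [i] * x i = 0) → (∀ c, ∑ i, Θ c [i] * y i = 0) →
    qf Θ (h a) x y + qf Θ (h a) y x = 0
  q12 : ∀ a, qf Θ (h a) u₁ u₂ = 0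
  d11 : ∀ a b, qf Θ (h a) u₁ (v₁ b) = if a = b then 1 else 0
  d21 : ∀ a b, qf Θ (h a) u₂ (v₁ b) = 0
  d12 : ∀ a b, qf Θ (h a) u₁ (v₂ b) = 0
  d22 : ∀ a b, qf Θ (h a) u₂ (v₂ b) = if a = b then 1 else 0

section Data

variable {Θ : κ → NC ι K} {s : ℕ} {h : Fin s → κ → K} {u₁ u₂ : ι → K} {v₁ v₂ : Fin s → ι → K}

omit [CharZero K] in
theorem qf_eq (h' : κ → K) (x y : ι → K) :
    ∑ i, ∑ j, (hc Θ h') [i, j] * x i * y j = qf Θ h' x y := by
  unfold qf
  simp only [hc_apply, qco]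

/-- the initial approximation `u₁ P + u₂ Q` -/
noncomputable def X1 (u₁ u₂ : ι → K) (i : ι) : NC (Fin 2) K :=
  (C (u₁ i) : NC (Fin 2) K) * X 0 + (C (u₂ i) : NC (Fin 2) K) * X 1

omit [CharZero K] [Fintype ι] in
theorem X1_ordGE (i : ι) : OrdGE 1 (X1 u₁ u₂ i) :=
  (ordGE_X 0).mul_left.add (ordGE_X 1).mul_left

omit [CharZero K] in
theorem quad_X1_left (f : NC ι K) (y : ι → K) (B : NC (Fin 2) K) :
    quad f (X1 u₁ u₂) (fun i => (C (y i) : NC (Fin 2) K) * B) =
      (C (∑ i, ∑ j, f [i, j] * u₁ i * y j) : NC (Fin 2) K) * (X 0 * B) +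
      (C (∑ i, ∑ j, f [i, j] * u₂ i * y j) : NC (Fin 2) K) * (X 1 * B) := by
  unfold X1
  rw [quad_add_left, quad_vec, quad_vec]

omit [CharZero K] in
theorem quad_X1_right (f : NC ι K) (y : ι → K) (B : NC (Fin 2) K) :
    quad f (fun i => (C (y i) : NC (Fin 2) K) * B) (X1 u₁ u₂) =
      (C (∑ i, ∑ j, f [i, j] * y i * u₁ j) : NC (Fin 2) K) * (B * X 0) +
      (C (∑ i, ∑ j, f [i, j] * y i * u₂ j) : NC (Fin 2) K) * (B * X 1) := by
  unfold X1
  rw [quad_add_right, quad_vec, quad_vec]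

omit [CharZero K] in
theorem lin_vec (f : NC ι K) (y : ι → K) {σ : Type} (B : NC σ K) :
    lin f (fun i => (C (y i) : NC σ K) * B) = (C (∑ i, f [i] * y i) : NC σ K) * B := by
  unfold lin
  rw [map_sum, Finset.sum_mul]
  exact Finset.sum_congr rfl fun i _ => by rw [map_mul, mul_assoc]

omit [CharZero K] in
theorem lin_hc_eq_zero (h' : κ → K) (hh : ∀ i, ∑ c, h' c * Θ c [i] = 0) {σ : Type}
    (X : ι → NC σ K) : lin (hc Θ h') X = 0 := by
  unfold lin
  refine Finset.sum_eq_zero fun i _ => ?_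
  rw [hc_apply, hh i, map_zero, zero_mul]

/-- killing the part of degree `n` in the image of the linear part -/
theorem correct (D : SolverData Θ s h u₁ u₂ v₁ v₂) {n : ℕ} (hn : 1 ≤ n) (X : ι → NC (Fin 2) K)
    (hX : ∀ i, OrdGE 1 (X i)) (hG : ∀ c, OrdGE n (tsub X (Θ c) - C (Θ c [])))
    (hH : ∀ a, OrdGE (n + 1) (tsub X (hc Θ (h a)) - C (hc Θ (h a) []))) :
    ∃ Y : ι → NC (Fin 2) K, (∀ i, OrdGE n (Y i)) ∧
      ∀ c, OrdGE (n + 1) (tsub (fun i => X i + Y i) (Θ c) - C (Θ c [])) := by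
  classical
  have hsol : ∀ w : List (Fin 2), ∃ y : ι → K, w.length = n → ∀ c, ∑ i, Θ c [i] * y i =
      (tsub X (Θ c) - C (Θ c []) : NC (Fin 2) K) w := by
    intro w
    by_cases hw : w.length = n
    · obtain ⟨y, hy⟩ := D.hlin (fun c => (tsub X (Θ c) - C (Θ c []) : NC (Fin 2) K) w) (fun a => by
        have h1 := hH a w (by omega)
        rw [tsub_hc, C_hc_nil, ← Finset.sum_sub_distrib, sum_apply] at h1
        rw [← h1]
        refine Finset.sum_congr rfl fun c _ => ?_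
        rw [← mul_sub, C_mul_apply])
      exact ⟨y, fun _ => hy⟩
    · exact ⟨0, fun h => absurd h hw⟩
  choose y hy using hsol
  refine ⟨fun i => ⟨fun w => if w.length = n then - y w i else 0⟩, ?_, ?_⟩
  · intro i w hw
    change (if w.length = n then _ else 0) = 0
    rw [if_neg (by omega)]
  · intro c
    set Y : ι → NC (Fin 2) K := fun i => ⟨fun w => if w.length = n then - y w i else 0⟩ with hYdef
    have hY : ∀ i, OrdGE n (Y i) := by
      intro i w hw
      change (if w.length = n then _ else 0) = 0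
      rw [if_neg (by omega)]
    have hlin : lin (Θ c) Y = - homog n (tsub X (Θ c) - C (Θ c [])) := by
      apply ext'
      intro w
      unfold lin
      rw [sum_apply, neg_apply, homog_apply]
      simp only [C_mul_apply]
      by_cases hw : w.length = n
      · rw [if_pos hw, ← hy w hw c, ← Finset.sum_neg_distrib]
        refine Finset.sum_congr rfl fun i _ => ?_
        change Θ c [i] * (if w.length = n then - y w i else 0) = _
        rw [if_pos hw, mul_neg]
      · rw [if_neg hw, neg_zero]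
        refine Finset.sum_eq_zero fun i _ => ?_
        change Θ c [i] * (if w.length = n then - y w i else 0) = _
        rw [if_neg hw, mul_zero]
    have h1 := tsub_congr1 X Y n hX hY hn (Θ c)
    have h2 := (hG c).sub_homog
    have h3 := h1.add h2
    rw [hlin] at h3
    exact h3.congr (by abel)

/-- approximate solution of order `n` -/
def Approx (Θ : κ → NC ι K) (u₁ u₂ : ι → K) (n : ℕ) (X : ι → NC (Fin 2) K) : Prop :=
  (∀ i, OrdGE 2 (X i - X1 u₁ u₂ i)) ∧ ∀ c, OrdGE (n + 1) (tsub X (Θ c) - C (Θ c []))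

theorem Approx.ordGE {Θ : κ → NC ι K} {n : ℕ} {X : ι → NC (Fin 2) K}
    (hX : Approx Θ u₁ u₂ n X) (i : ι) : OrdGE 1 (X i) := by
  have h1 := ((hX.1 i).mono (by norm_num : 1 ≤ 2)).add (X1_ordGE (u₁ := u₁) (u₂ := u₂) i)
  rwa [sub_add_cancel] at h1

theorem approx_two (D : SolverData Θ s h u₁ u₂ v₁ v₂) : ∃ X, Approx Θ u₁ u₂ 2 X := by
  have hlinX1 : ∀ f : NC ι K, (∑ i, f [i] * u₁ i = 0) → (∑ i, f [i] * u₂ i = 0) →
      lin f (X1 u₁ u₂) = 0 := by
    intro f h1 h2
    unfold X1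
    rw [lin_add, lin_vec, lin_vec, h1, h2, map_zero, zero_mul, zero_mul, add_zero]
  have hG : ∀ c, OrdGE 2 (tsub (X1 u₁ u₂) (Θ c) - C (Θ c [])) := by
    intro c
    have h1 := tsub_lin (X1 u₁ u₂) X1_ordGE (Θ c)
    rwa [hlinX1 _ (D.ku₁ c) (D.ku₂ c), add_zero] at h1
  have hH : ∀ a, OrdGE 3 (tsub (X1 u₁ u₂) (hc Θ (h a)) - C (hc Θ (h a) [])) := by
    intro a
    have h1 := tsub_quad (X1 u₁ u₂) X1_ordGE (hc Θ (h a))
    rw [lin_hc_eq_zero (h a) (D.hann a), add_zero] at h1
    have h11 : qf Θ (h a) u₁ u₁ = 0 := by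
      have := D.alt a u₁ u₁ D.ku₁ D.ku₁
      have h2 : (2 : K) * qf Θ (h a) u₁ u₁ = 0 := by rw [two_mul]; exact this
      exact (mul_eq_zero.mp h2).resolve_left two_ne_zero
    have h22 : qf Θ (h a) u₂ u₂ = 0 := by
      have := D.alt a u₂ u₂ D.ku₂ D.ku₂
      have h2 : (2 : K) * qf Θ (h a) u₂ u₂ = 0 := by rw [two_mul]; exact this
      exact (mul_eq_zero.mp h2).resolve_left two_ne_zero
    have h12 := D.q12 a
    have h21 : qf Θ (h a) u₂ u₁ = 0 := by
      have := D.alt a u₁ u₂ D.ku₁ D.ku₂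
      rwa [h12, zero_add] at this
    have hq : quad (hc Θ (h a)) (X1 u₁ u₂) (X1 u₁ u₂) = 0 := by
      have e : (X1 u₁ u₂ : ι → NC (Fin 2) K) = fun i => (C (u₁ i) : NC (Fin 2) K) * X 0 +
        (C (u₂ i) : NC (Fin 2) K) * X 1 := rfl
      conv_lhs => rw [e]
      rw [quad_add_left, quad_add_right, quad_add_right, quad_vec, quad_vec, quad_vec, quad_vec]
      simp only [qf_eq, h11, h12, h21, h22, map_zero, zero_mul, add_zero]
    rwa [hq, add_zero] at h1
  obtain ⟨Y, hY, hY'⟩ := correct D (n := 2) (by norm_num) (X1 u₁ u₂) X1_ordGE hG hH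
  refine ⟨fun i => X1 u₁ u₂ i + Y i, fun i => ?_, hY'⟩
  rw [add_sub_cancel_left]
  exact hY i

/-- one step of the solver -/
theorem approx_succ (D : SolverData Θ s h u₁ u₂ v₁ v₂) {n : ℕ} (hn : 2 ≤ n)
    (Xn : ι → NC (Fin 2) K) (hXn : Approx Θ u₁ u₂ n Xn)
    (hcyc : ∀ a (w : List (Fin 2)), w.length = n + 1 → ∑ k ∈ Finset.range (n + 1),
      (tsub Xn (hc Θ (h a)) - C (hc Θ (h a) []) : NC (Fin 2) K) (w.rotate k) = 0) :
    ∃ X', Approx Θ u₁ u₂ (n + 1) X' ∧ ∀ i, OrdGE n (X' i - Xn i) := by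
  classical
  have hX1 : ∀ i, OrdGE 1 (Xn i) := hXn.ordGE
  have hF : ∀ a, OrdGE (n + 1) (tsub Xn (hc Θ (h a)) - C (hc Θ (h a) [])) := by
    intro a
    rw [tsub_hc, C_hc_nil, ← Finset.sum_sub_distrib]
    refine OrdGE.sum _ _ fun c _ => ?_
    rw [← mul_sub]
    exact (hXn.2 c).mul_left
  have hA : ∀ a, ∃ A : Fin 2 → NC (Fin 2) K, (∀ t, OrdGE n (A t)) ∧
      OrdGE (n + 2) (tsub Xn (hc Θ (h a)) - C (hc Θ (h a) []) -
        ∑ t, ((X t : NC (Fin 2) K) * A t - A t * X t)) := by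
    intro a
    rcases exists_cyc_or_comm (n + 1) (Nat.succ_pos n) _ (hF a) with ⟨w, hw, hw'⟩ | hA
    · exact absurd (hcyc a w hw) hw'
    · simpa using hA
  choose A hA hA' using hA
  -- the correction
  set Z : ι → NC (Fin 2) K := fun i =>
    - ∑ b, ((C (v₁ b i) : NC (Fin 2) K) * A b 0 + (C (v₂ b i) : NC (Fin 2) K) * A b 1) with hZdef
  have hZ : ∀ i, OrdGE n (Z i) := fun i =>
    (OrdGE.sum _ _ fun b _ => (hA b 0).mul_left.add (hA b 1).mul_left).neg
  have hlinZ : ∀ f : NC ι K, (∀ b, ∑ i, f [i] * v₁ b i = 0) → (∀ b, ∑ i, f [i] * v₂ b i = 0) →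
      lin f Z = 0 := by
    intro f h1 h2
    have e : lin f Z = - ∑ b, (lin f (fun i => (C (v₁ b i) : NC (Fin 2) K) * A b 0) +
        lin f (fun i => (C (v₂ b i) : NC (Fin 2) K) * A b 1)) := by
      unfold lin
      simp only [hZdef, mul_neg, Finset.mul_sum, mul_add, Finset.sum_neg_distrib,
        Finset.sum_add_distrib]
      rw [Finset.sum_comm, Finset.sum_comm (f := fun i b => (C (f [i]) : NC (Fin 2) K) *
        ((C (v₂ b i) : NC (Fin 2) K) * A b 1))]
    rw [e]
    simp only [lin_vec, h1, h2, map_zero, zero_mul, add_zero, Finset.sum_const_zero, neg_zero]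
  -- the quadratic contribution
  have hquadZ : ∀ a, quad (hc Θ (h a)) Z (X1 u₁ u₂) + quad (hc Θ (h a)) (X1 u₁ u₂) Z =
      - ∑ t, ((X t : NC (Fin 2) K) * A a t - A a t * X t) := by
    intro a
    have hanti : ∀ x y : ι → K, (∀ c, ∑ i, Θ c [i] * x i = 0) → (∀ c, ∑ i, Θ c [i] * y i = 0) →
        qf Θ (h a) y x = - qf Θ (h a) x y := fun x y hx hy =>
      eq_neg_of_add_eq_zero_right (D.alt a x y hx hy)
    have e1 : quad (hc Θ (h a)) (X1 u₁ u₂) Z = - (X 0 * A a 0 + X 1 * A a 1) := by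
      rw [hZdef, quad_neg_right, quad_sum_right]
      congr 1
      simp only [quad_add_right, quad_X1_left, qf_eq, D.d11, D.d21, D.d12, D.d22, map_zero,
        zero_mul, add_zero, zero_add]
      rw [Finset.sum_add_distrib]
      congr 1
      · rw [Finset.sum_eq_single a]
        · simp
        · intro b _ hb; rw [if_neg (Ne.symm hb), map_zero, zero_mul]
        · simp
      · rw [Finset.sum_eq_single a]
        · simp
        · intro b _ hb; rw [if_neg (Ne.symm hb), map_zero, zero_mul]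
        · simp
    have e2 : quad (hc Θ (h a)) Z (X1 u₁ u₂) = A a 0 * X 0 + A a 1 * X 1 := by
      rw [hZdef, quad_neg_left, quad_sum_left]
      simp only [quad_add_left, quad_X1_right, qf_eq]
      have f1 : ∀ b, qf Θ (h a) (v₁ b) u₁ = - (if a = b then 1 else 0) := fun b => by
        rw [hanti u₁ (v₁ b) D.ku₁ (D.kv₁ b), D.d11]
      have f2 : ∀ b, qf Θ (h a) (v₁ b) u₂ = 0 := fun b => by
        rw [hanti u₂ (v₁ b) D.ku₂ (D.kv₁ b), D.d21, neg_zero]
      have f3 : ∀ b, qf Θ (h a) (v₂ b) u₁ = 0 := fun b => by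
        rw [hanti u₁ (v₂ b) D.ku₁ (D.kv₂ b), D.d12, neg_zero]
      have f4 : ∀ b, qf Θ (h a) (v₂ b) u₂ = - (if a = b then 1 else 0) := fun b => by
        rw [hanti u₂ (v₂ b) D.ku₂ (D.kv₂ b), D.d22]
      simp only [f1, f2, f3, f4, map_neg, map_zero, zero_mul, add_zero, zero_add]
      rw [Finset.sum_add_distrib, neg_add]
      congr 1
      · rw [Finset.sum_eq_single a]
        · simp
        · intro b _ hb; rw [if_neg (Ne.symm hb), map_zero, neg_zero, zero_mul]
        · simp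
      · rw [Finset.sum_eq_single a]
        · simp
        · intro b _ hb; rw [if_neg (Ne.symm hb), map_zero, neg_zero, zero_mul]
        · simp
    rw [e1, e2, Fin.sum_univ_two]
    abel
  have hXZ1 : ∀ i, OrdGE 1 (Xn i + Z i) := fun i => (hX1 i).add ((hZ i).mono (by omega))
  -- the annihilator part vanishes to order n + 2
  have hH : ∀ a, OrdGE (n + 1 + 1)
      (tsub (fun i => Xn i + Z i) (hc Θ (h a)) - C (hc Θ (h a) [])) := by
    intro a
    have h1 := tsub_congr2 Xn Z n hX1 hZ hn (hc Θ (h a))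
    rw [lin_hc_eq_zero (h a) (D.hann a), add_zero] at h1
    have h2 : OrdGE (n + 2) (quad (hc Θ (h a)) Z (fun i => Xn i - X1 u₁ u₂ i)) :=
      quad_ordGE _ _ _ hZ hXn.1
    have h3 : OrdGE (n + 2) (quad (hc Θ (h a)) (fun i => Xn i - X1 u₁ u₂ i) Z) := by
      have := quad_ordGE _ _ (hc Θ (h a)) hXn.1 hZ
      rwa [add_comm 2 n] at this
    rw [quad_sub_right] at h2
    rw [quad_sub_left] at h3
    have h4 := ((h1.add h2).add h3).add (hA' a)
    have h5 := hquadZ a
    rw [show n + 1 + 1 = n + 2 from rfl]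
    refine h4.congr ?_
    rw [← sub_eq_zero]
    rw [← sub_eq_zero] at h5
    rw [← neg_eq_zero, ← h5]
    abel
  have hG : ∀ c, OrdGE (n + 1) (tsub (fun i => Xn i + Z i) (Θ c) - C (Θ c [])) := by
    intro c
    have h1 := tsub_congr1 Xn Z n hX1 hZ (by omega) (Θ c)
    rw [hlinZ (Θ c) (fun b => D.kv₁ b c) (fun b => D.kv₂ b c), add_zero] at h1
    have h2 := h1.add (hXn.2 c)
    rwa [sub_add_sub_cancel] at h2
  obtain ⟨Y, hY, hY'⟩ := correct D (n := n + 1) (by omega) _ hXZ1 hG hH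
  refine ⟨fun i => Xn i + Z i + Y i, ⟨fun i => ?_, hY'⟩, fun i => ?_⟩
  · have h1 := ((hXn.1 i).add ((hZ i).mono hn)).add ((hY i).mono (by omega : 2 ≤ n + 1))
    exact h1.congr (by simp only []; abel)
  · have h1 := (hZ i).add ((hY i).mono (by omega : n ≤ n + 1))
    have e : (Xn i + Z i + Y i) - Xn i = Z i + Y i := by
      rw [add_assoc]; exact add_sub_cancel_left _ _
    exact h1.congr e.symm

/-- **The solver.** Either there is an exact solution with linear part `u₁ P + u₂ Q`, or there is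
an approximate solution whose first obstruction has a nonzero cyclic sum. -/
theorem solve_or_obstruct (D : SolverData Θ s h u₁ u₂ v₁ v₂) :
    (∃ X' : ι → NC (Fin 2) K, (∀ i, OrdGE 2 (X' i - X1 u₁ u₂ i)) ∧
      ∀ c, tsub X' (Θ c) = C (Θ c [])) ∨
    ∃ n, 2 ≤ n ∧ ∃ X', Approx Θ u₁ u₂ n X' ∧ ∃ a, ∃ w : List (Fin 2), w.length = n + 1 ∧
      ∑ k ∈ Finset.range (n + 1),
        (tsub X' (hc Θ (h a)) - C (hc Θ (h a) []) : NC (Fin 2) K) (w.rotate k) ≠ 0 := by
  classical
  by_cases hobs : ∃ n, 2 ≤ n ∧ ∃ X', Approx Θ u₁ u₂ n X' ∧ ∃ a, ∃ w : List (Fin 2),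
      w.length = n + 1 ∧ ∑ k ∈ Finset.range (n + 1),
        (tsub X' (hc Θ (h a)) - C (hc Θ (h a) []) : NC (Fin 2) K) (w.rotate k) ≠ 0
  · exact Or.inr hobs
  left
  push Not at hobs
  -- the sequence
  obtain ⟨X0, hX0⟩ := approx_two D
  have hstep : ∀ (n : ℕ) (p : {X' : ι → NC (Fin 2) K // Approx Θ u₁ u₂ (n + 2) X'}),
      ∃ q : {X' : ι → NC (Fin 2) K // Approx Θ u₁ u₂ (n + 1 + 2) X'},
        ∀ i, OrdGE (n + 2) (q.1 i - p.1 i) := by
    intro n p
    obtain ⟨X', h1, h2⟩ := approx_succ D (n := n + 2) (by omega) p.1 p.2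
      (fun a w hw => hobs (n + 2) (by omega) p.1 p.2 a w hw)
    exact ⟨⟨X', h1⟩, h2⟩
  choose next hnext using hstep
  let seq : (n : ℕ) → {X' : ι → NC (Fin 2) K // Approx Θ u₁ u₂ (n + 2) X'} := fun n =>
    Nat.rec ⟨X0, hX0⟩ (fun n p => next n p) n
  have hseq : ∀ n, ∀ i, OrdGE (n + 2) ((seq (n + 1)).1 i - (seq n).1 i) := fun n =>
    hnext n (seq n)
  have hcauchy : ∀ n m, n ≤ m → ∀ i, OrdGE (n + 2) ((seq m).1 i - (seq n).1 i) := by
    intro n m hnm
    induction m, hnm using Nat.le_induction with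
    | base => intro i; rw [sub_self]; exact OrdGE.zero _
    | succ m hm ih =>
      intro i
      have h1 := ((hseq m i).mono (by omega : n + 2 ≤ m + 2)).add (ih i)
      rwa [sub_add_sub_cancel] at h1
  let Xl : ι → NC (Fin 2) K := fun i => ⟨fun w => (seq w.length).1 i w⟩
  have hXl : ∀ n i, OrdGE (n + 2) (Xl i - (seq n).1 i) := by
    intro n i w hw
    rw [sub_apply]
    change (seq w.length).1 i w - (seq n).1 i w = 0
    rcases Nat.le_total n w.length with hl | hl
    · have := hcauchy n w.length hl i w hw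
      rwa [sub_apply] at this
    · have := hcauchy w.length n hl i w (by omega)
      rw [sub_apply] at this
      rw [← neg_eq_zero, neg_sub]
      exact this
  have hXl2 : ∀ i, OrdGE 2 (Xl i - X1 u₁ u₂ i) := by
    intro i
    have h1 := ((hXl 0 i).mono (by omega : 2 ≤ 0 + 2)).add ((seq 0).2.1 i)
    rwa [sub_add_sub_cancel] at h1
  have hXl1 : ∀ i, OrdGE 1 (Xl i) := by
    intro i
    have h1 := ((hXl2 i).mono (by norm_num : 1 ≤ 2)).add (X1_ordGE (u₁ := u₁) (u₂ := u₂) i)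
    rwa [sub_add_cancel] at h1
  refine ⟨Xl, hXl2, fun c => ?_⟩
  rw [← sub_eq_zero]
  apply ext'
  intro w
  have h1 := tsub_congr0 Xl (seq w.length).1 (w.length + 2) hXl1 (seq w.length).2.ordGE
    (hXl w.length) (Θ c)
  have h2 := (seq w.length).2.2 c
  have h3 := (h1.mono (by omega : w.length + 1 ≤ w.length + 2)).add
    (h2.mono (by omega : w.length + 1 ≤ w.length + 2 + 1))
  rw [sub_add_sub_cancel] at h3
  exact h3 w (by omega)

end Data

end Solver

end NC

end Crest.Agent.R180
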