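import Crest.Agent.R180.PRSDef
import Crest.Agent.R180.SSolve

set_option autoImplicit false
noncomputable section
namespace Crest.Agent.R180

/-! # Row 180, MODULE S: first and second order coefficients of the evaluation at a point -/

namespace SDer

variable {K E : Type} [CommRing K] [Ring E] [Algebra K E]

/-- the letters `z + ∑ x_i d_i` -/
def stepX {m μ : ℕ} (z : Fin m → PowerSeries E) (d : Fin μ → Fin m → PowerSeries E) (j : Fin m) :
    NC (Fin μ) (PowerSeries E) :=
  ⟨fun w => match w with
    | [] => z j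
    | [i] => d i j
    | _ :: _ :: _ => 0⟩

@[simp] theorem stepX_nil {m μ : ℕ} (z : Fin m → PowerSeries E)
    (d : Fin μ → Fin m → PowerSeries E) (j : Fin m) : stepX z d j [] = z j := rfl
@[simp] theorem stepX_single {m μ : ℕ} (z : Fin m → PowerSeries E)
    (d : Fin μ → Fin m → PowerSeries E) (j : Fin m) (i : Fin μ) : stepX z d j [i] = d i j := rfl
@[simp] theorem stepX_cons {m μ : ℕ} (z : Fin m → PowerSeries E)
    (d : Fin μ → Fin m → PowerSeries E) (j : Fin m) (i i' : Fin μ) (w : List (Fin μ)) :
    stepX z d j (i :: i' :: w) = 0 := rfl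

section General

variable {m μ : ℕ} (X : Fin m → NC (Fin μ) (PowerSeries E))
  (hX : ∀ j, PowerSeries.constantCoeff (X j []) = 0)

theorem hEv_eq (f : NC (Fin m) K) :
    hEv X hX f = NC.C (PowerSeries.C (algebraMap K E (f []))) +
      ∑ s, X s * hEv X hX (NC.ld s f) :=
  NC.subst_eq _ _ _ _ _ f

end General

variable {m μ : ℕ} (z : Fin m → PowerSeries E) (d : Fin μ → Fin m → PowerSeries E)
  (hz : ∀ j, PowerSeries.constantCoeff (z j) = 0)

theorem stepX_const (hz : ∀ j, PowerSeries.constantCoeff (z j) = 0) (j : Fin m) :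
    PowerSeries.constantCoeff (stepX z d j []) = 0 := hz j

/-- evaluation at `z` (constant coefficient) -/
def e0 (f : NC (Fin m) K) : PowerSeries E := hEv (stepX z d) (stepX_const z d hz) f []
/-- first derivative -/
def e1 (i : Fin μ) (f : NC (Fin m) K) : PowerSeries E :=
  hEv (stepX z d) (stepX_const z d hz) f [i]
/-- second derivative -/
def e2 (i j : Fin μ) (f : NC (Fin m) K) : PowerSeries E :=
  hEv (stepX z d) (stepX_const z d hz) f [i, j]

theorem e0_eq (f : NC (Fin m) K) :
    e0 z d hz f = PowerSeries.C (algebraMap K E (f [])) + ∑ s, z s * e0 z d hz (NC.ld s f) := by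
  unfold e0
  conv_lhs => rw [hEv_eq]
  rw [NC.add_apply, NC.sum_apply, NC.C_nil]
  rfl

theorem e1_eq (i : Fin μ) (f : NC (Fin m) K) :
    e1 z d hz i f = ∑ s, (d i s * e0 z d hz (NC.ld s f) + z s * e1 z d hz i (NC.ld s f)) := by
  unfold e0 e1
  conv_lhs => rw [hEv_eq]
  rw [NC.add_apply, NC.sum_apply, NC.C_cons, zero_add]
  rfl

theorem e2_eq (i j : Fin μ) (f : NC (Fin m) K) :
    e2 z d hz i j f = ∑ s, (d i s * e1 z d hz j (NC.ld s f) + z s * e2 z d hz i j (NC.ld s f)) := by
  unfold e1 e2
  conv_lhs => rw [hEv_eq]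
  rw [NC.add_apply, NC.sum_apply, NC.C_cons, zero_add]
  refine Finset.sum_congr rfl fun s _ => ?_
  rw [NC.mul_cons, NC.mul_cons]
  have h1 : (NC.ld j (NC.ld i (stepX z d s)) *
      hEv (stepX z d) (stepX_const z d hz) (NC.ld s f)) [] = 0 := by
    rw [NC.mul_nil]
    change (stepX z d s) (i :: [j]) * _ = 0
    rw [stepX_cons, zero_mul]
  rw [h1, zero_add]
  rfl

theorem coeff0_mul_of (a b : PowerSeries E) :
    PowerSeries.coeff 0 (a * b) = PowerSeries.coeff 0 a * PowerSeries.coeff 0 b := by
  rw [PowerSeries.coeff_mul]; simp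

theorem coeff1_mul_of (a b : PowerSeries E) :
    PowerSeries.coeff 1 (a * b) = PowerSeries.coeff 0 a * PowerSeries.coeff 1 b +
      PowerSeries.coeff 1 a * PowerSeries.coeff 0 b := by
  rw [PowerSeries.coeff_mul]
  rw [Finset.Nat.antidiagonal_succ]
  simp

include hz in
theorem cz0 (s : Fin m) : PowerSeries.coeff 0 (z s) = 0 := by
  rw [PowerSeries.coeff_zero_eq_constantCoeff_apply]; exact hz s

theorem c0e0 (f : NC (Fin m) K) : PowerSeries.coeff 0 (e0 z d hz f) = algebraMap K E (f []) := by
  rw [e0_eq, map_add, map_sum]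
  simp only [coeff0_mul_of, cz0 z hz, zero_mul, Finset.sum_const_zero, add_zero]
  simp

theorem c1e0 (f : NC (Fin m) K) :
    PowerSeries.coeff 1 (e0 z d hz f) = ∑ s, f [s] • PowerSeries.coeff 1 (z s) := by
  rw [e0_eq, map_add, map_sum]
  simp only [coeff1_mul_of, cz0 z hz, zero_mul, zero_add, c0e0]
  have h : PowerSeries.coeff 1 (PowerSeries.C (algebraMap K E (f []))) = 0 := by
    rw [PowerSeries.coeff_C]; simp
  rw [h, zero_add]
  refine Finset.sum_congr rfl fun s _ => ?_
  rw [NC.ld_apply, Algebra.smul_def, Algebra.commutes]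

theorem c0e1 (i : Fin μ) (f : NC (Fin m) K) :
    PowerSeries.coeff 0 (e1 z d hz i f) = ∑ s, f [s] • PowerSeries.coeff 0 (d i s) := by
  rw [e1_eq, map_sum]
  simp only [map_add, coeff0_mul_of, cz0 z hz, zero_mul, add_zero, c0e0]
  refine Finset.sum_congr rfl fun s _ => ?_
  rw [NC.ld_apply, Algebra.smul_def, Algebra.commutes]

theorem c1e1 (i : Fin μ) (f : NC (Fin m) K) :
    PowerSeries.coeff 1 (e1 z d hz i f) = ∑ s, f [s] • PowerSeries.coeff 1 (d i s) +
      ∑ s, ∑ r, f [s, r] • (PowerSeries.coeff 0 (d i s) * PowerSeries.coeff 1 (z r) +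
        PowerSeries.coeff 1 (z s) * PowerSeries.coeff 0 (d i r)) := by
  rw [e1_eq, map_sum]
  simp only [map_add, coeff1_mul_of, cz0 z hz, zero_mul, zero_add, c0e0, c1e0, c0e1]
  rw [← Finset.sum_add_distrib]
  refine Finset.sum_congr rfl fun s _ => ?_
  simp only [NC.ld_apply, smul_add, Finset.sum_add_distrib, Finset.mul_sum, mul_smul_comm]
  rw [Algebra.smul_def (f [s]), Algebra.commutes]
  abel

theorem c0e2 (i j : Fin μ) (f : NC (Fin m) K) :
    PowerSeries.coeff 0 (e2 z d hz i j f) =
      ∑ s, ∑ r, f [s, r] • (PowerSeries.coeff 0 (d i s) * PowerSeries.coeff 0 (d j r)) := by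
  rw [e2_eq, map_sum]
  simp only [map_add, coeff0_mul_of, cz0 z hz, zero_mul, add_zero, c0e1]
  refine Finset.sum_congr rfl fun s _ => ?_
  simp only [NC.ld_apply, Finset.mul_sum, mul_smul_comm]

/-- formal derivative -/
def der (g : PowerSeries E) : PowerSeries E :=
  PowerSeries.mk fun n => ((n + 1 : ℕ) : E) * PowerSeries.coeff (n + 1) g

theorem coeff_der (g : PowerSeries E) (n : ℕ) :
    PowerSeries.coeff n (der g) = ((n + 1 : ℕ) : E) * PowerSeries.coeff (n + 1) g :=
  PowerSeries.coeff_mk _ _

theorem der_mul (a b : PowerSeries E) : der (a * b) = der a * b + a * der b := by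
  ext n
  rw [coeff_der, map_add, PowerSeries.coeff_mul, PowerSeries.coeff_mul, PowerSeries.coeff_mul,
    Finset.mul_sum]
  have h1 : ∀ p ∈ Finset.HasAntidiagonal.antidiagonal (n + 1),
      ((n + 1 : ℕ) : E) * (PowerSeries.coeff p.1 a * PowerSeries.coeff p.2 b) =
      (p.1 : E) * PowerSeries.coeff p.1 a * PowerSeries.coeff p.2 b +
      PowerSeries.coeff p.1 a * ((p.2 : E) * PowerSeries.coeff p.2 b) := by
    intro p hp
    rw [Finset.HasAntidiagonal.mem_antidiagonal] at hp
    rw [← hp, Nat.cast_add, add_mul, ← mul_assoc, ← mul_assoc, ← mul_assoc,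
      (Nat.cast_commute p.2 (PowerSeries.coeff p.1 a)).eq]
  rw [Finset.sum_congr rfl h1, Finset.sum_add_distrib]
  congr 1
  · rw [Finset.Nat.sum_antidiagonal_succ]
    simp [coeff_der]
  · rw [Finset.Nat.sum_antidiagonal_succ']
    simp [coeff_der]

theorem der_add (a b : PowerSeries E) : der (a + b) = der a + der b := by
  ext n; simp [coeff_der, mul_add]

theorem der_C (c : E) : der (PowerSeries.C c) = 0 := by
  ext n; simp [coeff_der]

theorem der_sum {α : Type*} (s : Finset α) (g : α → PowerSeries E) :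
    der (∑ i ∈ s, g i) = ∑ i ∈ s, der (g i) := by
  classical
  induction s using Finset.induction_on with
  | empty => ext n; simp [coeff_der]
  | insert a s ha ih => rw [Finset.sum_insert ha, Finset.sum_insert ha, der_add, ih]

/-- in the direction `dz/dt` the derivative is the derivative of the value -/
theorem e1_der (i : Fin μ) (hd : ∀ s, d i s = der (z s)) (f : NC (Fin m) K) :
    e1 z d hz i f = der (e0 z d hz f) := by
  have key : ∀ n : ℕ, ∀ f : NC (Fin m) K, ∀ k < n,
      PowerSeries.coeff k (der (e0 z d hz f) - e1 z d hz i f) = 0 := by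
    intro n
    induction n with
    | zero => intro f k hk; exact absurd hk (Nat.not_lt_zero _)
    | succ n ih =>
      intro f k hk
      have e : der (e0 z d hz f) - e1 z d hz i f =
          ∑ s, z s * (der (e0 z d hz (NC.ld s f)) - e1 z d hz i (NC.ld s f)) := by
        conv_lhs => rw [e0_eq, e1_eq, der_add, der_C, zero_add, der_sum]
        rw [← Finset.sum_sub_distrib]
        refine Finset.sum_congr rfl fun s _ => ?_
        rw [der_mul, hd, mul_sub]
        abel
      rw [e, map_sum]
      refine Finset.sum_eq_zero fun s _ => ?_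
      rw [PowerSeries.coeff_mul]
      refine Finset.sum_eq_zero fun p hp => ?_
      rw [Finset.HasAntidiagonal.mem_antidiagonal] at hp
      rcases Nat.eq_zero_or_pos p.1 with h0 | h0
      · rw [h0, cz0 z hz, zero_mul]
      · rw [ih (NC.ld s f) p.2 (by omega), mul_zero]
  ext k
  have := key (k + 1) f k (Nat.lt_succ_self k)
  rw [map_sub, sub_eq_zero] at this
  exact this.symm

/-! ### values at `t p` and composition -/

theorem evp_const (p : Fin 2 → E) (i : Fin 2) :
    PowerSeries.constantCoeff ((NC.C (PowerSeries.X * PowerSeries.C (p i)) :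
      NC (Fin 0) (PowerSeries E)) []) = 0 := by
  rw [NC.C_nil, map_mul]; simp

/-- value at the point `t p` -/
def evp (p : Fin 2 → E) : NC (Fin 2) K →+* PowerSeries E :=
  (NC.res (σ := Fin 0)).comp (hEv (fun i => NC.C (PowerSeries.X * PowerSeries.C (p i)))
    (evp_const p))

theorem evp_eq (p : Fin 2 → E) (f : NC (Fin 2) K) :
    evp p f = PowerSeries.C (algebraMap K E (f [])) +
      ∑ i, (PowerSeries.X * PowerSeries.C (p i)) * evp p (NC.ld i f) := by
  unfold evp
  rw [RingHom.comp_apply, hEv_eq, NC.res_apply, NC.add_apply, NC.sum_apply, NC.C_nil]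
  rfl

theorem coeff_evp (p : Fin 2 → E) (n : ℕ) (f : NC (Fin 2) K) :
    PowerSeries.coeff n (evp p f) =
      ∑ v : Fin n → Fin 2, f (List.ofFn v) • (List.ofFn fun k => p (v k)).prod := by
  induction n generalizing f with
  | zero =>
    rw [evp_eq, map_add, map_sum]
    simp only [mul_assoc, PowerSeries.coeff_zero_X_mul, Finset.sum_const_zero, add_zero]
    simp [Algebra.algebraMap_eq_smul_one]
  | succ n ih =>
    rw [evp_eq, map_add, map_sum]
    simp only [mul_assoc, PowerSeries.coeff_succ_X_mul, PowerSeries.coeff_C_mul, ih]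
    have h0 : PowerSeries.coeff (n + 1) (PowerSeries.C (algebraMap K E (f []))) = 0 := by
      rw [PowerSeries.coeff_C]; simp
    rw [h0, zero_add, ← (Fin.consEquiv (fun _ : Fin (n + 1) => Fin 2)).sum_comp,
      Fintype.sum_prod_type]
    refine Finset.sum_congr rfl fun i _ => ?_
    rw [Finset.mul_sum]
    refine Finset.sum_congr rfl fun v _ => ?_
    simp only [Fin.consEquiv_apply, List.ofFn_succ, Fin.cons_zero, Fin.cons_succ, List.prod_cons,
      mul_smul_comm, NC.ld_apply]

theorem coeff_evp_of_ordGE (p : Fin 2 → E) {n : ℕ} {f : NC (Fin 2) K} (hf : NC.OrdGE n f) (k : ℕ)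
    (hk : k < n) : PowerSeries.coeff k (evp p f) = 0 := by
  rw [coeff_evp]
  refine Finset.sum_eq_zero fun v _ => ?_
  rw [hf _ (by rw [List.length_ofFn]; exact hk), zero_smul]

theorem evp_C (p : Fin 2 → E) (k : K) : evp p (NC.C k) = PowerSeries.C (algebraMap K E k) := by
  unfold evp hEv
  rw [RingHom.comp_apply, NC.subst_C]
  simp

/-- composition: the value of `f` at `z = X'(t p)` is the value of `f(X')` at `t p`. -/
theorem e0_comp (p : Fin 2 → E) (X' : Fin m → NC (Fin 2) K) (hX' : ∀ j, X' j [] = 0)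
    (hzX : ∀ j, z j = evp p (X' j)) (f : NC (Fin m) K) :
    e0 z d hz f = evp p (NC.tsub X' f) := by
  have h1 := NC.subst_unique (CFilt.powerSeries E) ((PowerSeries.C (R := E)).comp (algebraMap K E))
    z (fun i => by
      rw [CFilt.mem_powerSeries]
      intro j hj
      have : j = 0 := by omega
      subst this
      exact cz0 z hz i)
    (fun k i => by
      ext n
      rw [RingHom.comp_apply, PowerSeries.coeff_C_mul, PowerSeries.coeff_mul_C]
      exact Algebra.commutes k _)
    (e0 z d hz) (fun f => e0_eq z d hz f) f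
  have h2 := NC.subst_unique (CFilt.powerSeries E) ((PowerSeries.C (R := E)).comp (algebraMap K E))
    z (fun i => by
      rw [CFilt.mem_powerSeries]
      intro j hj
      have : j = 0 := by omega
      subst this
      exact cz0 z hz i)
    (fun k i => by
      ext n
      rw [RingHom.comp_apply, PowerSeries.coeff_C_mul, PowerSeries.coeff_mul_C]
      exact Algebra.commutes k _)
    (fun f => evp p (NC.tsub X' f)) (fun f => by
      rw [NC.tsub_eq X' hX' f, map_add, map_sum, evp_C]
      simp only [map_mul, ← hzX]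
      rfl) f
  rw [h1]
  exact h2.symm

end SDer

end Crest.Agent.R180
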