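import Crest.Agent.R180.SAlg

set_option autoImplicit false
set_option linter.unusedSectionVars false

/-! # Row 180, MODULE S: directions complementary to inner directions -/

noncomputable section
namespace Crest.Agent.R180.SAlg

open Module

variable {K F1 E : Type} [Field K] [Field F1] [CharZero F1] [Algebra K F1] [Ring E] [IsDomain E]
  [Algebra F1 E] [Algebra K E] [IsScalarTower K F1 E] [FiniteDimensional F1 E]

variable (F1) in
include F1 in
/-- a nonzero element is not a commutator `[g, p]` with itself -/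
theorem comm_ne_self {g p : E} (hp : p ≠ 0) : g * p - p * g ≠ p := by
  intro h
  obtain ⟨p', hp'⟩ := exists_mul_eq F1 hp 1
  have hp'p : p' * p = 1 := by
    apply mul_left_cancel₀ hp
    rw [← mul_assoc, hp', one_mul, mul_one]
  have h1 : g - p * (g * p') = 1 := by
    have := congrArg (fun x => x * p') h
    simp only [sub_mul, mul_assoc, hp', mul_one] at this
    exact this
  have h2 : LinearMap.trace F1 E (LinearMap.mulLeft F1 g) -
      LinearMap.trace F1 E (LinearMap.mulLeft F1 (p * (g * p'))) =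
      LinearMap.trace F1 E (LinearMap.mulLeft F1 1) := by
    rw [← map_sub, ← h1]
    congr 1
    ext x
    simp only [LinearMap.sub_apply, LinearMap.mulLeft_apply, sub_mul]
  have h3 : LinearMap.trace F1 E (LinearMap.mulLeft F1 (p * (g * p'))) =
      LinearMap.trace F1 E (LinearMap.mulLeft F1 g) := by
    have e1 : LinearMap.mulLeft F1 (p * (g * p')) =
        LinearMap.mulLeft F1 p * LinearMap.mulLeft F1 (g * p') := by
      ext x; simp [mul_assoc]
    have e2 : LinearMap.mulLeft F1 (g * p') * LinearMap.mulLeft F1 p = LinearMap.mulLeft F1 g := by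
      ext x
      simp only [Module.End.mul_apply, LinearMap.mulLeft_apply]
      rw [mul_assoc g p', ← mul_assoc p', hp'p, one_mul]
    rw [e1, LinearMap.trace_mul_comm, e2]
  rw [h3, sub_self] at h2
  have e4 : LinearMap.mulLeft F1 (1 : E) = 1 := by ext x; simp
  rw [e4, LinearMap.trace_one] at h2
  have h5 : (finrank F1 E : F1) ≠ 0 := by
    rw [Nat.cast_ne_zero]
    exact (finrank_pos (R := F1) (M := E)).ne'
  exact h5 h2.symm

omit [CharZero F1] [Algebra K F1] [Algebra K E] [IsScalarTower K F1 E] [Algebra F1 E]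
  [FiniteDimensional F1 E] [IsDomain E] in
/-- functionals dual to a linearly independent pair -/
theorem exists_dual_pair {m : ℕ} (u₁ u₂ : Fin m → K)
    (hu : ∀ α β : K, (∀ i, α * u₁ i + β * u₂ i = 0) → α = 0 ∧ β = 0) :
    ∃ α₁ α₂ : Fin m → K, (∑ i, α₁ i * u₁ i = 1 ∧ ∑ i, α₁ i * u₂ i = 0) ∧
      (∑ i, α₂ i * u₁ i = 0 ∧ ∑ i, α₂ i * u₂ i = 1) := by
  classical
  let T : (K × K) →ₗ[K] (Fin m → K) :=
    { toFun := fun x i => x.1 * u₁ i + x.2 * u₂ i
      map_add' := fun x y => by funext i; simp; ring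
      map_smul' := fun c x => by funext i; simp; ring }
  have hT : LinearMap.ker T = ⊥ := by
    rw [LinearMap.ker_eq_bot']
    intro x hx
    have := hu x.1 x.2 (fun i => congrFun hx i)
    exact Prod.ext this.1 this.2
  obtain ⟨g, hg⟩ := LinearMap.exists_leftInverse_of_injective T hT
  have h1 : g u₁ = (1, 0) := by
    have := LinearMap.congr_fun hg ((1, 0) : K × K)
    rw [← show T (1, 0) = u₁ from by funext i; simp [T]]
    simpa using this
  have h2 : g u₂ = (0, 1) := by
    have := LinearMap.congr_fun hg ((0, 1) : K × K)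
    rw [← show T (0, 1) = u₂ from by funext i; simp [T]]
    simpa using this
  have hmat : ∀ v : Fin m → K, g v = (∑ i, (g (Pi.single i 1)).1 * v i,
      ∑ i, (g (Pi.single i 1)).2 * v i) := by
    intro v
    conv_lhs => rw [pi_eq_sum_univ' v]
    rw [map_sum]
    refine Prod.ext ?_ ?_
    · rw [Prod.fst_sum]
      refine Finset.sum_congr rfl fun i _ => ?_
      rw [map_smul, Prod.smul_fst, smul_eq_mul, mul_comm]
    · rw [Prod.snd_sum]
      refine Finset.sum_congr rfl fun i _ => ?_
      rw [map_smul, Prod.smul_snd, smul_eq_mul, mul_comm]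
  refine ⟨fun i => (g (Pi.single i 1)).1, fun i => (g (Pi.single i 1)).2, ⟨?_, ?_⟩, ?_, ?_⟩
  · have := hmat u₁; rw [h1] at this; exact (congrArg Prod.fst this).symm
  · have := hmat u₂; rw [h2] at this; exact (congrArg Prod.fst this).symm
  · have := hmat u₁; rw [h1] at this; exact (congrArg Prod.snd this).symm
  · have := hmat u₂; rw [h2] at this; exact (congrArg Prod.snd this).symm

theorem exists_S0 {m : ℕ} (p : Fin 2 → E) (hp0 : p 0 ≠ 0 ∨ p 1 ≠ 0) (u₁ u₂ : Fin m → K)
    (L : Submodule K (Fin m → K))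
    (hL : ∀ v ∈ L, ∀ α β : K, (∀ i, v i + α * u₁ i + β * u₂ i = 0) → α = 0 ∧ β = 0)
    (z1 : Fin m → E) (hz1 : ∀ i, z1 i = u₁ i • p 0 + u₂ i • p 1) :
    ∃ S0 : Submodule F1 (Fin m → E),
      (∀ y : Fin m → E, ∃ v ∈ S0, ∃ x0 x1 : E, y = fun i => v i + u₁ i • x0 + u₂ i • x1) ∧
      (∀ v ∈ L, ∀ x : E, (fun i => v i • x) ∈ S0) ∧
      (∀ v ∈ S0, ∀ (α : F1) (g : E), (∀ i, v i + α • z1 i = g * z1 i - z1 i * g) →
        v = 0 ∧ α = 0) ∧
      m * finrank F1 E ≤ finrank F1 S0 + finrank F1 E := by
  classical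
  -- the functionals
  have hf : ∃ α₁ α₂ : Fin m → K, (∑ i, α₁ i * u₁ i = 1) ∧ (∑ i, α₁ i * u₂ i = 0) ∧
      (∑ i, α₂ i * u₁ i = 0) ∧ (∑ i, α₂ i * u₂ i = 1) ∧ (∀ v ∈ L, ∑ i, α₁ i * v i = 0) ∧
      (∀ v ∈ L, ∑ i, α₂ i * v i = 0) := by
    have aux : ∀ (a b : Fin m → K), a ∉ L ⊔ Submodule.span K {b} →
        ∃ α : Fin m → K, (∑ i, α i * a i = 1) ∧ (∑ i, α i * b i = 0) ∧
          ∀ v ∈ L, ∑ i, α i * v i = 0 := by
      intro a b hab
      obtain ⟨f, hfa, hfL⟩ := Submodule.exists_le_ker_of_notMem hab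
      have hmat : ∀ v : Fin m → K, f v = ∑ i, f (Pi.single i 1) * v i := by
        intro v
        conv_lhs => rw [pi_eq_sum_univ' v]
        rw [map_sum]
        refine Finset.sum_congr rfl fun i _ => ?_
        rw [map_smul, smul_eq_mul, mul_comm]
      refine ⟨fun i => (f a)⁻¹ * f (Pi.single i 1), ?_, ?_, ?_⟩
      · simp only [mul_assoc, ← Finset.mul_sum]
        rw [← hmat, inv_mul_cancel₀ hfa]
      · simp only [mul_assoc, ← Finset.mul_sum]
        rw [← hmat, hfL (Submodule.mem_sup_right (Submodule.mem_span_singleton_self b)), mul_zero]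
      · intro v hv
        simp only [mul_assoc, ← Finset.mul_sum]
        rw [← hmat, hfL (Submodule.mem_sup_left hv), mul_zero]
    have h1 : u₁ ∉ L ⊔ Submodule.span K {u₂} := by
      intro hmem
      rw [Submodule.mem_sup] at hmem
      obtain ⟨v, hv, y, hy, hvy⟩ := hmem
      rw [Submodule.mem_span_singleton] at hy
      obtain ⟨c, rfl⟩ := hy
      have := (hL v hv (-1) c (fun i => by
        have := congrFun hvy i
        simp only [Pi.add_apply, Pi.smul_apply, smul_eq_mul] at this
        rw [← this]; ring)).1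
      norm_num at this
    have h2 : u₂ ∉ L ⊔ Submodule.span K {u₁} := by
      intro hmem
      rw [Submodule.mem_sup] at hmem
      obtain ⟨v, hv, y, hy, hvy⟩ := hmem
      rw [Submodule.mem_span_singleton] at hy
      obtain ⟨c, rfl⟩ := hy
      have := (hL v hv c (-1) (fun i => by
        have := congrFun hvy i
        simp only [Pi.add_apply, Pi.smul_apply, smul_eq_mul] at this
        rw [← this]; ring)).2
      norm_num at this
    obtain ⟨α₁, a1, a2, a3⟩ := aux u₁ u₂ h1
    obtain ⟨α₂, b1, b2, b3⟩ := aux u₂ u₁ h2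
    exact ⟨α₁, α₂, a1, a2, b2, b1, a3, b3⟩
  obtain ⟨α₁, α₂, a11, a12, a21, a22, aL1, aL2⟩ := hf
  -- functionals over E
  let A : (Fin m → K) → (Fin m → E) →ₗ[F1] E := fun α =>
    { toFun := fun y => ∑ i, α i • y i
      map_add' := fun x y => by simp [smul_add, Finset.sum_add_distrib]
      map_smul' := fun c x => by
        simp only [Pi.smul_apply, RingHom.id_apply, Finset.smul_sum]
        exact Finset.sum_congr rfl fun i _ => smul_comm _ _ _ }
  have hA : ∀ α y, A α y = ∑ i, α i • y i := fun _ _ => rfl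
  have hAvec : ∀ (α v : Fin m → K) (x : E), A α (fun i => v i • x) = (∑ i, α i * v i) • x := by
    intro α v x
    rw [hA, Finset.sum_smul]
    exact Finset.sum_congr rfl fun i _ => smul_smul _ _ _
  have hA2 : ∀ (α : Fin m → K) (x0 x1 : E), A α (fun i => u₁ i • x0 + u₂ i • x1) =
      (∑ i, α i * u₁ i) • x0 + (∑ i, α i * u₂ i) • x1 := by
    intro α x0 x1
    rw [← hAvec, ← hAvec, ← map_add]
    rfl
  let G : Submodule F1 (Fin m → E) := LinearMap.ker (A α₁) ⊓ LinearMap.ker (A α₂)
  -- inner directions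
  let ad : E →ₗ[F1] (Fin m → E) :=
    { toFun := fun g i => g * z1 i - z1 i * g
      map_add' := fun x y => by funext i; simp [add_mul, mul_add]; abel
      map_smul' := fun c x => by
        funext i
        simp only [RingHom.id_apply, Pi.smul_apply, smul_sub, smul_mul_assoc, mul_smul_comm] }
  have had : ∀ g i, ad g i = g * z1 i - z1 i * g := fun _ _ => rfl
  have had2 : ∀ g, ad g = fun i => u₁ i • (g * p 0 - p 0 * g) + u₂ i • (g * p 1 - p 1 * g) := by
    intro g
    funext i
    rw [had, hz1]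
    simp only [mul_add, add_mul, mul_smul_comm, smul_mul_assoc, smul_sub]
    abel
  have hz1f : z1 = fun i => u₁ i • p 0 + u₂ i • p 1 := funext hz1
  let J : Submodule F1 (Fin m → E) := LinearMap.range ad ⊔ Submodule.span F1 {z1}
  have hJ : ∀ y ∈ J, ∃ x0 x1 : E, y = fun i => u₁ i • x0 + u₂ i • x1 := by
    intro y hy
    rw [Submodule.mem_sup] at hy
    obtain ⟨a, ⟨g, rfl⟩, b, hb, rfl⟩ := hy
    rw [Submodule.mem_span_singleton] at hb
    obtain ⟨c, rfl⟩ := hb
    refine ⟨(g * p 0 - p 0 * g) + c • p 0, (g * p 1 - p 1 * g) + c • p 1, ?_⟩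
    funext i
    rw [Pi.add_apply, had2, Pi.smul_apply, hz1, smul_add c, smul_comm c, smul_comm c]
    simp only [smul_add]
    abel
  have hdisj : Disjoint G J := by
    rw [Submodule.disjoint_def]
    intro y hyG hyJ
    obtain ⟨x0, x1, rfl⟩ := hJ y hyJ
    have h1 : A α₁ (fun i => u₁ i • x0 + u₂ i • x1) = 0 := hyG.1
    have h2 : A α₂ (fun i => u₁ i • x0 + u₂ i • x1) = 0 := hyG.2
    rw [hA2, a11, a12, one_smul, zero_smul, add_zero] at h1
    rw [hA2, a21, a22, one_smul, zero_smul, zero_add] at h2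
    funext i
    rw [h1, h2, smul_zero, smul_zero, add_zero]
    rfl
  obtain ⟨S0, hGS, hcompl⟩ := hdisj.exists_isCompl
  refine ⟨S0, ?_, ?_, ?_, ?_⟩
  · intro y
    refine ⟨y - (fun i => u₁ i • A α₁ y + u₂ i • A α₂ y), hGS ⟨?_, ?_⟩, A α₁ y, A α₂ y, ?_⟩
    · change A α₁ _ = 0
      rw [map_sub, hA2, a11, a12, one_smul, zero_smul, add_zero, sub_self]
    · change A α₂ _ = 0
      rw [map_sub, hA2, a21, a22, one_smul, zero_smul, zero_add, sub_self]
    · funext i
      simp only [Pi.sub_apply]
      abel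
  · intro v hv x
    refine hGS ⟨?_, ?_⟩
    · change A α₁ _ = 0
      rw [hAvec, aL1 v hv, zero_smul]
    · change A α₂ _ = 0
      rw [hAvec, aL2 v hv, zero_smul]
  · intro v hv α g hvg
    have h1 : v = ad g - α • z1 := by
      funext i
      rw [Pi.sub_apply, had, Pi.smul_apply, ← hvg i]
      abel
    have h2 : v ∈ J := by
      rw [h1]
      exact J.sub_mem (Submodule.mem_sup_left ⟨g, rfl⟩)
        (J.smul_mem α (Submodule.mem_sup_right (Submodule.mem_span_singleton_self z1)))
    have h3 : v = 0 := (Submodule.disjoint_def.mp hcompl.disjoint) v hv h2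
    refine ⟨h3, ?_⟩
    by_contra hα
    rw [h3] at h1
    have h4 : α • z1 = ad g := (sub_eq_zero.mp h1.symm).symm
    rcases hp0 with hp0 | hp1
    · have h5 := congrArg (A α₁) h4
      rw [map_smul, hz1f, had2, hA2, hA2, a11, a12, one_smul, zero_smul, add_zero, one_smul,
        zero_smul, add_zero] at h5
      have h6 : (α⁻¹ • g) * p 0 - p 0 * (α⁻¹ • g) = p 0 := by
        rw [smul_mul_assoc, mul_smul_comm, ← smul_sub, ← h5, smul_smul, inv_mul_cancel₀ hα,
          one_smul]
      exact comm_ne_self F1 hp0 h6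
    · have h5 := congrArg (A α₂) h4
      rw [map_smul, hz1f, had2, hA2, hA2, a21, a22, one_smul, zero_smul, zero_add, one_smul,
        zero_smul, zero_add] at h5
      have h6 : (α⁻¹ • g) * p 1 - p 1 * (α⁻¹ • g) = p 1 := by
        rw [smul_mul_assoc, mul_smul_comm, ← smul_sub, ← h5, smul_smul, inv_mul_cancel₀ hα,
          one_smul]
      exact comm_ne_self F1 hp1 h6
  · have h1 : finrank F1 (Fin m → E) = m * finrank F1 E := by
      rw [finrank_pi_fintype]; simp
    have h2 := Submodule.finrank_add_eq_of_isCompl hcompl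
    have h3 : finrank F1 J ≤ finrank F1 (LinearMap.range ad) + 1 := by
      have h4 := Submodule.finrank_add_le_finrank_add_finrank (LinearMap.range ad)
        (Submodule.span F1 {z1})
      have h5 : finrank F1 (Submodule.span F1 {z1}) ≤ 1 := by
        have := finrank_span_le_card (R := F1) ({z1} : Set (Fin m → E))
        simpa using this
      exact h4.trans (by omega)
    have h4 := ad.finrank_range_add_finrank_ker
    have h5 : 0 < finrank F1 (LinearMap.ker ad) := by
      rw [Module.finrank_pos_iff_exists_ne_zero]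
      refine ⟨⟨1, ?_⟩, fun hcon => one_ne_zero (congrArg Subtype.val hcon)⟩
      rw [LinearMap.mem_ker]
      funext i
      rw [had, one_mul, mul_one, sub_self]
      rfl
    omega

end Crest.Agent.R180.SAlg
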