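import Crest.Agent.R180.SStep

set_option autoImplicit false
set_option linter.unusedSectionVars false

/-! # Row 180, MODULE S: the moves used in Theorem S are good -/

noncomputable section
namespace Crest.Agent.R180

namespace SStep

open Module SAlg SDer

variable {F1 E : Type} [Field F1] [Ring E] [Algebra F1 E]

theorem co_tp_mul_int (a : ℤ) (x : LD E) (hx : LD.IsInt x) :
    (∀ n < a, (LD.tp a * x).co n = 0) ∧ (LD.tp a * x).co a = x.co 0 := by
  constructor
  · intro n hn
    rw [LD.co_tp_mul]; exact hx _ (by omega)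
  · rw [LD.co_tp_mul, sub_self]

/-- factoring out the order -/
theorem exists_factor (x : LD E) (q : ℤ) (h : ∀ n < q, x.co n = 0) :
    ∃ y : LD E, x = LD.tp q * y ∧ LD.IsInt y ∧ y.co 0 = x.co q := by
  refine ⟨LD.tp (-q) * x, ?_, ?_, ?_⟩
  · rw [← mul_assoc, LD.tp_mul_tp, add_neg_cancel, LD.tp_zero, one_mul]
  · intro n hn
    rw [LD.co_tp_mul]; exact h _ (by omega)
  · rw [LD.co_tp_mul, zero_sub, neg_neg]

theorem factor_z (z : PowerSeries E) (hz : PowerSeries.constantCoeff z = 0) :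
    ∃ y : LD E, LD.ofPS z = LD.tp 1 * y ∧ LD.IsInt y ∧ y.co 0 = PowerSeries.coeff 1 z := by
  obtain ⟨y, h1, h2, h3⟩ := exists_factor (LD.ofPS z) 1 (fun n hn => by
    rcases lt_or_ge n 0 with h | h
    · exact LD.co_ofPS_neg _ _ h
    · have : n = 0 := by omega
      subst this
      have := LD.co_ofPS z 0
      rw [Nat.cast_zero] at this
      rw [this, PowerSeries.coeff_zero_eq_constantCoeff_apply, hz])
  refine ⟨y, h1, h2, ?_⟩
  rw [h3]
  exact LD.co_ofPS z 1

theorem comm_tp (q : ℤ) (G Z : LD E) :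
    (LD.tp q * G) * (LD.tp 1 * Z) - (LD.tp 1 * Z) * (LD.tp q * G) =
      LD.tp (q + 1) * (G * Z - Z * G) := by
  have h1 : (LD.tp q * G) * (LD.tp 1 * Z) = LD.tp (q + 1) * (G * Z) := by
    rw [mul_assoc, ← mul_assoc G, ← LD.tp_commute 1 G, mul_assoc, ← mul_assoc, LD.tp_mul_tp]
  have h2 : (LD.tp 1 * Z) * (LD.tp q * G) = LD.tp (q + 1) * (Z * G) := by
    rw [mul_assoc, ← mul_assoc Z, ← LD.tp_commute q Z, mul_assoc, ← mul_assoc, LD.tp_mul_tp,
      add_comm 1 q]
  rw [h1, h2, mul_sub]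

theorem indep_res {m μ : ℕ} (z : Fin m → PowerSeries E)
    (hz : ∀ j, PowerSeries.constantCoeff (z j) = 0) (d : Fin μ → Fin m → PowerSeries E)
    (hcen : ∀ g : E, (∀ j, g * PowerSeries.coeff 1 (z j) = PowerSeries.coeff 1 (z j) * g) →
      ∃ c : F1, algebraMap F1 E c = g)
    (hc : ∀ (x : Fin μ → F1) (g : E), (∀ j, ∑ i, x i • PowerSeries.coeff 0 (d i j) =
      g * PowerSeries.coeff 1 (z j) - PowerSeries.coeff 1 (z j) * g) → x = 0)
    (l : Fin μ → LF F1) (g : LD E)
    (hrel : ∀ j, ∑ i, l i • LD.ofPS (d i j) = g * LD.ofPS (z j) - LD.ofPS (z j) * g) : l = 0 := by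
  by_contra hne
  obtain ⟨k, hk1, i0, -, hk2⟩ := LD.exists_min_order (Finset.univ : Finset (Fin μ)) l (by
    obtain ⟨p, hp⟩ := Function.ne_iff.mp hne
    exact ⟨p, Finset.mem_univ _, hp⟩)
  -- coefficients of the left-hand side
  have hL : ∀ j, (∀ n < k, (∑ i, l i • LD.ofPS (d i j)).co n = 0) ∧
      (∑ i, l i • LD.ofPS (d i j)).co k = ∑ i, (l i).co k • PowerSeries.coeff 0 (d i j) := by
    intro j
    have h1 : ∀ i, (∀ n < k, (l i • LD.ofPS (d i j)).co n = 0) ∧
        (l i • LD.ofPS (d i j)).co k = (l i).co k • PowerSeries.coeff 0 (d i j) := by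
      intro i
      have h2 := LD.co_smul_of_bound (l i) (LD.ofPS (d i j)) k (hk1 i (Finset.mem_univ _))
        (LD.isInt_ofPS _)
      refine ⟨h2.1, ?_⟩
      rw [h2.2]
      have := LD.co_ofPS (d i j) 0
      rw [Nat.cast_zero] at this
      rw [this]
    constructor
    · intro n hn
      rw [LD.co_sum]
      exact Finset.sum_eq_zero fun i _ => (h1 i).1 n hn
    · rw [LD.co_sum]
      exact Finset.sum_congr rfl fun i _ => (h1 i).2
  -- improving g
  obtain ⟨q0, hq0⟩ := LD.exists_bound g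
  choose Z hZ1 hZ2 hZ3 using fun j => factor_z (z j) (hz j)
  have hR : ∀ (g' : LD E) (q : ℤ), (∀ n < q, g'.co n = 0) → ∀ j,
      (g' * LD.ofPS (z j) - LD.ofPS (z j) * g').co (q + 1) =
        g'.co q * PowerSeries.coeff 1 (z j) - PowerSeries.coeff 1 (z j) * g'.co q := by
    intro g' q hq j
    obtain ⟨G, hG1, hG2, hG3⟩ := exists_factor g' q hq
    rw [hZ1 j, hG1, comm_tp, LD.co_tp_mul, sub_self, LD.co_sub, hG2.co_mul_zero (hZ2 j),
      (hZ2 j).co_mul_zero hG2, hZ3 j]
    have h4 := (co_tp_mul_int q G hG2).2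
    rw [h4]
  have key : ∀ q : ℤ, q0 ≤ q → q ≤ k - 1 → ∃ g' : LD E, (∀ n < q, g'.co n = 0) ∧
      ∀ j, ∑ i, l i • LD.ofPS (d i j) = g' * LD.ofPS (z j) - LD.ofPS (z j) * g' := by
    intro q hq
    induction q, hq using Int.leInduction with
    | base => intro _; exact ⟨g, hq0, hrel⟩
    | succ q hq ih =>
      intro hqk
      obtain ⟨g', hg1, hg2⟩ := ih (by omega)
      obtain ⟨c, hc'⟩ := hcen (g'.co q) (fun j => by
        have h1 := hR g' q hg1 j
        rw [← hg2 j, (hL j).1 (q + 1) (by omega)] at h1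
        exact (sub_eq_zero.mp h1.symm))
      refine ⟨g' - (LF.tp q * LF.C c : LF F1) • (1 : LD E), ?_, ?_⟩
      · intro n hn
        rw [LD.co_sub]
        have h2 : ((LF.tp q * LF.C c : LF F1) • (1 : LD E)).co n =
            if n = q then algebraMap F1 E c else 0 := by
          rw [mul_smul, LD.co_tp_smul, LD.co_C_smul, LD.co_one]
          by_cases h : n = q
          · rw [if_pos (by omega), if_pos h, Algebra.smul_def, mul_one]
          · rw [if_neg (by omega), if_neg h, smul_zero]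
        rw [h2]
        by_cases h : n = q
        · rw [if_pos h, h, hc', sub_self]
        · rw [if_neg h, hg1 n (by omega), sub_zero]
      · intro j
        rw [hg2 j, sub_mul, mul_sub, smul_mul_assoc, one_mul, mul_smul_comm, mul_one]
        abel
  -- conclusion
  have hfin : ∃ g' : LD E, (∀ n < k - 1, g'.co n = 0) ∧
      ∀ j, ∑ i, l i • LD.ofPS (d i j) = g' * LD.ofPS (z j) - LD.ofPS (z j) * g' := by
    rcases le_or_gt q0 (k - 1) with h | h
    · exact key (k - 1) h le_rfl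
    · exact ⟨g, fun n hn => hq0 n (by omega), hrel⟩
  obtain ⟨g', hg1, hg2⟩ := hfin
  have h1 := hc (fun i => (l i).co k) (g'.co (k - 1)) (fun j => by
    have h2 := hR g' (k - 1) hg1 j
    rw [← hg2 j, sub_add_cancel, (hL j).2] at h2
    exact h2)
  exact hk2 (congrFun h1 i0)

/-- generation from residues -/
theorem gen_res [FiniteDimensional F1 E] {S : Subalgebra (LF F1) (LD E)} (p : Fin 2 → E)
    (hp : Algebra.adjoin F1 (Set.range p) = ⊤)
    (h : ∀ i, ∃ x ∈ S, LD.IsInt x ∧ x.co 0 = p i) : S = ⊤ := by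
  let R : Subalgebra F1 E :=
    { carrier := {v | ∃ x ∈ S, LD.IsInt x ∧ x.co 0 = v}
      mul_mem' := by
        rintro a b ⟨x, hx, hx', rfl⟩ ⟨y, hy, hy', rfl⟩
        exact ⟨x * y, S.mul_mem hx hy, hx'.mul hy', hx'.co_mul_zero hy'⟩
      add_mem' := by
        rintro a b ⟨x, hx, hx', rfl⟩ ⟨y, hy, hy', rfl⟩
        exact ⟨x + y, S.add_mem hx hy, hx'.add hy', rfl⟩
      algebraMap_mem' := by
        intro c
        refine ⟨algebraMap (LF F1) (LD E) (LF.C c), S.algebraMap_mem _, ?_, ?_⟩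
        · rw [LD.algebraMap_eq, LD.toLD_C]; exact LD.isInt_C _
        · rw [LD.algebraMap_eq, LD.toLD_C, LD.co_C_zero] }
  have hR : R = ⊤ := by
    rw [eq_top_iff, ← hp]
    apply Algebra.adjoin_le
    rintro _ ⟨i, rfl⟩
    exact h i
  have h1 : LD.resSp (Subalgebra.toSubmodule S) = ⊤ := by
    rw [eq_top_iff]
    intro v _
    have : v ∈ R := by rw [hR]; trivial
    exact this
  have h2 := LD.finrank_resSp (Subalgebra.toSubmodule S)
  rw [h1, finrank_top, ← LD.finrank_eq (F := F1) (K := E)] at h2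
  have h3 : Subalgebra.toSubmodule S = ⊤ := Submodule.eq_top_of_finrank_eq h2.symm
  rw [eq_top_iff]
  intro x _
  have : x ∈ Subalgebra.toSubmodule S := by rw [h3]; trivial
  exact this

end SStep

end Crest.Agent.R180
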