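import Crest.Agent.R180.PRSDef
import Crest.Agent.R180.SAlg
import Crest.Agent.R180.LinSep

set_option autoImplicit false
set_option linter.unusedSectionVars false

/-! # Row 180, MODULE S: Gram matrix estimate -/

noncomputable section
namespace Crest.Agent.R180

namespace SGram

open Module SAlg

section Lin

variable {K X Y Z : Type*} [Field K] [AddCommGroup X] [Module K X] [AddCommGroup Y] [Module K Y]
  [AddCommGroup Z] [Module K Z] [FiniteDimensional K X] [FiniteDimensional K Y]
  [FiniteDimensional K Z]

/-- rank of a composition, first estimate -/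
theorem finrank_range_le_comp (f : X →ₗ[K] Y) (g : Y →ₗ[K] Z) :
    finrank K (LinearMap.range f) ≤ finrank K (LinearMap.range (g ∘ₗ f)) +
      finrank K (LinearMap.ker g) := by
  have h1 := (g.domRestrict (LinearMap.range f)).finrank_range_add_finrank_ker
  have h2 : LinearMap.range (g.domRestrict (LinearMap.range f)) = LinearMap.range (g ∘ₗ f) := by
    rw [LinearMap.range_domRestrict, LinearMap.range_comp]
  have h3 : finrank K (LinearMap.ker (g.domRestrict (LinearMap.range f))) ≤
      finrank K (LinearMap.ker g) := by
    let j : LinearMap.ker (g.domRestrict (LinearMap.range f)) →ₗ[K] LinearMap.ker g :=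
      LinearMap.codRestrict (LinearMap.ker g) ((LinearMap.range f).subtype ∘ₗ
        (LinearMap.ker (g.domRestrict (LinearMap.range f))).subtype) (fun x => x.2)
    apply LinearMap.finrank_le_finrank_of_injective (f := j)
    intro x y hxy
    have h7 : ((j x : LinearMap.ker g) : Y) = ((j y : LinearMap.ker g) : Y) :=
      congrArg Subtype.val hxy
    apply Subtype.ext; apply Subtype.ext
    exact h7
  rw [h2] at h1
  omega

/-- rank of a composition, second estimate -/
theorem finrank_range_le_comp' (f : X →ₗ[K] Y) (g : Y →ₗ[K] Z) :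
    finrank K (LinearMap.range g) + finrank K (LinearMap.range f) ≤
      finrank K (LinearMap.range (g ∘ₗ f)) + finrank K Y := by
  have h1 := finrank_range_le_comp f g
  have h2 := g.finrank_range_add_finrank_ker
  omega

/-- Gram matrix of a bilinear form on a linearly independent family -/
theorem gram_le {V : Type*} [AddCommGroup V] [Module K V] [FiniteDimensional K V]
    (L : V →ₗ[K] Dual K V) {μ D : ℕ} (d : Fin μ → V) (hd : LinearIndependent K d)
    (hD : finrank K V ≤ μ + D) :
    finrank K (LinearMap.range L) ≤ (Matrix.of fun i j : Fin μ => L (d i) (d j)).rank + 2 * D := by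
  classical
  let δ : (Fin μ → K) →ₗ[K] V := Fintype.linearCombination K d
  have hδinj : Function.Injective δ := by
    rw [← LinearMap.ker_eq_bot, LinearMap.ker_eq_bot']
    intro x hx
    rw [Fintype.linearCombination_apply] at hx
    funext i
    exact (Fintype.linearIndependent_iff.mp hd) x hx i
  have hδ : finrank K (LinearMap.range δ) = μ := by
    rw [LinearMap.finrank_range_of_inj hδinj, finrank_fin_fun]
  have h1 := finrank_range_le_comp' δ L
  rw [hδ] at h1
  have h2 := finrank_range_le_comp (L ∘ₗ δ) δ.dualMap
  have h3 := δ.dualMap.finrank_range_add_finrank_ker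
  have h4 : finrank K (LinearMap.range δ.dualMap) = μ := by
    rw [LinearMap.finrank_range_dualMap_eq_finrank_range, hδ]
  rw [Subspace.dual_finrank_eq, h4] at h3
  have h5 : finrank K (LinearMap.range (δ.dualMap ∘ₗ L ∘ₗ δ)) ≤
      (Matrix.of fun i j : Fin μ => L (d i) (d j)).rank := by
    rw [← Matrix.rank_transpose, Matrix.rank]
    let ev : Dual K (Fin μ → K) →ₗ[K] (Fin μ → K) :=
      { toFun := fun φ j => φ (Pi.single j 1)
        map_add' := fun _ _ => rfl
        map_smul' := fun _ _ => rfl }
    have hev : Function.Injective ev := by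
      rw [← LinearMap.ker_eq_bot, LinearMap.ker_eq_bot']
      intro φ hφ
      refine LinearMap.pi_ext' fun j => ?_
      apply LinearMap.ext_ring
      exact congrFun hφ j
    have h6 : (Matrix.of fun i j : Fin μ => L (d i) (d j)).transpose.mulVecLin =
        ev ∘ₗ (δ.dualMap ∘ₗ L ∘ₗ δ) := by
      apply LinearMap.ext
      intro x
      funext j
      rw [Matrix.mulVecLin_apply, Matrix.mulVec, dotProduct]
      change _ = L (δ x) (δ (Pi.single j 1))
      have h7 : δ (Pi.single j 1) = d j := by
        simp [δ, Fintype.linearCombination_apply, Pi.single_apply]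
      rw [h7]
      have h8 : δ x = ∑ i, x i • d i := by
        simp only [δ, Fintype.linearCombination_apply]
      rw [h8, map_sum, LinearMap.sum_apply]
      refine Finset.sum_congr rfl fun i _ => ?_
      rw [Matrix.transpose_apply, Matrix.of_apply, map_smul, LinearMap.smul_apply, smul_eq_mul,
        mul_comm]
    rw [h6, LinearMap.range_comp (δ.dualMap ∘ₗ L ∘ₗ δ) ev]
    exact (LinearEquiv.finrank_eq (Submodule.equivMapOfInjective ev hev _)).le
  omega

end Lin

section Tr

variable {F1 E : Type} [Field F1] [Ring E] [IsDomain E] [Algebra F1 E] [FiniteDimensional F1 E]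

/-- the trace pairing `Eᵐ × Eᵐ → F1` -/
def pairing (tr : E →ₗ[F1] F1) (m : ℕ) : (Fin m → E) →ₗ[F1] Dual F1 (Fin m → E) where
  toFun z :=
    { toFun := fun y => ∑ l, tr (z l * y l)
      map_add' := fun y y' => by
        simp only [Pi.add_apply, mul_add, map_add, Finset.sum_add_distrib]
      map_smul' := fun c y => by
        simp only [Pi.smul_apply, mul_smul_comm, map_smul, Finset.smul_sum, RingHom.id_apply] }
  map_add' z z' := by
    ext y
    simp only [LinearMap.coe_mk, AddHom.coe_mk, Pi.add_apply, add_mul, map_add,
      Finset.sum_add_distrib, LinearMap.add_apply, LinearMap.coe_comp, Function.comp_apply]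
  map_smul' c z := by
    ext y
    simp only [LinearMap.coe_mk, AddHom.coe_mk, Pi.smul_apply, smul_mul_assoc, map_smul,
      Finset.smul_sum, RingHom.id_apply, LinearMap.smul_apply, LinearMap.coe_comp,
      Function.comp_apply]

theorem pairing_apply (tr : E →ₗ[F1] F1) (m : ℕ) (z y : Fin m → E) :
    pairing tr m z y = ∑ l, tr (z l * y l) := rfl

theorem pairing_injective (tr : E →ₗ[F1] F1) (htr : tr ≠ 0) (m : ℕ) :
    Function.Injective (pairing tr m) := by
  classical
  rw [← LinearMap.ker_eq_bot, LinearMap.ker_eq_bot']
  intro z hz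
  funext l
  apply tr_nondeg tr htr
  intro x
  have h1 := LinearMap.congr_fun hz (Pi.single l x)
  rw [pairing_apply, Finset.sum_eq_single l, Pi.single_eq_same, LinearMap.zero_apply] at h1
  · exact h1
  · intro k _ hk; rw [Pi.single_eq_of_ne hk, mul_zero, map_zero]
  · simp

end Tr

end SGram

open SGram in
/-- Gram matrix estimate -/
theorem gram_rank {A : DA} (M : Adm A) (hM : M.RankGood) (tr : M.E →ₗ[M.F1] M.F1) (htr : tr ≠ 0)
    {m s μ r D : ℕ} (q : Fin s → Matrix (Fin m) (Fin m) A.F)
    (hq : ∀ c : Fin s → A.F, c ≠ 0 → r ≤ (∑ a, c a • q a).rank)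
    (g : Fin s → M.E) (hg : g ≠ 0) (d : Fin μ → Fin m → M.E) (hd : LinearIndependent M.F1 d)
    (hD : m * Module.finrank M.F1 M.E ≤ μ + D) :
    r * Module.finrank M.F1 M.E ≤ (Matrix.of fun i j : Fin μ => tr (∑ k, ∑ l, ∑ a, q a k l •
      (g a * (d i k * d j l)))).rank + 2 * D := by
  classical
  -- the operator
  let T : (Fin m → M.E) →ₗ[M.F1] (Fin m → M.E) :=
    { toFun := fun x l => ∑ k, ∑ a, (q a).transpose l k • (g a * x k)
      map_add' := fun x y => by
        funext l
        simp only [Pi.add_apply, mul_add, smul_add, Finset.sum_add_distrib]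
      map_smul' := fun c x => by
        funext l
        simp only [Pi.smul_apply, Finset.smul_sum, RingHom.id_apply, mul_smul_comm]
        refine Finset.sum_congr rfl fun k _ => Finset.sum_congr rfl fun a _ => ?_
        rw [smul_comm] }
  have hT : r * Module.finrank M.F1 M.E ≤ Module.finrank M.F1 (LinearMap.range T) := by
    refine hM (Fin m) (Fin m) s r (fun a => (q a).transpose) ?_ g hg T (fun x b => rfl)
    intro c hc
    have h1 : (∑ a, c a • (q a).transpose) = (∑ a, c a • q a).transpose := by
      rw [Matrix.transpose_sum]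
      refine Finset.sum_congr rfl fun a _ => ?_
      rw [Matrix.transpose_smul]
    rw [h1, Matrix.rank_transpose]
    exact hq c hc
  let L : (Fin m → M.E) →ₗ[M.F1] Module.Dual M.F1 (Fin m → M.E) := pairing tr m ∘ₗ T
  have hL : Module.finrank M.F1 (LinearMap.range L) = Module.finrank M.F1 (LinearMap.range T) := by
    rw [LinearMap.range_comp]
    exact (LinearEquiv.finrank_eq (Submodule.equivMapOfInjective _
      (pairing_injective tr htr m) _)).symm
  have hV : Module.finrank M.F1 (Fin m → M.E) ≤ μ + D := by
    rw [Module.finrank_pi_fintype, Finset.sum_const, Finset.card_univ, Fintype.card_fin,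
      smul_eq_mul]
    exact hD
  have h1 := gram_le L d hd hV
  have h2 : (Matrix.of fun i j : Fin μ => L (d i) (d j)) =
      (Matrix.of fun i j : Fin μ => tr (∑ k, ∑ l, ∑ a, q a k l • (g a * (d i k * d j l)))) := by
    ext i j
    simp only [Matrix.of_apply]
    change ∑ l, tr ((∑ k, ∑ a, (q a).transpose l k • (g a * d i k)) * d j l) = _
    rw [← map_sum]
    congr 1
    rw [Finset.sum_comm]
    refine Finset.sum_congr rfl fun l _ => ?_
    rw [Finset.sum_mul]
    refine Finset.sum_congr rfl fun k _ => ?_
    rw [Finset.sum_mul]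
    refine Finset.sum_congr rfl fun a _ => ?_
    rw [Matrix.transpose_apply, smul_mul_assoc, mul_assoc]
  rw [h2, hL] at h1
  omega

end Crest.Agent.R180
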