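import Crest.Agent.R180.SRes
import Crest.Agent.R180.SGram

set_option autoImplicit false
set_option linter.unusedSectionVars false
set_option linter.unusedVariables false

/-! # Row 180, MODULE S: the invariants of the new state -/

noncomputable section
namespace Crest.Agent.R180

namespace SStep

open Module NC SAlg SDer

variable {A : DA} {m : ℕ} {κ : Type} [Fintype κ]

theorem comb_rank {F : Type} [Field F] (Θ : κ → NC (Fin m) F) {r : ℕ}
    (hΘ : ∀ h : κ → F, h ≠ 0 → (∀ i, ∑ c, h c * Θ c [i] = 0) →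
      r ≤ (Matrix.of fun i j : Fin m => ∑ c, h c * Θ c [i, j]).rank) {s : ℕ} (h : Fin s → κ → F)
    (hli : LinearIndependent F h) (hmem : ∀ a, h a ∈ annS Θ) (c : Fin s → F) (hc : c ≠ 0) :
    r ≤ (∑ a, c a • qM Θ (h a)).rank := by
  have h1 : (∑ a, c a • qM Θ (h a)) = qM Θ (∑ a, c a • h a) := by
    ext i j
    rw [Matrix.sum_apply]
    simp only [Matrix.smul_apply, qM, Matrix.of_apply, smul_eq_mul, Finset.sum_apply,
      Pi.smul_apply, Finset.sum_mul, Finset.mul_sum]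
    rw [Finset.sum_comm]
    exact Finset.sum_congr rfl fun _ _ => Finset.sum_congr rfl fun _ _ => by ring
  rw [h1]
  apply hΘ
  · intro hcon
    apply hc
    funext a
    exact Fintype.linearIndependent_iff.mp hli c hcon a
  · have h2 : (∑ a, c a • h a) ∈ annS Θ :=
      Submodule.sum_mem _ fun a _ => Submodule.smul_mem _ _ (hmem a)
    exact h2

theorem gram_step (M : Adm A) (hM : M.RankGood) (tr : M.E →ₗ[M.F1] M.F1) (htr0 : tr ≠ 0)
    (Θ : κ → NC (Fin m) A.F) {s r D μ : ℕ} (h : Fin s → κ → A.F)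
    (hΘ : ∀ c : Fin s → A.F, c ≠ 0 → r ≤ (∑ a, c a • qM Θ (h a)).rank)
    (d : Fin μ → Fin m → M.E) (hd : LinearIndependent M.F1 d)
    (hD : m * Module.finrank M.F1 M.E ≤ μ + D) (g : Fin s → M.E) (hg : g ≠ 0) :
    r * Module.finrank M.F1 M.E ≤ (Matrix.of fun i j : Fin μ => tr (∑ k, ∑ l, ∑ a,
      (∑ c, h a c * Θ c [k, l]) • (g a * (d i k * d j l)))).rank + 2 * D :=
  gram_rank M hM tr htr0 (fun a => qM Θ (h a)) hΘ g hg d hd hD

theorem inv_rank (M : Adm A) (hM : M.RankGood) (tr : M.E →ₗ[M.F1] M.F1) (htr0 : tr ≠ 0)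
    {β : Type} [Fintype β] (e : Basis β M.F1 M.E)
    (Θ : κ → NC (Fin m) A.F) {s r D μ : ℕ} (h : Fin s → κ → A.F)
    (hΘ : ∀ c : Fin s → A.F, c ≠ 0 → r ≤ (∑ a, c a • qM Θ (h a)).rank)
    (z : Fin m → PowerSeries M.E) (d : Fin μ → Fin m → PowerSeries M.E)
    (hz : ∀ j, PowerSeries.constantCoeff (z j) = 0)
    (hd : LinearIndependent M.F1 (fun i j => PowerSeries.coeff 0 (d i j)))
    (hD : m * Module.finrank M.F1 M.E ≤ μ + D)
    (hann : ∀ h0 ∈ LF.resPi (annS (newΘ e (stepX z d) (stepX_const z d hz) Θ)),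
      ∃ g' : Fin s → M.E, ∀ r, phi e h0 r = ∑ a, tr (g' a * ∑ c, h a c • r c))
    (h' : κ × β → LF M.F1) (hne : h' ≠ 0)
    (hh' : ∀ i, ∑ c, h' c * newΘ e (stepX z d) (stepX_const z d hz) Θ c [i] = 0) :
    r * Module.finrank M.F1 M.E ≤ (Matrix.of fun i j : Fin μ => ∑ p, h' p *
      newΘ e (stepX z d) (stepX_const z d hz) Θ p [i, j]).rank + 2 * D :=
  rank_new e z d hz Θ tr h (fun g hg => gram_step M hM tr htr0 Θ h hΘ _ hd hD g hg) hann h' hh' hne

end SStep

end Crest.Agent.R180
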