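import Crest.Agent.R180.Basic

set_option autoImplicit false

/-!
# Row 180, Theorem S: order (lowest degree) of noncommutative power series, cyclic words
-/

namespace Crest.Agent.R180

namespace NC

variable {σ K : Type}

section Ord
variable [Ring K]

/-- `f` has no terms of degree `< n`. -/
def OrdGE (n : ℕ) (f : NC σ K) : Prop := ∀ w : List σ, w.length < n → f w = 0

theorem OrdGE.mono {m n : ℕ} {f : NC σ K} (h : OrdGE n f) (hmn : m ≤ n) : OrdGE m f :=
  fun w hw => h w (lt_of_lt_of_le hw hmn)

theorem OrdGE.congr {n : ℕ} {f g : NC σ K} (h : OrdGE n f) (e : f = g) : OrdGE n g := e ▸ h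

theorem ordGE_zero (f : NC σ K) : OrdGE 0 f := fun _ hw => absurd hw (Nat.not_lt_zero _)

theorem OrdGE.zero (n : ℕ) : OrdGE n (0 : NC σ K) := fun _ _ => rfl

theorem OrdGE.add {n : ℕ} {f g : NC σ K} (hf : OrdGE n f) (hg : OrdGE n g) : OrdGE n (f + g) :=
  fun w hw => by rw [add_apply, hf w hw, hg w hw, add_zero]

theorem OrdGE.neg {n : ℕ} {f : NC σ K} (hf : OrdGE n f) : OrdGE n (-f) :=
  fun w hw => by rw [neg_apply, hf w hw, neg_zero]

theorem OrdGE.sub {n : ℕ} {f g : NC σ K} (hf : OrdGE n f) (hg : OrdGE n g) : OrdGE n (f - g) :=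
  fun w hw => by rw [sub_apply, hf w hw, hg w hw, sub_zero]

theorem OrdGE.sum {n : ℕ} {α : Type*} (s : Finset α) (f : α → NC σ K)
    (hf : ∀ a ∈ s, OrdGE n (f a)) : OrdGE n (∑ a ∈ s, f a) :=
  fun w hw => by rw [sum_apply]; exact Finset.sum_eq_zero fun a ha => hf a ha w hw

theorem OrdGE.mul {a b : ℕ} {f g : NC σ K} (hf : OrdGE a f) (hg : OrdGE b g) :
    OrdGE (a + b) (f * g) := by
  intro w
  induction w generalizing f a with
  | nil =>
    intro hw
    rw [mul_nil]
    rcases Nat.eq_zero_or_pos a with h | h
    · subst h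
      rw [hg [] (by simpa using hw), mul_zero]
    · rw [hf [] (by simpa using h), zero_mul]
  | cons s w ih =>
    intro hw
    rw [List.length_cons] at hw
    rw [mul_cons]
    cases a with
    | zero =>
      rw [ih (ordGE_zero (ld s f)) (by omega), hg (s :: w) (by rw [List.length_cons]; omega),
        mul_zero, add_zero]
    | succ a =>
      have h1 : OrdGE a (ld s f) := fun v hv => hf (s :: v) (by rw [List.length_cons]; omega)
      rw [ih h1 (by omega), hf [] (Nat.succ_pos a), zero_mul, add_zero]

theorem OrdGE.mul_left {n : ℕ} {f g : NC σ K} (hg : OrdGE n g) : OrdGE n (f * g) := by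
  have := OrdGE.mul (ordGE_zero f) hg
  rwa [zero_add] at this

theorem OrdGE.mul_right {n : ℕ} {f g : NC σ K} (hf : OrdGE n f) : OrdGE n (f * g) := by
  have := OrdGE.mul hf (ordGE_zero g)
  rwa [add_zero] at this

theorem ordGE_X [DecidableEq σ] (s : σ) : OrdGE 1 (X s : NC σ K) := by
  intro w hw
  have : w = [] := List.length_eq_zero_iff.1 (Nat.lt_one_iff.1 hw)
  subst this; rfl

theorem ordGE_one_of_nil {f : NC σ K} (h : f [] = 0) : OrdGE 1 f := by
  intro w hw
  have : w = [] := List.length_eq_zero_iff.1 (Nat.lt_one_iff.1 hw)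
  subst this; exact h

theorem ordGE_sub_const (f : NC σ K) : OrdGE 1 (f - C (f [])) :=
  ordGE_one_of_nil (by simp)

/-- homogeneous component of degree `n` -/
def homog (n : ℕ) (f : NC σ K) : NC σ K := ⟨fun w => if w.length = n then f w else 0⟩

theorem homog_apply (n : ℕ) (f : NC σ K) (w : List σ) :
    homog n f w = if w.length = n then f w else 0 := rfl

theorem homog_ordGE (n : ℕ) (f : NC σ K) : OrdGE n (homog n f) := fun w hw => by
  rw [homog_apply, if_neg (by omega)]

theorem OrdGE.sub_homog {n : ℕ} {f : NC σ K} (hf : OrdGE n f) : OrdGE (n + 1) (f - homog n f) := by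
  intro w hw
  rw [sub_apply, homog_apply]
  by_cases h : w.length = n
  · rw [if_pos h, sub_self]
  · rw [if_neg h, sub_zero, hf w (by omega)]

end Ord

section Letters
variable [Ring K]

theorem ld_letter [DecidableEq σ] (r s : σ) : ld r (X s : NC σ K) = if r = s then 1 else 0 := by
  apply ext'
  intro w
  cases w with
  | nil => rw [ld_apply, X_single]; split_ifs <;> simp
  | cons t w => rw [ld_apply, X_cons_cons]; split_ifs <;> simp

theorem letter_mul_cons [DecidableEq σ] (s r : σ) (z : NC σ K) (v : List σ) :
    ((X s : NC σ K) * z) (r :: v) = if r = s then z v else 0 := by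
  rw [mul_cons, X_nil, zero_mul, add_zero, ld_letter]
  split_ifs
  · rw [one_mul]
  · rw [zero_mul, zero_apply]

theorem mul_letter_concat [DecidableEq σ] (s t : σ) (z : NC σ K) (w : List σ) :
    (z * (X s : NC σ K)) (w ++ [t]) = if t = s then z w else 0 := by
  induction w generalizing z with
  | nil =>
    rw [List.nil_append, mul_cons, mul_nil, X_nil, mul_zero, zero_add, X_single]
    split_ifs <;> simp
  | cons r w ih =>
    have h0 : (X s : NC σ K) (r :: (w ++ [t])) = 0 := by
      cases w with
      | nil => rfl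
      | cons a w => rfl
    rw [List.cons_append, mul_cons, ih, h0, mul_zero, add_zero]
    rfl

end Letters

section Cyc
variable [Field K] [CharZero K]

theorem sum_range_mul_sub (n : ℕ) (r : ℕ → K) :
    ∑ i ∈ Finset.range n, (i : K) * (r (i + 1) - r i) =
      n * r n - ∑ i ∈ Finset.range n, r (i + 1) := by
  induction n with
  | zero => simp
  | succ n ih =>
    rw [Finset.sum_range_succ, ih, Finset.sum_range_succ]
    push_cast
    ring

/-- The cyclic primitive of `f` in degree `n`. -/
noncomputable def cycPrim (n : ℕ) (f : List σ → K) (w : List σ) : K :=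
  (n : K)⁻¹ * ∑ i ∈ Finset.range n, (i : K) * f (w.rotate (i + 1))

/-- In characteristic zero a homogeneous element all of whose cyclic sums vanish is a combination
of commutators with letters. Here in coordinates: `f w = g w - g (w.rotate (n-1))`. -/
theorem cycPrim_sub (n : ℕ) (hn : 0 < n) (f : List σ → K) (w : List σ) (hw : w.length = n)
    (hcyc : ∑ k ∈ Finset.range n, f (w.rotate k) = 0) :
    cycPrim n f w - cycPrim n f (w.rotate (n - 1)) = f w := by
  have hn0 : (n : K) ≠ 0 := by exact_mod_cast hn.ne'
  have h1 : ∀ i, (w.rotate (n - 1)).rotate (i + 1) = w.rotate i := by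
    intro i
    rw [List.rotate_rotate, show n - 1 + (i + 1) = w.length + i by omega, ← List.rotate_rotate,
      List.rotate_length]
  have h2 : w.rotate n = w := by rw [← hw, List.rotate_length]
  unfold cycPrim
  simp only [h1]
  rw [← mul_sub, ← Finset.sum_sub_distrib]
  simp only [← mul_sub]
  rw [sum_range_mul_sub n (fun i => f (w.rotate i)), h2]
  have h3 : ∑ i ∈ Finset.range n, f (w.rotate (i + 1)) = 0 := by
    have h4 := Finset.sum_range_succ (fun i => f (w.rotate i)) n
    have h5 := Finset.sum_range_succ' (fun i => f (w.rotate i)) n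
    rw [h4, hcyc, zero_add, h2, List.rotate_zero] at h5
    exact (add_eq_right.mp h5.symm)
  rw [h3, sub_zero, ← mul_assoc, inv_mul_cancel₀ hn0, one_mul]

/-- The element of degree `n - 1` starting the commutator with the letter `s`. -/
noncomputable def cycPart (n : ℕ) (f : NC σ K) (s : σ) : NC σ K :=
  ⟨fun v => if v.length + 1 = n then cycPrim n f.coeff (s :: v) else 0⟩

theorem cycPart_ordGE (n : ℕ) (f : NC σ K) (s : σ) : OrdGE (n - 1) (cycPart n f s) := by
  intro w hw
  change (if w.length + 1 = n then _ else 0) = 0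
  rw [if_neg (by omega)]

theorem eq_sum_comm [Fintype σ] [DecidableEq σ] (n : ℕ) (hn : 0 < n) (f : NC σ K)
    (hhom : ∀ w : List σ, w.length ≠ n → f w = 0)
    (hcyc : ∀ w : List σ, w.length = n → ∑ k ∈ Finset.range n, f (w.rotate k) = 0) :
    f = ∑ s, ((X s : NC σ K) * cycPart n f s - cycPart n f s * X s) := by
  apply ext'
  intro w
  rw [sum_apply]
  simp only [sub_apply]
  rw [Finset.sum_sub_distrib]
  have hfst : ∑ s, ((X s : NC σ K) * cycPart n f s) w =
      if w.length = n then cycPrim n f.coeff w else 0 := by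
    cases w with
    | nil =>
      simp only [mul_nil, X_nil, zero_mul, Finset.sum_const_zero]
      rw [if_neg (by simpa using hn.ne)]
    | cons r v =>
      simp only [letter_mul_cons]
      rw [Finset.sum_ite_eq Finset.univ r, if_pos (Finset.mem_univ _)]
      rfl
  have hsnd : ∑ s, (cycPart n f s * (X s : NC σ K)) w =
      if w.length = n then cycPrim n f.coeff (w.rotate (n - 1)) else 0 := by
    rcases List.eq_nil_or_concat w with rfl | ⟨v, t, rfl⟩
    · simp only [mul_nil, X_nil, mul_zero, Finset.sum_const_zero]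
      rw [if_neg (by simpa using hn.ne)]
    · rw [List.concat_eq_append]
      simp only [mul_letter_concat]
      rw [Finset.sum_ite_eq Finset.univ t, if_pos (Finset.mem_univ _)]
      change (if v.length + 1 = n then cycPrim n f.coeff (t :: v) else 0) = _
      by_cases h : v.length + 1 = n
      · rw [if_pos h, if_pos (by simpa using h)]
        have : (v ++ [t]).rotate (n - 1) = t :: v := by
          rw [show n - 1 = v.length by omega, List.rotate_append_length_eq]
          rfl
        rw [this]
      · rw [if_neg h, if_neg (by simpa using h)]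
  rw [hfst, hsnd]
  by_cases h : w.length = n
  · rw [if_pos h, if_pos h, cycPrim_sub n hn f.coeff w h (hcyc w h)]
  · rw [if_neg h, if_neg h, hhom w h, sub_zero]

/-- Either the component of degree `n` of `f` has a nonzero cyclic sum or it is a combination
of commutators with the letters (elements of order `≥ n - 1`). -/
theorem exists_cyc_or_comm [Fintype σ] [DecidableEq σ] (n : ℕ) (hn : 0 < n) (f : NC σ K)
    (hf : OrdGE n f) :
    (∃ w : List σ, w.length = n ∧ ∑ k ∈ Finset.range n, f (w.rotate k) ≠ 0) ∨
    ∃ A : σ → NC σ K, (∀ s, OrdGE (n - 1) (A s)) ∧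
      OrdGE (n + 1) (f - ∑ s, ((X s : NC σ K) * A s - A s * X s)) := by
  by_cases h : ∃ w : List σ, w.length = n ∧ ∑ k ∈ Finset.range n, f (w.rotate k) ≠ 0
  · exact Or.inl h
  · right
    push Not at h
    refine ⟨cycPart n (homog n f), cycPart_ordGE n _, ?_⟩
    rw [← eq_sum_comm n hn (homog n f)]
    · exact hf.sub_homog
    · intro w hw
      rw [homog_apply, if_neg hw]
    · intro w hw
      rw [← h w hw]
      refine Finset.sum_congr rfl fun k _ => ?_
      rw [homog_apply, if_pos (by rw [List.length_rotate]; exact hw)]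

end Cyc

end NC

end Crest.Agent.R180
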