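import Crest.Agent.R180.SGood
import Crest.Agent.R180.SData

set_option autoImplicit false
set_option linter.unusedSectionVars false
set_option linter.unusedVariables false

/-! # Row 180, MODULE S: residue analysis in the cyclic step -/

noncomputable section
namespace Crest.Agent.R180

namespace SStep

open Module NC SAlg SDer

/-- the family of directions: `dz/dt` and constant vectors -/
def dirs {E : Type} [Ring E] {m k : ℕ} (z : Fin m → PowerSeries E) (b : Fin k → Fin m → E) :
    Fin (k + 1) → Fin m → PowerSeries E :=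
  Fin.cons (fun j => der (z j)) (fun l j => PowerSeries.C (b l j))

section
variable {E : Type} [Ring E] {m k : ℕ} (z : Fin m → PowerSeries E) (b : Fin k → Fin m → E)

@[simp] theorem dirs_zero (j : Fin m) : dirs z b 0 j = der (z j) := rfl
@[simp] theorem dirs_succ (l : Fin k) (j : Fin m) : dirs z b l.succ j = PowerSeries.C (b l j) := rfl

theorem coeff0_dirs_zero (j : Fin m) :
    PowerSeries.coeff 0 (dirs z b 0 j) = PowerSeries.coeff 1 (z j) := by
  rw [dirs_zero, coeff_der]; simp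

theorem coeff0_dirs_succ (l : Fin k) (j : Fin m) :
    PowerSeries.coeff 0 (dirs z b l.succ j) = b l j := by
  rw [dirs_succ]; simp

theorem coeff1_dirs_succ (l : Fin k) (j : Fin m) :
    PowerSeries.coeff 1 (dirs z b l.succ j) = 0 := by
  rw [dirs_succ, PowerSeries.coeff_C]; simp
end

section

variable {K F1 E : Type} [Field K] [Field F1] [Algebra K F1] [Ring E] [IsDomain E] [Algebra F1 E]
  [Algebra K E] [IsScalarTower K F1 E] {m μ : ℕ} (z : Fin m → PowerSeries E)
  (d : Fin μ → Fin m → PowerSeries E) (hz : ∀ j, PowerSeries.constantCoeff (z j) = 0)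

theorem sum_c0e1 (x : Fin μ → F1) (f : NC (Fin m) K) :
    ∑ i, x i • PowerSeries.coeff 0 (e1 z d hz i f) =
      ∑ t, f [t] • ∑ i, x i • PowerSeries.coeff 0 (d i t) := by
  simp only [c0e1, Finset.smul_sum]
  rw [Finset.sum_comm]
  exact Finset.sum_congr rfl fun t _ => Finset.sum_congr rfl fun i _ => smul_comm _ _ _

theorem sum_c1e1 (x : Fin μ → F1) (f : NC (Fin m) K) :
    ∑ i, x i • PowerSeries.coeff 1 (e1 z d hz i f) =
      (∑ t, f [t] • ∑ i, x i • PowerSeries.coeff 1 (d i t)) +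
      ∑ t, ∑ r, f [t, r] • ((∑ i, x i • PowerSeries.coeff 0 (d i t)) * PowerSeries.coeff 1 (z r) +
        PowerSeries.coeff 1 (z t) * ∑ i, x i • PowerSeries.coeff 0 (d i r)) := by
  simp only [c1e1, smul_add, Finset.smul_sum, Finset.sum_add_distrib, Finset.mul_sum,
    Finset.sum_mul]
  have h1 : ∑ i, ∑ t, x i • f [t] • PowerSeries.coeff 1 (d i t) =
      ∑ t, ∑ i, f [t] • x i • PowerSeries.coeff 1 (d i t) := by
    rw [Finset.sum_comm]
    exact Finset.sum_congr rfl fun t _ => Finset.sum_congr rfl fun i _ => smul_comm _ _ _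
  have h2 : ∀ G : Fin μ → Fin m → Fin m → E, ∑ i, ∑ t, ∑ r, G i t r = ∑ t, ∑ r, ∑ i, G i t r := by
    intro G
    rw [Finset.sum_comm]
    exact Finset.sum_congr rfl fun t _ => Finset.sum_comm
  rw [h1]
  congr 1
  congr 1
  · rw [h2]
    refine Finset.sum_congr rfl fun t _ => Finset.sum_congr rfl fun r _ =>
      Finset.sum_congr rfl fun i _ => ?_
    rw [smul_comm, smul_mul_assoc]
  · rw [h2]
    refine Finset.sum_congr rfl fun t _ => Finset.sum_congr rfl fun r _ =>
      Finset.sum_congr rfl fun i _ => ?_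
    rw [smul_comm, mul_smul_comm]

end

variable {K F1 E : Type} [Field K] [Field F1] [Algebra K F1] [Ring E] [IsDomain E] [Algebra F1 E]
  [Algebra K E] [IsScalarTower K F1 E] [FiniteDimensional F1 E] [Algebra.IsCentral F1 E]
  [CharZero K] [CharZero F1] {m : ℕ} {κ β : Type} [Fintype κ] [Fintype β]

theorem res_analysis (e : Basis β F1 E) (Θ : κ → NC (Fin m) K) {s : ℕ} (h : Fin s → κ → K)
    (hli : LinearIndependent K h)
    (hspan : ∀ y : κ → K, (∀ i, ∑ c, y c * Θ c [i] = 0) → y ∈ Submodule.span K (Set.range h))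
    {u₁ u₂ : Fin m → K} {v₁ v₂ : Fin s → Fin m → K} (D : SolverData Θ s h u₁ u₂ v₁ v₂)
    {n : ℕ} (X' : Fin m → NC (Fin 2) K) (hX' : Approx Θ u₁ u₂ n X') (a0 : Fin s)
    (tr : E →ₗ[F1] F1) (htrc : ∀ x y, tr (x * y) = tr (y * x)) (p : Fin 2 → E)
    (hp : Algebra.adjoin F1 (Set.range p) = ⊤)
    (htr : tr (∑ v : Fin (n + 1) → Fin 2,
      (tsub X' (hc Θ (h a0)) - C (hc Θ (h a0) []) : NC (Fin 2) K)
        (List.ofFn v) • (List.ofFn fun k => p (v k)).prod) ≠ 0)
    (z : Fin m → PowerSeries E) (hz : ∀ j, PowerSeries.constantCoeff (z j) = 0)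
    (hzX : ∀ j, z j = evp p (X' j))
    (hz1 : ∀ j, PowerSeries.coeff 1 (z j) = u₁ j • p 0 + u₂ j • p 1)
    (S0 : Submodule F1 (Fin m → E))
    (hS : ∀ y : Fin m → E, ∃ v ∈ S0, ∃ x0 x1 : E, y = fun i => v i + u₁ i • x0 + u₂ i • x1)
    (hS₁ : ∀ b (x : E), (fun i => v₁ b i • x) ∈ S0)
    (hS₂ : ∀ b (x : E), (fun i => v₂ b i • x) ∈ S0)
    {k : ℕ} (bS : Basis (Fin k) F1 S0) :
    finrank F1 (LF.resPi (annS (newΘ e (stepX z (dirs z fun l => (bS l : Fin m → E)))
      (stepX_const z _ hz) Θ))) < s ∧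
    ∀ h0 ∈ LF.resPi (annS (newΘ e (stepX z (dirs z fun l => (bS l : Fin m → E)))
      (stepX_const z _ hz) Θ)), ∃ g' : Fin s → E, ∀ r,
      phi e h0 r = ∑ a, tr (g' a * ∑ c, h a c • r c) := by
  classical
  have htr0 : tr ≠ 0 := by
    rintro rfl
    exact htr (LinearMap.zero_apply _)
  have hXnil : ∀ j, X' j [] = 0 := fun j => ordGE_nil (hX'.ordGE j)
  set b : Fin k → Fin m → E := fun l => (bS l : Fin m → E) with hbdef
  set d := dirs z b with hd
  have hcomb : ∀ v (hv : v ∈ S0), ∀ j, v j = ∑ l, bS.repr ⟨v, hv⟩ l • b l j := by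
    intro v hv j
    have h1 := bS.sum_repr ⟨v, hv⟩
    have h2 := congrArg (fun w : S0 => (w : Fin m → E) j) h1
    simp only [Submodule.coe_sum, Submodule.coe_smul, Finset.sum_apply, Pi.smul_apply] at h2
    exact h2.symm
  -- the coefficients
  let xv : (v : Fin m → E) → v ∈ S0 → Fin (k + 1) → F1 := fun v hv =>
    Fin.cons 0 (fun l => bS.repr ⟨v, hv⟩ l)
  have hx0 : ∀ v (hv : v ∈ S0) j, ∑ i, xv v hv i • PowerSeries.coeff 0 (d i j) = v j := by
    intro v hv j
    rw [Fin.sum_univ_succ]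
    simp only [xv, Fin.cons_zero, zero_smul, zero_add, Fin.cons_succ, hd, coeff0_dirs_succ]
    exact (hcomb v hv j).symm
  have hx1 : ∀ v (hv : v ∈ S0) j, ∑ i, xv v hv i • PowerSeries.coeff 1 (d i j) = 0 := by
    intro v hv j
    rw [Fin.sum_univ_succ]
    simp only [xv, Fin.cons_zero, zero_smul, zero_add, Fin.cons_succ, hd, coeff1_dirs_succ,
      smul_zero, Finset.sum_const_zero]
  have halt : ∀ a (x y : Fin m → K), (∀ c, ∑ i, Θ c [i] * x i = 0) →
      (∀ c, ∑ i, Θ c [i] * y i = 0) → qf Θ (h a) x y = - qf Θ (h a) y x :=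
    fun a x y hx hy => eq_neg_of_add_eq_zero_left (D.alt a x y hx hy)
  refine G0_cyc e tr htrc htr0 p hp (fun c i => Θ c [i]) (fun c i j => Θ c [i, j]) h hli hspan
    u₁ u₂ v₁ v₂ D.ku₁ D.ku₂ D.kv₁ D.kv₂ D.d11 (fun a b => ?_) D.d21 (fun a b => ?_) D.d12
    (fun a b => ?_) D.d22 (fun a b => ?_) (fun j => PowerSeries.coeff 1 (z j)) hz1 S0 hS hS₁ hS₂
    (fun c => PowerSeries.coeff (n + 1) (e0 z d hz (Θ c))) a0 ?_ _ ?_ ?_ ?_
  · have := halt a (v₁ b) u₁ (D.kv₁ b) D.ku₁
    rw [D.d11] at this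
    exact this
  · have := halt a (v₁ b) u₂ (D.kv₁ b) D.ku₂
    rw [D.d21, neg_zero] at this
    exact this
  · have := halt a (v₂ b) u₁ (D.kv₂ b) D.ku₁
    rw [D.d12, neg_zero] at this
    exact this
  · have := halt a (v₂ b) u₂ (D.kv₂ b) D.ku₂
    rw [D.d22] at this
    exact this
  · -- hθ
    have hsum : ∑ c, h a0 c • PowerSeries.coeff (n + 1) (e0 z d hz (Θ c)) =
        ∑ v : Fin (n + 1) → Fin 2,
      (tsub X' (hc Θ (h a0)) - C (hc Θ (h a0) []) : NC (Fin 2) K)
        (List.ofFn v) • (List.ofFn fun k => p (v k)).prod := by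
      simp only [e0_comp z d hz p X' hXnil hzX, coeff_evp, Finset.smul_sum, smul_smul]
      rw [Finset.sum_comm]
      refine Finset.sum_congr rfl fun v _ => ?_
      rw [← Finset.sum_smul]
      congr 1
      rw [tsub_hc, NC.sub_apply, NC.sum_apply]
      have hne : List.ofFn v ≠ [] := by
        rw [ne_eq, ← List.length_eq_zero_iff, List.length_ofFn]
        omega
      obtain ⟨w0, w', hw⟩ := List.exists_cons_of_ne_nil hne
      rw [hw, C_cons, sub_zero]
      refine Finset.sum_congr rfl fun c _ => ?_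
      rw [C_mul_apply]
    rw [hsum]
    exact htr
  · -- H1
    intro h0 hh0 v hv
    have := res_cond e z d hz Θ h0 hh0 (xv v hv) 0 (fun c k hk => absurd hk (Nat.not_lt_zero _))
    simp only [sum_c0e1, hx0 v hv] at this
    exact this
  · -- H2
    intro h0 hh0 v hv hlin
    have := res_cond e z d hz Θ h0 hh0 (xv v hv) 1 (fun c k hk => by
      have hk0 : k = 0 := by omega
      subst hk0
      rw [sum_c0e1]
      simp only [hx0 v hv]
      exact hlin c)
    simp only [sum_c1e1, hx0 v hv, hx1 v hv, smul_zero, Finset.sum_const_zero, zero_add] at this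
    exact this
  · -- H3
    intro h0 hh0
    have hsingle : ∀ (G : Fin (k + 1) → E), ∑ i, (Pi.single 0 1 : Fin (k + 1) → F1) i • G i = G 0 := by
      intro G
      rw [Finset.sum_eq_single 0]
      · rw [Pi.single_eq_same, one_smul]
      · intro i _ hi
        rw [Pi.single_eq_of_ne hi, zero_smul]
      · simp
    have hder : ∀ f : NC (Fin m) K, e1 z d hz 0 f = der (e0 z d hz f) := fun f =>
      e1_der z d hz 0 (fun s => rfl) f
    have hlow : ∀ c, ∀ k < n, PowerSeries.coeff k (der (e0 z d hz (Θ c))) = 0 := by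
      intro c k hk
      rw [coeff_der, e0_comp z d hz p X' hXnil hzX]
      have h1 : evp p (tsub X' (Θ c)) = evp p (tsub X' (Θ c) - C (Θ c [])) +
          PowerSeries.C (algebraMap K E (Θ c [])) := by
        rw [← evp_C p, ← map_add, sub_add_cancel]
      rw [h1, map_add, coeff_evp_of_ordGE p (hX'.2 c) (k + 1) (by omega), zero_add,
        PowerSeries.coeff_C, if_neg (by omega), mul_zero]
    have := res_cond e z d hz Θ h0 hh0 (Pi.single 0 1) n (fun c k hk => by
      rw [hsingle, hder, hlow c k hk])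
    simp only [hsingle, hder, coeff_der] at this
    have h2 : (fun c => ((n + 1 : ℕ) : E) * PowerSeries.coeff (n + 1) (e0 z d hz (Θ c))) =
        fun c => ((n + 1 : ℕ) : F1) • PowerSeries.coeff (n + 1) (e0 z d hz (Θ c)) := by
      funext c
      rw [Algebra.smul_def, map_natCast]
    rw [h2, phi_smul] at this
    exact (mul_eq_zero.mp this).resolve_left (by exact_mod_cast Nat.succ_ne_zero n)

end SStep

end Crest.Agent.R180
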