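import Crest.Agent.R180.PRSDef
import Crest.Agent.R180.SDer
import Crest.Agent.R180.SGeo
import Crest.Agent.R180.LaurentLemmas

set_option autoImplicit false
set_option linter.unusedSectionVars false

/-! # Row 180, MODULE S: the new state after a move, residue analysis -/

noncomputable section
namespace Crest.Agent.R180

namespace LF
variable {F : Type} [Field F]

theorem co_mul_nat {x y : LF F} (hx : IsInt x) (hy : IsInt y) (n : ℕ) :
    (x * y).co n = ∑ p ∈ Finset.HasAntidiagonal.antidiagonal n, x.co (p.1 : ℤ) * y.co (p.2 : ℤ) := by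
  obtain ⟨x', rfl⟩ := (isInt_iff x).mp hx
  obtain ⟨y', rfl⟩ := (isInt_iff y).mp hy
  rw [← map_mul, co_ofPS, PowerSeries.coeff_mul]
  simp only [co_ofPS]

end LF

namespace SStep

open Module SAlg SDer

variable {F1 E : Type} [Field F1] [Ring E] [Algebra F1 E] {κ β : Type} [Fintype κ] [Fintype β]
  (e : Basis β F1 E)

/-- pairing of a vector of Laurent series with a vector of power series over `E` -/
def pair (h : κ × β → LF F1) (r : κ → PowerSeries E) : LF F1 :=
  ∑ c, ∑ b, h (c, b) * (LD.basis e).repr (LD.ofPS (r c)) b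

theorem isInt_repr (r : PowerSeries E) (b : β) : LF.IsInt ((LD.basis e).repr (LD.ofPS r) b) := by
  intro n hn
  rw [LD.basis_repr_co, LD.co_ofPS_neg _ _ hn, map_zero]
  rfl

theorem co_pair (h : κ × β → LF F1) (hint : ∀ p, LF.IsInt (h p)) (r : κ → PowerSeries E) (n : ℕ) :
    (pair e h r).co n = ∑ c, ∑ b, ∑ p ∈ Finset.HasAntidiagonal.antidiagonal n,
      (h (c, b)).co (p.1 : ℤ) * e.repr (PowerSeries.coeff p.2 (r c)) b := by
  unfold pair
  rw [LF.co_sum]
  refine Finset.sum_congr rfl fun c _ => ?_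
  rw [LF.co_sum]
  refine Finset.sum_congr rfl fun b _ => ?_
  rw [LF.co_mul_nat (hint _) (isInt_repr e _ _)]
  refine Finset.sum_congr rfl fun p _ => ?_
  rw [LD.basis_repr_co, LD.co_ofPS]

/-- residues of relations -/
theorem phi_of_pair {μ : ℕ} (h : κ × β → LF F1) (hint : ∀ p, LF.IsInt (h p))
    (ρ : Fin μ → κ → PowerSeries E) (hρ : ∀ i, pair e h (ρ i) = 0) (x : Fin μ → F1) (n : ℕ)
    (hlow : ∀ c, ∀ k < n, ∑ i, x i • PowerSeries.coeff k (ρ i c) = 0) :
    phi e (fun p => (h p).co 0) (fun c => ∑ i, x i • PowerSeries.coeff n (ρ i c)) = 0 := by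
  have h1 : ∀ i, ∑ c, ∑ b, ∑ p ∈ Finset.HasAntidiagonal.antidiagonal n,
      (h (c, b)).co (p.1 : ℤ) * e.repr (PowerSeries.coeff p.2 (ρ i c)) b = 0 := by
    intro i
    rw [← co_pair e h hint (ρ i) n, hρ i]
    rfl
  have h2 : ∑ c, ∑ b, ∑ p ∈ Finset.HasAntidiagonal.antidiagonal n,
      (h (c, b)).co (p.1 : ℤ) * e.repr (∑ i, x i • PowerSeries.coeff p.2 (ρ i c)) b = 0 := by
    have h3 : ∑ i, x i * (∑ c, ∑ b, ∑ p ∈ Finset.HasAntidiagonal.antidiagonal n,
      (h (c, b)).co (p.1 : ℤ) * e.repr (PowerSeries.coeff p.2 (ρ i c)) b) = 0 := by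
      simp only [h1, mul_zero, Finset.sum_const_zero]
    rw [← h3]
    simp only [Finset.mul_sum]
    symm
    rw [Finset.sum_comm]
    refine Finset.sum_congr rfl fun c _ => ?_
    rw [Finset.sum_comm]
    refine Finset.sum_congr rfl fun b _ => ?_
    rw [Finset.sum_comm]
    refine Finset.sum_congr rfl fun p _ => ?_
    rw [map_sum, Finsupp.finsetSum_apply, Finset.mul_sum]
    refine Finset.sum_congr rfl fun i _ => ?_
    rw [map_smul, Finsupp.smul_apply, smul_eq_mul]
    ring
  rw [← h2]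
  unfold phi
  refine Finset.sum_congr rfl fun c _ => Finset.sum_congr rfl fun b _ => ?_
  rw [Finset.sum_eq_single ((0 : ℕ), n)]
  · rfl
  · intro p hp hp'
    rw [Finset.HasAntidiagonal.mem_antidiagonal] at hp
    have hlt : p.2 < n := by
      rcases Nat.eq_zero_or_pos p.1 with h0 | h0
      · exfalso; apply hp'; ext <;> simp <;> omega
      · omega
    rw [hlow c p.2 hlt, map_zero, Finsupp.zero_apply, mul_zero]
  · intro hcon
    exfalso; apply hcon
    rw [Finset.HasAntidiagonal.mem_antidiagonal]; simp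

/-- residue of the pairing at order zero -/
theorem co_zero_pair (h : κ × β → LF F1) (hint : ∀ p, LF.IsInt (h p)) (r : κ → PowerSeries E) :
    (pair e h r).co 0 = phi e (fun p => (h p).co 0) (fun c => PowerSeries.coeff 0 (r c)) := by
  have := co_pair e h hint r 0
  simp only [Nat.cast_zero] at this
  rw [this]
  unfold phi
  simp

/-- annihilator of the linear part -/
def annS {L : Type} [Field L] {κ : Type} [Fintype κ] {m : ℕ} (Θ : κ → NC (Fin m) L) :
    Submodule L (κ → L) where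
  carrier := {h | ∀ i, ∑ c, h c * Θ c [i] = 0}
  add_mem' := by
    intro a b ha hb i
    simp only [Pi.add_apply, add_mul, Finset.sum_add_distrib, ha i, hb i, add_zero]
  zero_mem' := by intro i; simp
  smul_mem' := by
    intro c a ha i
    simp only [Pi.smul_apply, smul_eq_mul, mul_assoc, ← Finset.mul_sum, ha i, mul_zero]

theorem mem_annS {L : Type} [Field L] {κ : Type} [Fintype κ] {m : ℕ} (Θ : κ → NC (Fin m) L)
    (h : κ → L) : h ∈ annS Θ ↔ ∀ i, ∑ c, h c * Θ c [i] = 0 := Iff.rfl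

section New

variable {K : Type} [Field K] [Algebra K F1] [Algebra K E] [IsScalarTower K F1 E] {m μ : ℕ}

/-- coordinates of the image of `Θ` under a move -/
def newΘ (X : Fin m → NC (Fin μ) (PowerSeries E))
    (hX : ∀ j, PowerSeries.constantCoeff (X j []) = 0) (Θ : κ → NC (Fin m) K) :
    κ × β → NC (Fin μ) (LF F1) :=
  fun p => ⟨fun w => match w with
    | [] => 0
    | i :: w => (LD.basis e).repr (LD.ofPS (hEv X hX (Θ p.1) (i :: w))) p.2⟩

variable (z : Fin m → PowerSeries E) (d : Fin μ → Fin m → PowerSeries E)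
  (hz : ∀ j, PowerSeries.constantCoeff (z j) = 0) (Θ : κ → NC (Fin m) K)

theorem newΘ_one (p : κ × β) (i : Fin μ) :
    newΘ e (stepX z d) (stepX_const z d hz) Θ p [i] =
      (LD.basis e).repr (LD.ofPS (e1 z d hz i (Θ p.1))) p.2 := rfl

theorem newΘ_two (p : κ × β) (i j : Fin μ) :
    newΘ e (stepX z d) (stepX_const z d hz) Θ p [i, j] =
      (LD.basis e).repr (LD.ofPS (e2 z d hz i j (Θ p.1))) p.2 := rfl

theorem pair_of_mem (h : κ × β → LF F1)
    (hh : h ∈ annS (newΘ e (stepX z d) (stepX_const z d hz) Θ)) (i : Fin μ) :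
    pair e h (fun c => e1 z d hz i (Θ c)) = 0 := by
  have := hh i
  rw [Fintype.sum_prod_type] at this
  exact this

/-- linear conditions on the residues of the new annihilator -/
theorem res_cond (h0 : κ × β → F1)
    (hh : h0 ∈ LF.resPi (annS (newΘ e (stepX z d) (stepX_const z d hz) Θ)))
    (x : Fin μ → F1) (n : ℕ)
    (hlow : ∀ c, ∀ k < n, ∑ i, x i • PowerSeries.coeff k (e1 z d hz i (Θ c)) = 0) :
    phi e h0 (fun c => ∑ i, x i • PowerSeries.coeff n (e1 z d hz i (Θ c))) = 0 := by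
  rw [LF.mem_resPi] at hh
  obtain ⟨h, hh1, hint, hres⟩ := hh
  have h1 := phi_of_pair e h hint (fun i c => e1 z d hz i (Θ c))
    (fun i => pair_of_mem e z d hz Θ h hh1 i) x n hlow
  have h2 : (fun p => (h p).co 0) = h0 := funext hres
  rw [h2] at h1
  exact h1

theorem finrank_annS_new :
    finrank (LF F1) (annS (newΘ e (stepX z d) (stepX_const z d hz) Θ)) =
      finrank F1 (LF.resPi (annS (newΘ e (stepX z d) (stepX_const z d hz) Θ))) :=
  (LF.finrank_resPi _).symm

omit [Algebra F1 E] [Algebra K F1] [IsScalarTower K F1 E] in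
theorem sum4_comm {M₀ : Type*} [AddCommMonoid M₀] {α : Type} [Fintype α]
    (f : α → κ → Fin m → Fin m → M₀) :
    ∑ a, ∑ c, ∑ k, ∑ l, f a c k l = ∑ k, ∑ l, ∑ a, ∑ c, f a c k l := by
  have h1 : ∀ a, ∑ c, ∑ k, ∑ l, f a c k l = ∑ k, ∑ l, ∑ c, f a c k l := by
    intro a
    rw [Finset.sum_comm]
    exact Finset.sum_congr rfl fun k _ => Finset.sum_comm
  simp only [h1]
  rw [Finset.sum_comm]
  exact Finset.sum_congr rfl fun k _ => Finset.sum_comm

/-- the rank of the new quadratic forms: `gr` is the Gram matrix estimate -/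
theorem rank_new (tr : E →ₗ[F1] F1) {s : ℕ} (h : Fin s → κ → K) {R D : ℕ}
    (gr : ∀ g : Fin s → E, g ≠ 0 →
      R ≤ (Matrix.of fun i j : Fin μ => tr (∑ k, ∑ l, ∑ a, (∑ c, h a c * Θ c [k, l]) •
        (g a * (PowerSeries.coeff 0 (d i k) * PowerSeries.coeff 0 (d j l))))).rank + D)
    (hann : ∀ h0 ∈ LF.resPi (annS (newΘ e (stepX z d) (stepX_const z d hz) Θ)),
      ∃ g' : Fin s → E, ∀ r, phi e h0 r = ∑ a, tr (g' a * ∑ c, h a c • r c))
    (h' : κ × β → LF F1) (hh' : h' ∈ annS (newΘ e (stepX z d) (stepX_const z d hz) Θ))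
    (hne : h' ≠ 0) :
    R ≤ (Matrix.of fun i j : Fin μ => ∑ p, h' p *
      newΘ e (stepX z d) (stepX_const z d hz) Θ p [i, j]).rank + D := by
  classical
  -- normalise
  obtain ⟨k, hk1, p0, -, hk2⟩ := LD.exists_min_order (Finset.univ : Finset (κ × β)) h' (by
    obtain ⟨p, hp⟩ := Function.ne_iff.mp hne
    exact ⟨p, Finset.mem_univ _, hp⟩)
  set ht : κ × β → LF F1 := (LF.tp (-k) : LF F1) • h' with hht
  have hint : ∀ p, LF.IsInt (ht p) := by
    intro p n hn
    rw [hht, Pi.smul_apply, smul_eq_mul, LF.co_tp_mul]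
    exact hk1 p (Finset.mem_univ _) _ (by omega)
  have hmem : ht ∈ annS (newΘ e (stepX z d) (stepX_const z d hz) Θ) := Submodule.smul_mem _ _ hh'
  have hres : (fun p => (ht p).co 0) ∈
      LF.resPi (annS (newΘ e (stepX z d) (stepX_const z d hz) Θ)) :=
    ⟨ht, hmem, hint, fun _ => rfl⟩
  obtain ⟨g', hg'⟩ := hann _ hres
  have hg'0 : g' ≠ 0 := by
    intro hcon
    have hz0 : ∀ r, phi e (fun p => (ht p).co 0) r = 0 := by
      intro r
      rw [hg' r, hcon]
      simp
    have h1 := phi_single e (fun p => (ht p).co 0) p0.1 p0.2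
    rw [hz0] at h1
    have h2 : (ht p0).co 0 = (h' p0).co k := by
      rw [hht, Pi.smul_apply, smul_eq_mul, LF.co_tp_mul, zero_sub, neg_neg]
    apply hk2
    rw [← h2]
    exact h1.symm
  -- compare the matrices
  set M1 : Matrix (Fin μ) (Fin μ) (LF F1) := Matrix.of fun i j : Fin μ => ∑ p, h' p *
      newΘ e (stepX z d) (stepX_const z d hz) Θ p [i, j] with hM1
  set M2 : Matrix (Fin μ) (Fin μ) (LF F1) := Matrix.of fun i j : Fin μ => ∑ p, ht p *
      newΘ e (stepX z d) (stepX_const z d hz) Θ p [i, j] with hM2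
  have hM2eq : ∀ i j, M2 i j = pair e ht (fun c => e2 z d hz i j (Θ c)) := by
    intro i j
    rw [hM2, Matrix.of_apply, Fintype.sum_prod_type]
    rfl
  have hM12 : M2 = (Matrix.diagonal fun _ => (LF.tp (-k) : LF F1)) * M1 := by
    ext i j
    rw [Matrix.diagonal_mul, hM1, hM2, Matrix.of_apply, Matrix.of_apply, Finset.mul_sum]
    refine Finset.sum_congr rfl fun p _ => ?_
    rw [hht, Pi.smul_apply, smul_eq_mul, mul_assoc]
  have hr1 : M2.rank ≤ M1.rank := by
    rw [hM12]
    exact Matrix.rank_mul_le_right _ _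
  have hM2int : ∀ i j, LF.IsInt (M2 i j) := by
    intro i j
    rw [hM2eq]
    unfold pair
    refine LF.IsInt.sum fun c _ => LF.IsInt.sum fun b _ => ?_
    exact (hint _).mul (isInt_repr e _ _)
  have hr2 := LF.rank_residue_le M2 hM2int
  have hM3 : M2.map (fun x => x.co 0) = Matrix.of fun i j : Fin μ => tr (∑ k, ∑ l, ∑ a,
      (∑ c, h a c * Θ c [k, l]) •
        (g' a * (PowerSeries.coeff 0 (d i k) * PowerSeries.coeff 0 (d j l)))) := by
    ext i j
    rw [Matrix.map_apply, hM2eq, co_zero_pair e ht hint, hg', Matrix.of_apply, ← map_sum]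
    congr 1
    simp only [c0e2, Finset.smul_sum, Finset.mul_sum, Finset.sum_smul]
    rw [sum4_comm]
    refine Finset.sum_congr rfl fun k _ => Finset.sum_congr rfl fun l _ =>
      Finset.sum_congr rfl fun a _ => Finset.sum_congr rfl fun c _ => ?_
    rw [mul_smul_comm, mul_smul_comm, smul_smul]
  rw [hM3] at hr2
  have := gr g' hg'0
  omega

end New

end SStep

end Crest.Agent.R180
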