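import Crest.Agent.R180.SCyc

set_option autoImplicit false
set_option linter.unusedSectionVars false
set_option linter.unusedVariables false

/-! # Row 180, MODULE S: the step of Theorem S when some form is not alternating -/

noncomputable section
namespace Crest.Agent.R180

namespace SStep

open Module NC SAlg SDer

section Triv

variable {F1 E : Type} [Field F1] [Ring E] [Algebra F1 E]

/-- if `E = F1` then `E((t)) = F1((t))` -/
theorem algebraMap_surj_LD (h : Function.Surjective (algebraMap F1 E)) :
    Function.Surjective (algebraMap (LF F1) (LD E)) := by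
  classical
  intro x
  choose s hs using h
  obtain ⟨a, ha⟩ := LD.exists_LF_of_support x (fun n => if x.co n = 0 then (0 : F1) else s (x.co n))
    (fun n hn => if_pos hn)
  refine ⟨a, ?_⟩
  apply LD.ext
  intro n
  change algebraMap F1 E (a.co n) = x.co n
  rw [ha]
  split_ifs with h0
  · rw [h0, map_zero]
  · exact hs _

end Triv

section Res

variable {K F1 E : Type} [Field K] [Field F1] [Algebra K F1] [Ring E] [IsDomain E] [Algebra F1 E]
  [Algebra K E] [IsScalarTower K F1 E] [FiniteDimensional F1 E]
  [CharZero K] [CharZero F1] {m : ℕ} {κ β : Type} [Fintype κ] [Fintype β]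

/-- the point of the trivial step -/
def tz (E : Type) [Ring E] [Algebra K E] (x : Fin m → K) (j : Fin m) : PowerSeries E :=
  PowerSeries.X * PowerSeries.C (algebraMap K E (x j))

/-- the directions of the trivial step -/
def td (E : Type) [Ring E] (m : ℕ) (i j : Fin m) : PowerSeries E :=
  PowerSeries.C (if i = j then 1 else 0)

theorem tz_const (x : Fin m → K) (j : Fin m) :
    PowerSeries.constantCoeff (tz E x j) = 0 := by
  unfold tz; rw [map_mul]; simp

theorem tz_one (x : Fin m → K) (j : Fin m) :
    PowerSeries.coeff 1 (tz E x j) = algebraMap K E (x j) := by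
  unfold tz
  have : (1 : ℕ) = 0 + 1 := rfl
  rw [this, PowerSeries.coeff_succ_X_mul]; simp

theorem td_zero (i j : Fin m) : PowerSeries.coeff 0 (td E m i j) = if i = j then 1 else 0 := by
  unfold td; simp

theorem td_one (i j : Fin m) : PowerSeries.coeff 1 (td E m i j) = 0 := by
  unfold td; rw [PowerSeries.coeff_C]; simp

theorem res_triv (e : Basis β F1 E) (Θ : κ → NC (Fin m) K) {s : ℕ} (h : Fin s → κ → K)
    (hli : LinearIndependent K h)
    (hspan : ∀ y : κ → K, (∀ i, ∑ c, y c * Θ c [i] = 0) → y ∈ Submodule.span K (Set.range h))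
    (x : Fin m → K) (hx : ∀ c, ∑ i, Θ c [i] * x i = 0) (a0 : Fin s) (hq : qf Θ (h a0) x x ≠ 0)
    (htriv : Function.Surjective (algebraMap F1 E))
    (tr : E →ₗ[F1] F1) (htr : ∀ y : F1, y ≠ 0 → tr (algebraMap F1 E y) ≠ 0) :
    finrank F1 (LF.resPi (annS (newΘ e (stepX (tz E x) (td E m))
      (stepX_const _ _ (tz_const x)) Θ))) < s ∧
    ∀ h0 ∈ LF.resPi (annS (newΘ e (stepX (tz E x) (td E m))
      (stepX_const _ _ (tz_const x)) Θ)), ∃ g' : Fin s → E, ∀ r,
      phi e h0 r = ∑ a, tr (g' a * ∑ c, h a c • r c) := by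
  classical
  have htr0 : tr ≠ 0 := by
    rintro rfl
    exact htr 1 one_ne_zero (LinearMap.zero_apply _)
  have hcol : ∀ (y : Fin m → F1) (j : Fin m),
      ∑ i, y i • PowerSeries.coeff 0 (td E m i j) = algebraMap F1 E (y j) := by
    intro y j
    simp only [td_zero]
    rw [Finset.sum_eq_single j]
    · rw [if_pos rfl, Algebra.algebraMap_eq_smul_one]
    · intro i _ hi
      rw [if_neg hi, smul_zero]
    · simp
  refine G0_triv e htriv tr htr0 (fun c i => Θ c [i]) h hli hspan
    (fun c => algebraMap K E (∑ t, ∑ r, Θ c [t, r] * x t * x r)) a0 ?_ _ ?_ ?_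
  · -- hθ
    have : ∑ c, h a0 c • algebraMap K E (∑ t, ∑ r, Θ c [t, r] * x t * x r) =
        algebraMap F1 E (algebraMap K F1 (qf Θ (h a0) x x)) := by
      rw [← IsScalarTower.algebraMap_apply]
      simp only [Algebra.smul_def, ← map_mul, ← map_sum]
      congr 1
      unfold qf qco
      simp only [Finset.mul_sum, Finset.sum_mul]
      rw [Finset.sum_comm]
      refine Finset.sum_congr rfl fun i _ => ?_
      rw [Finset.sum_comm]
      refine Finset.sum_congr rfl fun j _ => Finset.sum_congr rfl fun c _ => by ring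
    rw [this]
    exact htr _ (by
      rw [ne_eq, FaithfulSMul.algebraMap_eq_zero_iff]
      exact hq)
  · -- H1
    intro h0 hh0 y
    choose y' hy' using fun i => htriv (y i)
    have := res_cond e (tz E x) (td E m) (tz_const x) Θ h0 hh0 y' 0
      (fun c k hk => absurd hk (Nat.not_lt_zero _))
    simp only [sum_c0e1, hcol, hy'] at this
    exact this
  · -- H3
    intro h0 hh0
    have hlow : ∀ c, ∑ i, (algebraMap K F1 (x i)) •
        PowerSeries.coeff 0 (e1 (tz E x) (td E m) (tz_const x) i (Θ c)) = 0 := by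
      intro c
      rw [sum_c0e1 (tz E x) (td E m) (tz_const x) (fun i => algebraMap K F1 (x i))]
      simp only [hcol, ← IsScalarTower.algebraMap_apply]
      simp only [Algebra.smul_def, ← map_mul, ← map_sum, hx c, map_zero]
    have := res_cond e (tz E x) (td E m) (tz_const x) Θ h0 hh0 (fun i => algebraMap K F1 (x i)) 1
      (fun c k hk => by
        have hk0 : k = 0 := by omega
        subst hk0
        exact hlow c)
    have h2 : (fun c => ∑ i, (algebraMap K F1 (x i)) •
        PowerSeries.coeff 1 (e1 (tz E x) (td E m) (tz_const x) i (Θ c))) =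
        fun c => (2 : F1) • algebraMap K E (∑ t, ∑ r, Θ c [t, r] * x t * x r) := by
      funext c
      rw [sum_c1e1 (tz E x) (td E m) (tz_const x) (fun i => algebraMap K F1 (x i))]
      simp only [hcol, td_one, smul_zero, Finset.sum_const_zero, zero_add, tz_one,
        ← IsScalarTower.algebraMap_apply]
      simp only [map_sum, Finset.smul_sum]
      refine Finset.sum_congr rfl fun t _ => Finset.sum_congr rfl fun r _ => ?_
      rw [Algebra.smul_def, Algebra.smul_def, map_ofNat, ← map_ofNat (algebraMap K E) 2,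
        ← map_mul, ← map_add, ← map_mul, ← map_mul]
      congr 1
      ring
    rw [h2, phi_smul] at this
    exact (mul_eq_zero.mp this).resolve_left two_ne_zero

end Res

variable {A : DA} {m : ℕ} {κ : Type} [Fintype κ]

theorem exists_tr (M : Adm A) (hb : Function.Bijective (algebraMap M.F1 M.E)) :
    ∃ tr : M.E →ₗ[M.F1] M.F1, ∀ y : M.F1, y ≠ 0 → tr (algebraMap M.F1 M.E y) ≠ 0 := by
  let L : M.F1 ≃ₗ[M.F1] M.E := LinearEquiv.ofBijective (Algebra.linearMap M.F1 M.E) hb
  refine ⟨L.symm.toLinearMap, fun y hy => ?_⟩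
  have : L.symm (algebraMap M.F1 M.E y) = y := by
    rw [LinearEquiv.symm_apply_eq]
    rfl
  change L.symm (algebraMap M.F1 M.E y) ≠ 0
  rw [this]
  exact hy

theorem triv_step (Θ : κ → NC (Fin m) A.F) (hΘ : Inv Θ) {s : ℕ}
    (hb : Basis (Fin s) A.F (annS Θ)) (x : Fin m → A.F) (hx : ∀ c, ∑ i, Θ c [i] * x i = 0)
    (a0 : Fin s) (hq : qf Θ (hb a0 : κ → A.F) x x ≠ 0)
    (M : Adm A) (hbij : Function.Bijective (algebraMap M.F1 M.E)) (hM : M.RankGood) :
    ∃ (μ : ℕ) (X : Fin m → NC (Fin μ) (PowerSeries M.E)),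
      StepOut Θ M X (Module.finBasis M.F1 M.E) := by
  classical
  obtain ⟨tr, htr⟩ := exists_tr M hbij
  have htr0 : tr ≠ 0 := by
    rintro rfl
    exact htr 1 one_ne_zero (LinearMap.zero_apply _)
  have hfinE : finrank M.F1 M.E = 1 := by
    have h1 := (LinearEquiv.ofBijective (Algebra.linearMap M.F1 M.E) hbij).finrank_eq
    rw [← h1, finrank_self]
  have hfin : finrank A.F (annS Θ) = s := by
    rw [finrank_eq_card_basis hb, Fintype.card_fin]
  set h : Fin s → κ → A.F := fun a => (hb a : κ → A.F) with hhdef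
  have hli : LinearIndependent A.F h := hb.linearIndependent.map' (Submodule.subtype _)
    (Submodule.ker_subtype _)
  have hspan : ∀ y : κ → A.F, (∀ i, ∑ c, y c * Θ c [i] = 0) →
      y ∈ Submodule.span A.F (Set.range h) := by
    intro y hy
    have h1 := hb.sum_repr ⟨y, hy⟩
    have h2 := congrArg (Subtype.val) h1
    simp only [Submodule.coe_sum, Submodule.coe_smul] at h2
    rw [← h2]
    exact Submodule.sum_mem _ fun a _ => Submodule.smul_mem _ _ (Submodule.subset_span ⟨a, rfl⟩)
  obtain ⟨hlt, hann⟩ := res_triv (Module.finBasis M.F1 M.E) Θ h hli hspan x hx a0 hq hbij.2 tr htr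
  have hz : ∀ j, PowerSeries.constantCoeff (tz M.E x j) = 0 := tz_const x
  have hcol : ∀ (y : Fin m → M.F1) (j : Fin m),
      ∑ i, y i • PowerSeries.coeff 0 (td M.E m i j) = algebraMap M.F1 M.E (y j) := by
    intro y j
    simp only [td_zero]
    rw [Finset.sum_eq_single j]
    · rw [if_pos rfl, Algebra.algebraMap_eq_smul_one]
    · intro i _ hi
      rw [if_neg hi, smul_zero]
    · simp
  have hsurj := algebraMap_surj_LD hbij.2
  have hgood : Good' M (stepX (tz M.E x) (td M.E m)) := by
    refine ⟨stepX_const _ _ hz, ?_, ?_⟩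
    · rw [eq_top_iff]
      intro y _
      obtain ⟨a, rfl⟩ := hsurj y
      exact Subalgebra.algebraMap_mem _ a
    · intro l g hrel
      funext j
      have h1 := hrel j
      obtain ⟨g', rfl⟩ := hsurj g
      rw [Algebra.commutes, sub_self] at h1
      have h2 : ∀ i, M.dir (stepX (tz M.E x) (td M.E m)) i j = if i = j then (1 : LD M.E) else 0 := by
        intro i
        change LD.ofPS (td M.E m i j) = _
        unfold td
        split_ifs
        · rw [map_one, map_one]
        · rw [map_zero, map_zero]
      simp only [h2, smul_ite, smul_zero, Finset.sum_ite_eq', Finset.mem_univ, if_true] at h1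
      rw [← Algebra.algebraMap_eq_smul_one] at h1
      exact (FaithfulSMul.algebraMap_eq_zero_iff _ _).mp h1
  have hdli : LinearIndependent M.F1 (fun i j => PowerSeries.coeff 0 (td M.E m i j)) := by
    rw [Fintype.linearIndependent_iff]
    intro y hy i
    have := congrFun hy i
    rw [Finset.sum_apply] at this
    simp only [Pi.smul_apply, hcol, Pi.zero_apply] at this
    exact (FaithfulSMul.algebraMap_eq_zero_iff _ _).mp this
  have hcardeq : Fintype.card (κ × Fin (finrank M.F1 M.E)) = Fintype.card κ := by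
    rw [Fintype.card_prod, Fintype.card_fin, hfinE, mul_one]
  refine ⟨m, stepX (tz M.E x) (td M.E m), hgood, ⟨?_, ?_⟩, ?_⟩
  · rw [hcardeq]
    exact hΘ.1
  · intro h' hne hh'
    have h1 := inv_rank M hM tr htr0 (Module.finBasis M.F1 M.E) Θ (r := 4 * Fintype.card κ + 4)
      (D := 0) h (comb_rank Θ hΘ.2 h hli fun a => (hb a).2) (tz M.E x) (td M.E m) hz hdli
      (by rw [hfinE]; omega) hann h' hne hh'
    rw [hcardeq]
    have key : ∀ R : ℕ, (4 * Fintype.card κ + 4) * finrank M.F1 M.E ≤ R + 2 * 0 →
        4 * (Fintype.card κ) + 4 ≤ R := by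
      intro R hR
      rw [hfinE] at hR
      omega
    exact key _ h1
  · rw [hfin]
    have h1 := finrank_annS_new (Module.finBasis M.F1 M.E) (tz M.E x) (td M.E m) hz Θ
    rw [h1]
    exact hlt

end SStep

end Crest.Agent.R180
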