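import Crest.Agent.R180.NFsep
import Crest.Agent.R180.TS

set_option autoImplicit false

/-!
# Row 180: trace separation + normal form separation combined
-/

namespace Crest.Agent.R180

open scoped TensorProduct

namespace NC

/-- rotation of `List.ofFn` -/
theorem ofFn_rotate {σ : Type} {n : ℕ} [NeZero n] (s : Fin n → σ) (r : Fin n) :
    List.ofFn (fun i => s (i + r)) = (List.ofFn s).rotate r := by
  apply List.ext_getElem
  · simp
  · intro i h1 h2
    simp only [List.getElem_ofFn, List.getElem_rotate, List.length_ofFn]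
    congr 1

variable {σ Γ K K' E : Type} [Fintype σ]

/-- cyclic sums as sums over `Fin n` -/
theorem cyc_ofFn {Γ : Type} [Ring Γ] {n : ℕ} [NeZero n] (f : NC σ Γ) (s : Fin n → σ) :
    cyc f (List.ofFn s) = ∑ r : Fin n, f (List.ofFn (fun i => s (i + r))) := by
  unfold cyc
  rw [List.length_ofFn, Finset.sum_range]
  exact Finset.sum_congr rfl fun r _ => by rw [ofFn_rotate]

variable [Ring Γ] [Field K] [Algebra K Γ] [Field K'] [Algebra K K']
  [Ring E] [IsDomain E] [Algebra K' E] [Algebra K E] [IsScalarTower K K' E]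
  [FiniteDimensional K' E] [Algebra.IsCentral K' E]

/-- If all `Γ`-valued traces of a homogeneous series `q` of degree `n` vanish on `E`, then all its
cyclic sums vanish. -/
theorem cyc_eq_zero_of_trace {n : ℕ} [NeZero n] (hnE : n ^ 2 ≤ Module.finrank K' E)
    (τ : E →ₗ[K'] K') (hτ : ∀ x y, τ (x * y) = τ (y * x)) (hτ0 : τ ≠ 0) (q : NC σ Γ)
    (H : ∀ (ξ : Γ →ₗ[K] K) (z : σ → E),
      ∑ w : Fin n → σ, ξ (q (List.ofFn w)) • τ (List.ofFn (fun j => z (w j))).prod = 0)
    (w : List σ) (hw : w.length = n) : cyc q w = 0 := by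
  by_contra hne
  obtain ⟨ξ, hξ⟩ : ∃ ξ : Γ →ₗ[K] K, ξ (cyc q w) ≠ 0 := by
    by_contra hcon
    push Not at hcon
    exact hne ((Module.forall_dual_apply_eq_zero_iff K _).mp hcon)
  subst hw
  have hwf : List.ofFn w.get = w := List.ofFn_get w
  obtain ⟨z, hz⟩ := exists_trace_ne_zero (K₀ := K) hnE τ hτ hτ0 (fun v => ξ (q (List.ofFn v)))
    w.get (by
      rw [← map_sum, ← cyc_ofFn, hwf]
      exact hξ)
  apply hz
  have := H ξ z
  rw [map_sum]
  rw [← this]
  refine Finset.sum_congr rfl fun v _ => ?_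
  rw [LinearMap.map_smul_of_tower]

/-- **NFsep, trace version.** -/
theorem nfsep_of_trace [DecidableEq σ] {Φ : Type} [Field Φ] [CharZero Φ] [Algebra Φ Γ]
    (B : Submodule Φ Γ) (g : σ → Φ) (hg : g ≠ 0) (k i : ℕ) (hik : k ≤ i) (hi : 0 < i)
    (hnE : (k + i) ^ 2 ≤ Module.finrank K' E)
    (τ : E →ₗ[K'] K') (hτ : ∀ x y, τ (x * y) = τ (y * x)) (hτ0 : τ ≠ 0)
    (p : NC σ Γ) (hp : Hom k p) (hB : ∀ w, p w ∈ B)
    (H : ∀ (ξ : Γ →ₗ[K] K) (z : σ → E), ∑ w : Fin (k + i) → σ,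
      ξ ((p * (linS g : NC σ Γ) ^ i) (List.ofFn w)) • τ (List.ofFn (fun j => z (w j))).prod = 0) :
    ∃ b : NC σ Γ, Hom (k - 1) b ∧ (∀ w, b w ∈ B) ∧ p = b * linS g - linS g * b := by
  have : NeZero (k + i) := ⟨by omega⟩
  exact nfsep B g hg k i hik hi p hp hB
    (cyc_eq_zero_of_trace (K := K) (K' := K') (E := E) hnE τ hτ hτ0 _ H)

end NC

end Crest.Agent.R180
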