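import Mathlib

set_option autoImplicit false

/-!
# Row 180: products of trace-zero elements span (degree at least three)
-/

namespace Crest.Agent.R180

section

variable {K M : Type} [Field K] [CharZero K] [Field M] [Algebra K M] [FiniteDimensional K M]

/-- every functional on `M` is `Tr (c * ·)` -/
theorem exists_trace_repr (φ : M →ₗ[K] K) : ∃ c : M, ∀ x, φ x = Algebra.trace K M (c * x) := by
  have hnd := traceForm_nondegenerate K M
  let e := (Algebra.traceForm K M).toDual hnd
  refine ⟨e.symm φ, fun x => ?_⟩
  have := LinearMap.congr_fun (e.apply_symm_apply φ) x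
  rw [← this]
  rfl

/-- elements of trace zero: their products span `M` if the degree is at least `3`. -/
theorem span_trace_zero_mul (h3 : 3 ≤ Module.finrank K M) :
    (LinearMap.ker (Algebra.trace K M)) * (LinearMap.ker (Algebra.trace K M)) =
      (⊤ : Submodule K M) := by
  by_contra hne
  obtain ⟨x, hx⟩ : ∃ x, x ∉ (LinearMap.ker (Algebra.trace K M)) *
      (LinearMap.ker (Algebra.trace K M)) := by
    by_contra hcon
    push Not at hcon
    exact hne (eq_top_iff.mpr fun x _ => hcon x)
  obtain ⟨φ, hφx, hφ⟩ := Submodule.exists_le_ker_of_notMem (K := K) hx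
  obtain ⟨c, hc⟩ := exists_trace_repr φ
  have hc0 : c ≠ 0 := by
    rintro rfl
    apply hφx
    rw [hc]; simp
  -- `c * a ∈ K` for all `a` of trace zero
  have h1 : ∀ a ∈ LinearMap.ker (Algebra.trace K M), ∃ k : K, algebraMap K M k = c * a := by
    intro a ha
    have h2 : ∀ b ∈ LinearMap.ker (Algebra.trace K M), Algebra.trace K M (c * a * b) = 0 := by
      intro b hb
      have h4 : φ (a * b) = 0 := hφ (Submodule.mul_mem_mul ha hb)
      rw [hc] at h4
      rwa [mul_assoc]
    -- `x ↦ Tr (c a x)` vanishes on `ker Tr`, hence is a multiple of `Tr`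
    set n : K := (Module.finrank K M : K) with hn
    have hn0 : n ≠ 0 := by
      rw [hn]; exact_mod_cast (by omega : Module.finrank K M ≠ 0)
    refine ⟨Algebra.trace K M (c * a) / n, ?_⟩
    have h5 : ∀ x : M, Algebra.trace K M
        ((algebraMap K M (Algebra.trace K M (c * a) / n) - c * a) * x) = 0 := by
      intro x
      have h6 : x - algebraMap K M (Algebra.trace K M x / n) ∈ LinearMap.ker (Algebra.trace K M) := by
        rw [LinearMap.mem_ker, map_sub, Algebra.trace_algebraMap, nsmul_eq_mul, ← hn]
        field_simp
        ring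
      have h7 := h2 _ h6
      rw [mul_sub, map_sub, sub_eq_zero] at h7
      rw [sub_mul, map_sub, h7, ← Algebra.smul_def, map_smul, mul_comm (c * a), ← Algebra.smul_def,
        map_smul, smul_eq_mul, smul_eq_mul]
      field_simp
      ring
    have hnd := (traceForm_nondegenerate K M)
    have h8 : algebraMap K M (Algebra.trace K M (c * a) / n) - c * a = 0 := by
      apply hnd.1
      intro x
      exact h5 x
    exact sub_eq_zero.mp h8
  -- dimension count
  have h9 : Module.finrank K (LinearMap.ker (Algebra.trace K M)) ≤ 1 := by
    have hle : LinearMap.ker (Algebra.trace K M) ≤ Submodule.span K {c⁻¹} := by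
      intro a ha
      obtain ⟨k, hk⟩ := h1 a ha
      rw [Submodule.mem_span_singleton]
      refine ⟨k, ?_⟩
      rw [Algebra.smul_def, hk, mul_comm c a, mul_assoc, mul_inv_cancel₀ hc0, mul_one]
    exact (Submodule.finrank_mono hle).trans (finrank_span_singleton (inv_ne_zero hc0)).le
  have h10 := LinearMap.finrank_range_add_finrank_ker (Algebra.trace K M)
  have h11 : Module.finrank K (LinearMap.range (Algebra.trace K M)) ≤ 1 := by
    have := Submodule.finrank_le (LinearMap.range (Algebra.trace K M))
    rwa [Module.finrank_self] at this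
  omega

end

end Crest.Agent.R180
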