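import Mathlib

set_option autoImplicit false
set_option linter.unusedSectionVars false

/-!
# Row 180: twisted Laurent series `B((y; σ))`

`TL σ` for an automorphism `σ` of an `F`-algebra `B` : the algebra of twisted Laurent series,
realised inside `HahnSeries ℤ (ER F B)` (`b y^k` is the operator `x ↦ b σ^k(x)` in degree `k`).
`sc x k : B` is the `k`-th (left) coefficient of `x`.
-/

namespace Crest.Agent.R180

noncomputable section

open HahnSeries

namespace Twist

/-- type synonym of the endomorphism ring (to have a unique path to `Semiring`) -/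
def ER (F B : Type) [Field F] [Ring B] [Algebra F B] : Type := Module.End F B

section
variable (F B : Type) [Field F] [Ring B] [Algebra F B]

instance ER.instRing : Ring (ER F B) := inferInstanceAs (Ring (Module.End F B))
instance ER.instAlgebra : Algebra F (ER F B) := inferInstanceAs (Algebra F (Module.End F B))
instance ER.instFunLike : FunLike (ER F B) B B := inferInstanceAs (FunLike (Module.End F B) B B)

variable {F B}
@[ext] theorem ER.ext {f g : ER F B} (h : ∀ x, f x = g x) : f = g := DFunLike.ext _ _ h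
@[simp] theorem ER.mul_apply (f g : ER F B) (x : B) : (f * g) x = f (g x) := rfl
@[simp] theorem ER.add_apply (f g : ER F B) (x : B) : (f + g) x = f x + g x := rfl
@[simp] theorem ER.zero_apply (x : B) : (0 : ER F B) x = 0 := rfl
@[simp] theorem ER.one_apply (x : B) : (1 : ER F B) x = x := rfl
@[simp] theorem ER.neg_apply (f : ER F B) (x : B) : (-f) x = - f x := rfl
@[simp] theorem ER.smul_apply (c : F) (f : ER F B) (x : B) : (c • f) x = c • f x := rfl
@[simp] theorem ER.algebraMap_apply (c : F) (x : B) : (algebraMap F (ER F B) c) x = c • x := rfl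
end

variable {F B : Type} [Field F] [Ring B] [Algebra F B] (σ : B ≃ₐ[F] B)

/-- the operator `x ↦ b * σ^k x` -/
def op (b : B) (k : ℤ) : ER F B :=
  (LinearMap.mulLeft F b) ∘ₗ ((σ ^ k : B ≃ₐ[F] B).toLinearMap)

@[simp] theorem op_apply (b x : B) (k : ℤ) : op σ b k x = b * (σ ^ k) x := rfl

theorem op_mul (b c : B) (k l : ℤ) : op σ b k * op σ c l = op σ (b * (σ ^ k) c) (k + l) := by
  ext x
  rw [ER.mul_apply, op_apply, op_apply, op_apply, map_mul, zpow_add, mul_assoc]
  rfl

@[simp] theorem op_zero (k : ℤ) : op σ (0 : B) k = 0 := by ext x; simp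

theorem op_add (b c : B) (k : ℤ) : op σ (b + c) k = op σ b k + op σ c k := by
  ext x; simp [add_mul]

theorem op_inj {b c : B} {k : ℤ} (h : op σ b k = op σ c k) : b = c := by
  have := congrArg (fun f : ER F B => f 1) h
  simpa using this

theorem op_sum {ι : Type*} (s : Finset ι) (b : ι → B) (k : ℤ) :
    op σ (∑ i ∈ s, b i) k = ∑ i ∈ s, op σ (b i) k := by
  classical
  induction s using Finset.induction_on with
  | empty => simp
  | insert a s ha ih => rw [Finset.sum_insert ha, Finset.sum_insert ha, op_add, ih]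

/-- twisted Laurent series -/
def TL : Subalgebra F (HahnSeries ℤ (ER F B)) where
  carrier := {x | ∀ k, ∃ b, x.coeff k = op σ b k}
  mul_mem' := by
    intro x y hx hy n
    choose f hf using hx
    choose g hg using hy
    rw [HahnSeries.coeff_mul]
    refine ⟨∑ ij ∈ Finset.antidiagonal x.isPWO_support y.isPWO_support n,
      f ij.1 * (σ ^ ij.1) (g ij.2), ?_⟩
    rw [op_sum]
    refine Finset.sum_congr rfl fun ij hij => ?_
    have hij' : ij.1 + ij.2 = n := by
      simp only [Finset.mem_antidiagonal] at hij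
      exact hij.2.2
    rw [hf, hg, op_mul, hij']
  add_mem' := by
    intro x y hx hy n
    obtain ⟨f, hf⟩ := hx n
    obtain ⟨g, hg⟩ := hy n
    exact ⟨f + g, by rw [HahnSeries.coeff_add, hf, hg, op_add]⟩
  algebraMap_mem' := by
    intro c n
    by_cases hn : n = 0
    · subst hn
      refine ⟨algebraMap F B c, ?_⟩
      rw [HahnSeries.algebraMap_apply, HahnSeries.C_apply, HahnSeries.coeff_single_same]
      ext x
      simp [Algebra.smul_def]
    · refine ⟨0, ?_⟩
      rw [HahnSeries.algebraMap_apply, HahnSeries.C_apply, HahnSeries.coeff_single_of_ne hn,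
        op_zero]

/-- the coefficients -/
def sc (x : TL σ) (k : ℤ) : B := (x.1.coeff k) 1

theorem sc_eq_of {x : TL σ} {k : ℤ} {b : B} (h : x.1.coeff k = op σ b k) : sc σ x k = b := by
  rw [sc, h]; simp

theorem coeff_eq (x : TL σ) (k : ℤ) : x.1.coeff k = op σ (sc σ x k) k := by
  obtain ⟨b, hb⟩ := x.2 k
  rw [sc_eq_of σ hb, hb]

theorem sc_ext {x y : TL σ} (h : ∀ k, sc σ x k = sc σ y k) : x = y := by
  apply Subtype.ext; apply HahnSeries.ext; funext k
  rw [coeff_eq, coeff_eq, h]

theorem sc_eq_zero_iff (x : TL σ) (k : ℤ) : sc σ x k = 0 ↔ x.1.coeff k = 0 := by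
  constructor
  · intro h; rw [coeff_eq, h, op_zero]
  · intro h; rw [sc, h]; rfl

@[simp] theorem sc_zero (k : ℤ) : sc σ 0 k = 0 := rfl

@[simp] theorem sc_add (x y : TL σ) (k : ℤ) : sc σ (x + y) k = sc σ x k + sc σ y k := rfl

@[simp] theorem sc_neg (x : TL σ) (k : ℤ) : sc σ (-x) k = - sc σ x k := rfl

@[simp] theorem sc_sub (x y : TL σ) (k : ℤ) : sc σ (x - y) k = sc σ x k - sc σ y k := by
  rw [sub_eq_add_neg, sc_add, sc_neg, sub_eq_add_neg]

@[simp] theorem sc_smul (c : F) (x : TL σ) (k : ℤ) : sc σ (c • x) k = c • sc σ x k := rfl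

/-- additive version of `sc` -/
def scHom (k : ℤ) : TL σ →+ B where
  toFun x := sc σ x k
  map_zero' := rfl
  map_add' _ _ := rfl

theorem sc_sum {ι : Type*} (s : Finset ι) (f : ι → TL σ) (k : ℤ) :
    sc σ (∑ i ∈ s, f i) k = ∑ i ∈ s, sc σ (f i) k :=
  map_sum (scHom σ k) f s

/-- product formula, with arbitrary partially well-ordered supersets of the supports -/
theorem sc_mul' (x y : TL σ) {s t : Set ℤ} (hs : s.IsPWO) (ht : t.IsPWO)
    (hxs : x.1.support ⊆ s) (hyt : y.1.support ⊆ t) (n : ℤ) :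
    sc σ (x * y) n = ∑ ij ∈ Finset.antidiagonal hs ht n, sc σ x ij.1 * (σ ^ ij.1) (sc σ y ij.2) := by
  apply sc_eq_of
  change (x.1 * y.1).coeff n = _
  rw [HahnSeries.coeff_mul, op_sum]
  have h1 : ∑ ij ∈ Finset.antidiagonal x.1.isPWO_support y.1.isPWO_support n,
      x.1.coeff ij.1 * y.1.coeff ij.2 = ∑ ij ∈ Finset.antidiagonal hs ht n,
      x.1.coeff ij.1 * y.1.coeff ij.2 := by
    apply Finset.sum_subset
    · intro ij hij
      simp only [Finset.mem_antidiagonal] at hij ⊢
      exact ⟨hxs hij.1, hyt hij.2.1, hij.2.2⟩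
    · intro ij hij hij'
      simp only [Finset.mem_antidiagonal] at hij hij'
      by_cases h1 : ij.1 ∈ x.1.support
      · by_cases h2 : ij.2 ∈ y.1.support
        · exact absurd ⟨h1, h2, hij.2.2⟩ hij'
        · rw [HahnSeries.mem_support, not_not] at h2
          rw [h2, mul_zero]
      · rw [HahnSeries.mem_support, not_not] at h1
        rw [h1, zero_mul]
  rw [h1]
  refine Finset.sum_congr rfl fun ij hij => ?_
  have hij' : ij.1 + ij.2 = n := by
    simp only [Finset.mem_antidiagonal] at hij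
    exact hij.2.2
  rw [coeff_eq, coeff_eq, op_mul, hij']

theorem sc_mul (x y : TL σ) (n : ℤ) :
    sc σ (x * y) n = ∑ ij ∈ Finset.antidiagonal x.1.isPWO_support y.1.isPWO_support n,
      sc σ x ij.1 * (σ ^ ij.1) (sc σ y ij.2) :=
  sc_mul' σ x y _ _ subset_rfl subset_rfl n

/-- the twisted series with coefficients `f` -/
def mk (f : HahnSeries ℤ B) : TL σ :=
  ⟨⟨fun k => op σ (f.coeff k) k, f.isPWO_support.mono (by
    intro k hk
    rw [HahnSeries.mem_support]
    intro h
    apply hk
    simp only [h, op_zero])⟩, fun k => ⟨f.coeff k, rfl⟩⟩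

@[simp] theorem sc_mk (f : HahnSeries ℤ B) (k : ℤ) : sc σ (mk σ f) k = f.coeff k := by
  apply sc_eq_of; rfl

/-- the underlying Hahn series of coefficients -/
def ser (x : TL σ) : HahnSeries ℤ B :=
  ⟨sc σ x, x.1.isPWO_support.mono (by
    intro k hk
    rw [HahnSeries.mem_support]
    intro h
    exact hk ((sc_eq_zero_iff σ x k).mpr h))⟩

@[simp] theorem ser_coeff (x : TL σ) (k : ℤ) : (ser σ x).coeff k = sc σ x k := rfl

@[simp] theorem mk_ser (x : TL σ) : mk σ (ser σ x) = x := sc_ext σ fun k => by simp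
@[simp] theorem ser_mk (f : HahnSeries ℤ B) : ser σ (mk σ f) = f := by
  ext k; simp

theorem ser_support (x : TL σ) : (ser σ x).support = x.1.support := by
  ext k
  rw [HahnSeries.mem_support, HahnSeries.mem_support, ser_coeff, ne_eq, ne_eq, sc_eq_zero_iff]

/-- constants -/
def ι : B →ₐ[F] TL σ where
  toFun b := mk σ (HahnSeries.single 0 b)
  map_one' := sc_ext σ fun k => by
    rw [sc_mk]
    change _ = ((1 : HahnSeries ℤ (ER F B)).coeff k) 1
    rw [HahnSeries.coeff_one, HahnSeries.coeff_single]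
    split_ifs <;> simp_all
  map_zero' := sc_ext σ fun k => by simp
  map_add' b c := sc_ext σ fun k => by
    rw [sc_add, sc_mk, sc_mk, sc_mk, HahnSeries.coeff_single, HahnSeries.coeff_single,
      HahnSeries.coeff_single]
    split_ifs <;> simp
  map_mul' b c := by
    apply Subtype.ext
    change (mk σ (HahnSeries.single 0 (b * c))).1 = (mk σ (HahnSeries.single 0 b)).1 *
      (mk σ (HahnSeries.single 0 c)).1
    have h : ∀ b : B, (mk σ (HahnSeries.single 0 b)).1 = HahnSeries.single 0 (op σ b 0) := by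
      intro b
      ext1; funext k
      change op σ ((HahnSeries.single 0 b : HahnSeries ℤ B).coeff k) k = _
      by_cases hk : k = 0
      · subst hk; rw [HahnSeries.coeff_single_same, HahnSeries.coeff_single_same]
      · rw [HahnSeries.coeff_single_of_ne hk, HahnSeries.coeff_single_of_ne hk, op_zero]
    rw [h, h, h, HahnSeries.single_mul_single, op_mul]
    simp
  commutes' c := by
    apply Subtype.ext
    ext1; funext k
    change op σ ((HahnSeries.single 0 (algebraMap F B c) : HahnSeries ℤ B).coeff k) k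
      = (algebraMap F (HahnSeries ℤ (ER F B)) c).coeff k
    rw [HahnSeries.algebraMap_apply, HahnSeries.C_apply]
    by_cases hk : k = 0
    · subst hk; rw [HahnSeries.coeff_single_same, HahnSeries.coeff_single_same]
      ext x; simp [Algebra.smul_def]
    · rw [HahnSeries.coeff_single_of_ne hk, HahnSeries.coeff_single_of_ne hk, op_zero]

theorem sc_ι (b : B) (k : ℤ) : sc σ (ι σ b) k = if k = 0 then b else 0 := by
  change sc σ (mk σ (HahnSeries.single 0 b)) k = _
  rw [sc_mk]
  by_cases h : k = 0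
  · subst h; simp
  · rw [HahnSeries.coeff_single_of_ne h, if_neg h]

theorem ι_val (b : B) : (ι σ b).1 = HahnSeries.single 0 (op σ b 0) := by
  ext1; funext k
  change op σ ((HahnSeries.single 0 b : HahnSeries ℤ B).coeff k) k = _
  by_cases hk : k = 0
  · subst hk; rw [HahnSeries.coeff_single_same, HahnSeries.coeff_single_same]
  · rw [HahnSeries.coeff_single_of_ne hk, HahnSeries.coeff_single_of_ne hk, op_zero]

/-- the powers of `y` -/
def yp (n : ℤ) : TL σ := mk σ (HahnSeries.single n 1)

theorem yp_val (n : ℤ) : (yp σ n).1 = HahnSeries.single n (op σ 1 n) := by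
  ext1; funext k
  change op σ ((HahnSeries.single n (1 : B)).coeff k) k = _
  by_cases hk : k = n
  · subst hk; rw [HahnSeries.coeff_single_same, HahnSeries.coeff_single_same]
  · rw [HahnSeries.coeff_single_of_ne hk, HahnSeries.coeff_single_of_ne hk, op_zero]

theorem sc_yp (n k : ℤ) : sc σ (yp σ n) k = if k = n then 1 else 0 := by
  rw [yp, sc_mk]
  by_cases h : k = n
  · subst h; simp
  · rw [HahnSeries.coeff_single_of_ne h, if_neg h]

@[simp] theorem yp_zero : yp σ 0 = 1 := by
  have : yp σ 0 = ι σ 1 := rfl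
  rw [this, map_one]

theorem yp_mul (m n : ℤ) : yp σ m * yp σ n = yp σ (m + n) := by
  apply Subtype.ext
  change (yp σ m).1 * (yp σ n).1 = _
  rw [yp_val, yp_val, yp_val, HahnSeries.single_mul_single, op_mul]
  simp

theorem yp_pow (m : ℤ) (n : ℕ) : yp σ m ^ n = yp σ (n * m) := by
  induction n with
  | zero => simp
  | succ n ih => rw [pow_succ, ih, yp_mul]; congr 1; push_cast; ring

theorem sc_ι_mul (b : B) (x : TL σ) (n : ℤ) : sc σ (ι σ b * x) n = b * sc σ x n := by
  apply sc_eq_of
  change ((ι σ b).1 * x.1).coeff n = _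
  rw [ι_val, show n = n + 0 from (add_zero n).symm]
  have h := @HahnSeries.coeff_single_mul_add ℤ (ER F B) _ _ _ _ (op σ b 0) x.1 n 0
  rw [h, coeff_eq, op_mul]
  simp

theorem sc_mul_ι (b : B) (x : TL σ) (n : ℤ) : sc σ (x * ι σ b) n = sc σ x n * (σ ^ n) b := by
  apply sc_eq_of
  change (x.1 * (ι σ b).1).coeff n = _
  rw [ι_val, show n = n + 0 from (add_zero n).symm]
  have h := @HahnSeries.coeff_mul_single_add ℤ (ER F B) _ _ _ _ (op σ b 0) x.1 n 0
  rw [h, coeff_eq, op_mul]
  simp

theorem sc_yp_mul (k : ℤ) (x : TL σ) (n : ℤ) : sc σ (yp σ k * x) n = (σ ^ k) (sc σ x (n - k)) := by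
  apply sc_eq_of
  change ((yp σ k).1 * x.1).coeff n = _
  rw [yp_val]
  have h := @HahnSeries.coeff_single_mul_add ℤ (ER F B) _ _ _ _ (op σ 1 k) x.1 (n - k) k
  rw [sub_add_cancel] at h
  rw [h, coeff_eq, op_mul]
  simp

theorem sc_mul_yp (k : ℤ) (x : TL σ) (n : ℤ) : sc σ (x * yp σ k) n = sc σ x (n - k) := by
  apply sc_eq_of
  change (x.1 * (yp σ k).1).coeff n = _
  rw [yp_val]
  have h := @HahnSeries.coeff_mul_single_add ℤ (ER F B) _ _ _ _ (op σ 1 k) x.1 (n - k) k
  rw [sub_add_cancel] at h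
  rw [h, coeff_eq, op_mul]
  simp

/-- `y b = σ(b) y` -/
theorem yp_mul_ι (k : ℤ) (b : B) : yp σ k * ι σ b = ι σ ((σ ^ k) b) * yp σ k := by
  apply sc_ext; intro n
  rw [sc_yp_mul, sc_mul_yp, sc_ι, sc_ι]
  by_cases h : n - k = 0
  · simp [h]
  · simp [h]

section domain

variable [IsDomain B]

instance instNontrivial : Nontrivial (TL σ) :=
  ⟨⟨0, 1, fun h => by
    have := congrArg (fun x => sc σ x 0) h
    have h1 : sc σ (1 : TL σ) 0 = 1 := by rw [← yp_zero, sc_yp]; simp
    simp [h1] at this⟩⟩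

theorem exists_order {x : TL σ} (hx : x ≠ 0) :
    ∃ m : ℤ, sc σ x m ≠ 0 ∧ ∀ k < m, sc σ x k = 0 := by
  have hx' : x.1 ≠ 0 := fun h => hx (Subtype.ext h)
  refine ⟨x.1.order, ?_, ?_⟩
  · rw [ne_eq, sc_eq_zero_iff]
    exact fun h => hx' (HahnSeries.coeff_order_eq_zero.mp h)
  · intro k hk
    rw [sc_eq_zero_iff]
    exact HahnSeries.coeff_eq_zero_of_lt_order hk

theorem support_subset_Ici {x : TL σ} {m : ℤ} (h : ∀ k < m, sc σ x k = 0) :
    x.1.support ⊆ Set.Ici m := by
  intro k hk
  by_contra hk'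
  rw [HahnSeries.mem_support] at hk
  exact hk ((sc_eq_zero_iff σ x k).mp (h k (not_le.mp hk')))

theorem isPWO_Ici (m : ℤ) : (Set.Ici m).IsPWO := by
  apply Set.IsWF.isPWO
  rw [Set.isWF_iff_no_descending_seq]
  intro f hf hmem
  have h1 : ∀ n : ℕ, f n ≤ f 0 - n := by
    intro n
    induction n with
    | zero => simp
    | succ n ih =>
      have := hf (Nat.lt_succ_self n)
      push_cast
      have h2 : f (n + 1) < f n := this
      omega
  have h2 := h1 ((f 0 - m).toNat + 1)
  have h3 : m ≤ f ((f 0 - m).toNat + 1) := hmem _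
  have h4 : m ≤ f 0 := hmem _
  push_cast at h2
  rw [Int.toNat_of_nonneg (by omega)] at h2
  omega

/-- lowest coefficient of a product -/
theorem sc_mul_low {x y : TL σ} {m n : ℤ} (hx : ∀ k < m, sc σ x k = 0)
    (hy : ∀ k < n, sc σ y k = 0) : sc σ (x * y) (m + n) = sc σ x m * (σ ^ m) (sc σ y n) := by
  rw [sc_mul' σ x y (isPWO_Ici m) (isPWO_Ici n) (support_subset_Ici σ hx)
    (support_subset_Ici σ hy)]
  rw [Finset.sum_eq_single (m, n)]
  · rintro ⟨i, j⟩ hij hne
    simp only [Finset.mem_antidiagonal, Set.mem_Ici] at hij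
    exfalso
    apply hne
    have h1 : i = m := by omega
    have h2 : j = n := by omega
    rw [h1, h2]
  · intro h
    exfalso
    apply h
    simp [Finset.mem_antidiagonal]

/-- vanishing below -/
theorem sc_mul_below {x y : TL σ} {m n : ℤ} (hx : ∀ k < m, sc σ x k = 0)
    (hy : ∀ k < n, sc σ y k = 0) (l : ℤ) (hl : l < m + n) : sc σ (x * y) l = 0 := by
  rw [sc_mul' σ x y (isPWO_Ici m) (isPWO_Ici n) (support_subset_Ici σ hx)
    (support_subset_Ici σ hy)]
  apply Finset.sum_eq_zero
  rintro ⟨i, j⟩ hij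
  simp only [Finset.mem_antidiagonal, Set.mem_Ici] at hij
  exfalso
  omega

instance instDomain : IsDomain (TL σ) := by
  have : NoZeroDivisors (TL σ) := by
    constructor
    intro x y hxy
    by_contra hne
    push Not at hne
    obtain ⟨m, hm, hm'⟩ := exists_order σ hne.1
    obtain ⟨n, hn, hn'⟩ := exists_order σ hne.2
    have h := sc_mul_low σ hm' hn'
    rw [hxy, sc_zero] at h
    have h2 : (σ ^ m) (sc σ y n) ≠ 0 := by
      intro h0
      apply hn
      apply (σ ^ m).injective
      rw [h0, map_zero]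
    exact (mul_ne_zero hm h2) h.symm
  exact NoZeroDivisors.to_isDomain (TL σ)

end domain

section map

variable {B' : Type} [Ring B'] [Algebra F B'] (σ' : B' ≃ₐ[F] B') (φ : B →ₐ[F] B')
  (hφ : ∀ b, φ (σ b) = σ' (φ b))

include hφ in
theorem map_zpow (k : ℤ) (b : B) : φ ((σ ^ k) b) = (σ' ^ k) (φ b) := by
  have hpow : ∀ (n : ℕ) (b : B), φ ((σ ^ n) b) = (σ' ^ n) (φ b) := by
    intro n
    induction n with
    | zero => intro b; simp
    | succ n ih =>
      intro b
      rw [pow_succ, pow_succ, AlgEquiv.mul_apply, AlgEquiv.mul_apply, ih, hφ]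
  obtain ⟨n, rfl | rfl⟩ := k.eq_nat_or_neg
  · rw [zpow_natCast, zpow_natCast, hpow]
  · rw [zpow_neg, zpow_neg, zpow_natCast, zpow_natCast]
    apply (σ' ^ n).injective
    rw [← hpow, ← AlgEquiv.mul_apply, ← AlgEquiv.mul_apply, mul_inv_cancel, mul_inv_cancel]
    rfl

/-- functoriality of twisted Laurent series -/
def map : TL σ →ₐ[F] TL σ' where
  toFun x := mk σ' ((ser σ x).map (φ : B →+ B'))
  map_one' := by
    apply sc_ext; intro k
    rw [sc_mk]
    change φ (sc σ 1 k) = _
    rw [← yp_zero, ← yp_zero, sc_yp, sc_yp]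
    split_ifs <;> simp
  map_zero' := by
    apply sc_ext; intro k
    rw [sc_mk]
    change φ (sc σ 0 k) = _
    simp
  map_add' x y := by
    apply sc_ext; intro k
    rw [sc_mk, sc_add, sc_mk, sc_mk]
    change φ (sc σ (x + y) k) = φ (sc σ x k) + φ (sc σ y k)
    simp
  map_mul' x y := by
    apply sc_ext; intro n
    have h1 : ∀ z : TL σ, (mk σ' ((ser σ z).map (φ : B →+ B'))).1.support ⊆ z.1.support := by
      intro z k hk
      rw [HahnSeries.mem_support] at hk ⊢
      intro h
      apply hk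
      rw [← sc_eq_zero_iff, sc_mk]
      change φ (sc σ z k) = 0
      rw [(sc_eq_zero_iff σ z k).mpr h, map_zero]
    rw [sc_mul' σ' _ _ x.1.isPWO_support y.1.isPWO_support (h1 x) (h1 y), sc_mk]
    change φ (sc σ (x * y) n) = _
    rw [sc_mul, map_sum]
    refine Finset.sum_congr rfl fun ij _ => ?_
    rw [sc_mk, sc_mk, map_mul, map_zpow σ σ' φ hφ]
    rfl
  commutes' c := by
    apply sc_ext; intro k
    rw [sc_mk]
    change φ (sc σ (algebraMap F (TL σ) c) k) = _
    rw [← (ι σ).commutes, ← (ι σ').commutes, sc_ι, sc_ι]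
    split_ifs <;> simp

@[simp] theorem sc_map (x : TL σ) (k : ℤ) : sc σ' (map σ σ' φ hφ x) k = φ (sc σ x k) := by
  change sc σ' (mk σ' _) k = _
  rw [sc_mk]; rfl

end map

end Twist

end

end Crest.Agent.R180
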