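import Crest.Agent.R180.Twist

set_option autoImplicit false
set_option linter.unusedSectionVars false

/-!
# Row 180: `TL σ ⊗ D` is a domain when `B ⊗ D` is
-/

namespace Crest.Agent.R180

noncomputable section

open TensorProduct

namespace Twist

variable {F B D : Type} [Field F] [Ring B] [Algebra F B] (σ : B ≃ₐ[F] B) [Ring D] [Algebra F D]

/-- extension of an automorphism to `B ⊗ D` -/
def sigD (D : Type) [Ring D] [Algebra F D] : B ⊗[F] D ≃ₐ[F] B ⊗[F] D :=
  Algebra.TensorProduct.congr σ AlgEquiv.refl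

@[simp] theorem sigD_tmul (b : B) (d : D) : sigD σ D (b ⊗ₜ d) = σ b ⊗ₜ d := by
  simp [sigD]

theorem sigD_left (k : ℤ) (b : B) : (sigD σ D ^ k) (b ⊗ₜ[F] 1) = (σ ^ k) b ⊗ₜ 1 := by
  have := map_zpow σ (sigD σ D) (Algebra.TensorProduct.includeLeft : B →ₐ[F] B ⊗[F] D)
    (fun b => by simp) k b
  simpa using this.symm

theorem sigD_right (k : ℤ) (d : D) : (sigD σ D ^ k) (1 ⊗ₜ[F] d) = 1 ⊗ₜ d := by
  have := map_zpow (1 : D ≃ₐ[F] D) (sigD σ D) (Algebra.TensorProduct.includeRight : D →ₐ[F] B ⊗[F] D)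
    (fun b => by simp) k d
  simpa using this.symm

theorem sigD_zpow_tmul (k : ℤ) (b : B) (d : D) :
    (sigD σ D ^ k) (b ⊗ₜ[F] d) = (σ ^ k) b ⊗ₜ d := by
  have : b ⊗ₜ[F] d = (b ⊗ₜ[F] 1) * (1 ⊗ₜ[F] d) := by simp
  rw [this, map_mul, sigD_left, sigD_right]
  simp

/-- `TL σ ⊗ D → TL (σ ⊗ 1)` -/
def tmap (D : Type) [Ring D] [Algebra F D] : TL σ ⊗[F] D →ₐ[F] TL (sigD σ D) :=
  Algebra.TensorProduct.lift
    (map σ (sigD σ D) (Algebra.TensorProduct.includeLeft) (fun b => by simp))
    ((ι (sigD σ D)).comp Algebra.TensorProduct.includeRight) (fun x d => by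
      change _ = _
      apply sc_ext; intro k
      rw [AlgHom.comp_apply, sc_ι_mul, sc_mul_ι, sc_map]
      simp only [Algebra.TensorProduct.includeRight_apply, Algebra.TensorProduct.includeLeft_apply]
      rw [sigD_right]
      simp)

@[simp] theorem sc_tmap_tmul (x : TL σ) (d : D) (k : ℤ) :
    sc (sigD σ D) (tmap σ D (x ⊗ₜ d)) k = sc σ x k ⊗ₜ[F] d := by
  have h : tmap σ D (x ⊗ₜ d) = map σ (sigD σ D) (Algebra.TensorProduct.includeLeft)
      (fun b => by simp) x * ι (sigD σ D) (1 ⊗ₜ d) := rfl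
  rw [h, sc_mul_ι, sc_map, sigD_right]
  simp

theorem sc_tmap_repr {κ : Type} [DecidableEq κ] (b : Module.Basis κ F D) (x : TL σ ⊗[F] D) (k : ℤ)
    (j : κ) : TensorProduct.equivFinsuppOfBasisRight b (sc (sigD σ D) (tmap σ D x) k) j =
      sc σ (TensorProduct.equivFinsuppOfBasisRight b x j) k := by
  induction x using TensorProduct.induction_on with
  | zero => simp
  | tmul f d =>
    rw [sc_tmap_tmul]
    simp only [TensorProduct.equivFinsuppOfBasisRight_apply_tmul_apply, sc_smul]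
  | add x y hx hy =>
    rw [map_add, sc_add, map_add, map_add, Finsupp.add_apply, Finsupp.add_apply, sc_add, hx, hy]

theorem tmap_injective : Function.Injective (tmap σ D) := by
  classical
  intro x y h
  let b := Module.Basis.ofVectorSpace F D
  apply (TensorProduct.equivFinsuppOfBasisRight (M := TL σ) b).injective
  ext j : 1
  apply sc_ext; intro k
  rw [← sc_tmap_repr, ← sc_tmap_repr, h]

theorem isDomain_tensor (D : Type) [Ring D] [Algebra F D] [IsDomain (B ⊗[F] D)] :
    IsDomain (TL σ ⊗[F] D) :=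
  Function.Injective.isDomain (tmap σ D).toRingHom (tmap_injective σ)

end Twist

end

end Crest.Agent.R180
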