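import Crest.Agent.R180.Win
import Crest.Agent.R180.ModR
import Crest.Agent.R180.CycConstr

set_option autoImplicit false
set_option linter.unusedSectionVars false
noncomputable section
namespace Crest.Agent.R180

open TensorProduct

/-! ### congruence modulo words of length `≥ k` -/

section modk
variable {σ A : Type} [Ring A]

/-- `f ≡ g` on words of length `< k` -/
def NC.Eqk (k : ℕ) (f g : NC σ A) : Prop := ∀ w : List σ, w.length < k → f w = g w

theorem NC.Eqk.refl (k : ℕ) (f : NC σ A) : NC.Eqk k f f := fun _ _ => rfl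
theorem NC.Eqk.symm {k : ℕ} {f g : NC σ A} (h : NC.Eqk k f g) : NC.Eqk k g f :=
  fun w hw => (h w hw).symm
theorem NC.Eqk.trans {k : ℕ} {f g h : NC σ A} (h1 : NC.Eqk k f g) (h2 : NC.Eqk k g h) :
    NC.Eqk k f h := fun w hw => (h1 w hw).trans (h2 w hw)
theorem NC.Eqk.add {k : ℕ} {f g f' g' : NC σ A} (h1 : NC.Eqk k f g) (h2 : NC.Eqk k f' g') :
    NC.Eqk k (f + f') (g + g') := fun w hw => by rw [NC.add_apply, NC.add_apply, h1 w hw, h2 w hw]
theorem NC.Eqk.mono {k l : ℕ} (h : l ≤ k) {f g : NC σ A} (h1 : NC.Eqk k f g) : NC.Eqk l f g :=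
  fun w hw => h1 w (lt_of_lt_of_le hw h)
theorem NC.Eqk.mul {k : ℕ} {f g f' g' : NC σ A} (h1 : NC.Eqk k f g) (h2 : NC.Eqk k f' g') :
    NC.Eqk k (f * f') (g * g') := by
  intro w hw
  rw [NC.mul_apply_sum, NC.mul_apply_sum]
  refine Finset.sum_congr rfl fun i hi => ?_
  have hi := Finset.mem_range.1 hi
  rw [h1 _ (by rw [List.length_take]; omega), h2 _ (by rw [List.length_drop]; omega)]
theorem NC.Eqk.sub {k : ℕ} {f g f' g' : NC σ A} (h1 : NC.Eqk k f g) (h2 : NC.Eqk k f' g') :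
    NC.Eqk k (f - f') (g - g') := fun w hw => by
  rw [NC.sub_apply, NC.sub_apply, h1 w hw, h2 w hw]
theorem NC.Eqk.sum {k : ℕ} {ι : Type} (s : Finset ι) (f g : ι → NC σ A)
    (h : ∀ i ∈ s, NC.Eqk k (f i) (g i)) : NC.Eqk k (∑ i ∈ s, f i) (∑ i ∈ s, g i) := fun w hw => by
  rw [NC.sum_apply, NC.sum_apply]; exact Finset.sum_congr rfl fun i hi => h i hi w hw
theorem NC.Eqk.pow {k : ℕ} {f g : NC σ A} (h1 : NC.Eqk k f g) (n : ℕ) :
    NC.Eqk k (f ^ n) (g ^ n) := by
  induction n with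
  | zero => exact fun w _ => by rw [pow_zero, pow_zero]
  | succ n ih => rw [pow_succ, pow_succ]; exact ih.mul h1

/-- one more degree of precision for products of series without constant term -/
theorem NC.Eqk.mul_succ {k : ℕ} {f g f' g' : NC σ A} (h1 : NC.Eqk k f g) (h2 : NC.Eqk k f' g')
    (hf : f [] = 0) (hg : g [] = 0) (hf' : f' [] = 0) (hg' : g' [] = 0) :
    NC.Eqk (k + 1) (f * f') (g * g') := by
  intro w hw
  rw [NC.mul_apply_sum, NC.mul_apply_sum]
  refine Finset.sum_congr rfl fun i hi => ?_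
  have hi := Finset.mem_range.1 hi
  by_cases h0 : (i : ℕ) = 0
  · rw [h0, List.take_zero, hf, hg, zero_mul, zero_mul]
  · by_cases h3 : (i : ℕ) = w.length
    · rw [h3, List.drop_length, hf', hg', mul_zero, mul_zero]
    · rw [h1 _ (by rw [List.length_take]; omega), h2 _ (by rw [List.length_drop]; omega)]

theorem NC.Eqk.pow_succ' {k : ℕ} {f g : NC σ A} (h1 : NC.Eqk k f g)
    (hf : f [] = 0) (hg : g [] = 0) (n : ℕ) (hn : 2 ≤ n) :
    NC.Eqk (k + 1) (f ^ n) (g ^ n) := by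
  obtain ⟨n, rfl⟩ := Nat.exists_eq_add_of_le hn
  have e : 2 + n = (n + 1) + 1 := by ring
  rw [e, pow_succ f (n + 1), pow_succ g (n + 1)]
  refine NC.Eqk.mul_succ (h1.pow (n + 1)) h1 ?_ ?_ hf hg
  · rw [pow_succ, NC.mul_nil, hf, mul_zero]
  · rw [pow_succ, NC.mul_nil, hg, mul_zero]

theorem NC.pow_apply_eq_zero {f : NC σ A} (hf : f [] = 0) (n : ℕ) (w : List σ)
    (hw : w.length < n) : (f ^ n) w = 0 := by
  induction n generalizing w with
  | zero => omega
  | succ n ih =>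
    rw [pow_succ, NC.mul_apply_sum]
    refine Finset.sum_eq_zero fun i hi => ?_
    have hi := Finset.mem_range.1 hi
    by_cases h3 : (i : ℕ) = w.length
    · rw [h3, List.drop_length, hf, mul_zero]
    · rw [ih _ (by rw [List.length_take]; omega), zero_mul]

end modk

/-! ### closure rules for `RS` -/

section RS
variable {P : (A : DA) → (m : ℕ) → NC (Fin m) A.D → Prop}

theorem Kcl.of_le {F D : Type} [Field F] [Ring D] [Algebra F D] {m : ℕ} {Λ Λ' : Subalgebra F D}
    (h : Λ ≤ Λ') {γ f : NC (Fin m) D} (hf : Kcl Λ γ f) : Kcl Λ' γ f := by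
  intro k
  obtain ⟨g, hg, h'⟩ := hf k
  refine ⟨g, Algebra.adjoin_mono ?_ hg, h'⟩
  exact Set.union_subset_union_left _ (Set.image_mono h)

theorem Kcl.trans' {F D : Type} [Field F] [Ring D] [Algebra F D] {m : ℕ} {Λ : Subalgebra F D}
    {γ γ₁ f : NC (Fin m) D} (hf : Kcl Λ γ f) (hγ : Kcl Λ γ₁ γ) : Kcl Λ γ₁ f := by
  intro k
  obtain ⟨g, hg, h'⟩ := hf k
  suffices h : ∃ g' ∈ Algebra.adjoin F ((fun d => (NC.C d : NC (Fin m) D)) '' (Λ : Set D) ∪ {γ₁}),
      NC.Eqk k g g' by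
    obtain ⟨g', hg', h''⟩ := h
    exact ⟨g', hg', fun w hw => (h' w hw).trans (h'' w hw)⟩
  clear h' hf
  induction hg using Algebra.adjoin_induction with
  | mem a ha =>
    rcases ha with ha | ha
    · exact ⟨a, Algebra.subset_adjoin (Or.inl ha), NC.Eqk.refl _ _⟩
    · rw [Set.mem_singleton_iff] at ha
      subst ha
      obtain ⟨g', hg', h''⟩ := hγ k
      exact ⟨g', hg', h''⟩
  | algebraMap r => exact ⟨_, Subalgebra.algebraMap_mem _ r, NC.Eqk.refl _ _⟩
  | add a b _ _ ha hb =>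
    obtain ⟨a', ha', h1⟩ := ha
    obtain ⟨b', hb', h2⟩ := hb
    exact ⟨a' + b', Subalgebra.add_mem _ ha' hb', h1.add h2⟩
  | mul a b _ _ ha hb =>
    obtain ⟨a', ha', h1⟩ := ha
    obtain ⟨b', hb', h2⟩ := hb
    exact ⟨a' * b', Subalgebra.mul_mem _ ha' hb', h1.mul h2⟩

theorem RS.mono {A : DA} {m : ℕ} {Λ Λ' : Subalgebra A.F A.D} {γ : NC (Fin m) A.D}
    (h : RS P A m Λ γ) (hle : Λ ≤ Λ') (hcomm : ∀ a ∈ Λ', ∀ b ∈ Λ', a * b = b * a)
    (hcent : ∀ w, ∀ a ∈ Λ', a * γ w = γ w * a) : RS P A m Λ' γ where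
  comm := hcomm
  zero := h.zero
  cent := hcent
  rep := by
    obtain ⟨a, v, v', h1, h2, h3, h4⟩ := h.rep
    exact ⟨a, v, v', h1, h2, h3, h4.of_le hle⟩

/-- replace `γ` by `γ₁` if `γ` is in the closure of `Λ[γ₁]` -/
theorem RS.change {A : DA} {m : ℕ} {Λ : Subalgebra A.F A.D} {γ γ₁ : NC (Fin m) A.D}
    (h : RS P A m Λ γ) (h0 : γ₁ [] = 0) (hcent : ∀ w, ∀ a ∈ Λ, a * γ₁ w = γ₁ w * a)
    (hγ : Kcl Λ γ₁ γ) : RS P A m Λ γ₁ where
  comm := h.comm
  zero := h0
  cent := hcent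
  rep := by
    obtain ⟨a, v, v', h1, h2, h3, h4⟩ := h.rep
    exact ⟨a, v, v', h1, h2, h3, h4.trans' hγ⟩

theorem NC.C_comm_iff {σ A : Type} [Ring A] (a : A) (x : NC σ A) :
    (NC.C a * x = x * NC.C a) ↔ ∀ w, a * x w = x w * a := by
  constructor
  · intro h w
    have := congrArg (fun f : NC σ A => f w) h
    simpa using this
  · intro h
    apply NC.ext'; intro w
    rw [NC.C_mul_apply, NC.mul_C_apply, h]

theorem conj_mem_adjoin {F B : Type} [CommRing F] [Ring B] [Algebra F B] {s t : Set B} (v w : B)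
    (h1 : v * w = 1) (h2 : w * v = 1) (hs : ∀ x ∈ s, v * x * w ∈ Algebra.adjoin F t) {g : B}
    (hg : g ∈ Algebra.adjoin F s) : v * g * w ∈ Algebra.adjoin F t := by
  induction hg using Algebra.adjoin_induction with
  | mem x hx => exact hs x hx
  | algebraMap r =>
    rw [← Algebra.commutes, mul_assoc, h1, mul_one]
    exact Subalgebra.algebraMap_mem _ r
  | add x y _ _ hx hy => rw [mul_add, add_mul]; exact Subalgebra.add_mem _ hx hy
  | mul x y _ _ hx hy =>
    have : v * (x * y) * w = (v * x * w) * (v * y * w) := by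
      calc v * (x * y) * w = v * x * 1 * y * w := by simp only [mul_assoc, one_mul]
        _ = (v * x * w) * (v * y * w) := by rw [← h2]; simp only [mul_assoc]
    rw [this]
    exact Subalgebra.mul_mem _ hx hy

theorem RS.conj {A : DA} {m : ℕ} {Λ : Subalgebra A.F A.D} {γ : NC (Fin m) A.D}
    (h : RS P A m Λ γ) (v w : NC (Fin m) A.D) (h1 : v * w = 1) (h2 : w * v = 1)
    (hv : ∀ u, ∀ a ∈ Λ, a * v u = v u * a) : RS P A m Λ (v * γ * w) := by
  have hvC : ∀ a ∈ Λ, NC.C a * v = v * NC.C a := fun a ha =>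
    (NC.C_comm_iff a v).2 fun u => hv u a ha
  have hwC : ∀ a ∈ Λ, NC.C a * w = w * NC.C a := by
    intro a ha
    calc NC.C a * w = w * (v * NC.C a) * w := by rw [← mul_assoc, h2, one_mul]
      _ = w * (NC.C a * v) * w := by rw [hvC a ha]
      _ = w * NC.C a * (v * w) := by simp only [mul_assoc]
      _ = w * NC.C a := by rw [h1, mul_one]
  have hγC : ∀ a ∈ Λ, NC.C a * γ = γ * NC.C a := fun a ha =>
    (NC.C_comm_iff a γ).2 fun u => h.cent u a ha
  refine ⟨h.comm, ?_, ?_, ?_⟩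
  · rw [NC.mul_nil, NC.mul_nil, h.zero, mul_zero, zero_mul]
  · intro u a ha
    refine (NC.C_comm_iff a (v * γ * w)).1 ?_ u
    rw [← mul_assoc, ← mul_assoc, hvC a ha, mul_assoc v, hγC a ha, ← mul_assoc v,
      mul_assoc (v * γ), hwC a ha, ← mul_assoc]
  · obtain ⟨a, s, s', e1, e2, e3, e4⟩ := h.rep
    refine ⟨a, v * s, s' * w, ?_, ?_, e3, ?_⟩
    · rw [mul_assoc, ← mul_assoc s, e1, one_mul, h1]
    · rw [mul_assoc, ← mul_assoc w, h2, one_mul, e2]
    · intro k
      obtain ⟨g, hg, hk⟩ := e4 k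
      refine ⟨v * g * w, ?_, ?_⟩
      · refine conj_mem_adjoin v w h1 h2 ?_ hg
        intro x hx
        rcases hx with ⟨l, hl, rfl⟩ | hx
        · have : v * NC.C l * w = NC.C l := by
            rw [← hvC l hl, mul_assoc, h1, mul_one]
          change v * NC.C l * w ∈ _
          rw [this]
          exact Algebra.subset_adjoin (Or.inl ⟨l, hl, rfl⟩)
        · rw [Set.mem_singleton_iff] at hx
          subst hx
          exact Algebra.subset_adjoin (Or.inr rfl)
      · have e : v * s * a * (s' * w) = v * (s * a * s') * w := by simp only [mul_assoc]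
        rw [e]
        intro u hu
        exact ((NC.Eqk.refl k v).mul (show NC.Eqk k (s * a * s') g from hk)).mul
          (NC.Eqk.refl k w) u hu

end RS

/-! ### closure rules for `Win` -/
section closure
variable {K : Type} [Field K] [CharZero K] {m : ℕ} {Γ : Type} [Ring Γ] [Algebra K Γ]

theorem Win.map {Γ' : Type} [Ring Γ'] [Algebra K Γ'] (g : Γ' →ₐ[K] Γ) (γ' : NC (Fin m) Γ')
    (h : Win K m Γ' γ') : Win K m Γ (NC.map (g : Γ' →+* Γ) γ') := by
  intro P hP D _ _ _ _ _ f Λ hΛ hRS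
  exact h P hP D (f.comp g) Λ (fun a ha x => hΛ a ha (g x)) hRS

theorem Win.conj (v w : NC (Fin m) Γ) (h : v * w = 1) (h' : w * v = 1) (γ : NC (Fin m) Γ)
    (hs : Win K m Γ (v * γ * w)) : Win K m Γ γ := by
  intro P hP D _ _ _ _ _ f Λ hΛ hRS
  refine hs P hP D f Λ hΛ ?_
  rw [map_mul, map_mul]
  refine RS.conj (A := mkDA K D) hRS _ _ ?_ ?_ ?_
  · rw [← map_mul, h, map_one]
  · rw [← map_mul, h', map_one]
  · intro u a ha
    exact hΛ a ha (v u)

/-- enlarging `Λ` by central elements of `Γ` -/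
theorem RS.enlarge {P : (A : DA) → (m : ℕ) → NC (Fin m) A.D → Prop} {D : Type} [Ring D]
    [IsDomain D] [Algebra K D] [FiniteDimensional K D] [Algebra.IsCentral K D] (f : Γ →ₐ[K] D)
    (Λ : Subalgebra K D) (hΛ : ∀ a ∈ Λ, ∀ x : Γ, a * f x = f x * a) (γ : NC (Fin m) Γ)
    (hRS : RS P (mkDA K D) m Λ (NC.map (f : Γ →+* D) γ)) (S : Set Γ)
    (hS : ∀ s ∈ S, ∀ a : Γ, a * s = s * a) :
    ∃ Λ' : Subalgebra K D, (∀ a ∈ Λ', ∀ x : Γ, a * f x = f x * a) ∧ (∀ s ∈ S, f s ∈ Λ') ∧
      RS P (mkDA K D) m Λ' (NC.map (f : Γ →+* D) γ) := by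
  let Λ' : Subalgebra K D := Algebra.adjoin K ((Λ : Set D) ∪ f '' S)
  have hc : ∀ a ∈ Λ', ∀ x : Γ, a * f x = f x * a := by
    intro a ha x
    refine adjoin_comm_elt (y := f x) ?_ ha
    rintro b (hb | ⟨s, hs, rfl⟩)
    · exact hΛ b hb x
    · rw [← map_mul, ← map_mul, hS s hs x]
  refine ⟨Λ', hc, fun s hs => Algebra.subset_adjoin (Or.inr ⟨s, hs, rfl⟩), ?_⟩
  refine RS.mono (A := mkDA K D) hRS (fun x hx => Algebra.subset_adjoin (Or.inl hx)) ?_
    (fun w a ha => hc a ha (γ w))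
  intro a ha b hb
  refine adjoin_comm_of ?_ ha hb
  rintro x (hx | ⟨s, hs, rfl⟩) y (hy | ⟨s', hs', rfl⟩)
  · exact hRS.comm x hx y hy
  · exact hΛ x hx s'
  · exact (hΛ y hy s).symm
  · rw [← map_mul, ← map_mul, hS s' hs' s]

theorem Win.const_mul (c d : Γ) (hc : ∀ a : Γ, a * c = c * a) (hd : d * c = 1)
    (γ : NC (Fin m) Γ) (hs : Win K m Γ (NC.C c * γ)) : Win K m Γ γ := by
  intro P hP D _ _ _ _ _ f Λ hΛ hRS
  have hcd : c * d = 1 := by rw [← hc, hd]
  have hdc : ∀ a : Γ, a * d = d * a := by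
    intro a
    calc a * d = d * c * a * d := by rw [hd, one_mul]
      _ = d * a * (c * d) := by rw [mul_assoc d c a, ← hc a]; simp only [mul_assoc]
      _ = d * a := by rw [hcd, mul_one]
  obtain ⟨Λ', h1, h2, h3⟩ := RS.enlarge f Λ hΛ γ hRS {c, d} (by
    rintro s (rfl | hs)
    · exact hc
    · rw [Set.mem_singleton_iff] at hs; subst hs; exact hdc)
  refine hs P hP D f Λ' h1 ?_
  refine RS.change (A := mkDA K D) h3 ?_ (fun w a ha => h1 a ha ((NC.C c * γ : NC (Fin m) Γ) w)) ?_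
  · have := hRS.zero
    rw [NC.map_apply] at this
    rw [NC.map_apply, NC.C_mul_apply, RingHom.map_mul]
    rw [this]; exact mul_zero _
  · intro k
    refine ⟨NC.C (f d) * NC.map (f : Γ →+* D) (NC.C c * γ), ?_, fun w _ => ?_⟩
    · exact Subalgebra.mul_mem _
        (Algebra.subset_adjoin (Or.inl ⟨f d, h2 d (Or.inr rfl), rfl⟩))
        (Algebra.subset_adjoin (Or.inr rfl))
    · have e : (NC.C (f d) * NC.map (f : Γ →+* D) (NC.C c * γ) : NC (Fin m) D) w =
          f d * f (c * γ w) := by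
        rw [NC.C_mul_apply, NC.map_apply, NC.C_mul_apply]; rfl
      change f (γ w) = _
      rw [e, ← map_mul, ← mul_assoc, hd, one_mul]

theorem NC.map_Hval {σ Γ' : Type} [Ring Γ'] (f : Γ →+* Γ') (H : ℕ → Γ) (γ : NC σ Γ) :
    NC.map f (NC.Hval H γ) = NC.Hval (fun n => f (H n)) (NC.map f γ) := by
  apply NC.ext'; intro w
  change f (∑ n ∈ Finset.range (w.length + 1), H n * (γ ^ n) w) =
    ∑ n ∈ Finset.range (w.length + 1), f (H n) * ((NC.map f γ) ^ n) w
  rw [map_sum]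
  refine Finset.sum_congr rfl fun n _ => ?_
  rw [map_mul, ← map_pow, NC.map_apply]

theorem NC.Hval_eqk {σ A : Type} [Ring A] (H : ℕ → A) (γ : NC σ A) (hγ : γ [] = 0) (k : ℕ) :
    NC.Eqk (k + 1) (NC.Hval H γ) (∑ n ∈ Finset.range (k + 1), NC.C (H n) * γ ^ n) := by
  intro w hw
  change ∑ n ∈ Finset.range (w.length + 1), H n * (γ ^ n) w = _
  rw [NC.sum_apply]
  simp only [NC.C_mul_apply]
  apply Finset.sum_subset
  · intro n hn
    rw [Finset.mem_range] at hn ⊢
    omega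
  · intro n _ hn
    rw [Finset.mem_range] at hn
    rw [NC.pow_apply_eq_zero hγ n w (by omega), mul_zero]

/-- `γ` is in the closure of the algebra generated by the coefficients of `H` and `H(γ)` -/
theorem Kcl.of_Hval {F D : Type} [Field F] [Ring D] [Algebra F D] {m : ℕ} {Λ : Subalgebra F D}
    (H : ℕ → D) (h0 : H 0 = 0) (h1 : H 1 = 1) (hH : ∀ n, H n ∈ Λ) (γ : NC (Fin m) D)
    (hγ : γ [] = 0) : Kcl Λ (NC.Hval H γ) γ := by
  set δ := NC.Hval H γ with hδ
  set S := Algebra.adjoin F ((fun d => (NC.C d : NC (Fin m) D)) '' (Λ : Set D) ∪ {δ}) with hS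
  have hδ0 : δ [] = 0 := by
    change ∑ n ∈ Finset.range (([] : List (Fin m)).length + 1), H n * (γ ^ n) [] = 0
    rw [List.length_nil, zero_add, Finset.sum_range_one, h0, zero_mul]
  have hCmem : ∀ n, NC.C (H n) ∈ S := fun n =>
    Algebra.subset_adjoin (Or.inl ⟨H n, hH n, rfl⟩)
  have hδmem : δ ∈ S := Algebra.subset_adjoin (Or.inr rfl)
  suffices h : ∀ k : ℕ, ∃ g ∈ S, g [] = 0 ∧ NC.Eqk (k + 1) γ g by
    intro k
    obtain ⟨g, hg, _, h'⟩ := h k
    exact ⟨g, hg, h'.mono (by omega)⟩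
  intro k
  induction k with
  | zero =>
    refine ⟨0, Subalgebra.zero_mem _, rfl, fun w hw => ?_⟩
    have : w = [] := List.length_eq_zero_iff.1 (by omega)
    subst this
    rw [hγ]; rfl
  | succ k ih =>
    obtain ⟨g, hg, hg0, hk⟩ := ih
    refine ⟨δ - ∑ n ∈ Finset.Ico 2 (k + 2), NC.C (H n) * g ^ n, ?_, ?_, ?_⟩
    · refine Subalgebra.sub_mem _ hδmem (Subalgebra.sum_mem _ fun n _ => ?_)
      exact Subalgebra.mul_mem _ (hCmem n) (Subalgebra.pow_mem _ hg n)
    · rw [NC.sub_apply, hδ0, NC.sum_apply, Finset.sum_eq_zero, sub_zero]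
      intro n hn
      rw [Finset.mem_Ico] at hn
      rw [NC.C_mul_apply, NC.pow_apply_eq_zero hg0 n [] (by simp; omega), mul_zero]
    · have e1 : NC.Eqk (k + 2) δ (γ + ∑ n ∈ Finset.Ico 2 (k + 2), NC.C (H n) * γ ^ n) := by
        have := NC.Hval_eqk H γ hγ (k + 1)
        refine this.trans ?_
        have e2 : ∑ n ∈ Finset.range (k + 1 + 1), NC.C (H n) * γ ^ n =
            γ + ∑ n ∈ Finset.Ico 2 (k + 2), NC.C (H n) * γ ^ n := by
          rw [Finset.range_eq_Ico, Finset.sum_eq_sum_Ico_succ_bot (by omega),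
            Finset.sum_eq_sum_Ico_succ_bot (by omega), h0, h1]
          simp
        rw [e2]
        exact NC.Eqk.refl _ _
      have e3 : NC.Eqk (k + 2) (∑ n ∈ Finset.Ico 2 (k + 2), NC.C (H n) * γ ^ n)
          (∑ n ∈ Finset.Ico 2 (k + 2), NC.C (H n) * g ^ n) := by
        refine NC.Eqk.sum _ _ _ fun n hn => ?_
        rw [Finset.mem_Ico] at hn
        exact (NC.Eqk.refl _ _).mul (NC.Eqk.pow_succ' hk hγ hg0 n hn.1)
      have e4 := e1.sub e3
      rw [add_sub_assoc] at e4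
      intro w hw
      have h5 := e4 w hw
      have h6 := e3 w hw
      have h7 := e1 w hw
      rw [NC.add_apply] at h7
      rw [NC.sub_apply, h7, ← h6]
      abel

theorem Win.of_Hval (H : ℕ → Γ) (h0 : H 0 = 0) (h1 : H 1 = 1) (hH : ∀ n a, a * H n = H n * a)
    (γ : NC (Fin m) Γ) (hγ : γ [] = 0) (hs : Win K m Γ (NC.Hval H γ)) : Win K m Γ γ := by
  intro P hP D _ _ _ _ _ f Λ hΛ hRS
  obtain ⟨Λ', e1, e2, e3⟩ := RS.enlarge f Λ hΛ γ hRS (Set.range H) (by
    rintro _ ⟨n, rfl⟩ a; exact hH n a)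
  refine hs P hP D f Λ' e1 ?_
  refine RS.change (A := mkDA K D) e3 ?_ (fun w a ha => e1 a ha ((NC.Hval H γ) w)) ?_
  · rw [NC.map_apply]
    have : (NC.Hval H γ) [] = 0 := by
      change ∑ n ∈ Finset.range (([] : List (Fin m)).length + 1), H n * (γ ^ n) [] = 0
      rw [List.length_nil, zero_add, Finset.sum_range_one, h0, zero_mul]
    rw [this]; exact map_zero _
  · rw [NC.map_Hval]
    refine Kcl.of_Hval (fun n => f (H n)) ?_ ?_ (fun n => e2 _ ⟨n, rfl⟩) _ ?_
    · rw [h0, map_zero]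
    · rw [h1, map_one]
    · rw [NC.map_apply, hγ]; exact map_zero _

/-- passing to two letters with the trivial extension -/
theorem RS.zero_two {P : (A : DA) → (m : ℕ) → NC (Fin m) A.D → Prop} (hP : MoveClosed P)
    {A : DA} {m : ℕ} (hm : 2 ≤ m) {Λ : Subalgebra A.F A.D} (h : RS P A m Λ 0) :
    ∃ (A' : DA) (a' : NC (Fin 2) A'.D), P A' 2 a' ∧ IsAlgebraic A'.F a' := by
  obtain ⟨M, hb1, hb2⟩ := exists_trivial A
  let X : Fin m → NC (Fin 2) (PowerSeries M.E) := fun j =>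
    if j.val = 0 then NC.X 0 else if j.val = 1 then NC.X 1 else 0
  have hX0 : ∀ j, X j [] = 0 := by
    intro j
    simp only [X]
    split_ifs
    · exact NC.X_nil _
    · exact NC.X_nil _
    · rfl
  have hX : Good' M X := by
    refine ⟨fun j => by rw [hX0, map_zero], ?_, ?_⟩
    · rw [eq_top_iff]
      intro x _
      have hx : ∀ n, ∃ c : M.F1, algebraMap M.F1 M.E c = x.co n := fun n => hb2.2 (x.co n)
      choose c hc using hx
      have hc0 : ∀ n, x.co n = 0 → c n = 0 := by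
        intro n hn
        apply hb2.1
        rw [hc, hn, map_zero]
      let y : LF M.F1 := show HahnSeries ℤ M.F1 from
        ⟨c, (HahnSeries.isPWO_support (x : HahnSeries ℤ M.E)).mono (by
          intro n hn hx
          exact hn (hc0 n hx))⟩
      have : x = algebraMap (LF M.F1) (LD M.E) y := by
        apply LD.ext; intro n
        exact (hc n).symm
      rw [this]
      exact Subalgebra.algebraMap_mem _ _
    · intro l g hl
      have hpt : ∀ j, M.pt X j = 0 := by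
        intro j
        change LD.ofPS (X j []) = 0
        rw [hX0, map_zero]
      simp only [hpt, mul_zero, zero_mul, sub_zero] at hl
      have h0 := hl ⟨0, by omega⟩
      have h1 := hl ⟨1, by omega⟩
      have d00 : M.dir X 0 (⟨0, by omega⟩ : Fin m) = 1 := by
        change LD.ofPS ((X ⟨0, by omega⟩) [(0 : Fin 2)]) = 1
        simp [X]
      have d10 : M.dir X 1 (⟨0, by omega⟩ : Fin m) = 0 := by
        change LD.ofPS ((X ⟨0, by omega⟩) [(1 : Fin 2)]) = 0
        simp [X]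
      have d01 : M.dir X 0 (⟨1, by omega⟩ : Fin m) = 0 := by
        change LD.ofPS ((X ⟨1, by omega⟩) [(0 : Fin 2)]) = 0
        simp [X]
      have d11 : M.dir X 1 (⟨1, by omega⟩ : Fin m) = 1 := by
        change LD.ofPS ((X ⟨1, by omega⟩) [(1 : Fin 2)]) = 1
        simp [X]
      rw [Fin.sum_univ_two, d00, d10, smul_zero, add_zero] at h0
      rw [Fin.sum_univ_two, d01, d11, smul_zero, zero_add] at h1
      have key : ∀ a : LF M.F1, a • (1 : LD M.E) = 0 → a = 0 := by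
        intro a ha
        rw [← Algebra.algebraMap_eq_smul_one] at ha
        exact (map_eq_zero_iff _ (algebraMap (LF M.F1) (LD M.E)).injective).1 ha
      funext i
      fin_cases i
      · exact key _ h0
      · exact key _ h1
  have hmv := RS.move hP h M X hX 1 1 0 (one_mul 1) (one_mul 1)
    (fun v a _ => by
      have : ∀ v : List (Fin 2), (1 : NC (Fin 2) (A.mv M).D) v = if v = [] then 1 else 0 := by
        intro v
        cases v with
        | nil => simp
        | cons s v => simp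
      rw [this]
      split_ifs
      · rw [mul_one, one_mul]
      · rw [mul_zero, zero_mul]) 0
    (by rw [map_zero, mul_zero, zero_mul, map_zero, add_zero]) rfl
    (fun v a _ => by
      change M.inc a * 0 = 0 * M.inc a
      rw [mul_zero, zero_mul])
    (fun v => by
      rw [zero_mul]; exact (mul_zero _).symm)
    (fun a _ => by rw [mul_zero, zero_mul])
  obtain ⟨a', h1, h2⟩ := RS.final hmv
  exact ⟨_, a', h1, h2⟩

theorem Win.zero (hm : 2 ≤ m) : Win K m Γ 0 := by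
  intro P hP D _ _ _ _ _ f Λ hΛ hRS
  rw [map_zero] at hRS
  exact RS.zero_two hP hm hRS

end closure

end Crest.Agent.R180
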