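import Crest.Agent.R180.Win
import Crest.Agent.R180.PRS

set_option autoImplicit false

/-!
# Row 180: Theorem S for `Win`
-/

noncomputable section
namespace Crest.Agent.R180

open TensorProduct

/-- homomorphisms from finite-dimensional domains are injective -/
theorem algHom_injective_of_domain {K Γ D : Type} [Field K] [Ring Γ] [IsDomain Γ] [Algebra K Γ]
    [FiniteDimensional K Γ] [Ring D] [Nontrivial D] [Algebra K D] (f : Γ →ₐ[K] D) :
    Function.Injective f := by
  rw [injective_iff_map_eq_zero]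
  intro x hx
  by_contra hne
  obtain ⟨y, hy⟩ := FiniteDimensional.exists_mul_eq_one K hne
  have h1 : f x * f y = 1 := by rw [← map_mul, hy, map_one]
  rw [hx, zero_mul] at h1
  exact zero_ne_one h1

/-- the statement of Theorem S (`SMain.lean`) -/
def TheoremS : Prop :=
  ∀ {P : (A : DA) → (m : ℕ) → NC (Fin m) A.D → Prop}, MoveClosed P → ∀ {A : DA} {m : ℕ}
    {κ : Type} [Fintype κ] {Θ : κ → NC (Fin m) A.F}, PRS P A m Θ → Fintype.card κ + 2 ≤ m →
    (∀ h : κ → A.F, h ≠ 0 → (∀ i, ∑ c, h c * Θ c [i] = 0) →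
      4 * Fintype.card κ + 4 ≤ (Matrix.of fun i j : Fin m => ∑ c, h c * Θ c [i, j]).rank) →
    ∃ (A' : DA) (a' : NC (Fin 2) A'.D), P A' 2 a' ∧ IsAlgebraic A'.F a'

/-- Theorem S for `Win` -/
theorem Win.of_TheoremS (theoremS : TheoremS) {K : Type} [Field K] [CharZero K] {m : ℕ} {Γ : Type} [Ring Γ] [Algebra K Γ]
    [IsDomain Γ] [FiniteDimensional K Γ] (γ : NC (Fin m) Γ)
    (hdim : Module.finrank K Γ + 2 ≤ m)
    (hrank : ∀ h : Γ →ₗ[K] K, h ≠ 0 → (∀ i, h (γ [i]) = 0) →
      4 * Module.finrank K Γ + 4 ≤ (Matrix.of fun i j => h (γ [i, j])).rank) :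
    Win K m Γ γ := by
  intro P hP D _ _ _ _ _ f Λ hΛ hRS
  have hf : Function.Injective f := algHom_injective_of_domain f
  let b := Module.finBasis K Γ
  let Θ : Fin (Module.finrank K Γ) → NC (Fin m) (mkDA K D).F := fun c =>
    ⟨fun w => b.repr (γ w) c⟩
  have hΘ : ∀ c w, Θ c w = b.repr (γ w) c := fun _ _ => rfl
  have h0 : γ [] = 0 := hf (by rw [map_zero]; exact hRS.zero)
  have hP' : PRS P (mkDA K D) m Θ := by
    refine hRS.toPRS (fun c => f (b c)) Θ (fun c => ?_) (fun w => ?_)
    · rw [hΘ, h0, map_zero]; rfl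
    · change f (γ w) = ∑ c, (b.repr (γ w) c) • f (b c)
      conv_lhs => rw [← b.sum_repr (γ w)]
      rw [map_sum]
      exact Finset.sum_congr rfl fun c _ => map_smul f _ _
  refine theoremS hP hP' (by rw [Fintype.card_fin]; exact hdim) ?_
  intro h hh hi
  let h' : Γ →ₗ[K] K := ∑ c, h c • b.coord c
  have hh' : ∀ x : Γ, h' x = ∑ c, h c * b.repr x c := by
    intro x
    simp only [h', LinearMap.sum_apply, LinearMap.smul_apply, Module.Basis.coord_apply,
      smul_eq_mul]
  have hne : h' ≠ 0 := by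
    intro h0
    apply hh
    funext c
    have h1 := hh' (b c)
    rw [h0, LinearMap.zero_apply, Finset.sum_eq_single c] at h1
    · rw [Module.Basis.repr_self, Finsupp.single_eq_same] at h1
      have h2 : h c * (1 : K) = 0 := h1.symm
      exact (mul_one (h c)).symm.trans h2
    · intro c' _ hc'
      rw [Module.Basis.repr_self, Finsupp.single_eq_of_ne hc', mul_zero]
    · intro hc; exact absurd (Finset.mem_univ c) hc
  have h3 := hrank h' hne (fun i => (hh' (γ [i])).trans (hi i))
  rw [Fintype.card_fin]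
  refine h3.trans (le_of_eq ?_)
  congr 1
  ext i j
  exact hh' (γ [i, j])

end Crest.Agent.R180
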